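import Crest.Agent.N49.Sw.Defs
import Crest.Agent.N49.Rf.Ext2

/-!
# Row 49 (helper63): tails of the twisted laws (`TAIL`), by widening the covariance
-/

set_option autoImplicit false

open Matrix MvPolynomial Finset

noncomputable section

namespace Crest.Agent.N49.Sw

open Po Tw Sd

/-- a coordinate is bounded by the dual norm -/
theorem Ta.coord_sq {d : Type} [Fintype d] [DecidableEq d] {K : Matrix d d ℝ} (h : K.PosDef)
    (u : d → ℝ) (p : d) : u p ^ 2 ≤ K p p * qf K⁻¹ u := by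
  have e : K *ᵥ (K⁻¹ *ᵥ u) = u := by
    rw [mulVec_mulVec, mul_nonsing_inv _ h.det_pos.ne'.isUnit, one_mulVec]
  have := dot_sq_le h (Pi.single p 1) (K⁻¹ *ᵥ u)
  rw [e, single_dotProduct, one_mul, qf, qf, e, dotProduct_comm _ u, single_dotProduct,
    one_mul, mulVec_single_one] at this
  exact this

theorem Ta.sqrt_pow (N : ℕ) (hN : 0 < N) : (√(1 + 1 / (N : ℝ))) ^ N ≤ 2 := by
  have hp : (0 : ℝ) < N := Nat.cast_pos.2 hN
  have h1 : (1 + 1 / (N : ℝ)) ^ N ≤ Real.exp 1 := by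
    calc (1 + 1 / (N : ℝ)) ^ N ≤ Real.exp (1 / N) ^ N :=
          pow_le_pow_left₀ (by positivity) (by linarith [Real.add_one_le_exp (1 / (N : ℝ))]) _
      _ = Real.exp 1 := by rw [← Real.exp_nat_mul, mul_one_div_cancel hp.ne']
  have h2 : ((√(1 + 1 / (N : ℝ))) ^ N) ^ 2 = (1 + 1 / (N : ℝ)) ^ N := by
    rw [← pow_mul, mul_comm, pow_mul, Real.sq_sqrt (by positivity)]
  have h3 := Real.exp_one_lt_three
  nlinarith

theorem Ta.exp_le (m : ℕ) : Real.exp (-(Real.pi * (m + 1))) ≤ 1 / 4 * (1 / 2 ^ m) := by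
  have h4 : (4 : ℝ) ≤ Real.exp Real.pi := by
    linarith [Real.add_one_le_exp Real.pi, Real.pi_gt_three]
  have e : Real.exp (Real.pi * (m + 1)) = Real.exp Real.pi ^ (m + 1) := by
    rw [← Real.exp_nat_mul, mul_comm]; push_cast; rfl
  have h5 : (4 : ℝ) * 2 ^ m ≤ Real.exp Real.pi ^ (m + 1) := by
    rw [pow_succ']
    exact mul_le_mul h4 (pow_le_pow_left₀ zero_le_two (by linarith) m) (by positivity)
      (by linarith)
  rw [Real.exp_neg, e, one_div_mul_one_div, one_div]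
  exact inv_anti₀ (by positivity) h5

/-- tails from the Master estimates of a law and of a wider one -/
theorem Ta.tail0 {τ : Type} (V : TS τ) (h : V.Tri) {η : ℝ} (hη : η ≤ 1 / 8) (m : ℕ) {N : ℕ}
    (eN : Fintype.card V.C = N) {c : ℝ} (ec : c = 1 + 1 / (N : ℝ))
    (h' : (V.setK (c • V.K)).Tri) (m1 : V.Mas η) (m2 : (V.setK (c • V.K)).Mas η) :
    V.P {y | ∃ p, (N + 1) * (m + 1) * V.K p p < V.u (zc y) p ^ 2} ≤ 1 / 2 ^ m := by
  rcases isEmpty_or_nonempty V.C with hC | hC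
  · rw [Set.eq_empty_of_forall_notMem (s := {y | ∃ p, _}) fun y ⟨p, _⟩ => hC.elim p, TS.P_empty]
    positivity
  have hN : 0 < N := eN ▸ Fintype.card_pos
  have hp : (0 : ℝ) < N := Nat.cast_pos.2 hN
  have hc : 0 < c := by rw [ec]; positivity
  set V' := V.setK (c • V.K) with eV
  set s : Set (V.C → ℤ) := {y | ∃ p, (N + 1) * (m + 1) * V.K p p < V.u (zc y) p ^ 2}
  set E := Real.exp (-(Real.pi * (m + 1)))
  have w : ∀ y, V.wt y * s.indicator 1 y ≤ E * V'.wt y := fun y => by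
    by_cases hy : y ∈ s
    · obtain ⟨p, hp'⟩ := id hy
      have k := Ta.coord_sq h.pd (V.u (zc y)) p
      have kp : 0 < V.K p p := h.pd.diag_pos
      have q : ((N : ℝ) + 1) * (m + 1) < qf V.K⁻¹ (V.u (zc y)) := by
        by_contra z
        nlinarith [mul_le_mul_of_nonneg_left (not_lt.1 z) kp.le]
      rw [Set.indicator_of_mem hy, Pi.one_apply, mul_one]
      change gs V.K⁻¹ (V.u (zc y)) ≤ E * gs (c • V.K)⁻¹ (V.u (zc y))
      rw [inv_smul' h.pd hc.ne', gs, gs, qf_smul, ← Real.exp_add]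
      refine Real.exp_le_exp.2 ?_
      have e : c⁻¹ = 1 - 1 / ((N : ℝ) + 1) := by rw [ec]; field_simp; ring
      have q' : (m : ℝ) + 1 ≤ 1 / ((N : ℝ) + 1) * qf V.K⁻¹ (V.u (zc y)) := by
        rw [one_div_mul_eq_div, le_div_iff₀ (by positivity)]; linarith
      rw [e]
      nlinarith [mul_le_mul_of_nonneg_left q' Real.pi_pos.le]
    · rw [Set.indicator_of_notMem hy, mul_zero]
      exact mul_nonneg (Real.exp_pos _).le (V'.wt_pos y).le
  have s1 : V.S (s.indicator 1) ≤ E * V'.Z := by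
    rw [TS.Z, ← tsum_mul_left]
    exact (h.sm (.ind s)).tsum_le_tsum w (h'.summable.mul_left E)
  have z1 : V'.Zc = (√c) ^ N * V.Zc := by
    rw [TS.Zc_eq, TS.Zc_eq]
    change dt (c • V.K)⁻¹ / |V.A.det| = _
    rw [inv_smul' h.pd hc.ne', dt_smul (inv_pos.2 hc).le, Real.sqrt_inv, inv_inv, mul_div_assoc,
      eN]
  have z0 := h.Zc_pos
  have z2 : V'.Zc ≤ 2 * V.Zc := z1 ▸ mul_le_mul_of_nonneg_right (ec ▸ Ta.sqrt_pow N hN) z0.le
  have z3 := (abs_le.1 m1).1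
  have z4 := (abs_le.1 m2).2
  have z5 : V'.Z ≤ 9 / 4 * V.Zc := by nlinarith [h'.Zc_pos]
  have z6 : 7 / 8 * V.Zc ≤ V.Z := by nlinarith
  have e1 : E ≤ 1 / 4 * (1 / 2 ^ m) := Ta.exp_le m
  have e0 : (0 : ℝ) < 1 / 2 ^ m := by positivity
  rw [TS.P, TS.E, div_le_iff₀ h.Z_pos]
  calc V.S (s.indicator 1) ≤ 1 / 4 * (1 / 2 ^ m) * (9 / 4 * V.Zc) :=
        s1.trans (mul_le_mul e1 z5 h'.Z_pos.le (by positivity))
    _ ≤ _ := by nlinarith [mul_le_mul_of_nonneg_left z6 e0.le, mul_pos e0 z0]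

/-- widening the covariance of a shape -/
theorem Ta.wide {σ τ : Type} [DecidableEq σ] (U : TS σ) (S : Sh σ τ) (Ψ : U.Twd S) (c : ℝ) :
    U.tw (S.setK (c • S.K)) Ψ = (U.tw S Ψ).setK (c • (U.tw S Ψ).K) := by
  have eK : (U.tw (S.setK (c • S.K)) Ψ).K = c • (U.tw S Ψ).K := by
    ext p p'
    change U.K _ _ * (c * S.K _ _) = c * (U.K _ _ * S.K _ _)
    exact mul_left_comm _ _ _
  rw [← eK]; rfl

theorem Ta.wide_sz {σ τ : Type} {S : Sh σ τ} {n : ℕ} {a c : ℝ} (hz : S.Sz n a) (h1 : 1 ≤ c) :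
    (S.setK (c • S.K)).Sz n a :=
  ⟨⟨hz.ne, hz.one, hz.gr, hz.mul, hz.eps, hz.pd.smul (one_pos.trans_le h1), fun w w' k =>
    hz.blk w w' (right_ne_zero_of_mul k)⟩, hz.card, hz.ht, fun x : S.W → ℝ =>
      ((hz.lo x).trans (le_mul_of_one_le_left (qf_nonneg hz.pd x) h1)).trans_eq
        (qf_smul c S.K x).symm, hz.gen⟩

theorem Ta.wide_adm {σ τ : Type} [DecidableEq σ] {U : TS σ} {S : Sh σ τ} {st : U.C → ℕ}
    {Ψ : U.Twd S} (h : U.Adm S st Ψ) (K : Matrix S.W S.W ℝ) : U.Adm (S.setK K) st Ψ :=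
  ⟨h.gr, h.le, h.top⟩

theorem Ta.wide_mas {σ τ : Type} [DecidableEq σ] {U : TS σ} {S : Sh σ τ} {st : U.C → ℕ}
    {Ψ : U.Twd S} {M n : ℕ} {a η c : ℝ} (hs : U.Stg st M) (h : U.Adm S st Ψ) (hz : S.Sz n a)
    (h1 : 1 ≤ c) (hm : U.HM st n a η) : ((U.tw S Ψ).setK (c • (U.tw S Ψ).K)).Tri ∧
      ((U.tw S Ψ).setK (c • (U.tw S Ψ).K)).Mas η := by
  have z' := Ta.wide_sz hz h1
  have a' := Ta.wide_adm h (c • S.K)
  rw [← Ta.wide]
  exact ⟨TS.tw_tri hs.cl a' z'.toOk, (TS.lw_mas hs a' z'.toOk).1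
    (hm τ (S.setK (c • S.K)) Ψ a' z')⟩

/-- **tails** -/
theorem tail : TAIL := by
  intro σ τ _ U S st M n m a η Ψ hs hΨ hz _ _ hη hm
  have w := Ta.wide_mas (c := 1 + 1 / (Fintype.card (U.Cw S) : ℝ)) hs hΨ hz
    (le_add_of_nonneg_right (by positivity)) hm
  have k := Ta.tail0 (U.tw S Ψ) (TS.tw_tri hs.cl hΨ hz.toOk) hη m (N := Fintype.card (U.Cw S))
    rfl rfl w.1 ((TS.lw_mas hs hΨ hz.toOk).1 (hm _ S Ψ hΨ hz)) w.2
  exact k

end Crest.Agent.N49.Sw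

end
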