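import Crest.Agent.N49.Sw.Df2

/-!
# Row 49 (helper55): symmetrisation, wide pending families and transfers (FROZEN)
-/

set_option autoImplicit false

open Matrix MvPolynomial Finset

noncomputable section

namespace Crest.Agent.N49.Sw

open Po Tw Sd

section xw
variable (T : TS Unit) (P : Bk T.C Unit) (w : ℝ)

/-- **the tower with wide pending families** -/
def xw : TS Unit where
  C := T.C ⊕ P.N
  deg := P.wg T.deg
  Φ := Sum.elim (fun c => rename .inl (T.Φ c)) fun a => X (.inr a) - P.Θ a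
  K := fromBlocks T.K 0 0 (w • 1)

/-- its stages -/
def xst (s : ℕ) (st : T.C → ℕ) (M : ℕ) : (xw T P w).C → ℕ :=
  Sum.elim st fun a => M * (s + 1) ^ (P.wd a).degree

variable {τ : Type} [DecidableEq τ] (W : Finset (τ →₀ ℕ)) (K : Kn τ)

/-- the twist acts on the old families -/
def xT (Ψ : T.Twd (MR (fun _ => ()) W K)) : (xw T P w).Twd (MR (fun _ => ()) W K) :=
  Sum.elim (fun c => rename (Sum.inl : T.C → (xw T P w).C) (Ψ c)) fun a =>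
    map MvPolynomial.C ((xw T P w).Φ (.inr a))

/-- the old part of a configuration -/
def pj {R : Type} (y : (xw T P w).Cw (MR (fun _ => ()) W K) → R) :
    T.Cw (MR (fun _ => ()) W K) → R := fun p => y ⟨(.inl p.1.1, p.1.2), p.2⟩

omit [DecidableEq τ] in
/-- old words `z` and pending words `Y` -/
def zP (z : VV T.C τ → ℝ) (Y : P.N → (τ →₀ ℕ) → ℤ) : VV (T.C ⊕ P.N) τ → ℝ := fun v =>
  v.1.elim (fun F => z (F, v.2)) fun a => if v.2.degree = (P.wd a).degree then Y a v.2 else 0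

end xw

/-- rename the families in a bracket system -/
def rnB {C C' σ : Type} (f : C → C') (B : Bk (VV C σ) σ) : Bk (VV C' σ) σ where
  N := B.N
  wd := B.wd
  rk := B.rk
  Θ a := rename (Sum.map (Prod.map f id) id) (B.Θ a)

/-- a permutation of `E` -/
def gi {σ : Type} [Fintype σ] [DecidableEq σ] (E : Finset σ) (π : GE E) :
    GE (univ : Finset σ) := ⟨π.1, by simp [GE]⟩

/-- pending families of level at most `s` -/
structure Pb (T : TS Unit) (P : Bk T.C Unit) (s : ℕ) : Prop where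
  ok : P.Ok T.deg
  lv : ∀ a, (P.wd a).degree ≤ s

/-- leaf: the wide tower is staged -/
def XWA : Prop := ∀ (s M : ℕ) (T : TS Unit) (st : T.C → ℕ) (P : Bk T.C Unit) (w : ℝ),
  Tb T st M s → Pb T P s → 0 < w → Tb (xw T P w) (xst T P w s st M) (M * (s + 1) ^ s) s ∧
  ∀ (τ : Type) [DecidableEq τ] (W : Finset (τ →₀ ℕ)) (K : Kn τ),
    (∀ Ψ, T.Adm _ st Ψ → (xw T P w).Adm _ (xst T P w s st M) (xT T P w W K Ψ)) ∧
    xT T P w W K (T.tw0 _) = (xw T P w).tw0 _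

/-- leaf: wide brackets keep the regularity (many colours) -/
def COLN : Prop := ∀ s M C' : ℕ, ∃ C c : ℕ, ∀ (σ : Type) [Fintype σ] [DecidableEq σ]
  (T : TS Unit) (st : T.C → ℕ) (B : Bk (VV T.C σ) σ) (w a η : ℝ) (n : ℕ), Tb T st M s → Bo B →
  (∀ a, (B.wd a).degree ≤ s) → Fintype.card σ ≤ n → Fintype.card B.N ≤ n → 1 ≤ n →
  0 < a → a ≤ 1 → 0 < η → η ≤ 1 →
  T.RgS st M C n (a / (n + 2) ^ c) ((η * a / (n + 2) ^ c) ^ (n + 2) ^ c) →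
  (n + 2) ^ c * (1 + Real.log η⁻¹ + Real.log a⁻¹) ≤ w * a →
  (cE s T B w).RgS (cst s T B w st M) (M * (s + 1) ^ s) C' n a η

/-- leaf: wide pending families keep the regularity -/
def XWS : Prop := ∀ s M C' : ℕ, ∃ C c : ℕ, ∀ (T : TS Unit) (st : T.C → ℕ) (P : Bk T.C Unit)
  (w a η : ℝ) (n : ℕ), Tb T st M s → Pb T P s → Fintype.card P.N ≤ n → 1 ≤ n →
  0 < a → a ≤ 1 → 0 < η → η ≤ 1 →
  T.RgS st M C n (a / (n + 2) ^ c) ((η * a / (n + 2) ^ c) ^ (n + 2) ^ c) →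
  (n + 2) ^ c * (1 + Real.log η⁻¹ + Real.log a⁻¹) ≤ w * a →
  (xw T P w).RgS (xst T P w s st M) (M * (s + 1) ^ s) C' n a η

/-- leaf: the marginal of the wide tower on the old families -/
def MP : Prop := ∀ (τ : Type) [DecidableEq τ] (s M m : ℕ) (T : TS Unit) (st : T.C → ℕ)
  (P : Bk T.C Unit) (w : ℝ) (W : Finset (τ →₀ ℕ)) (κ : (τ →₀ ℕ) → ℝ)
  (Ψ : T.Twd (MR (fun _ => ()) W (dk κ))) (f : (T.Cw (MR (fun _ => ()) W (dk κ)) → ℤ) → ℂ),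
  Tb T st M s → Pb T P s → 0 < w → Dn W → T.Adm _ st Ψ →
  (∀ μ ∈ W, (Fintype.card P.N * #W + m + 1 : ℝ) ≤ w * κ μ) → (∀ y, ‖f y‖ ≤ 1) →
  ‖((xw T P w).tw _ (xT T P w W (dk κ) Ψ)).Ec (fun y => f (pj T P w W _ y)) -
    (T.tw _ Ψ).Ec f‖ ≤ 4 / 2 ^ m

open Classical in
/-- leaf: the pending words `Y y` on the words `Wz` become coordinates -/
def INP : Prop := ∀ (τ : Type) [DecidableEq τ] (s M m g r : ℕ) (T : TS Unit) (st : T.C → ℕ)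
  (P : Bk T.C Unit) (w : ℝ) (W Wz : Finset (τ →₀ ℕ)) (κ : (τ →₀ ℕ) → ℝ)
  (Ψ : T.Twd (MR (fun _ => ()) W (dk κ))) (G : (T.Cw (MR (fun _ => ()) W (dk κ)) → ℤ) → ℂ)
  (Y : (T.Cw (MR (fun _ => ()) W (dk κ)) → ℤ) → P.N → (τ →₀ ℕ) → ℤ),
  Tb T st M s → Pb T P s → 0 < w → Dn W → Dn Wz → Wz ⊆ W → T.Adm _ st Ψ →
  (∀ μ ∈ W, (Fintype.card P.N * #W + m + 1 : ℝ) ≤ w * κ μ ∧
    (5 * Fintype.card P.N * #W * 4 ^ r : ℝ) ≤ w * κ μ ∧ w * κ μ ≤ 4 ^ g) → (∀ y, ‖G y‖ ≤ 1) →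
  (∀ y, G y ≠ 0 → ∀ a, ∀ μ ∈ Wz, μ.degree = (P.wd a).degree →
    |Y y a μ - sv (P.Θ a) μ (zP T P (ex T _ id (zc y)) (Y y))| ≤ 2 ^ r) →
  ∃ c : (T.Cw (MR (fun _ => ()) W (dk κ)) → ℤ) → ℝ, (∀ y, 0 ≤ c y ∧ c y ≤ 1) ∧
    (∀ y y', (∀ p, p.1.2.1 ∈ Wz → y p = y' p) → Y y = Y y' → c y = c y') ∧
    ‖(T.tw _ Ψ).Ec G‖ / (2 * (2 ^ g) ^ (Fintype.card P.N * #Wz)) - 4 / 2 ^ m ≤
      ‖((xw T P w).tw _ (xT T P w W (dk κ) Ψ)).Ec fun y =>
        G (pj T P w W _ y) * c (pj T P w W _ y) *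
        if ∀ a, ∀ μ ∈ Wz, μ.degree = (P.wd a).degree →
          ex (xw T P w) _ id y (.inr a, μ) = Y (pj T P w W _ y) a μ then 1 else 0‖

/-- leaf: a form in the old families and the brackets does not see the wide pending families -/
def PMB : Prop := ∀ (σ τ : Type) [Fintype σ] [DecidableEq σ] [DecidableEq τ] (s M m : ℕ)
  (T : TS Unit) (st : T.C → ℕ) (P : Bk T.C Unit) (B : Bk (VV T.C σ) σ) (w w' : ℝ) (col : τ → σ)
  (W : Finset (τ →₀ ℕ)) (κ : (τ →₀ ℕ) → ℝ) (Q : MvPolynomial (VV (T.C ⊕ B.N) τ) ℝ),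
  Tb T st M s → Pb T P s → Bo B → (∀ a, (B.wd a).degree ≤ s) → 0 < w → 0 < w' → Dn W →
  (∀ μ ∈ W, (Fintype.card B.N * #W + m + 1 : ℝ) ≤ w * κ μ ∧
    (Fintype.card P.N * #W + m + 1 : ℝ) ≤ w' * κ μ) →
  bi (cE s (xw T P w') (rnB Sum.inl B) w) (MR col W (dk κ)) (fm s _ _ w)
      (rename (Prod.map (Sum.map Sum.inl id) id) Q) ≤
    bi (cE s T B w) (MR col W (dk κ)) (fm s T B w) Q + 16 / 2 ^ m

/-- leaf: all the relabellings, all the squarefree words -/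
def ENL : Prop := ∀ (σ : Type) [Fintype σ] [DecidableEq σ] (s M m n : ℕ) (T : TS Unit)
  (st : T.C → ℕ) (B : Bk (VV T.C σ) σ) (w κ a η : ℝ) (E : Finset σ) (π1 π2 : GE E)
  (P : MvPolynomial (VV T.C σ ⊕ B.N) ℝ), Tb T st M s → Bo B → (∀ a, (B.wd a).degree ≤ s) →
  0 < κ → 1 ≤ s → (Fintype.card σ + 1) ^ s ≤ n → (MR id (sqf σ s) (dk fun _ => κ)).Sz n a →
  (cE s T (sy B univ) w).HP (cst s T _ w st M) n a η →
  (Fintype.card (sy B univ).N * #(sqf σ s) + m + 1 : ℝ) ≤ w * κ →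
  P.IsWeightedHomogeneous (B.wg Prod.snd) (wE E) →
  bi (cE s T (sy B E) w) (MR id (W0 s E) (dk fun _ => κ)) (fm s T _ w)
      (ug B E π1 P - ug B E π2 P) ≤
    bi (cE s T (sy B univ) w) (MR id (sqf σ s) (dk fun _ => κ)) (fm s T _ w)
      (ug B univ (gi E π1) P - ug B univ (gi E π2) P) + 16 / 2 ^ m + 2 * η

/-- leaf: the number of relabellings; the diagonal identity inside the full system -/
def DGU : Prop :=
  (∀ (C σ : Type) [Fintype σ] [DecidableEq σ] (B : Bk (VV C σ) σ) (s : ℕ),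
    (∀ a, (B.wd a).degree ≤ s) →
    Fintype.card (sy B univ).N ≤ Fintype.card B.N * (Fintype.card σ + 1) ^ s) ∧
  ∀ (σ : Type) [Fintype σ] [DecidableEq σ] (T : TS Unit) (B : Bk (VV T.C σ) σ) (E : Finset σ)
    (z : VV (T.C ⊕ (sy B univ).N) σ → ℝ) (P : MvPolynomial (VV T.C σ ⊕ B.N) ℝ), Bo B →
    (∀ F, T.lev F ≠ 0) → (∀ F μ, z (.inl F, μ) ≠ 0 → μ.degree = T.lev F) →
    (∀ x μ, z (.inr x, μ) ≠ 0 → μ = (sy B univ).wd x) →
    P.IsWeightedHomogeneous (B.wg Prod.snd) (wE E) → (∀ v, Sum.inl v ∈ P.vars → v.2 ≠ 0) →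
    ∑ π : GE E, eval z (ug B univ (gi E π) P) = sv (dgl T B P) (wE E) (br B univ z)

/-- leaf: a relation is transported along a renaming of the letters that is onto the fibre -/
def RTR : Prop := ∀ (σ τ τ' : Type) [DecidableEq σ] [DecidableEq τ] [DecidableEq τ'] (U : TS σ)
  (col : τ → σ) (W : Finset (τ →₀ ℕ)) (κ : (τ →₀ ℕ) → ℝ) (col' : τ' → σ)
  (W' : Finset (τ' →₀ ℕ)) (κ' : (τ' →₀ ℕ) → ℝ) (g : τ' → τ) (x : τ') (b : ℝ)
  (y : U.Cw (MR col W (dk κ)) → ℝ) (y' : U.Cw (MR col' W' (dk κ')) → ℝ)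
  (G : (U.Cw (MR col W (dk κ)) → ℝ) → ℝ) (G' : (U.Cw (MR col' W' (dk κ')) → ℝ) → ℝ), U.Ok →
  Function.Injective g → (∀ t, col (g t) = col' t) → Dn W → Dn W' →
  (∀ μ ∈ W', μ.mapDomain g ∈ W ∧ (μ x ≠ 0 → κ (μ.mapDomain g) = κ' μ)) →
  (∀ μ ∈ W, μ (g x) ≠ 0 → ∃ μ' ∈ W', μ'.mapDomain g = μ) →
  (∀ F, ∀ μ ∈ W', μ x = 0 → ex U _ id y' (F, μ) = ex U _ id y (F, μ.mapDomain g)) →
  (∀ ξ ξ', (∀ F, ∀ μ ∈ W', ex U _ id ξ' (F, μ) = ex U _ id ξ (F, μ.mapDomain g)) → G ξ = G' ξ') →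
  Rx (U.sh (MR col W (dk κ))) (fun p => p.1.2.1 (g x) ≠ 0) y b G →
  Rx (U.sh (MR col' W' (dk κ'))) (fun p => p.1.2.1 x ≠ 0) y' b G'

end Crest.Agent.N49.Sw

end
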