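import Crest.Agent.N49.Sw.Frz

/-!
# Row 49 (helper35): the frozen frame on the big alphabet, zero extension
-/

set_option autoImplicit false
set_option linter.unusedSectionVars false

open Matrix MvPolynomial Finset

noncomputable section

namespace Crest.Agent.N49.Fz

open Po Tw Sy Md Rm

variable {τ τ' L : Type} [Fintype τ] [DecidableEq τ] [Fintype τ'] [DecidableEq τ'] [Fintype L]
  [DecidableEq L]

/-- zero extension along `i` -/
def zx (B : Bs L) (W : Finset (Finset τ)) (W' : Finset (Finset τ')) (i : τ → τ')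
    (p : B.SC W ⊕ L → ℝ) : B.SC W' ⊕ L → ℝ :=
  Sum.elim (fun w => ∑ w0 : B.SC W with w0.1.1 = w.1.1 ∧ w0.1.2.image i = w.1.2, p (.inl w0))
    fun l => p (.inr l)

/-- new multipliers -/
def sm {T : TS Unit} (f : Fr T τ' L) (m : L → ℕ) : Fr T τ' L := { f with m := m }

theorem ind_map {i : τ → τ'} (hi : Function.Injective i) (A : Finset τ) :
    (ind A).mapDomain i = ind (A.image i) := by
  ext t
  by_cases h : t ∈ Set.range i
  · obtain ⟨a, rfl⟩ := h
    rw [Finsupp.mapDomain_apply hi, ind_apply, ind_apply]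
    simp [hi.eq_iff]
  · rw [Finsupp.mapDomain_of_notMem_range _ _ h, ind_apply, if_neg]
    exact fun k => h (by simpa using (mem_image.1 k).imp fun _ a => a.2)

theorem Yp_sx (T : TS Unit) (p : T.C → Prop) [DecidablePred p] (W : Finset (Finset τ))
    (y : SC T p W → ℝ) (c : T.C) : Yp T.lev (sx T p W y) c =
      ∑ w : SC T p W with w.1.1 = c, monomial (ind w.1.2) (y w) := by
  symm
  refine sum_bij_ne_zero (fun w _ _ => w.1.2) (fun w a _ => ?_) (fun w a _ w' a' _ e => ?_)
    (fun A a k => ?_) fun w a _ => ?_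
  · rw [mem_powersetCard, ← (mem_filter.1 a).2]; exact ⟨subset_univ _, w.2.2.2⟩
  · exact Subtype.ext (Prod.ext ((mem_filter.1 a).2.trans (mem_filter.1 a').2.symm) e)
  · have h : p c ∧ A ∈ W ∧ #A = T.lev c := by
      by_contra h; exact k (by rw [sx, dif_neg h, monomial_zero])
    exact ⟨⟨(c, A), h⟩, by simp, by rwa [sx, dif_pos h] at k, rfl⟩
  · obtain rfl := (mem_filter.1 a).2
    rw [sx, dif_pos w.2]

theorem Yp_zx (B : Bs L) {W : Finset (Finset τ)} {W' : Finset (Finset τ')} {i : τ → τ'}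
    (hi : Function.Injective i) (hW : ∀ A ∈ W, A.image i ∈ W') (p : B.SC W ⊕ L → ℝ) (G : B.T.C) :
    Yp B.T.lev (sx B.T _ W' fun w => zx B W W' i p (.inl w)) G =
      rename i (Yp B.T.lev (sx B.T _ W fun w => p (.inl w)) G) := by
  let j : B.SC W → B.SC W' := fun w => ⟨(w.1.1, w.1.2.image i), w.2.1, hW _ w.2.2.1,
    (card_image_of_injective _ hi).trans w.2.2.2⟩
  rw [Yp_sx, Yp_sx, map_sum, ← sum_fiberwise_of_maps_to (g := j)
    (t := univ.filter fun w : B.SC W' => w.1.1 = G) fun w a => by simpa [j] using a]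
  refine sum_congr rfl fun w a => ?_
  obtain rfl := (mem_filter.1 a).2
  simp only [zx, Sum.elim_inl, map_sum, filter_filter]
  refine sum_congr (filter_congr fun w0 _ => ⟨fun k => ⟨k.1, Subtype.ext (Prod.ext k.1 k.2)⟩,
    fun k => ⟨k.1, congrArg (·.1.2) k.2⟩⟩) fun w0 k => ?_
  rw [rename_monomial, ind_map hi, ← (mem_filter.1 k).2.2]

theorem scl_ren (i : τ → τ') (m : τ' → ℝ) (P : MvPolynomial τ ℝ) :
    scl m (rename i P) = rename i (scl (fun a => m (i a)) P) := by
  induction P using MvPolynomial.induction_on with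
  | C a => simp [scl]
  | add p q a b => simp only [map_add, a, b]
  | mul_X p a h => simp only [map_mul, h]; simp [scl]

/-- **the big configuration is the image of the zero extension** -/
theorem ka_zx (B : Bs L) {W : Finset (Finset τ)} {W' : Finset (Finset τ')} {i : τ → τ'}
    (blk : τ → L) (blk' : τ' → L) (f : Fr B.T τ' L) (m : L → ℕ) (hi : Function.Injective i)
    (hb : ∀ a, blk' (i a) = blk a) (hW : ∀ A ∈ W, A.image i ∈ W') (y : f.SC W → ℤ) (w : B.SC W') :
    ka B W' blk' (sm f m) (zx f.toBs W W' i (TT.cf y)) (.inl w) =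
      coeff (ind w.1.2) (Yb f.toBs W i (fun a => m (blk a)) f.θ (zc y) w.1.1) := by
  refine congrArg (coeff (ind w.1.2)) (congrArg₂ (· + ·) (scl_one' (R := ℝ) _)
    (sum_congr rfl fun G _ => congrArg₂ (· * ·) (scl_one' (R := ℝ) _) ?_))
  refine (congrArg _ (Yp_zx f.toBs hi hW (TT.cf y) G)).trans ((scl_ren i _ _).trans ?_)
  simp only [hb]; rfl

theorem sm_ok {T : TS Unit} {f : Fr T τ' L} {m : L → ℕ} {s h : ℕ} (o : f.Ok s h)
    (k : ∀ l, 1 ≤ m l ∧ m l ≤ 2 ^ h) : (sm f m).Ok s h := ⟨o.toOk, o.θ, k, o.co⟩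

end Crest.Agent.N49.Fz

end
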