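import Crest.Agent.N49.Sw.Df3
import Crest.Agent.N49.Sw.Frz4
import Crest.Agent.N49.Mv.Defs
import Crest.Agent.N49.Sd.Rsp

/-!
# Row 49 (helper55): symmetrisation, the state and the pull-backs (FROZEN)
-/

set_option autoImplicit false
set_option linter.unusedSectionVars false

open Matrix MvPolynomial Finset

noncomputable section

namespace Crest.Agent.N49.Sw

open Po Tw Sd Sy Md Rm Mv

variable {τ τ' L : Type} [Fintype τ] [DecidableEq τ] [Fintype τ'] [DecidableEq τ'] [Fintype L]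
  [DecidableEq L]

/-- all the transversal words; `x` is alone in its block -/
structure Al (s : ℕ) (W : Finset (Finset τ)) (blk : τ → L) (x : τ) : Prop where
  mem : ∀ A, A ∈ W ↔ Set.InjOn blk A
  one : ∀ a, blk a = blk x → a = x
  cL : Fintype.card L ≤ s

section state
variable (B : Bs L) (W : Finset (Finset τ)) (blk : τ → L)

/-- a point on the universal variables -/
def uv (p : B.SC W ⊕ L → ℝ) : VV B.T.C τ → ℝ := fun v =>
  ∑ w : B.SC W with w.1.1 = v.1 ∧ ind w.1.2 = v.2, p (.inl w)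

/-- extension by zero of a configuration -/
def zz (W' : Finset (Finset τ')) (i : τ → τ') (y : B.SC W → ℤ) : B.SC W' → ℤ :=
  fun w => ∑ w0 : B.SC W with w0.1.1 = w.1.1 ∧ w0.1.2.image i = w.1.2, y w0

variable (x : L) (P : Bk B.T.C Unit) (n : ℕ)

/-- pending words over `y` -/
structure Pw (y : B.SC W → ℤ) (Y : (Bk.ext B.T P).C → Finset τ → ℤ) : Prop where
  old : ∀ w : B.SC W, Y (.inl w.1.1) w.1.2 = y w
  err : ∀ a, ∀ A ∈ W, x ∉ A.image blk → #A = (P.wd a).degree →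
    |ue (Bk.ext B.T P) (Mv.wr Y) (.inr a) A| ≤ 2 ^ n

/-- a function of the old words is trivial on the extended fibre -/
def Rf (Y : (Bk.ext B.T P).C → Finset τ → ℤ) (G : Fm L (B.SC W)) : Prop :=
  Mv.Rx (Bk.ext B.T P) W blk B.la x Y 1 (2 ^ n) fun ξ => G (Mv.pt B W x P ξ)

end state

section typed
variable {C : Type} (blk : τ → L) (x : τ) (B : Bk (VV C τ) τ)

/-- brackets on transversal words without `x` -/
structure Tyd : Prop where
  bo : Bo B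
  tr : ∀ a ℓ, (B.wd a).mapDomain blk ℓ ≤ 1
  fr : ∀ a, B.wd a x = 0

/-- forms on transversal words with `x`; the words satisfy `q` -/
structure Tyf (q : (τ →₀ ℕ) → Prop) (Γ : MvPolynomial (VV C τ ⊕ B.N) ℝ) : Prop where
  live : ∀ v, Sum.inl v ∈ Γ.vars → v.2 ≠ 0
  ty : ∀ m ∈ Γ.support, (∀ ℓ, (Finsupp.weight (B.wg Prod.snd) m).mapDomain blk ℓ ≤ 1) ∧
    Finsupp.weight (B.wg Prod.snd) m x = 1 ∧ q (Finsupp.weight (B.wg Prod.snd) m)

end typed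

/-- **the state of the loop**: the block sets of the remaining form satisfy `q` -/
def AS (s : ℕ) (B : Bs L) (W : Finset (Finset τ)) (blk : τ → L) (x : τ) {D : Type}
    (F : D → Fm L (B.SC W)) (H : Set (B.SC W → ℤ)) (n : ℕ) (q : Finset L → Prop) : Prop :=
  ∃ (P : Bk B.T.C Unit) (Bt : Bk (VV B.T.C τ) τ) (Γ : D → MvPolynomial (VV B.T.C τ ⊕ Bt.N) ℝ),
    Pn B P n s ∧ Tyd blk x Bt ∧ Fintype.card Bt.N ≤ n ∧
    (∀ d, Tyf blk x Bt (fun w => q (w.mapDomain blk).support) (Γ d)) ∧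
    RS B W blk (blk x) P H 1 n fun d p => F d p - Bt.ev (uv B W p) (Γ d)

/-- leaf: the pending families are pulled back along a frame -/
def PUL0 (s : ℕ) : Prop := ∃ K : ℕ, ∀ (τ L : Type) [Fintype τ] [DecidableEq τ] [Fintype L]
  [DecidableEq L] (B : Bs L) (W : Finset (Finset τ)) (blk : τ → L) (x : L) (P : Bk B.T.C Unit)
  (n : ℕ) (f : Fr B.T τ L) (Ω : Type) (pr : Set Ω → ℝ) (H : Set Ω) (y : Ω → f.SC W → ℤ)
  (y0 : Ω → B.SC W → ℤ) (Y : Ω → (Bk.ext B.T P).C → Finset τ → ℤ), Pg pr → Sb B W blk s n →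
  Pn B P n s → f.Ok s n → Fintype.card f.T.C ≤ 2 ^ n →
  (∀ ω ∈ H, ka B W blk f (TT.cf (y ω)) = TT.cf (y0 ω) ∧ Pw B W blk x P n (y0 ω) (Y ω)) →
  ∃ (P' : Bk f.T.C Unit) (H' : Set Ω), H' ⊆ H ∧ Pn f.toBs P' (n ^ K) s ∧
    pr H ≤ 2 ^ n ^ K * pr H' ∧ ∀ ω ∈ H', ∃ Y', Pw f.toBs W blk x P' (n ^ K) (y ω) Y' ∧
      (∀ a, (∀ w : f.SC W, a ∈ w.1.2 → y ω w = 0) → ∀ c A, a ∈ A → Y' c A = 0) ∧
      ∀ G, Rf B W blk x P n (Y ω) G →
        Rf f.toBs W blk x P' (n ^ K) Y' fun p => G (ka B W blk f p)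

/-- leaf: symbols are absorbed, pointwise -/
def ABS0 : Prop := ∀ (τ L : Type) [Fintype τ] [DecidableEq τ] [Fintype L] [DecidableEq L]
  (B : Bs L) (W : Finset (Finset τ)) (blk : τ → L) (x : L) (P : Bk B.T.C Unit) (s n : ℕ)
  (D : Type) [Fintype D] (Pi : D → Finset τ → MvPolynomial (Bk.ext B.T P).C ℝ), Sb B W blk s n →
  Pn B P n s → Fintype.card D ≤ n →
  (∀ d U, (Pi d U).IsWeightedHomogeneous (Bk.ext B.T P).lev #U) →
  ∃ P' : Bk B.T.C Unit, Pn B P' (n ^ (2 * s + 3)) s ∧ ∀ y Y, Pw B W blk x P n y Y →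
    ∃ Y', Pw B W blk x P' (n ^ (2 * s + 3)) y Y' ∧ ∀ d (G : Fm L (B.SC W)),
      (Mv.Rx (Bk.ext B.T P) W blk B.la x Y 1 (2 ^ n) fun ξ => G (Mv.pt B W x P ξ) -
        ∑ U ∈ W with x ∈ U.image blk, Sy.sy (Bk.ext B.T P).lev (Pi d U) ξ U) →
      Rf B W blk x P' (n ^ (2 * s + 3)) Y' G

/-- leaf: two systems of pending families are merged -/
def MRG : Prop := ∀ (τ L : Type) [Fintype τ] [DecidableEq τ] [Fintype L] [DecidableEq L]
  (B : Bs L) (W : Finset (Finset τ)) (blk : τ → L) (x : L) (P1 P2 : Bk B.T.C Unit) (s n : ℕ),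
  Pn B P1 n s → Pn B P2 n s → ∃ P : Bk B.T.C Unit, Pn B P (2 * n + 1) s ∧ ∀ y Y1 Y2,
    Pw B W blk x P1 n y Y1 → Pw B W blk x P2 n y Y2 → ∃ Y, Pw B W blk x P (2 * n + 1) y Y ∧
      ∀ (G1 G2 G : Fm L (B.SC W)) (c : ℕ), c ≤ 2 ^ n → Rf B W blk x P1 n Y1 G1 →
        Rf B W blk x P2 n Y2 G2 → (∀ p ∈ (B.SY W blk).Fib {x} y, G p = G1 p + c * G2 p) →
        Rf B W blk x P (2 * n + 1) Y G

/-- leaf: restriction to a smaller alphabet -/
def RNM : Prop := ∀ (τ τ' L : Type) [Fintype τ] [DecidableEq τ] [Fintype τ'] [DecidableEq τ']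
  [Fintype L] [DecidableEq L] (B : Bs L) (W : Finset (Finset τ)) (W' : Finset (Finset τ'))
  (blk : τ → L) (blk' : τ' → L) (i : τ → τ') (x : L) (P : Bk B.T.C Unit) (s n : ℕ)
  (y : B.SC W → ℤ) (Y' : (Bk.ext B.T P).C → Finset τ' → ℤ), B.Ok s n → Pn B P n s →
  Wf s W blk → Wf s W' blk' → Function.Injective i → (∀ a, blk' (i a) = blk a) →
  (∀ A, A ∈ W ↔ A.image i ∈ W') →
  Pw B W' blk' x P n (zz B W W' i y) Y' → (∀ c A t, t ∈ A → t ∉ Set.range i → Y' c A = 0) →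
  ∃ Y, Pw B W blk x P n y Y ∧ ∀ G, Rf B W' blk' x P n Y' G →
    Rf B W blk x P n Y fun p => G (Fz.zx B W W' i p)

/-- leaf: the brackets are split again along a frame over the large alphabet -/
def RSPL : Prop := ∀ (τ τ' L D : Type) [Fintype τ] [DecidableEq τ] [Fintype τ'] [DecidableEq τ']
  [Fintype L] [DecidableEq L] (B : Bs L) (W : Finset (Finset τ)) (W' : Finset (Finset τ'))
  (blk : τ → L) (blk' : τ' → L) (i : τ → τ') (hi : Function.Injective i) (x : τ) (s n : ℕ)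
  (f : Fr B.T τ' L)
  (B1 : Bk (VV B.T.C τ') τ') (o : B1.N → ℝ) (Γ : D → MvPolynomial (VV B.T.C τ' ⊕ B1.N) ℝ)
  (q : Finset L → Prop) (Ω : Type) (pr : Set Ω → ℝ) (H : Set Ω) (y : Ω → f.SC W → ℤ)
  (k : Ω → B1.N → ℤ), Pg pr → B.Ok s n → f.Ok s n → Al s W blk x → Al s W' blk' (i x) →
  (∀ a, blk' (i a) = blk a) → Tyd blk' (i x) B1 → (∀ S S', S' ⊆ S → q S → q S') →
  (∀ d, Tyf blk' (i x) B1
    (fun w => q ((w.comapDomain i hi.injOn).mapDomain blk).support) (Γ d)) →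
  (∀ ω ∈ H, ∀ a, |eval (Sum.elim (uv B W' (ka B W' blk' f (Fz.zx f.toBs W W' i (TT.cf (y ω)))))
    fun a => (k ω a : ℝ)) (B1.Θ a) - o a - k ω a| ≤ 1) →
  ∃ (B2 : Bk (VV f.T.C τ) τ) (Γ2 : D → MvPolynomial (VV f.T.C τ ⊕ B2.N) ℝ) (H' : Set Ω),
    H' ⊆ H ∧ pr H ≤ (2 ^ (2 ^ s + 2) : ℝ) ^ Fintype.card B1.N * pr H' ∧ Tyd blk x B2 ∧
    Fintype.card B2.N ≤ Fintype.card B1.N * 2 ^ s ∧
    (∀ d, Tyf blk x B2 (fun w => q (w.mapDomain blk).support) (Γ2 d)) ∧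
    ∀ ω ∈ H', ∀ p ∈ (f.SY W blk).Fib {blk x} (y ω), ∀ d,
      eval (Sum.elim (uv B W' (ka B W' blk' f (Fz.zx f.toBs W W' i p))) fun a => (k ω a : ℝ)) (Γ d) =
        B2.ev (uv f.toBs W p) (Γ2 d)

/-- leaf: the morphism of the small frame is the substitution after that of the large frame -/
def KMQ : Prop := ∀ (τ τ' L : Type) [Fintype τ] [DecidableEq τ] [Fintype τ'] [DecidableEq τ']
  [Fintype L] [DecidableEq L] (B : Bs L) (la : L → ℝ) (W : Finset (Finset τ))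
  (W' : Finset (Finset τ')) (blk : τ → L) (col : τ' → τ) (i : τ → τ') (x : τ) (s n c : ℕ)
  (k : τ' → ℕ) (m : L → ℕ) (f : Fr B.T τ' L) (p : f.SC W ⊕ L → ℝ) (v : VV B.T.C τ), B.Ok s n →
  f.Ok s n → Al s W blk x → Al s W' (blk ∘ col) (i x) → (∀ a, col (i a) = a) →
  (∀ a, m (blk a) * k (i a) = c) → (∀ ℓ, v.2.mapDomain blk ℓ ≤ 1) →
  uv B W (ka B W blk (Fz.fm f k col c) p) v =
    sbv (fun t => Pi.single (col t) (k t : ℤ)) (W'.image ind) (uv { B with la := la } W'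
      (ka { B with la := la } W' (blk ∘ col) (Fz.sm f m) (Fz.zx f.toBs W W' i p))) v

end Crest.Agent.N49.Sw

end
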