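import Crest.Agent.N49.Sw.Df2
import Crest.Agent.N49.Tw.Api
import Crest.Agent.N49.Rw.Sch

/-!
# Row 49 (helper68): the coloured tower and the diagonal tower are staged (`COLA`)
-/

set_option autoImplicit false

open Matrix MvPolynomial Finset

noncomputable section

namespace Crest.Agent.N49.Sw

open Po Tw Sd

namespace Ca

theorem hom_ae {V V' A A' : Type} [AddCommMonoid A] [AddCommMonoid A'] (φ : A →+ A') {w : V → A}
    {w' : V' → A'} {P : MvPolynomial V ℝ} {n : A} (h : P.IsWeightedHomogeneous w n)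
    {f : V → MvPolynomial V' ℝ} (hf : ∀ v, (f v).IsWeightedHomogeneous w' (φ (w v))) :
    (aeval f P).IsWeightedHomogeneous w' (φ n) := by
  rw [aeval_def, eval₂_eq]
  refine IsWeightedHomogeneous.sum _ _ _ fun m hm => ?_
  rw [← h (mem_support_iff.1 hm), ← zero_add (φ _)]
  refine (isWeightedHomogeneous_C w' _).mul ?_
  rw [Finsupp.weight_apply, Finsupp.sum, map_sum]
  exact IsWeightedHomogeneous.prod _ _ _ fun c _ => by rw [map_nsmul]; exact (hf c).pow _

theorem hom_sub {V A : Type} [AddCommMonoid A] {w : V → A} {P Q : MvPolynomial V ℝ} {n : A}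
    (h : P.IsWeightedHomogeneous w n) (k : Q.IsWeightedHomogeneous w n) :
    (P - Q).IsWeightedHomogeneous w n := fun m z => by
  by_cases a : coeff m P = 0
  · exact k fun b => z (by rw [coeff_sub, a, b, sub_zero])
  · exact h a

theorem hom_X {V A : Type} [AddCommMonoid A] {w : V → A} {v : V} {n : A} (e : w v = n) :
    (X v : MvPolynomial V ℝ).IsWeightedHomogeneous w n := e ▸ isWeightedHomogeneous_X ℝ w v

theorem wt_pow {V : Type} {f l : V → ℕ} {M x : ℕ} (hx : 2 ≤ x) (hl : ∀ v, 0 < l v)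
    (h : ∀ v, f v ≤ M * x ^ l v) (m : V →₀ ℕ) :
    Finsupp.weight f m ≤ M * x ^ Finsupp.weight l m := by
  let P : (V →₀ ℕ) → Prop := fun m => Finsupp.weight f m ≤ M * x ^ Finsupp.weight l m ∧
    (Finsupp.weight l m = 0 → Finsupp.weight f m = 0)
  have add : ∀ a b, P a → P b → P (a + b) := fun a b ⟨a1, a2⟩ ⟨b1, b2⟩ => by
    refine ⟨?_, fun e => ?_⟩
    · rw [map_add, map_add]
      rcases Nat.eq_zero_or_pos (Finsupp.weight l a) with e | e
      · rw [a2 e, e, zero_add, zero_add]; exact b1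
      rcases Nat.eq_zero_or_pos (Finsupp.weight l b) with e' | e'
      · rw [b2 e', e', add_zero, add_zero]; exact a1
      refine (add_le_add a1 b1).trans ?_
      rw [← mul_add, pow_add]
      exact Nat.mul_le_mul_left _ (Nat.add_le_mul (hx.trans (Nat.le_self_pow e.ne' _))
        (hx.trans (Nat.le_self_pow e'.ne' _)))
    · rw [map_add] at e ⊢
      rw [a2 (by omega), b2 (by omega)]
  have z : P 0 := ⟨by simp, by simp⟩
  suffices P m from this.1
  induction m using Finsupp.induction_linear with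
  | zero => exact z
  | add a b p q => exact add a b p q
  | single v n =>
    induction n with
    | zero => simpa using z
    | succ n ih =>
      rw [Finsupp.single_add]
      exact add _ _ ih ⟨by simpa [Finsupp.weight_single] using h v,
        fun e => absurd e (by simpa [Finsupp.weight_single] using (hl v).ne')⟩

theorem det_rk {N : Type} [Fintype N] [DecidableEq N] (rk : N → ℕ) {Y : Matrix N N ℝ}
    (h : ∀ a a', Y a a' ≠ 0 → rk a' < rk a) : (1 - Y).det ≠ 0 := fun e => by
  obtain ⟨v, v0, k⟩ := Matrix.exists_mulVec_eq_zero_iff.2 e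
  have : ∀ r a, rk a < r → v a = 0 := by
    intro r
    induction r with
    | zero => intro a z; omega
    | succ r ih =>
      intro a z
      have := congrFun k a
      rw [sub_mulVec, one_mulVec, Pi.sub_apply, Pi.zero_apply, sub_eq_zero] at this
      rw [this]
      refine sum_eq_zero fun a' _ => ?_
      by_cases y : Y a a' = 0
      · exact mul_eq_zero_of_left y _
      · have := h a a' y
        exact mul_eq_zero_of_right _ (ih a' (by omega))
  exact v0 (funext fun a => this _ a (Nat.lt_succ_self _))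

section xt
variable {σ N : Type} [Fintype N] [DecidableEq N] (U : TS σ) (d : N → σ →₀ ℕ)
  (Θ : N → MvPolynomial (U.C ⊕ N) ℝ) (w : ℝ)

/-- a structure with new families -/
def xt : TS σ where
  C := U.C ⊕ N
  deg := Sum.elim U.deg d
  Φ := Sum.elim (fun c => rename .inl (U.Φ c)) fun a => X (.inr a) - Θ a
  K := fromBlocks U.K 0 0 (w • 1)

variable {U d Θ w}

theorem det_xt (rk : N → ℕ) (h : ∀ a a', Sum.inr a' ∈ (Θ a).vars → rk a' < rk a)
    (l : U.C ⊕ N → ℕ) (k : (U.stg fun c => l (.inl c)).A.det ≠ 0) :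
    ((xt U d Θ w).stg l).A.det ≠ 0 := by
  classical
  have e : ((xt U d Θ w).stg l).A = fromBlocks (U.stg fun c => l (.inl c)).A 0
      (Matrix.of fun a c => ((xt U d Θ w).stg l).A (.inr a) (.inl c))
      (1 - Matrix.of fun a a' => if l (.inr a) = l (.inr a') then
        coeff (Finsupp.single (.inr a') 1) (Θ a) else 0) := by
    refine Matrix.ext fun (c : U.C ⊕ N) (c' : U.C ⊕ N) => ?_
    rcases c with c | a <;> rcases c' with c' | a'
    · refine (TS.stg_A (T := xt U d Θ w) _ _).trans (Eq.trans ?_ (TS.stg_A (T := U) c c').symm)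
      refine if_congr Iff.rfl ?_ rfl
      rw [← coeff_rename_mapDomain (Sum.inl : U.C → U.C ⊕ N) Sum.inl_injective (U.Φ c),
        Finsupp.mapDomain_single]
      rfl
    · refine (TS.stg_A (T := xt U d Θ w) _ _).trans ?_
      split_ifs
      · refine of_not_not fun z => ?_
        obtain ⟨u, e, -⟩ := coeff_rename_ne_zero (Sum.inl : U.C → U.C ⊕ N) (U.Φ c) _ z
        have := DFunLike.congr_fun e (Sum.inr a')
        rw [Finsupp.mapDomain_of_notMem_range _ _ (by simp)] at this
        exact zero_ne_one (this.trans Finsupp.single_eq_same)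
      · rfl
    · rfl
    · refine (TS.stg_A (T := xt U d Θ w) _ _).trans ?_
      change (if l (.inr a) = l (.inr a') then coeff (Finsupp.single (Sum.inr a' : U.C ⊕ N) 1)
        (X (.inr a) - Θ a) else 0) = (1 : Matrix N N ℝ) a a' - if l (.inr a) = l (.inr a') then
          coeff (Finsupp.single (.inr a') 1) (Θ a) else 0
      rw [one_apply, coeff_sub, coeff_X]
      by_cases z : a = a'
      · simp [z]
      · rw [if_neg z, if_neg fun e : Finsupp.single (Sum.inr a : U.C ⊕ N) 1 = _ =>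
          z (Sum.inr_injective (Finsupp.single_left_injective one_ne_zero e))]
        split_ifs <;> simp
  rw [e]
  refine (det_fromBlocks_zero₁₂ _ _ _).trans_ne (mul_ne_zero k (det_rk rk fun a a' z => h a a' ?_))
  rw [of_apply] at z
  split_ifs at z
  · exact (mem_vars_iff_mem_support _).2 ⟨_, mem_support_iff.2 z, by simp⟩
  · exact absurd rfl z

theorem K_xt {c c' : U.C ⊕ N} (z : (xt U d Θ w).K c c' ≠ 0) :
    c = c' ∨ ∃ a a', c = .inl a ∧ c' = .inl a' ∧ U.K a a' ≠ 0 := by
  rcases c with c | a <;> rcases c' with c' | a'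
  · exact .inr ⟨c, c', rfl, rfl, z⟩
  · exact absurd rfl z
  · exact absurd rfl z
  · refine .inl (congrArg _ (of_not_not fun e => z ?_))
    change w • (1 : Matrix N N ℝ) a a' = 0
    rw [one_apply_ne e, smul_zero]

theorem hom_inl {V V' A : Type} [AddCommMonoid A] {w : V → A} {w' : V ⊕ V' → A}
    (e : ∀ v, w' (.inl v) = w v) {P : MvPolynomial V ℝ} {n : A} (h : P.IsWeightedHomogeneous w n) :
    (rename Sum.inl P).IsWeightedHomogeneous w' n := fun m z => by
  obtain ⟨u, rfl, k⟩ := coeff_rename_ne_zero _ P m z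
  rw [TS.weight_map, funext e]; exact h k

theorem ok_xt (h : U.Ok) (rk : N → ℕ) (ht : ∀ a a', Sum.inr a' ∈ (Θ a).vars → rk a' < rk a)
    (hd : ∀ a, d a ≠ 0) (hΘ : ∀ a, (Θ a).IsWeightedHomogeneous (Sum.elim U.deg d) (d a))
    (hw : 0 < w) : (xt U d Θ w).Ok := by
  have hom : ∀ c, ((xt U d Θ w).Φ c).IsWeightedHomogeneous (xt U d Θ w).deg
      ((xt U d Θ w).deg c) := fun c => by
    rcases c with c | a
    · exact hom_inl (fun _ => rfl) (h.hom c)
    · exact hom_sub (isWeightedHomogeneous_X ℝ (Sum.elim U.deg d) (.inr a)) (hΘ a)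
  refine ⟨⟨fun c m hm => ?_, fun c => ?_, ?_, ?_, fun c c' z => ?_⟩, hom⟩
  · rw [TS.weight_lev, hom c (mem_support_iff.1 hm)]; rfl
  · rcases c with c | a
    exacts [h.ne c, hd a]
  · rw [← TS.stg_A_lev]
    exact det_xt rk ht _ ((congrArg det (TS.stg_A_lev (T := U))).trans_ne h.det)
  · exact Rw.pd_blocks h.pd (PosDef.one.smul hw)
  · rcases K_xt z with e | ⟨a, a', rfl, rfl, k⟩
    · rw [e]
    · exact h.blk a a' k

theorem stg_xt {st : U.C → ℕ} {M s : ℕ} (h : U.Ok) (g : U.Stg st M) (hs : ∀ c, U.lev c ≤ s)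
    (hM : 1 ≤ M) (rk : N → ℕ) (ht : ∀ a a', Sum.inr a' ∈ (Θ a).vars → rk a' < rk a)
    (hd : ∀ a, d a ≠ 0) (hΘ : ∀ a, (Θ a).IsWeightedHomogeneous (Sum.elim U.deg d) (d a))
    (hw : 0 < w) (k : N → ℕ) (hk : ∀ a, (d a).degree = k a) (ks : ∀ a, k a ≤ s) :
    (xt U d Θ w).Stg (Sum.elim st fun a => M * (s + 1) ^ k a) (M * (s + 1) ^ s) := by
  have o := ok_xt h rk ht hd hΘ hw
  have kp : ∀ a, 0 < k a := fun a => hk a ▸ o.toTri.lev_pos (.inr a)
  have p1 : ∀ j, M ≤ M * (s + 1) ^ j := fun j => Nat.le_mul_of_pos_right _ (by positivity)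
  have p2 : ∀ a, M < M * (s + 1) ^ k a := fun a => (Nat.lt_mul_iff_one_lt_right hM).2
    (Nat.one_lt_pow (kp a).ne' (by have := kp a; have := ks a; omega))
  refine ⟨o.cl, TS.stg_tri (fun c m hm => ?_) (fun c => ?_) (det_xt rk ht _ g.tri.det) o.pd
    fun c c' z => ?_, fun c c' e => ?_, fun c => ?_⟩
  · rcases c with c | a
    · obtain ⟨u, rfl, z⟩ := coeff_rename_ne_zero (Sum.inl : U.C → U.C ⊕ N) (U.Φ c) m
        (mem_support_iff.1 hm)
      exact (TS.weight_map _ _ _).trans_le (g.wt c (mem_support_iff.2 z))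
    · have e : Finsupp.weight (xt U d Θ w).lev m = k a := by
        rw [TS.weight_lev, o.hom _ (mem_support_iff.1 hm)]; exact hk a
      refine le_of_le_of_eq (wt_pow (l := (xt U d Θ w).lev) (M := M) (x := s + 1)
        (by have := kp a; have := ks a; omega) o.toTri.lev_pos (fun v => ?_) m) (by rw [e]; rfl)
      rcases v with c | a
      · exact (g.le c).1.trans (p1 _)
      · exact le_of_eq (congrArg (M * (s + 1) ^ ·) (hk a).symm)
  · rcases c with c | a
    · exact (g.pos c).ne'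
    · exact (lt_of_le_of_lt (Nat.zero_le _) (p2 a)).ne'
  · rcases K_xt z with e | ⟨a, a', rfl, rfl, k⟩
    · rw [e]
    · exact g.blk k
  · rcases c with c | a <;> rcases c' with c' | a'
    · exact g.lev c c' e
    · exact absurd e ((g.le c).1.trans_lt (p2 a')).ne
    · exact absurd e ((g.le c').1.trans_lt (p2 a)).ne'
    · exact (hk a).trans ((Nat.pow_right_injective (by have := kp a; have := ks a; omega)
        (Nat.eq_of_mul_eq_mul_left hM e)).trans (hk a').symm)
  · have q : s ≤ M * (s + 1) ^ s := by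
      rcases Nat.eq_zero_or_pos s with z | z
      · omega
      · exact ((Nat.le_succ s).trans (Nat.le_self_pow z.ne' _)).trans
          (Nat.le_mul_of_pos_left _ hM)
    rcases c with c | a
    · exact ⟨(g.le c).1.trans (p1 _), (hs c).trans q⟩
    · exact ⟨Nat.mul_le_mul_left _ (Nat.pow_le_pow_right (by omega) (ks a)),
        ((hk a).trans_le (ks a)).trans q⟩

omit [Fintype N] [DecidableEq N] in
theorem tri_ae {V C : Type} {P : MvPolynomial (V ⊕ N) ℝ} {f : V → MvPolynomial (C ⊕ N) ℝ}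
    (hf : ∀ v a, Sum.inr a ∉ (f v).vars) {a : N}
    (h : Sum.inr a ∈ (aeval (Sum.elim f fun a => X (.inr a)) P).vars) : Sum.inr a ∈ P.vars := by
  obtain ⟨v, hv, k⟩ := mem_vars_bind₁ _ _ h
  rcases v with v | a'
  · exact absurd k (hf v a)
  · rw [Sum.elim_inr, vars_X, mem_singleton] at k
    rwa [Sum.inr_injective k]

end xt

theorem tw0_ok {σ τ : Type} [DecidableEq σ] {T : TS σ} (h : T.Ok) (S : Sh σ τ) (F : T.C) :
    T.tw0 S F = map MvPolynomial.C (T.Φ F) := by
  ext1 m
  rw [TS.coeff_tw0, coeff_map]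
  by_cases z : coeff m (T.Φ F) = 0
  · rw [z, zero_smul, map_zero]
  · rw [TS.weight_lev, h.hom F z, TS.lev, Nat.sub_self, pow_zero, smul_eq_C_mul, mul_one]

variable {σ : Type} [Fintype σ] [DecidableEq σ] {s M : ℕ} {T : TS Unit} {st : T.C → ℕ}
  {B : Bk (VV T.C σ) σ} {w : ℝ}

theorem fs_ok : (FS σ s).Ok := Sh.mono_ok dn_full (by
  have : (FS σ s).K = 1 := by
    ext (w : Sh.MW _) (w' : Sh.MW _)
    change (if w.1 = w'.1 then (1 : ℝ) else 0) = if w = w' then 1 else 0
    exact if_congr Subtype.ext_iff.symm rfl rfl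
  exact this ▸ PosDef.one) (Sh.dk_blk _)

theorem sh_ok (h : Tb T st M s) : (T.sh (FS σ s)).Ok :=
  TS.sh_ok h.ok.cl fs_ok Sh.mono_ty (funext fun _ => sum_eq_zero fun _ _ => ite_self _)

theorem sh_stg (h : Tb T st M s) : (T.sh (FS σ s)).Stg (fun p => st p.1.1) M :=
  ⟨(sh_ok h).cl, by
    have := TS.lw_tri h.stg (h.stg.adm (fs_ok (σ := σ) (s := s))) fs_ok
    have e : (T.tw (FS σ s) (T.tw0 _)).Φ = (T.sh (FS σ s)).Φ :=
      funext fun p => congrArg (Sh.cf _ _ p.1.2) (TS.eval₂_tw0 _ _)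
    exact (congrArg (fun Φ => (((T.sh (FS σ s)).setΦ Φ).stg fun p => st p.1.1).Tri) e).mp this,
    fun p q e => (TS.sh_lev p).trans ((h.stg.lev _ _ e).trans (TS.sh_lev q).symm),
    fun p => ⟨(h.stg.le _).1, (TS.sh_lev p).trans_le (h.stg.le _).2⟩⟩

theorem tri_cE (hB : Bo B) (a a' : B.N)
    (k : Sum.inr a' ∈ (aeval (Sum.elim (vp s T B) fun a => X (.inr a)) (B.Θ a)).vars) :
    B.rk a' < B.rk a := hB.ok.tri a a' (tri_ae (fun v a z => by
  classical
  obtain ⟨p, -, k⟩ := mem_biUnion.1 (vars_sum_subset _ _ z)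
  simp [vars_X] at k) k)

theorem hom_cE (hB : Bo B) (a : B.N) :
    (aeval (Sum.elim (vp s T B) fun a => X (.inr a)) (B.Θ a)).IsWeightedHomogeneous
      (Sum.elim (T.sh (FS σ s)).deg B.wd) (B.wd a) :=
  hom_ae (AddMonoidHom.id _) (hB.ok.hom a) fun v => by
    rcases v with v | a
    · exact IsWeightedHomogeneous.sum _ _ _ fun p hp =>
        hom_X (mem_filter.1 hp).2.2
    · exact isWeightedHomogeneous_X ℝ _ (Sum.inr a)

theorem cE_ok (h : Tb T st M s) (hB : Bo B) (hw : 0 < w) : (cE s T B w).Ok :=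
  ok_xt (U := T.sh (FS σ s)) (sh_ok h) B.rk (tri_cE hB) hB.ok.ne (hom_cE hB) hw

theorem cE_stg (h : Tb T st M s) (hB : Bo B) (hs : ∀ a, (B.wd a).degree ≤ s) (hw : 0 < w) :
    (cE s T B w).Stg (cst s T B w st M) (M * (s + 1) ^ s) :=
  stg_xt (U := T.sh (FS σ s)) (sh_ok h) (sh_stg h) (fun p => (TS.sh_lev p).trans_le (h.lev _))
    h.one B.rk (tri_cE hB) hB.ok.ne (hom_cE hB) hw _ (fun _ => rfl) hs

omit [Fintype σ] [DecidableEq σ] in
theorem tb_bar (h : Tb T st M s) (hB : Bo B) (hs : ∀ a, (B.wd a).degree ≤ s) (hw : 0 < w) :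
    Tb (bar T B w) (bst T B s w st M) (M * (s + 1) ^ s) s := by
  have t : ∀ a a', Sum.inr a' ∈ (dgl T B (B.Θ a)).vars → B.rk a' < B.rk a := fun a a' k =>
    hB.ok.tri a a' (tri_ae (fun v a z => by
      split_ifs at z
      · rw [smul_eq_C_mul] at z
        have := vars_mul _ _ z
        rw [vars_C, vars_X] at this
        simp at this
      · simp at z) k)
  have n : ∀ a, Finsupp.single () (B.wd a).degree ≠ 0 := fun a e =>
    hB.ok.ne a ((Finsupp.degree_eq_zero_iff _).1 (Finsupp.single_eq_zero.1 e))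
  have o : ∀ a, (dgl T B (B.Θ a)).IsWeightedHomogeneous
      (Sum.elim T.deg fun a => Finsupp.single () (B.wd a).degree)
      (Finsupp.single () (B.wd a).degree) := fun a =>
    hom_ae ((Finsupp.singleAddHom ()).comp Finsupp.degree) (hB.ok.hom a) fun v => by
      rcases v with v | a
      · rw [Sum.elim_inl]
        split_ifs with e
        · rw [smul_eq_C_mul, ← zero_add (AddMonoidHom.comp _ _ _)]
          refine (isWeightedHomogeneous_C _ _).mul ?_
          have : T.deg v.1 = Finsupp.single () v.2.degree :=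
            unit_ext (e.symm.trans (Finsupp.degree_single _ _).symm)
          exact hom_X this
        · exact isWeightedHomogeneous_zero _ _ _
      · exact isWeightedHomogeneous_X ℝ _ (Sum.inr a)
  refine ⟨ok_xt h.ok B.rk t n o hw, stg_xt h.ok h.stg h.lev h.one B.rk t n o hw _
    (fun _ => Finsupp.degree_single _ _) hs, fun c => ?_,
    h.one.trans (Nat.le_mul_of_pos_right _ (by positivity))⟩
  rcases c with c | a
  · exact h.lev c
  · exact (Finsupp.degree_single _ _).trans_le (hs a)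

/-- the monomials after splitting the variables -/
theorem co_sub {V V' A ι : Type} [Fintype ι] [DecidableEq V] (f : ι → V) (j : ι → V')
    (P : MvPolynomial V (MvPolynomial A ℝ)) (m : V' →₀ ℕ) : ∃ z : (V →₀ ℕ) → ℝ,
    coeff m (eval₂ MvPolynomial.C (fun G => ∑ q with f q = G, X (j q)) P) =
      ∑ a ∈ P.support, coeff a P * MvPolynomial.C (z a) ∧ ∀ a, z a ≠ 0 →
      ∀ (l : V → ℕ) (l' : V' → ℕ), (∀ q, l' (j q) = l (f q)) →
        Finsupp.weight l' m = Finsupp.weight l a := by
  refine ⟨fun a => coeff m (aeval (fun G => (∑ q with f q = G, X (j q) : MvPolynomial V' ℝ))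
    (monomial a (1 : ℝ))), ?_, fun a z l l' k => hom_ae (AddMonoidHom.id ℕ)
      (isWeightedHomogeneous_monomial l a 1 rfl) (fun G => IsWeightedHomogeneous.sum _ _ _
        fun q hq => hom_X ((k q).trans (congrArg l (mem_filter.1 hq).2))) z⟩
  rw [eval₂_eq, coeff_sum]
  refine sum_congr rfl fun a _ => ?_
  rw [coeff_C_mul, ← coeff_map, aeval_monomial, map_one, one_mul, Finsupp.prod, map_prod]
  simp only [map_pow, map_sum, map_X]

variable {τ : Type} [DecidableEq τ] {col : τ → σ} {W : Finset (τ →₀ ℕ)} {K : Kn τ}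

theorem adm_cT (h : Tb T st M s) (hB : Bo B) (hs : ∀ a, (B.wd a).degree ≤ s) (hw : 0 < w)
    {Ψ : T.Twd (MR (fun _ => ()) W K)} (hΨ : T.Adm _ st Ψ) :
    (cE s T B w).Adm _ (cst s T B w st M) (cT s T B w col W K Ψ) := by
  have o := cE_ok h hB hw
  have key : ∀ (c : (cE s T B w).C) (m : (cE s T B w).C →₀ ℕ),
      ∃ Q : MvPolynomial (MR col W K).W ℝ,
      coeff m (cT s T B w col W K Ψ c) = MvPolynomial.C (coeff m ((cE s T B w).Φ c)) + Q ∧
      Q.IsWeightedHomogeneous (MR col W K).dg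
        ((cE s T B w).lev c - Finsupp.weight (cE s T B w).lev m) ∧
      (Q ≠ 0 → Finsupp.weight (cE s T B w).lev m < (cE s T B w).lev c ∧
        Finsupp.weight (cst s T B w st M) m ≤ cst s T B w st M c) := fun c m => by
    have e0 := (coeff_add m _ _).trans (congrArg₂ _ (coeff_map _ _ _) rfl) |>.symm.trans
      (rfl : _ = coeff m (cT s T B w col W K Ψ c)) |>.symm
    rcases c with p | a
    swap
    · exact ⟨0, e0, isWeightedHomogeneous_zero _ _ _, fun z => absurd rfl z⟩
    obtain ⟨R, hR, r⟩ : ∃ R : MvPolynomial T.C (MvPolynomial (MR col W K).W ℝ),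
        R = Ψ p.1.1 - MvPolynomial.map MvPolynomial.C (T.Φ p.1.1) ∧ ∀ a, coeff a R ≠ 0 →
          (coeff a R).IsWeightedHomogeneous (MR col W K).dg (T.lev p.1.1 - Finsupp.weight T.lev a) ∧
          Finsupp.weight T.lev a < T.lev p.1.1 ∧ Finsupp.weight st a ≤ st p.1.1 := by
      refine ⟨_, rfl, fun a z => ?_⟩
      have e := (coeff_sub _ a (Ψ p.1.1) _).trans (congrArg _ (coeff_map MvPolynomial.C
        (T.Φ p.1.1) a))
      have n : Finsupp.weight T.lev a ≠ T.lev p.1.1 := fun y =>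
        z (e.trans (sub_eq_zero.2 (hΨ.top _ _ y)))
      rw [of_not_not fun y : coeff a (T.Φ p.1.1) ≠ 0 =>
        n (by rw [TS.weight_lev, h.ok.hom _ y]; rfl), map_zero, sub_zero] at e
      obtain ⟨l1, l2⟩ := hΨ.le p.1.1 a (mem_support_iff.2 fun y => z (e.trans y))
      exact ⟨(congrArg (IsWeightedHomogeneous _ · _) e).mpr (hΨ.gr p.1.1 a),
        lt_of_le_of_ne l1 n, l2⟩
    obtain ⟨z, e, wg⟩ := co_sub (V' := (cE s T B w).C) (fun q : T.Cw (FS σ s) => q.1.1) Sum.inl R m
    have w1 := fun a y => wg a y T.lev (cE s T B w).lev fun q => TS.sh_lev q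
    have w2 := fun a y => wg a y st (cst s T B w st M) fun q => rfl
    have lp : (cE s T B w).lev (.inl p) = T.lev p.1.1 := TS.sh_lev p
    refine ⟨_, e0.trans (congrArg _ (Eq.trans (by rw [hR]; rfl) e)), ?_, fun y => ?_⟩
    · refine IsWeightedHomogeneous.sum _ _ _ fun a ha => ?_
      by_cases y : z a = 0
      · rw [y, map_zero, mul_zero]; exact isWeightedHomogeneous_zero _ _ _
      · rw [w1 a y, lp, ← add_zero (_ - _)]
        exact (r a (mem_support_iff.1 ha)).1.mul (isWeightedHomogeneous_C _ _)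
    · obtain ⟨a, ha, y⟩ := exists_ne_zero_of_sum_ne_zero y
      have y : z a ≠ 0 := fun x => y (by rw [x, map_zero, mul_zero])
      rw [w1 a y, w2 a y, lp]
      exact (r a (mem_support_iff.1 ha)).2
  have lv : ∀ c m, coeff m ((cE s T B w).Φ c) ≠ 0 →
      Finsupp.weight (cE s T B w).lev m = (cE s T B w).lev c := fun c m z => by
    rw [TS.weight_lev, o.hom c z]; rfl
  refine ⟨fun c m => ?_, fun c m hm => ?_, fun c m e => ?_⟩ <;> obtain ⟨Q, a1, a2, a3⟩ := key c m
  · rw [a1]
    refine IsWeightedHomogeneous.add ?_ a2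
    by_cases z : coeff m ((cE s T B w).Φ c) = 0
    · rw [z, map_zero]; exact isWeightedHomogeneous_zero _ _ _
    · rw [lv c m z, Nat.sub_self]; exact isWeightedHomogeneous_C _ _
  · by_cases z : coeff m ((cE s T B w).Φ c) = 0
    · have := a3 fun y => mem_support_iff.1 hm (by rw [a1, z, y, map_zero, add_zero])
      exact ⟨this.1.le, this.2⟩
    · exact ⟨(lv c m z).le, (cE_stg h hB hs hw).wt c (mem_support_iff.2 z)⟩
  · rw [a1, of_not_not fun y : Q ≠ 0 => (a3 y).1.ne e, add_zero]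

theorem cT_tw0 (h : Tb T st M s) (hB : Bo B) (hw : 0 < w) :
    cT s T B w col W K (T.tw0 _) = (cE s T B w).tw0 _ := funext fun c => by
  rw [tw0_ok (cE_ok h hB hw), cT]
  rcases c with p | a
  · rw [Sum.elim_inl, tw0_ok h.ok, sub_self, eval₂_zero]; exact add_zero _
  · exact add_zero _

end Ca

theorem cola : COLA := fun _ _ _ _ _ _ _ _ _ h hB hs hw =>
  ⟨⟨Ca.cE_ok h hB hw, Ca.cE_stg h hB hs hw⟩, Ca.tb_bar h hB hs hw,
    fun _ _ _ _ _ => ⟨fun _ hΨ => Ca.adm_cT h hB hs hw hΨ, Ca.cT_tw0 h hB hw⟩⟩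

end Crest.Agent.N49.Sw

end
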