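import Crest.Agent.N49.Sw.Df2
import Crest.Agent.N49.Tw.Api

/-!
# Row 49 (helper19): the brackets on the words of a ring (clauses 2, 3, 6 of `COLW`)
-/

set_option autoImplicit false
set_option linter.unusedSectionVars false

open Matrix MvPolynomial Finset

noncomputable section

namespace Crest.Agent.N49.Sw.Cw1

open Po Tw Sd Tw.TS Tw.Sh

section sw
variable {σ τ : Type} [DecidableEq σ] [DecidableEq τ] {col : τ → σ} {μ : τ →₀ ℕ}

theorem md_apply (col : τ → σ) (μ : τ →₀ ℕ) (a : σ) :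
    μ.mapDomain col a = ∑ t ∈ μ.support, if col t = a then μ t else 0 := by
  rw [Finsupp.mapDomain, Finsupp.sum_apply, Finsupp.sum]
  exact sum_congr rfl fun t _ => Finsupp.single_apply

theorem le_md (col : τ → σ) (μ : τ →₀ ℕ) (t : τ) : μ t ≤ μ.mapDomain col (col t) := by
  by_cases k : μ t = 0
  · omega
  rw [md_apply]
  exact le_trans (by simp) (single_le_sum (f := fun b => if col b = col t then μ b else 0)
    (fun _ _ => Nat.zero_le _) (Finsupp.mem_support_iff.2 k))

theorem sw_apply (c : σ →₀ ℕ) (t : τ) : sw col μ c t = if c (col t) ≠ 0 then μ t else 0 :=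
  Finsupp.filter_apply _ _ _

theorem sw_zero : sw col μ 0 = 0 := Finsupp.ext fun t => by simp [sw_apply]

theorem sw_self : sw col μ (μ.mapDomain col) = μ := Finsupp.ext fun t => by
  have := le_md col μ t
  rw [sw_apply]; split_ifs <;> omega

theorem sw_le (c : σ →₀ ℕ) : sw col μ c ≤ μ := fun t => by rw [sw_apply]; split_ifs <;> omega

variable (hμ : ∀ a, μ.mapDomain col a ≤ 1)
include hμ

theorem sw_add {c c' : σ →₀ ℕ} (h : c + c' ≤ μ.mapDomain col) :
    sw col μ (c + c') = sw col μ c + sw col μ c' := Finsupp.ext fun t => by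
  have := (h (col t)).trans (hμ _)
  simp only [sw_apply, Finsupp.add_apply] at this ⊢
  by_cases a : c (col t) = 0 <;> by_cases b : c' (col t) = 0 <;> simp [a, b]; omega

theorem sw_col {c : σ →₀ ℕ} (h : c ≤ μ.mapDomain col) : (sw col μ c).mapDomain col = c :=
  Finsupp.ext fun a => by
    have e : (sw col μ c).mapDomain col a = if c a ≠ 0 then μ.mapDomain col a else 0 := by
      rw [md_apply, md_apply, sum_subset (Finsupp.support_mono (sw_le c)) fun t _ k => by
        rw [Finsupp.notMem_support_iff.1 k, ite_self]]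
      split_ifs with k
      · exact sum_congr rfl fun t _ => if_ctx_congr Iff.rfl
          (fun e => by rw [sw_apply, e, if_pos k]) fun _ => rfl
      · exact sum_eq_zero fun t _ => ite_eq_right_iff.2 fun e => by rw [sw_apply, e, if_neg k]
    have := h a
    have := hμ a
    rw [e]; split_ifs <;> omega

theorem sw_uniq {c c' : σ →₀ ℕ} (h : c + c' ≤ μ.mapDomain col) {ν ν' : τ →₀ ℕ}
    (e : ν + ν' = sw col μ (c + c')) (k : ν.mapDomain col = c) (k' : ν'.mapDomain col = c') :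
    ν = sw col μ c ∧ ν' = sw col μ c' := by
  have a : ∀ t, ν t = sw col μ c t ∧ ν' t = sw col μ c' t := fun t => by
    have h1 := (h (col t)).trans (hμ _)
    have h2 := DFunLike.congr_fun e t
    have h3 := k ▸ le_md col ν t
    have h4 := k' ▸ le_md col ν' t
    simp only [sw_apply, Finsupp.add_apply] at h1 h2 ⊢
    by_cases a : c (col t) = 0 <;> by_cases b : c' (col t) = 0 <;>
      simp only [a, b, ne_eq, not_true, not_false_eq_true, if_true, if_false, add_zero, zero_add,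
        Nat.add_eq_zero_iff, and_self] at h1 h2 h3 h4 ⊢ <;> omega
  exact ⟨Finsupp.ext fun t => (a t).1, Finsupp.ext fun t => (a t).2⟩

omit hμ in
/-- induction on monomials below a bound -/
theorem ind_le {V : Type} {wg : V → σ →₀ ℕ} {w0 : σ →₀ ℕ} {p : (V →₀ ℕ) → Prop} (h0 : p 0)
    (h1 : ∀ u, p (Finsupp.single u 1))
    (ha : ∀ m m', Finsupp.weight wg m + Finsupp.weight wg m' ≤ w0 → p m → p m' → p (m + m'))
    (m : V →₀ ℕ) (h : Finsupp.weight wg m ≤ w0) : p m := by
  have k : ∀ m m', Finsupp.weight wg (m + m') ≤ w0 → (Finsupp.weight wg m ≤ w0 → p m) →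
      (Finsupp.weight wg m' ≤ w0 → p m') → p (m + m') := fun m m' h a b => by
    rw [map_add] at h
    exact ha _ _ h (a (le_self_add.trans h)) (b (le_add_self.trans h))
  induction m using Finsupp.induction_linear with
  | zero => exact h0
  | add f g a b => exact k _ _ h a b
  | single u n =>
    induction n with
    | zero => rwa [Finsupp.single_zero]
    | succ n ih => rw [Finsupp.single_add] at h ⊢; exact k _ _ h ih fun _ => h1 u

/-- substitution of the sub-words keeps the homogeneity -/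
theorem hom_sw {V V' : Type} {wg : V → σ →₀ ℕ} {wg' : V' → τ →₀ ℕ} {Z : V → MvPolynomial V' ℝ}
    (hZ : ∀ u, (Z u).IsWeightedHomogeneous wg' (sw col μ (wg u))) {P : MvPolynomial V ℝ}
    (hP : P.IsWeightedHomogeneous wg (μ.mapDomain col)) :
    (aeval Z P).IsWeightedHomogeneous wg' μ := by
  rw [P.as_sum, map_sum]
  refine IsWeightedHomogeneous.sum _ _ _ fun m hm => ?_
  have e := hP (mem_support_iff.1 hm)
  have := ind_le (wg := wg) (p := fun m => (aeval Z (monomial m (1 : ℝ))).IsWeightedHomogeneous wg'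
    (sw col μ (Finsupp.weight wg m))) (by
      rw [map_zero, sw_zero, monomial_zero', C_1, map_one]; exact isWeightedHomogeneous_one _ _)
    (fun u => by rw [Finsupp.weight_single, one_smul, ← X, aeval_X]; exact hZ u)
    (fun m m' h a b => by
      rw [map_add, sw_add hμ h, ← one_mul (1 : ℝ), ← monomial_mul, map_mul]; exact a.mul b) m e.le
  rw [e, sw_self] at this
  rw [← mul_one (coeff m P), ← C_mul_monomial, map_mul, aeval_C]
  simpa using (isWeightedHomogeneous_C wg' (coeff m P)).mul this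

/-- **squarefree coefficients are values** -/
theorem coeff_sw {V : Type} {wg : V → σ →₀ ℕ} {Z : V → MvPolynomial τ ℝ}
    (hZ : ∀ u ν, coeff ν (Z u) ≠ 0 → ν.mapDomain col = wg u) {P : MvPolynomial V ℝ}
    (hP : P.IsWeightedHomogeneous wg (μ.mapDomain col)) :
    coeff μ (aeval Z P) = eval (fun u => coeff (sw col μ (wg u)) (Z u)) P := by
  conv_lhs => rw [P.as_sum, map_sum, coeff_sum]
  conv_rhs => rw [P.as_sum, map_sum]
  refine sum_congr rfl fun m hm => ?_
  have e := hP (mem_support_iff.1 hm)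
  have := ind_le (wg := wg) (p := fun m => (∀ ν, coeff ν (aeval Z (monomial m (1 : ℝ))) ≠ 0 →
      ν.mapDomain col = Finsupp.weight wg m) ∧ coeff (sw col μ (Finsupp.weight wg m))
      (aeval Z (monomial m (1 : ℝ))) = eval (fun u => coeff (sw col μ (wg u)) (Z u)) (monomial m 1))
    (by
      rw [map_zero, sw_zero, monomial_zero', C_1, map_one, map_one]
      refine ⟨fun ν k => ?_, by simp⟩
      rw [coeff_one] at k
      rw [← of_not_not fun z => k (if_neg z), Finsupp.mapDomain_zero])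
    (fun u => by rw [Finsupp.weight_single, one_smul, ← X, aeval_X, eval_X]; exact ⟨hZ u, rfl⟩)
    (fun m m' h a b => by
      rw [map_add, ← one_mul (1 : ℝ), ← monomial_mul, map_mul, map_mul, ← a.2, ← b.2]
      refine ⟨fun ν k => ?_, ?_⟩
      · rw [coeff_mul] at k
        obtain ⟨x, hx, k⟩ := exists_ne_zero_of_sum_ne_zero k
        rw [← mem_antidiagonal.1 hx, Finsupp.mapDomain_add, a.1 _ (left_ne_zero_of_mul k),
          b.1 _ (right_ne_zero_of_mul k)]
      · rw [coeff_mul, sum_eq_single (sw col μ (Finsupp.weight wg m), sw col μ (Finsupp.weight wg m'))]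
        · intro x hx n
          by_contra k
          have := sw_uniq hμ h (mem_antidiagonal.1 hx) (a.1 _ (left_ne_zero_of_mul k))
            (b.1 _ (right_ne_zero_of_mul k))
          exact n (Prod.ext this.1 this.2)
        · exact fun k => (k (mem_antidiagonal.2 (sw_add hμ h).symm)).elim) m e.le
  rw [e, sw_self] at this
  rw [← mul_one (coeff m P), ← C_mul_monomial, map_mul, map_mul, aeval_C, eval_C, ← this.2]
  exact coeff_C_mul _ _ _

end sw

section bo
variable {C σ τ : Type} [DecidableEq σ] [DecidableEq τ] {B : Bk (VV C σ) σ} {col : τ → σ}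
  {W : Finset (τ →₀ ℕ)}

theorem sq_x (h : Bo B) (x : (sp B col W).N) (a : σ) : x.1.2.1.mapDomain col a ≤ 1 := by
  rw [x.2]; exact h.sq _ _

theorem vars_sp {x : (sp B col W).N} {u : VV C τ ⊕ (sp B col W).N} (k : u ∈ ((sp B col W).Θ x).vars) :
    (∃ v, Sum.inl v ∈ (B.Θ x.1.1).vars ∧ u = .inl (v.1, sw col x.1.2.1 v.2)) ∨
      ∃ x' : (sp B col W).N, Sum.inr x'.1.1 ∈ (B.Θ x.1.1).vars ∧ u = .inr x' := by
  obtain ⟨v | a, hv, e⟩ := mem_vars_bind₁ _ _ k
  · exact .inl ⟨v, hv, mem_singleton.1 ((vars_X (R := ℝ)).subset e)⟩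
  · rw [Sum.elim_inr] at e
    split_ifs at e with h
    · exact .inr ⟨⟨(a, ⟨_, h.1⟩), h.2⟩, hv, mem_singleton.1 ((vars_X (R := ℝ)).subset e)⟩
    · exact absurd ((vars_0 (R := ℝ)).subset e) (notMem_empty _)

/-- clause 2 -/
theorem bo_sp (h : Bo B) : Bo (sp B col W) where
  ok := {
    ne := fun x => MW.ne x.1.2
    hom := fun x => hom_sw (sq_x h x) (wg := B.wg Prod.snd) (by
      rintro (v | a)
      · exact isWeightedHomogeneous_X _ _ _
      · rw [Sum.elim_inr]
        split_ifs with k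
        · exact isWeightedHomogeneous_X _ _ _
        · exact isWeightedHomogeneous_zero _ _ _) (x.2 ▸ h.ok.hom x.1.1)
    live := fun x c k => by
      obtain ⟨v, hv, e⟩ | ⟨_, -, e⟩ := vars_sp k
      · obtain rfl := Sum.inl.inj e
        intro z
        have := sw_col (sq_x h x) (c := v.2) (x.2 ▸ wt_le (h.ok.hom x.1.1) hv)
        exact h.ok.live _ _ hv (by rw [← this, show sw col x.1.2.1 v.2 = 0 from z,
          Finsupp.mapDomain_zero])
      · exact absurd e Sum.inl_ne_inr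
    tri := fun x x' k => by
      obtain ⟨v, -, e⟩ | ⟨_, hv, e⟩ := vars_sp k
      · exact absurd e Sum.inr_ne_inl
      · obtain rfl := Sum.inr.inj e
        exact h.ok.tri _ _ hv }
  sq x t := (le_md col x.1.2.1 t).trans (sq_x h x _)

/-- clause 3 -/
theorem kn_pd {K : Kn τ} {w : ℝ} (hw : 0 < w) (o : (MR col W K).Ok) : (KN B w col W K).PosDef := by
  have := ((PosDef.one.smul hw : (w • (1 : Matrix B.N B.N ℝ)).PosDef).kronecker o.pd).submatrix
    (e := fun x : (sp B col W).N => x.1) Subtype.val_injective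
  refine (Matrix.ext fun (x x' : (sp B col W).N) => ?_ : KN B w col W K = _) ▸ this
  change (if x.1.1 = x'.1.1 then w * K x.1.2.1 x'.1.2.1 else 0) =
    (w • (1 : Matrix B.N B.N ℝ)) x.1.1 x'.1.1 * K x.1.2.1 x'.1.2.1
  rw [Matrix.smul_apply, Matrix.one_apply]
  split_ifs <;> simp

end bo

section u
variable {σ τ : Type} [DecidableEq σ] [DecidableEq τ] {col : τ → σ} {W : Finset (τ →₀ ℕ)} {K : Kn τ}

theorem coeff_rzY (U : TS σ) (y : U.Cw (MR col W K) → ℝ) (F : U.C) (ν : τ →₀ ℕ) :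
    coeff ν (rz W ℝ (U.Yw (MR col W K) y F)) =
      ∑ q : U.Cw (MR col W K) with q.1.1 = F ∧ (q.1.2 : MW W).1 = ν, y q := by
  refine (congrArg (coeff ν) (map_sum _ _ _)).trans ((coeff_sum _ _ _).trans ?_)
  rw [← filter_filter, sum_filter (fun q : U.Cw (MR col W K) => (q.1.2 : MW W).1 = ν)]
  refine sum_congr rfl fun q _ => ?_
  refine (congrArg (fun P => coeff ν (rz W ℝ P)) (C_mul_X_eq_monomial (s := (q.1.2 : MW W)))).trans ?_
  refine (congrArg (coeff ν) ((rz_mon _ _).trans (congrArg (fun m => monomial m (y q))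
    ((Finsupp.weight_single _ _ _).trans (one_smul _ _))))).trans (coeff_monomial _ _ _)

theorem rzY_one (U : TS σ) (y : U.Cw (MR col W K) → ℝ) (q : U.Cw (MR col W K)) :
    coeff (q.1.2 : MW W).1 (rz W ℝ (U.Yw (MR col W K) y q.1.1)) = y q :=
  (coeff_rzY U y _ _).trans (sum_eq_single_of_mem q (mem_filter.2 ⟨mem_univ _, rfl, rfl⟩)
    fun _ hb n =>
      (n (Subtype.ext (Prod.ext (mem_filter.1 hb).2.1 (Subtype.ext (mem_filter.1 hb).2.2)))).elim)

theorem rzY_ne (U : TS σ) (y : U.Cw (MR col W K) → ℝ) (c : U.C) (ν : τ →₀ ℕ)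
    (k : coeff ν (rz W ℝ (U.Yw (MR col W K) y c)) ≠ 0) :
    ∃ q : U.Cw (MR col W K), q.1.1 = c ∧ (q.1.2 : MW W).1 = ν := by
  obtain ⟨q, hq, -⟩ := exists_ne_zero_of_sum_ne_zero ((coeff_rzY U y c ν).symm.trans_ne k)
  exact ⟨q, (mem_filter.1 hq).2⟩

theorem rz_ev (U : TS σ) (y : U.Cw (MR col W K) → ℝ) (P : MvPolynomial U.C ℝ) :
    rz W ℝ (eval (U.Yw (MR col W K) y) (MvPolynomial.map MvPolynomial.C P)) =
      aeval (fun c => rz W ℝ (U.Yw (MR col W K) y c)) P :=
  (congrArg (rz W ℝ) (eval_map _ _ _)).trans ((map_aeval (U.Yw (MR col W K) y)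
    (rz W ℝ).toRingHom P).trans (eval₂Hom_congr (RingHom.ext fun r => (rz W ℝ).commutes r) rfl rfl))

theorem aev_br {A D V R : Type} [CommRing R] [Algebra ℝ R] (Y : A ⊕ D → R)
    (g : V → MvPolynomial (A ⊕ D) ℝ) (a : D) (P : MvPolynomial (V ⊕ D) ℝ) :
    aeval Y (X (.inr a) - aeval (Sum.elim g fun a => X (.inr a)) P : MvPolynomial (A ⊕ D) ℝ) =
      Y (.inr a) - aeval (Sum.elim (fun v => aeval Y (g v)) fun a => Y (.inr a)) P := by
  rw [map_sub, aeval_X, ← AlgHom.comp_apply, comp_aeval]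
  refine congrArg (fun z => _ - aeval z P) (_root_.funext ?_)
  rintro (v | a)
  · rfl
  · exact aeval_X _ _

theorem mf {α : Type} {p : α → Prop} {d : DecidablePred p} {t : Finset α} {a : α} :
    a ∈ @filter _ p d t ↔ a ∈ t ∧ p a := mem_filter

theorem ev_ae {V V' : Type} (f : V → ℝ) (g : V → MvPolynomial V' ℝ) (z : V' → ℝ)
    (P : MvPolynomial V ℝ) (h : ∀ v ∈ P.vars, f v = eval z (g v)) : eval f P = eval z (aeval g P) :=
  Eq.trans (eval₂Hom_congr' rfl (fun v hv _ => h v hv) rfl) ((map_aeval g (eval z) P).trans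
    (eval₂Hom_congr (RingHom.ext fun r => eval_C r) rfl rfl)).symm

variable [Fintype σ] {s : ℕ} {T : TS Unit} {B : Bk (VV T.C σ) σ} {w : ℝ}

theorem ex_res {R : Type} [AddCommMonoid R] (y : (cE s T B w).Cw (MR col W K) → R) (F : T.C)
    (ν : τ →₀ ℕ) : ex T (MR (fun _ => ()) W K) id (res s T B w col W K y) (F, ν) =
      ex _ _ (fm s T B w) y (.inl F, ν) := by
  by_cases k : ∃ p : T.Cw (MR (fun _ => ()) W K), p.1.1 = F ∧ (p.1.2 : MW W).1 = ν
  · obtain ⟨p, rfl, rfl⟩ := k
    refine sum_eq_single_of_mem p (mem_filter.2 ⟨mem_univ _, rfl, rfl⟩) fun b hb n => ?_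
    exact (n (Subtype.ext (Prod.ext (mem_filter.1 hb).2.1 (Subtype.ext (mem_filter.1 hb).2.2)))).elim
  · refine (sum_eq_zero fun p hp => (k ⟨p, (mem_filter.1 hp).2⟩).elim).trans
      (sum_eq_zero fun q hq => (k ?_).elim).symm
    obtain ⟨⟨p | a, μ⟩, h⟩ := q
    · obtain ⟨e1, e2⟩ := (mem_filter.1 hq).2
      refine ⟨⟨(p.1.1, μ), unit_ext ?_⟩, Sum.inl.inj e1, e2⟩
      have a := congrArg Finsupp.degree h
      have b := congrArg Finsupp.degree p.2
      rw [Sh.cd_degree] at a b ⊢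
      exact a.trans b
    · exact absurd (mem_filter.1 hq).2.1 Sum.inr_ne_inl

/-- clause 6 -/
theorem u_br (h : Bo B) (Ψ : T.Twd (MR (fun _ => ()) W K)) (y : (cE s T B w).Cw (MR col W K) → ℝ)
    (x : (sp B col W).N) :
    ((cE s T B w).tw _ (cT s T B w col W K Ψ)).u y ⟨(.inr x.1.1, x.1.2), x.2⟩ =
      nw s T B w col W K y x - eval (Sum.elim (ex T _ id (res s T B w col W K y))
        (nw s T B w col W K y)) ((sp B col W).Θ x) := by
  let Y : T.Cw (FS σ s) ⊕ B.N → MvPolynomial τ ℝ := fun c =>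
    rz W ℝ ((cE s T B w).Yw (MR col W K) y c)
  have one : ∀ q : (cE s T B w).Cw (MR col W K), coeff (q.1.2 : MW W).1 (Y q.1.1) = y q :=
    rzY_one (cE s T B w) y
  have ne : ∀ (c : T.Cw (FS σ s) ⊕ B.N) ν, coeff ν (Y c) ≠ 0 → ∃ q : (cE s T B w).Cw (MR col W K),
      q.1.1 = c ∧ (q.1.2 : MW W).1 = ν := rzY_ne (cE s T B w) y
  let Z : VV T.C σ ⊕ B.N → MvPolynomial τ ℝ := Sum.elim
    (fun v => ∑ p : T.Cw (FS σ s) with p.1.1 = v.1 ∧ p.1.2.1 = v.2, Y (.inl p)) fun a => Y (.inr a)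
  have e1 : rz W ℝ (eval ((cE s T B w).Yw (MR col W K) y) (cT s T B w col W K Ψ (.inr x.1.1))) =
      Y (.inr x.1.1) - aeval Z (B.Θ x.1.1) := by
    have c : cT s T B w col W K Ψ (.inr x.1.1) =
        MvPolynomial.map MvPolynomial.C ((cE s T B w).Φ (.inr x.1.1)) := add_zero _
    rw [c, rz_ev]
    refine (aev_br Y (vp s T B) x.1.1 (B.Θ x.1.1)).trans ?_
    refine congrArg (fun z => _ - aeval (Sum.elim z _) (B.Θ x.1.1)) (_root_.funext fun v => ?_)
    exact (map_sum _ _ _).trans (sum_congr rfl fun p _ => aeval_X _ _)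
  refine (tw_u y _).trans ((cf_rz x.1.2 _).trans ((congrArg (coeff _) e1).trans ?_))
  rw [coeff_sub]
  refine congrArg₂ _ (one ⟨(.inr x.1.1, x.1.2), x.2⟩) ?_
  rw [coeff_sw (sq_x h x) (wg := B.wg Prod.snd) ?_ (x.2 ▸ h.ok.hom x.1.1)]
  · refine ev_ae _ _ _ (B.Θ x.1.1) ?_
    rintro (v | a) hv
    · have c := sw_col (sq_x h x) (c := v.2) (x.2 ▸ wt_le (h.ok.hom x.1.1) hv)
      refine Eq.trans ?_ ((eval_X (Sum.inl (v.1, sw col x.1.2.1 v.2))).trans
        (ex_res y v.1 (sw col x.1.2.1 v.2))).symm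
      change coeff (sw col x.1.2.1 v.2) (∑ p : T.Cw (FS σ s) with p.1.1 = v.1 ∧ p.1.2.1 = v.2,
        Y (.inl p)) = _
      refine (coeff_sum _ _ _).trans ((sum_congr rfl fun p _ =>
        coeff_rzY (cE s T B w) y (.inl p) _).trans ?_)
      refine (sum_sigma' _ _ _).trans (sum_bij (fun z _ => z.2) (fun z hz => ?_) (fun z hz z' hz' e => ?_)
        (fun q hq => ?_) fun _ _ => rfl)
      · obtain ⟨a1, a2⟩ := mem_sigma.1 hz
        refine mf.2 ⟨mem_univ _, ?_, (mf.1 a2).2.2⟩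
        rw [(mf.1 a2).2.1]
        exact congrArg Sum.inl (mf.1 a1).2.1
      · have a1 := (mf.1 (mem_sigma.1 hz).2).2.1
        have a2 := (mf.1 (mem_sigma.1 hz').2).2.1
        exact Sigma.ext (Sum.inl.inj (a1.symm.trans ((congrArg (·.1.1) e).trans a2))) (heq_of_eq e)
      · obtain ⟨⟨p | a, μ⟩, k⟩ := q
        · obtain ⟨a1, a2⟩ := (mf.1 hq).2
          refine ⟨⟨p, _⟩, mem_sigma.2 ⟨mf.2 ⟨mem_univ _, Sum.inl.inj a1, ?_⟩,
            mf.2 ⟨mem_univ _, rfl, a2⟩⟩, rfl⟩
          exact k.symm.trans ((congrArg (Finsupp.mapDomain col) a2).trans c)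
        · exact absurd (mf.1 hq).2.1 Sum.inr_ne_inl
    · change coeff (sw col x.1.2.1 (B.wd a)) (Y (.inr a)) = eval _ (dite _ _ _)
      by_cases k : sw col x.1.2.1 (B.wd a) ∈ W.erase 0 ∧
        (sw col x.1.2.1 (B.wd a)).mapDomain col = B.wd a
      · exact (one ⟨(.inr a, ⟨_, k.1⟩), k.2⟩).trans ((congrArg (eval _) (dif_pos k)).trans
          (eval_X _)).symm
      · refine Eq.trans (of_not_not fun z => k ?_) ((congrArg (eval _) (dif_neg k)).trans
          (map_zero _)).symm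
        obtain ⟨⟨⟨c, μ⟩, e⟩, rfl, e2⟩ := ne _ _ z
        exact e2 ▸ ⟨μ.2, e⟩
  · rintro (v | a) ν k
    · obtain ⟨p, hp, k⟩ := exists_ne_zero_of_sum_ne_zero ((coeff_sum _ _ _).symm.trans_ne k)
      obtain ⟨⟨⟨c, μ⟩, e⟩, rfl, rfl⟩ := ne _ _ k
      exact e.trans (mem_filter.1 hp).2.2
    · obtain ⟨⟨⟨c, μ⟩, e⟩, rfl, rfl⟩ := ne _ _ k
      exact e

end u

end Crest.Agent.N49.Sw.Cw1

end
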