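import Crest.Agent.N49.Sw.Colw0

/-!
# Row 49 (helper57): the weight and the continuous partition function of the coloured tower
-/

set_option autoImplicit false
set_option linter.unusedSectionVars false

open Matrix MvPolynomial Finset

noncomputable section

namespace Crest.Agent.N49.Sw.Cw0

open Po Tw Sd

theorem det_rk {N : Type} [Fintype N] [DecidableEq N] {M : Matrix N N ℝ} (rk : N → ℕ)
    (h : ∀ a a', rk a ≤ rk a' → M a a' = (1 : Matrix N N ℝ) a a') : M.det = 1 := by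
  have t : M.BlockTriangular (OrderDual.toDual ∘ rk) := fun i j k => by
    have k' : rk i < rk j := k
    rw [h i j k'.le, one_apply_ne fun e => k'.ne (congrArg rk e)]
  rw [t.det]
  refine prod_eq_one fun b _ => ?_
  rw [show M.toSquareBlock (OrderDual.toDual ∘ rk) b = 1 from Matrix.ext fun i j => ?_, det_one]
  have e : rk i.1 = rk j.1 := OrderDual.toDual.injective (i.2.trans j.2.symm)
  rw [toSquareBlock_def, of_apply, h _ _ e.le, one_apply, one_apply]
  exact if_congr Subtype.ext_iff.symm rfl rfl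

theorem Zc_eq {σ : Type} (V : TS σ) : V.Zc = √(V.K.det * V.A.det⁻¹ ^ 2) := by
  rw [TS.Zc, dt_inv, dt, inv_inv, TS.D, det_mul, det_mul, det_transpose, det_nonsing_inv,
    Ring.inverse_eq_inv']
  congr 1; ring

variable {σ τ : Type} [Fintype σ] [DecidableEq σ] [DecidableEq τ] {s : ℕ} {T : TS Unit}
  {B : Bk (VV T.C σ) σ} {w : ℝ} {col : τ → σ} {W : Finset (τ →₀ ℕ)} {K : Kn τ}

theorem fs_ok : (FS σ s).Ok :=
  Sh.mono_ok dn_full (by rw [fs_K]; exact PosDef.one) (fun μ _ ν _ z => by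
    by_cases e : μ = ν
    · rw [e]
    · exact absurd (if_neg e) z)

theorem not_vars (o : B.Tri) {a a' : B.N} (k : B.rk a ≤ B.rk a') :
    (Sum.inr a' : T.Cw (FS σ s) ⊕ B.N) ∉
      (aeval (Sum.elim (vp s T B) fun a => X (.inr a)) (B.Θ a) : MvPolynomial _ ℝ).vars := by
  intro z
  obtain ⟨v | b, hv, z⟩ := mem_vars_bind₁ _ _ z
  · obtain ⟨p, -, z⟩ := mem_biUnion.1 (vars_sum_subset _ _ z)
    rw [vars_X, mem_singleton] at z
    exact Sum.inr_ne_inl z
  · change _ ∈ (X (Sum.inr b) : MvPolynomial (T.Cw (FS σ s) ⊕ B.N) ℝ).vars at z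
    rw [vars_X, mem_singleton] at z
    obtain rfl : a' = b := Sum.inr_injective z
    exact absurd (o a a' hv) k.not_gt

/-- the linear part of the coloured tower -/
theorem cE_A (o : B.Tri) : ∃ (X : Matrix B.N (T.Cw (FS σ s)) ℝ) (M2 : Matrix B.N B.N ℝ),
    (cE s T B w).A = fromBlocks (T.kw (FS σ s) T.A 1) 0 X M2 ∧
      ∀ a a', B.rk a ≤ B.rk a' → M2 a a' = (1 : Matrix B.N B.N ℝ) a a' := by
  refine ⟨Matrix.of fun a p => (cE s T B w).A (.inr a) (.inl p),
    Matrix.of fun a a' => (cE s T B w).A (.inr a) (.inr a'), ?_, fun a a' k => ?_⟩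
  · refine Matrix.ext (m := T.Cw (FS σ s) ⊕ B.N) (n := T.Cw (FS σ s) ⊕ B.N) ?_
    rintro (p | a) (p' | a')
    · rw [← TS.sh_A' fs_ok]
      refine if_congr Iff.rfl ?_ rfl
      have := coeff_rename_mapDomain (Sum.inl : _ → T.Cw (FS σ s) ⊕ B.N) Sum.inl_injective
        ((T.sh (FS σ s)).Φ p) (Finsupp.single p' 1)
      rw [Finsupp.mapDomain_single] at this
      exact this
    · refine ite_eq_right_iff.2 fun _ => coeff_rename_eq_zero _ _ _ fun u e => ?_
      have := DFunLike.congr_fun e (.inr a')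
      exact absurd (((Finsupp.mapDomain_of_notMem_range u _ (by
        rintro ⟨c, z⟩; exact Sum.inl_ne_inr z)).symm.trans this).trans Finsupp.single_eq_same)
        zero_ne_one
    · rfl
    · rfl
  · have z : coeff (Finsupp.single (Sum.inr a' : T.Cw (FS σ s) ⊕ B.N) 1)
        (aeval (Sum.elim (vp s T B) fun a => X (.inr a)) (B.Θ a) : MvPolynomial _ ℝ) = 0 := by
      by_contra z
      exact not_vars o k ((mem_vars_iff_mem_support _).2 ⟨_, mem_support_iff.2 z, by simp⟩)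
    change (if (B.wd a).degree = (B.wd a').degree then
      coeff (Finsupp.single (Sum.inr a' : T.Cw (FS σ s) ⊕ B.N) 1) (X (.inr a) -
        aeval (Sum.elim (vp s T B) fun a => X (.inr a)) (B.Θ a) : MvPolynomial _ ℝ) else 0) = _
    rw [coeff_sub, z, sub_zero, coeff_X, one_apply]
    by_cases e : a = a'
    · simp [e]
    · simp [e, Finsupp.single_left_inj]

variable (h : ∀ F, T.lev F ≤ s) {Ψ' : (cE s T B w).Twd (MR col W K)}
  {Ψ : T.Twd (MR (fun _ => ()) W K)}
include h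

theorem det_A (o : (MR col W K).Ok) (o0 : (MR (fun _ => ()) W K).Ok) (b : B.Tri) {st st'}
    (a' : (cE s T B w).Adm _ st' Ψ') (a : T.Adm _ st Ψ) :
    ((cE s T B w).tw _ Ψ').A.det = (T.tw _ Ψ).A.det := by
  obtain ⟨X, M2, e, k⟩ := cE_A (s := s) (w := w) b
  rw [TS.tw_A a' o, TS.tw_A a o0, e]
  refine (det_submatrix_equiv_self (eqv B w col W K h) _).symm.trans ?_
  refine (congrArg det (Matrix.ext (kw_eqv (col := col) h T.A X M2 1 (TS.one_cd (S := MR col W K))))).trans ?_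
  rw [det_fromBlocks_zero₁₂, det_rk (fun x : (sp B col W).N => B.rk x.1.1) fun x x' l => ?_,
    mul_one]
  · rfl
  rw [of_apply, k _ _ l]
  refine (ite_zero_mul_ite_zero _ _ _ _).trans ?_
  rw [mul_one]
  exact if_congr (Subtype.ext_iff.trans Prod.ext_iff).symm rfl rfl

/-- clause 8 -/
theorem zc8 (o : (MR col W K).Ok) (o0 : (MR (fun _ => ()) W K).Ok) (b : B.Tri) {st st'}
    (a' : (cE s T B w).Adm _ st' Ψ') (a : T.Adm _ st Ψ) (pd : (KN B w col W K).PosDef) :
    ((cE s T B w).tw _ Ψ').Zc = (T.tw _ Ψ).Zc * √(KN B w col W K).det := by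
  have e : ((cE s T B w).tw _ Ψ').K.det = (T.tw _ Ψ).K.det * (KN B w col W K).det :=
    (det_submatrix_equiv_self (eqv B w col W K h) _).symm.trans
      ((congrArg det (Matrix.ext (K_eqv h o Ψ' Ψ))).trans (det_fromBlocks_zero₁₂ _ _ _))
  rw [Zc_eq, Zc_eq, det_A h o o0 b a' a, e, ← Real.sqrt_mul' _ pd.det_pos.le]
  congr 1; ring

/-- clause 7 from clause 5 -/
theorem wt7 (o : (MR col W K).Ok) (t : T.K.PosDef) (pd : (KN B w col W K).PosDef)
    (h5 : ∀ (y : (cE s T B w).Cw (MR col W K) → ℝ) (p : T.Cw (FS σ s)) (μ : Sh.MW W) h h',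
      ((cE s T B w).tw _ Ψ').u y ⟨(.inl p, μ), h⟩ =
        (T.tw _ Ψ).u (res s T B w col W K y) ⟨(p.1.1, μ), h'⟩)
    (y : (cE s T B w).Cw (MR col W K) → ℤ) : ((cE s T B w).tw _ Ψ').wt y =
    (T.tw _ Ψ).wt (res s T B w col W K y) * gs (KN B w col W K)⁻¹ fun x =>
      ((cE s T B w).tw _ Ψ').u (zc y) ⟨(.inr x.1.1, x.1.2), x.2⟩ := by
  have d0 : (T.tw _ Ψ).K.det ≠ 0 := (TS.kw_posDef (S := MR (fun _ => ()) W K) t o.pd).det_pos.ne'
  have q := qf_blocks (inv_blocks (K_eqv h o Ψ' Ψ) d0 pd.det_pos.ne')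
    (((cE s T B w).tw _ Ψ').u (zc y))
  have u : (fun p => ((cE s T B w).tw _ Ψ').u (zc y) (eqv B w col W K h (.inl p))) =
      (T.tw _ Ψ).u (zc (res s T B w col W K y)) :=
    funext fun p => (h5 (zc y) (cp col h p) p.1.2 rfl p.2).trans (by rw [zc_res]; rfl)
  unfold TS.wt gs
  rw [← Real.exp_add]
  refine congrArg Real.exp ((congrArg (fun x => -(Real.pi * x)) q).trans ?_)
  rw [← u, mul_add, neg_add]
  rfl

end Crest.Agent.N49.Sw.Cw0

end
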