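import Crest.Agent.N49.Sw.Cwk
import Crest.Agent.N49.Sw.Cola
import Crest.Agent.N49.Sw.Colw1
import Crest.Agent.N49.Sw.Colw2

/-!
# Row 49 (helper5): the law of the coloured tower (`COLW`)
-/

set_option autoImplicit false
set_option linter.unusedSectionVars false

open Matrix MvPolynomial Finset

noncomputable section

namespace Crest.Agent.N49.Sw

open Po Tw Sd

namespace Cw

theorem u_ae {σ : Type} (V : TS σ) (y : V.C → ℝ) (c : V.C) : V.u y c = aeval y (V.Φ c) := rfl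

variable {σ τ : Type} [Fintype σ] [DecidableEq σ] [DecidableEq τ] {s : ℕ} {T : TS Unit}
  {B : Bk (VV T.C σ) σ} {w : ℝ} {col : τ → σ} {W : Finset (τ →₀ ℕ)} {K : Kn τ}
  (h : ∀ F, T.lev F ≤ s)
include h

/-- the coloured parts of a family add up to the family -/
theorem fib (y : (cE s T B w).Cw (MR col W K) → ℝ) (G : T.C) :
    ∑ q : T.Cw (FS σ s) with q.1.1 = G, Py (cE s T B w) col W K y (.inl q) =
      Py T (fun _ => ()) W K (res s T B w col W K y) G := by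
  refine Eq.trans (sum_congr rfl fun q m => ?_)
    (sum_fiberwise_of_maps_to (g := Cw0.cp col h) (fun p m => ?_) _)
  · refine (sum_bij (fun p _ => Cw0.eqv B w col W K h (.inl p)) (fun p m => ?_)
      (fun p _ p' _ e => Sum.inl.inj ((Cw0.eqv B w col W K h).injective e)) (fun r m' => ?_)
      fun p _ => by rw [Cw0.res_eq h]; rfl).symm
    · exact Cw1.mf.2 ⟨mem_univ _, congrArg Sum.inl (Cw1.mf.1 m).2⟩
    · obtain ⟨⟨c, μ⟩, e⟩ := r
      obtain rfl : c = .inl q := (Cw1.mf.1 m').2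
      exact ⟨⟨(q.1.1, μ), Cw0.old q μ e⟩, Cw1.mf.2 ⟨Cw1.mf.2 ⟨mem_univ _, (Cw1.mf.1 m).2⟩,
        Subtype.ext (Prod.ext rfl (Subtype.ext e))⟩, Cw0.eqv_old h q μ e _⟩
  · exact Cw1.mf.2 ⟨mem_univ _, (Cw1.mf.1 m).2⟩

omit h in
theorem ct_ev (Ψ : T.Twd (MR (fun _ => ()) W K)) (p : T.Cw (FS σ s))
    (Y : T.Cw (FS σ s) ⊕ B.N → MvPolynomial τ ℝ) (Y0 : T.C → MvPolynomial τ ℝ)
    (k : ∀ G, ∑ q : T.Cw (FS σ s) with q.1.1 = G, Y (.inl q) = Y0 G) :
    eval₂Hom (ρ ℝ W) Y (cT s T B w col W K Ψ (.inl p)) =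
      aeval (Y ∘ .inl) ((T.sh (FS σ s)).Φ p) +
        (eval₂Hom (ρ ℝ W) Y0 (Ψ p.1.1) - aeval Y0 (T.Φ p.1.1)) := by
  refine (map_add _ _ _).trans (congrArg₂ (· + ·) ((ev_map _ _).trans (aeval_rename _ _ _)) ?_)
  refine (ev_sub Y _ _).trans ?_
  rw [← ev_map (W := W) Y0, ← map_sub]
  refine congrArg (fun Z => eval₂Hom (ρ ℝ W) Z _) (funext fun G => ?_)
  exact (map_sum _ _ _).trans ((sum_congr rfl fun q _ => eval₂Hom_X' _ _ _).trans (k G))

theorem py_γ (y : (cE s T B w).Cw (MR col W K) → ℝ) (G : T.C) :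
    Py T (fun _ => ()) (full σ s) (dk fun _ => 1) (Py (cE s T B w) col W K y ∘ .inl) G =
      γ col (Py T (fun _ => ()) W K (res s T B w col W K y) G) :=
  Eq.symm ((congrArg (γ col) (fib h y G).symm).trans
    ((map_sum _ _ _).trans (sum_congr rfl fun q _ => γ_py y (.inl q))))

theorem sh_γ (o : T.Ok) (y : (cE s T B w).Cw (MR col W K) → ℝ) (p : T.Cw (FS σ s)) {μ : τ →₀ ℕ}
    (e : μ.mapDomain col = p.1.2.1) :
    coeff μ (aeval (Py (cE s T B w) col W K y ∘ .inl) ((T.sh (FS σ s)).Φ p)) =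
      coeff μ (aeval (Py T (fun _ => ()) W K (res s T B w col W K y)) (T.Φ p.1.1)) := by
  refine (congrArg (coeff μ) (sh_co o _ p)).trans ?_
  rw [funext (py_γ h y), ← e, ← γ_co (col := col) μ (aeval _ _)]
  exact congrArg (fun Q => coeff μ (coeff _ Q)) (comp_aeval_apply _ (γ col) _).symm

/-- clause 5 -/
theorem u_old (o : T.Ok) (Ψ : T.Twd (MR (fun _ => ()) W K))
    (y : (cE s T B w).Cw (MR col W K) → ℝ) (p : T.Cw (FS σ s)) (μ : Sh.MW W) (e e') :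
    ((cE s T B w).tw _ (cT s T B w col W K Ψ)).u y ⟨(.inl p, μ), e⟩ =
      (T.tw _ Ψ).u (res s T B w col W K y) ⟨(p.1.1, μ), e'⟩ := by
  refine (u_ae _ _ _).trans ((tw_co _ _ _).trans
    (Eq.trans ?_ ((u_ae _ _ _).trans (tw_co _ _ _)).symm))
  refine (congrArg (coeff μ.1) (ct_ev Ψ p _ _ (fib h y))).trans ?_
  rw [coeff_add, coeff_sub]
  exact (congrArg (· + _) (sh_γ h o y p e)).trans (add_sub_cancel _ _)

end Cw

/-- **the law of the coloured tower** -/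
theorem colw : COLW := fun σ τ _ _ _ s M T st B w col W K Ψ h hB hs hw d o a =>
  have pd := Cw1.kn_pd (B := B) hw o
  have o0 := Cw0.ok0 d o
  ⟨o0, Cw1.bo_sp hB, pd, Cw0.bij h.lev, Cw.u_old h.lev h.ok Ψ, Cw1.u_br hB Ψ,
    Cw0.wt7 h.lev o h.ok.pd pd (Cw.u_old h.lev h.ok Ψ),
    Cw0.zc8 h.lev o o0 hB.ok.tri (((cola σ s M T st B w h hB hs hw).2.2 τ col W K).1 Ψ a) a pd⟩

end Crest.Agent.N49.Sw

end
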