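import Crest.Agent.N49.Sw.Df2
import Crest.Agent.N49.Tw.Sa

/-!
# Row 49 (helper17): the diagonal identity `DIAG`
-/

set_option autoImplicit false
set_option linter.unusedSectionVars false

open Matrix MvPolynomial Finset

noncomputable section

namespace Crest.Agent.N49.Sw

open Po Tw Sd

namespace Dg

section cg
variable {τ C : Type} [DecidableEq τ]

/-- congruence below the word `w` -/
def Cg (w : τ →₀ ℕ) (Q Q' : MvPolynomial τ ℝ) : Prop := ∀ ν ≤ w, coeff ν Q = coeff ν Q'

theorem Cg.mul {w : τ →₀ ℕ} {P P' Q Q' : MvPolynomial τ ℝ} (h : Cg w P P') (h' : Cg w Q Q') :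
    Cg w (P * Q) (P' * Q') := fun ν hν => by
  rw [coeff_mul, coeff_mul]
  refine sum_congr rfl fun x hx => ?_
  rw [HasAntidiagonal.mem_antidiagonal] at hx
  rw [h _ ((hx ▸ le_self_add).trans hν), h' _ ((hx ▸ le_add_self).trans hν)]

theorem Cg.aeval {w : τ →₀ ℕ} {Y Y' : C → MvPolynomial τ ℝ} (h : ∀ F, Cg w (Y F) (Y' F))
    (P : MvPolynomial C ℝ) : Cg w (aeval Y P) (aeval Y' P) := by
  induction P using MvPolynomial.induction_on with
  | C a => intro ν _; simp
  | add p q hp hq => intro ν hν; simp only [map_add, coeff_add, hp ν hν, hq ν hν]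
  | mul_X p n hp => simpa using hp.mul (h n)

theorem cf_Y {w ν : τ →₀ ℕ} (z : (τ →₀ ℕ) → ℝ) (h : ν ≤ w) :
    coeff ν (∑ μ ∈ Iic w, (monomial μ (z μ) : MvPolynomial τ ℝ)) = z ν := by
  simp [coeff_sum, coeff_monomial, h]

theorem sv_eq (P : MvPolynomial C ℝ) {w : τ →₀ ℕ} {z : VV C τ → ℝ} {Y : C → MvPolynomial τ ℝ}
    (h : ∀ F, ∀ ν ≤ w, coeff ν (Y F) = z (F, ν)) : sv P w z = coeff w (aeval Y P) :=
  Cg.aeval (fun F ν hν => by rw [cf_Y (fun μ => z (F, μ)) hν, h F ν hν]) P w le_rfl

theorem eval_aeval {V V' : Type} (z : V' → ℝ) (g : V → MvPolynomial V' ℝ) (P : MvPolynomial V ℝ) :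
    eval z (aeval g P) = eval (fun v => eval z (g v)) P := by
  induction P using MvPolynomial.induction_on <;> simp [*, -aeval_eq_bind₁]
end cg

section col
variable {σ τ : Type} [DecidableEq σ] [DecidableEq τ]

theorem md_filter (col : τ → σ) (p : σ → Prop) [DecidablePred p] (μ : τ →₀ ℕ) :
    (μ.filter fun t => p (col t)).mapDomain col = (μ.mapDomain col).filter p := by
  induction μ using Finsupp.induction_linear with
  | zero => simp [Finsupp.filter_zero]
  | add f g hf hg => rw [Finsupp.filter_add, Finsupp.mapDomain_add, Finsupp.mapDomain_add,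
      Finsupp.filter_add, hf, hg]
  | single a b =>
    by_cases h : p (col a)
    · simp [Finsupp.filter_single_of_pos, h]
    · simp [Finsupp.filter_single_of_neg, h]

theorem inj_of {col : τ → σ} {μ : τ →₀ ℕ} (h : ∀ t, μ.mapDomain col t ≤ 1) :
    Set.InjOn col μ.support := by
  intro t ht t' ht' e
  by_contra n
  have a : Finsupp.single t 1 + Finsupp.single t' 1 ≤ μ := fun s => by
    have := Finsupp.mem_support_iff.1 ht
    have := Finsupp.mem_support_iff.1 ht'
    simp only [Finsupp.add_apply, Finsupp.single_apply]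
    split_ifs <;> subst_vars <;> first | omega | exact (n rfl).elim
  have := (Finsupp.mapDomain_mono (f := col) a (col t)).trans (h _)
  simp [Finsupp.mapDomain_add, e] at this

theorem cf_rename {col : τ → σ} {S : Set τ} (hS : Set.InjOn col S) {Q : MvPolynomial τ ℝ}
    (hQ : Q ∈ supported ℝ S) {ν : τ →₀ ℕ} (hν : (ν.support : Set τ) ⊆ S) :
    coeff (ν.mapDomain col) (rename col Q) = coeff ν Q := by
  conv_lhs => rw [Q.as_sum]
  conv_rhs => rw [Q.as_sum]
  simp only [map_sum, rename_monomial, coeff_sum, coeff_monomial]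
  refine sum_congr rfl fun m hm => if_congr ⟨fun e => Finsupp.mapDomain_injOn S hS
    (fun t ht => mem_supported.1 hQ ((mem_vars_iff_mem_support t).2 ⟨m, hm, ht⟩)) hν e,
    fun e => by rw [e]⟩ rfl rfl

theorem part3 {C : Type} (col : τ → σ) (P : MvPolynomial C ℝ) (μ : τ →₀ ℕ) (z : VV C τ → ℝ)
    (h : ∀ t, μ.mapDomain col t ≤ 1) :
    sv P μ z = sv P (μ.mapDomain col) fun v => z (v.1, sw col μ v.2) := by
  have hY : ∀ F, (∑ ν ∈ Iic μ, (monomial ν (z (F, ν)) : MvPolynomial τ ℝ)) ∈
      supported ℝ (μ.support : Set τ) := fun F => sum_mem fun ν hν => mem_supported.2 fun t ht => by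
    obtain ⟨m, hm, k⟩ := (mem_vars_iff_mem_support t).1 ht
    rw [mem_singleton.1 (support_monomial_subset hm)] at k
    exact Finsupp.support_mono (mem_Iic.1 hν) k
  have hP : aeval (fun F => ∑ ν ∈ Iic μ, (monomial ν (z (F, ν)) : MvPolynomial τ ℝ)) P ∈
      supported ℝ (μ.support : Set τ) := by
    induction P using MvPolynomial.induction_on with
    | C a => rw [aeval_C]; exact algebraMap_mem _ _
    | add p q hp hq => rw [map_add]; exact add_mem hp hq
    | mul_X p n hp => rw [map_mul, aeval_X]; exact mul_mem hp (hY n)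
  rw [sv, ← cf_rename (inj_of h) hP subset_rfl, comp_aeval_apply]
  refine (sv_eq P fun F ν hν => ?_).symm
  have l : sw col μ ν ≤ μ := fun t => by simp only [sw, Finsupp.filter_apply]; split_ifs <;> simp
  have e : (sw col μ ν).mapDomain col = ν := by
    rw [sw, md_filter col (fun s => ν s ≠ 0)]
    ext s
    have := hν s
    have := h s
    rw [Finsupp.filter_apply]; split_ifs <;> omega
  conv_lhs => rw [← e]
  rw [cf_rename (inj_of h) (hY F) (Finsupp.support_mono l), cf_Y (fun ν => z (F, ν)) l]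

theorem cf_MR (S : Sh σ τ)
    (hr : ∀ w m, S.r w m = if Finsupp.weight S.ty m = S.ty w then 1 else 0) (w : S.W)
    (Q : MvPolynomial S.W ℝ) : S.cf ℝ w Q =
      coeff (S.ty w) (aeval (fun w' => (monomial (S.ty w') 1 : MvPolynomial τ ℝ)) Q) := by
  induction Q using MvPolynomial.induction_on' with
  | add p q hp hq => simp only [map_add, coeff_add, hp, hq]
  | monomial m a =>
    have : (m.prod fun i k => (monomial (S.ty i) 1 : MvPolynomial τ ℝ) ^ k) =
        monomial (Finsupp.weight S.ty m) 1 := by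
      simp only [monomial_pow, one_pow, Finsupp.weight_apply, Finsupp.prod, Finsupp.sum]
      rw [monomial_sum_one]
    rw [Sh.cf_monomial, aeval_monomial, this, algebraMap_eq, coeff_C_mul, coeff_monomial, hr]
    split_ifs <;> simp

theorem part2 (T : TS σ) (S : Sh σ τ)
    (hr : ∀ w m, S.r w m = if Finsupp.weight S.ty m = S.ty w then 1 else 0)
    (ξ : T.Cw S → ℝ) (p : T.Cw S) (h : T.Ok) :
    (T.sh S).u ξ p = sv (T.Φ p.1.1) (S.ty p.1.2) (ex T S id ξ) := by
  have e : ∀ (e : MvPolynomial S.W ℝ) y F, T.hz e y F = aeval y (T.Φ F) := fun e y F => by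
    conv_rhs => rw [(T.Φ F).as_sum, map_sum]
    refine sum_congr rfl fun m hm => ?_
    have : Finsupp.weight T.lev m = T.lev F := by
      rw [TS.lev, ← h.hom F (mem_support_iff.1 hm)]
      simp only [Finsupp.weight_apply, Finsupp.sum, map_sum, map_nsmul]; rfl
    rw [this, Nat.sub_self, pow_zero, one_mul]
  rw [TS.sh_u, e, cf_MR S hr, comp_aeval_apply]
  refine (sv_eq _ fun F ν _ => ?_).symm
  simp only [TS.Yw, map_sum, map_mul, aeval_C, aeval_X, coeff_sum, algebraMap_eq, coeff_C_mul,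
    coeff_monomial, ex, sum_filter]
  refine sum_congr rfl fun q _ => ?_
  by_cases a : q.1.1 = F <;> by_cases b : S.ty q.1.2 = ν <;> simp [a, b, coeff_monomial]
end col

section fn
variable {σ : Type} [Fintype σ] [DecidableEq σ]

/-- maps that move only the letters of `w` -/
def Fn (w : σ →₀ ℕ) : Finset (σ → σ) := univ.filter fun f => ∀ t, w t = 0 → f t = t
theorem mem_Fn {w : σ →₀ ℕ} {f : σ → σ} : f ∈ Fn w ↔ ∀ t, w t = 0 → f t = t := by simp [Fn]

/-- generating polynomials -/
def SS (w : σ →₀ ℕ) (g : (σ → σ) → ℝ) : MvPolynomial σ ℝ :=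
  ∑ f ∈ Fn w, monomial (w.mapDomain f) (g f)
/-- functions of the restriction to the letters of `w` -/
def Dep (w : σ →₀ ℕ) (g : (σ → σ) → ℝ) : Prop :=
  ∀ f f', (∀ t, w t ≠ 0 → f t = f' t) → g f = g f'

theorem cf_SS (w μ : σ →₀ ℕ) (g : (σ → σ) → ℝ) :
    coeff μ (SS w g) = ∑ f ∈ Fn w with w.mapDomain f = μ, g f := by
  simp [SS, coeff_sum, coeff_monomial, sum_filter]

omit [Fintype σ] [DecidableEq σ] in
theorem md_cg {w : σ →₀ ℕ} {f f' : σ → σ} (h : ∀ t, w t ≠ 0 → f t = f' t) :
    w.mapDomain f = w.mapDomain f' :=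
  Finsupp.mapDomain_congr fun t ht => h t (Finsupp.mem_support_iff.1 ht)

theorem SS_zero (g : (σ → σ) → ℝ) : SS 0 g = C (g id) := by
  have : Fn (0 : σ →₀ ℕ) = {id} := by
    ext f; simp [mem_Fn, funext_iff]
  simp [SS, this]

theorem SS_mul {w w' : σ →₀ ℕ} {g g' : (σ → σ) → ℝ} (d : ∀ t, w t = 0 ∨ w' t = 0)
    (h : Dep w g) (h' : Dep w' g') : SS w g * SS w' g' = SS (w + w') fun f => g f * g' f := by
  rw [SS, SS, SS, sum_mul_sum, ← sum_product']
  refine sum_nbij' (fun p t => if w t = 0 then p.2 t else p.1 t)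
    (fun f => (fun t => if w t = 0 then t else f t, fun t => if w' t = 0 then t else f t))
    (fun p hp => ?_) (fun f hf => ?_) (fun p hp => ?_) (fun f hf => ?_) fun p hp => ?_
  · simp only [mem_product, mem_Fn, Finsupp.add_apply, Nat.add_eq_zero_iff] at hp ⊢
    intro t ht
    rw [if_pos ht.1, hp.2 t ht.2]
  · simp only [mem_product, mem_Fn]
    exact ⟨fun t ht => if_pos ht, fun t ht => if_pos ht⟩
  · simp only [mem_product, mem_Fn] at hp
    refine Prod.ext (funext fun t => ?_) (funext fun t => ?_)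
    · by_cases a : w t = 0 <;> simp [a, hp.1 t]
    · by_cases a : w' t = 0
      · simp [a, hp.2 t]
      · simp [a, (d t).resolve_right a]
  · simp only [mem_Fn, Finsupp.add_apply, Nat.add_eq_zero_iff] at hf
    funext t
    by_cases a : w t = 0 <;> by_cases b : w' t = 0 <;> simp [a, b, hf t]
  · have a : ∀ t, w t ≠ 0 → p.1 t = if w t = 0 then p.2 t else p.1 t := fun t ht =>
      (if_neg ht).symm
    have b : ∀ t, w' t ≠ 0 → p.2 t = if w t = 0 then p.2 t else p.1 t := fun t ht =>
      (if_pos ((d t).resolve_right ht)).symm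
    rw [monomial_mul, Finsupp.mapDomain_add, md_cg a, md_cg b, h _ _ a, h' _ _ b]

theorem SS_one (ν : σ →₀ ℕ) (h : ∀ t, ν t ≤ 1) : SS ν (fun _ => 1) = (∑ s, X s) ^ ν.degree := by
  induction ν using Finsupp.induction with
  | zero => simp [SS_zero]
  | single_add a b f ha hb ih =>
    have z : f a = 0 := Finsupp.notMem_support_iff.1 ha
    obtain rfl : b = 1 := by have := h a; simp [z] at this; omega
    have e : SS (Finsupp.single a 1) (fun _ => 1) = ∑ s, X s := by
      refine (sum_nbij' (fun s => Function.update id a s) (fun f => f a) (fun s _ => ?_)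
        (fun _ _ => mem_univ _) (fun s _ => by simp) (fun f hf => ?_) fun s _ => ?_).symm
      · refine mem_Fn.2 fun t ht => Function.update_of_ne (fun n => ?_) _ _
        simp [n] at ht
      · funext t
        by_cases n : t = a
        · simp [n]
        · rw [Function.update_of_ne n, mem_Fn.1 hf t (by simp [n])]; rfl
      · simp [X]
    have := SS_mul (w := Finsupp.single a 1) (w' := f) (g := fun _ => 1) (g' := fun _ => 1)
      (fun t => by by_cases n : t = a <;> simp [n, z]) (fun _ _ _ => rfl) fun _ _ _ => rfl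
    simp only [mul_one] at this
    rw [← this, e, ih fun t => le_trans (by simp) (h t), map_add, pow_add]
    simp

theorem count {ν μ : σ →₀ ℕ} (h : ∀ t, ν t ≤ 1) (h' : ∀ t, μ t ≤ 1) :
    ∑ f ∈ Fn ν with ν.mapDomain f = μ, (1 : ℝ) =
      if μ.degree = ν.degree then (ν.degree.factorial : ℝ) else 0 := by
  rw [← cf_SS, SS_one ν h, coeff_sum_X_pow_of_fintype]
  have e : (μ.prod fun _ n => n.factorial) = 1 := prod_eq_one fun t _ => by
    have := h' t
    interval_cases μ t <;> rfl
  change ((if μ.degree = ν.degree then μ.multinomial else 0 : ℕ) : ℝ) = _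
  split_ifs with a
  · rw [Finsupp.multinomial, e, Nat.div_one, ← a]; rfl
  · simp

theorem key {V : Type} {wg : V → σ →₀ ℕ} {ev : (σ → σ) → V → ℝ} {Y : V → MvPolynomial σ ℝ}
    {w0 : σ →₀ ℕ} (hd : ∀ v, Dep (wg v) (ev · v))
    (hY : ∀ v, (∀ t, wg v t ≤ 1) → Cg w0 (Y v) (SS (wg v) (ev · v))) {w : σ →₀ ℕ}
    (hw : ∀ t, w t ≤ 1) {P : MvPolynomial V ℝ} (hP : P.IsWeightedHomogeneous wg w) {μ : σ →₀ ℕ}
    (hμ : μ ≤ w0) : coeff μ (aeval Y P) = ∑ f ∈ Fn w with w.mapDomain f = μ, eval (ev f) P := by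
  let Pm : (V →₀ ℕ) → Prop := fun m => (∀ t, Finsupp.weight wg m t ≤ 1) →
    Dep (Finsupp.weight wg m) (fun f => eval (ev f) (monomial m 1)) ∧
      Cg w0 (aeval Y (monomial m (1 : ℝ)))
        (SS (Finsupp.weight wg m) fun f => eval (ev f) (monomial m 1))
  have h0 : Pm 0 := fun _ => ⟨fun _ _ _ => by simp, fun ν _ => by simp [SS_zero]⟩
  have ha : ∀ m m', Pm m → Pm m' → Pm (m + m') := fun m m' a b c => by
    simp only [map_add, Finsupp.add_apply] at c
    obtain ⟨a1, a2⟩ := a fun t => le_trans le_self_add (c t)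
    obtain ⟨b1, b2⟩ := b fun t => le_trans le_add_self (c t)
    have e : (monomial (m + m') 1 : MvPolynomial V ℝ) = monomial m 1 * monomial m' 1 := by
      rw [monomial_mul, one_mul]
    simp only [e, map_mul, map_add]
    refine ⟨fun f f' k => ?_, ?_⟩
    · simp only [Finsupp.add_apply] at k
      exact congrArg₂ (· * ·) (a1 f f' fun t n => k t (by omega)) (b1 f f' fun t n => k t (by omega))
    · rw [← SS_mul (fun t => by have := c t; omega) a1 b1]; exact a2.mul b2
  have h1 : ∀ v, Pm (Finsupp.single v 1) := fun v c => by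
    have e : Finsupp.weight wg (Finsupp.single v 1) = wg v := by simp [Finsupp.weight_single]
    rw [e] at c ⊢
    change Dep _ (fun f => eval (ev f) (X v)) ∧ Cg w0 (aeval Y (X v)) (SS _ fun f => eval (ev f) (X v))
    simp only [eval_X, aeval_X]
    exact ⟨hd v, hY v c⟩
  have hm : ∀ m, Pm m := fun m => by
    induction m using Finsupp.induction_linear with
    | zero => exact h0
    | add f g a b => exact ha f g a b
    | single v n =>
      induction n with
      | zero => rw [Finsupp.single_zero]; exact h0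
      | succ n ih => rw [Finsupp.single_add]; exact ha _ _ ih (h1 v)
  rw [P.as_sum]
  simp only [map_sum, coeff_sum]
  rw [sum_comm]
  refine sum_congr rfl fun m k => ?_
  have e := hP (mem_support_iff.1 k)
  have := (hm m (e ▸ hw)).2 μ hμ
  rw [e, cf_SS] at this
  rw [← mul_one (coeff m P), ← C_mul_monomial]
  simp only [map_mul, aeval_C, eval_C, algebraMap_eq, coeff_C_mul, this, mul_sum]

omit [Fintype σ] in
theorem wE_apply (E : Finset σ) (t : σ) : wE E t = if t ∈ E then 1 else 0 := by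
  simp [wE, Finsupp.finset_sum_apply, Finsupp.single_apply]

theorem ext_perm {E : Finset σ} {w : σ →₀ ℕ} {f : σ → σ} (hw : w.support ⊆ E) (hf : f ∈ Fn w)
    (h : ∀ t, w.mapDomain f t ≤ 1) (h' : (w.mapDomain f).support ⊆ E) :
    ∃ π ∈ GE E, ∀ t, w t ≠ 0 → π t = f t := by
  have m : ∀ t, w t ≠ 0 → f t ∈ E := fun t ht => h' (Finsupp.mem_support_iff.2 (by
    have := Finsupp.mapDomain_mono (f := f) (Finsupp.single_le_iff.2 (le_refl (w t))) (f t)
    simp at this; omega))
  have z : ∀ t, t ∉ E → f t = t := fun t ht =>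
    mem_Fn.1 hf t (Finsupp.notMem_support_iff.1 fun n => ht (hw n))
  obtain ⟨π, hπ⟩ := Equiv.Perm.exists_extending_pair (α := {t // w t ≠ 0 ∨ t ∉ E})
    (f := Subtype.val) (g := fun t => f t.1) Subtype.val_injective fun a b e => by
      apply Subtype.ext
      rcases a.2 with u | u <;> rcases b.2 with v | v
      · exact inj_of h (by simpa using u) (by simpa using v) e
      · exact (v (by have := m _ u; rwa [show f a.1 = f b.1 from e, z _ v] at this)).elim
      · exact (u (by have := m _ v; rwa [← show f a.1 = f b.1 from e, z _ u] at this)).elim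
      · rw [← z _ u, ← z _ v]; exact e
  exact ⟨π, mem_filter.2 ⟨mem_univ _, fun t ht => (hπ ⟨t, .inr ht⟩).trans (z t ht)⟩,
    fun t ht => hπ ⟨t, .inl ht⟩⟩

variable {T : TS Unit} (B : Bk (VV T.C σ) σ) (E : Finset σ) (z : VV (T.C ⊕ (sy B E).N) σ → ℝ)

open Classical in
/-- the values of the variables after relabelling by `f` -/
def ev (f : σ → σ) : VV T.C σ ⊕ B.N → ℝ := Sum.elim (fun v => z (.inl v.1, v.2.mapDomain f))
  fun a => if h : ∃ π ∈ GE E, rs B f a = rs B π a then
    z (.inr ⟨(a, rs B f a), h⟩, (B.wd a).mapDomain f) else 0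

theorem rs_cg {f f' : σ → σ} {a : B.N} (h : ∀ t, B.wd a t ≠ 0 → f t = f' t) :
    rs B f a = rs B f' a := funext fun t => by
  simp only [rs]; split_ifs with n; exacts [rfl, h t n]
theorem rs_md (f : σ → σ) (a : B.N) : (B.wd a).mapDomain (rs B f a) = (B.wd a).mapDomain f :=
  md_cg fun t ht => if_neg ht
theorem rs_fn {f : σ → σ} {a : B.N} (h : f ∈ Fn (B.wd a)) : rs B f a = f := funext fun t => by
  simp only [rs]; split_ifs with n; exacts [(mem_Fn.1 h t n).symm, rfl]
theorem sy_fn (x : (sy B E).N) : x.1.2 ∈ Fn (B.wd x.1.1) := by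
  obtain ⟨π, -, e⟩ := x.2
  rw [e]; exact mem_Fn.2 fun t ht => if_pos ht

theorem ev_dep (v : VV T.C σ ⊕ B.N) : Dep (B.wg Prod.snd v) (ev B E z · v) := fun f f' h => by
  cases v with
  | inl v => exact congrArg (fun μ => z (.inl v.1, μ)) (md_cg h)
  | inr a => simp only [ev, Sum.elim_inr, rs_cg B h, md_cg (w := B.wd a) h]

open Classical in
theorem sum_sy (a : B.N) (μ : σ →₀ ℕ) (g : (sy B E).N → ℝ) :
    ∑ x : (sy B E).N with x.1.1 = a ∧ (sy B E).wd x = μ, g x =
      ∑ f ∈ Fn (B.wd a) with (B.wd a).mapDomain f = μ,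
        if h : ∃ π ∈ GE E, rs B f a = rs B π a then g ⟨(a, rs B f a), h⟩ else 0 := by
  refine sum_bij_ne_zero (fun x _ _ => x.1.2) (fun x hx _ => ?_) (fun x hx _ x' hx' _ e => ?_)
    (fun f hf n => ?_) fun x hx _ => ?_
  · obtain ⟨rfl, e⟩ := (mem_filter.1 hx).2
    exact mem_filter.2 ⟨sy_fn B E x, e⟩
  · exact Subtype.ext (Prod.ext ((mem_filter.1 hx).2.1.trans (mem_filter.1 hx').2.1.symm) e)
  · by_cases h : ∃ π ∈ GE E, rs B f a = rs B π a
    · rw [dif_pos h] at n
      exact ⟨⟨(a, rs B f a), h⟩, mem_filter.2 ⟨mem_univ _, rfl,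
        (rs_md B f a).trans (mem_filter.1 hf).2⟩, n, rs_fn B (mem_filter.1 hf).1⟩
    · exact (n (dif_neg h)).elim
  · obtain ⟨rfl, -⟩ := (mem_filter.1 hx).2
    have e := rs_fn B (sy_fn B E x)
    rw [dif_pos (e.symm ▸ x.2)]
    exact congrArg g (Subtype.ext (Prod.ext rfl e.symm))

theorem ev_sy (x : (sy B E).N) :
    eval z (up (sy B E) ((sy B E).Θ x)) = eval (ev B E z x.1.2) (B.Θ x.1.1) := by
  rw [up, eval_rename]
  refine (eval_aeval _ _ _).trans (congrArg (eval · (B.Θ x.1.1)) (funext fun v => ?_))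
  cases v with
  | inl v => exact eval_X _
  | inr a =>
    simp only [ev, Sum.elim_inr]
    split_ifs
    · exact (eval_X _).trans (congrArg (fun μ => z (.inr _, μ)) (rs_md B _ a))
    · exact map_zero _

theorem main (h1 : ∀ F μ, z (.inl F, μ) ≠ 0 → μ.degree = T.lev F)
    (h2 : ∀ x μ, z (.inr x, μ) ≠ 0 → μ = (sy B E).wd x) {w μ : σ →₀ ℕ} (hw : ∀ t, w t ≤ 1)
    (hμ : ∀ t, μ t ≤ 1) {P : MvPolynomial (VV T.C σ ⊕ B.N) ℝ}
    (hP : P.IsWeightedHomogeneous (B.wg Prod.snd) w) :
    sv (dgl T B P) μ (br B E z) = ∑ f ∈ Fn w with w.mapDomain f = μ, eval (ev B E z f) P := by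
  rw [sv, dgl, comp_aeval_apply]
  refine key (w0 := μ) (ev_dep B E z) (fun v hv ν hν => ?_) hw hP le_rfl
  rw [cf_SS]
  cases v with
  | inl v =>
    have e : ∑ f ∈ Fn v.2 with v.2.mapDomain f = ν, ev B E z f (.inl v) =
        (∑ f ∈ Fn v.2 with v.2.mapDomain f = ν, (1 : ℝ)) * z (.inl v.1, ν) := by
      rw [sum_mul]
      exact sum_congr rfl fun f hf => by rw [one_mul, ← (mem_filter.1 hf).2]; rfl
    refine Eq.trans ?_ e.symm
    rw [count (ν := v.2) hv fun t => (hν t).trans (hμ t)]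
    have c := cf_Y (fun μ => br B E z (.inl v.1, μ)) hν
    by_cases n : z (.inl v.1, ν) = 0
    · simp only [Sum.elim_inl, n, mul_zero]
      split_ifs
      · rw [map_smul, aeval_X, coeff_smul, c]; exact smul_eq_zero_of_right _ n
      · simp
    · simp only [Sum.elim_inl, h1 _ _ n, eq_comm (a := T.lev v.1)]
      split_ifs
      · rw [map_smul, aeval_X, coeff_smul, c]; rfl
      · simp
  | inr a =>
    rw [Sum.elim_inr, aeval_X, cf_Y (fun μ => br B E z (.inr a, μ)) hν]
    refine Eq.trans ?_ ((sum_sy B E a ν fun x => z (.inr x, ν)).trans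
      (sum_congr rfl fun f hf => by rw [← (mem_filter.1 hf).2]; rfl))
    refine (sum_subset (fun x hx => mem_filter.2 ⟨mem_univ _, (mem_filter.1 hx).2.1⟩)
      fun x hx n => by_contra fun k => n (mem_filter.2 ⟨mem_univ _, (mem_filter.1 hx).2,
        (h2 x ν k).symm⟩)).symm
end fn

end Dg

open Dg in
theorem diag : DIAG := by
  refine ⟨fun σ _ _ T B E z hB _ h1 h2 => ⟨fun P hP _ => ?_, fun a μ ha hμ sq _ => ?_⟩,
    fun τ _ T W K ξ p h _ => part2 T _ (fun _ _ => rfl) ξ p h, fun C σ τ _ _ col P μ z h => part3 col P μ z h⟩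
  · have sq : ∀ t, wE E t ≤ 1 := fun t => by rw [wE_apply]; split_ifs <;> simp
    have sp : (wE E).support ⊆ E := fun t ht => by
      by_contra n; simp [wE_apply, n] at ht
    rw [main B E z h1 h2 sq sq hP]
    refine sum_bij (fun π _ => π.1) (fun π _ => mem_filter.2 ⟨mem_Fn.2 fun t ht =>
      (mem_filter.1 π.2).2 t fun n => by simp [wE_apply, n] at ht, ?_⟩)
      (fun π _ π' _ e => Subtype.ext (Equiv.ext (congrFun e))) (fun f hf => ?_) fun π _ => ?_
    · rw [wE, Finsupp.mapDomain_finsetSum]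
      simp only [Finsupp.mapDomain_single]
      exact Equiv.Perm.sum_comp π.1 E (fun t => Finsupp.single t 1) fun t ht =>
        by_contra fun n => ht ((mem_filter.1 π.2).2 t n)
    · obtain ⟨a, b⟩ := mem_filter.1 hf
      obtain ⟨π, hπ, e⟩ := ext_perm sp a (b.symm ▸ sq) (b.symm ▸ sp)
      refine ⟨⟨π, hπ⟩, mem_univ _, funext fun t => ?_⟩
      by_cases n : wE E t = 0
      · exact ((mem_filter.1 hπ).2 t fun k => by simp [wE_apply, k] at n).trans
          (mem_Fn.1 a t n).symm
      · exact e t n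
    · rw [ug, eval_rename]
      refine congrArg (eval · P) (funext fun v => ?_)
      cases v with
      | inl v => rfl
      | inr a =>
        simp only [ev, Sum.elim_inr]
        rw [dif_pos (⟨π.1, π.2, rfl⟩ : ∃ π' ∈ GE E, rs B π.1 a = rs B π' a)]; rfl
  · rw [main B E z h1 h2 (hB.sq a) sq (hB.ok.hom a), sum_sy]
    refine sum_congr rfl fun f hf => ?_
    obtain ⟨u, v⟩ := mem_filter.1 hf
    obtain ⟨π, hπ, e⟩ := ext_perm ha u (v.symm ▸ sq) (v.symm ▸ hμ)
    rw [dif_pos ⟨π, hπ, rs_cg B fun t ht => (e t ht).symm⟩]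
    exact (ev_sy B E z _).trans (by simp only [rs_fn B u])

end Crest.Agent.N49.Sw

end
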