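import Crest.Agent.N49.Sw.Df2
import Crest.Agent.N49.Tw.Iso
import Crest.Agent.N49.Tw.Sa

/-!
# Row 49 (helper1): the relabelled system and the symmetry of its symbol law (`PERM`)
-/

set_option autoImplicit false

open Matrix MvPolynomial Finset Function

noncomputable section

namespace Crest.Agent.N49.Sw

open Po Tw Sd

namespace Pe

/-- an injective self-map of a finite type -/
def eq {α : Type} [Finite α] (f : α → α) (h : Injective f) : α ≃ α :=
  Equiv.ofBijective f (Finite.injective_iff_bijective.1 h)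

theorem wt_md {α σ τ : Type} (f : σ → τ) (w : α → σ →₀ ℕ) (m : α →₀ ℕ) :
    Finsupp.weight (fun a => (w a).mapDomain f) m = (Finsupp.weight w m).mapDomain f := by
  induction m using Finsupp.induction_linear with
  | zero => simp
  | add a b h k => rw [map_add, map_add, h, k, Finsupp.mapDomain_add]
  | single a n => simp [Finsupp.weight_single, Finsupp.mapDomain_smul]

theorem hom_rn {α β σ τ : Type} (g : α → β) (f : σ → τ) {w : α → σ →₀ ℕ} {w' : β → τ →₀ ℕ}
    (h : ∀ a, w' (g a) = (w a).mapDomain f) {P : MvPolynomial α ℝ} {n : σ →₀ ℕ}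
    (hP : P.IsWeightedHomogeneous w n) : (rename g P).IsWeightedHomogeneous w' (n.mapDomain f) :=
  fun m z => by
    obtain ⟨u, rfl, k⟩ := coeff_rename_ne_zero g P m z
    rw [TS.weight_map, funext h, wt_md, hP k]

section ren
variable {σ τ : Type} {U : TS σ} {eC : U.C ≃ U.C}

theorem hz_ren (h : U.Ren U eC) {R : Type} [CommRing R] [Algebra ℝ R] (x : R) (y : U.C → R)
    (F : U.C) : U.hz x y (eC F) = U.hz x (fun G => y (eC G)) F := by
  rw [TS.hz, TS.hz, h.Φ, support_rename_of_injective eC.injective,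
    sum_image (Finsupp.mapDomain_injective eC.injective).injOn]
  refine sum_congr rfl fun m _ => ?_
  rw [h.lev, TS.weight_map, funext h.lev, coeff_rename_mapDomain _ eC.injective, ← rename_monomial,
    aeval_rename]
  rfl

theorem ren_sh [DecidableEq σ] {S : Sh σ τ} (h : U.Ren U eC) (eW : S.W ≃ S.W)
    (hr : ∀ w m, S.r (eW w) (m.mapDomain eW) = S.r w m) (hε : ∀ w, S.ε (eW w) = S.ε w)
    (hK : ∀ w w', S.K (eW w) (eW w') = S.K w w')
    (hd : ∀ w, (S.ty (eW w)).degree = (S.ty w).degree) (e : U.Cw S ≃ U.Cw S)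
    (h1 : ∀ p, (e p).1.1 = eC p.1.1) (h2 : ∀ p, (e p).1.2 = eW p.1.2) :
    (U.sh S).Ren (U.sh S) e where
  lev p := (congrArg (fun w => (S.ty w).degree) (h2 p)).trans (hd _)
  K p p' := by
    change U.K (e p).1.1 (e p').1.1 * S.K (e p).1.2 (e p').1.2 = U.K _ _ * S.K _ _
    rw [h1, h1, h2, h2, h.K, hK]
  Φ p := by
    have a : ∀ Q : MvPolynomial S.W (MvPolynomial (U.Cw S) ℝ),
        S.cf _ (eW p.1.2) (rename eW Q) = S.cf _ p.1.2 Q := fun Q => by
      induction Q using MvPolynomial.induction_on' with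
      | monomial m c => rw [rename_monomial, Sh.cf_monomial, Sh.cf_monomial, hr]
      | add P Q a b => rw [map_add, map_add, map_add, a, b]
    refine Eq.trans ?_ ((DFunLike.congr_fun (rename_eq_aeval e) _).trans
      (TS.sh_aeval (T := U) (S := S) _ p)).symm
    change S.cf _ (e p).1.2 (U.hz (S.el S.ε) (U.Yw S X) (e p).1.1) = _
    rw [h1, h2, ← a, hz_ren h]
    refine congrArg _ (Eq.trans ?_ (U.hz_map ((rename (R := MvPolynomial (U.Cw S) ℝ)
      eW).restrictScalars ℝ) (S.el S.ε) (U.Yw S (X ∘ e)) p.1.1).symm)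
    congr 1
    · simp only [Sh.el, map_sum, map_zsmul, AlgHom.restrictScalars_apply, rename_X]
      exact (eW.sum_comp _).symm.trans (sum_congr rfl fun w _ => by rw [hε])
    · funext G
      simp only [TS.Yw, map_sum, map_mul, AlgHom.restrictScalars_apply, rename_X, rename_C]
      exact (sum_equiv e (fun q => by simp [h1]) fun q _ => by rw [← h2]; rfl).symm

end ren

section words
variable {σ τ : Type} [DecidableEq τ] {W : Finset (τ →₀ ℕ)} {π : Equiv.Perm τ}

/-- relabelled words -/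
def eW (h : ∀ μ ∈ W, μ.mapDomain π ∈ W) : Sh.MW W ≃ Sh.MW W :=
  eq (fun w => ⟨w.1.mapDomain π, mem_erase.2 ⟨fun z => w.ne (Finsupp.mapDomain_injective
    π.injective (z.trans Finsupp.mapDomain_zero.symm)), h _ w.mem⟩⟩) fun _ _ z =>
      Subtype.ext (Finsupp.mapDomain_injective π.injective (congrArg Subtype.val z))

theorem ren_MR [DecidableEq σ] {U : TS σ} {eC : U.C ≃ U.C} (k : U.Ren U eC) {col : τ → σ} {c : ℝ}
    (h : ∀ μ ∈ W, μ.mapDomain π ∈ W)
    (e : U.Cw (MR col W (dk fun _ => c)) ≃ U.Cw (MR col W (dk fun _ => c)))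
    (h1 : ∀ p, (e p).1.1 = eC p.1.1) (h2 : ∀ p, (e p).1.2 = eW h p.1.2) :
    (U.sh (MR col W (dk fun _ => c))).Ren (U.sh (MR col W (dk fun _ => c))) e := by
  have i := Finsupp.mapDomain_injective (M := ℕ) π.injective
  have e0 : ∀ w, (MR col W (dk fun _ => c)).ε w = 0 := fun w => sum_eq_zero fun _ _ => ite_self _
  refine ren_sh k (eW h) (fun w m => ?_) (fun w => (e0 _).trans (e0 _).symm) (fun w w' => ?_)
    (fun w => Finsupp.degree_mapDomain _ _) e h1 h2
  · refine if_congr ?_ rfl rfl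
    exact (congrArg (· = w.1.mapDomain π) ((TS.weight_map (eW h) Subtype.val m).trans
      (wt_md π Subtype.val m))).to_iff.trans i.eq_iff
  · exact if_congr i.eq_iff rfl rfl

end words

variable {σ : Type} [Fintype σ] [DecidableEq σ] {E : Finset σ}

theorem mem_GE {π : Equiv.Perm σ} : π ∈ GE E ↔ ∀ t, t ∉ E → π t = t := by simp [GE]

/-- the product -/
def gm (π π' : GE E) : GE E := ⟨π.1 * π'.1, mem_GE.2 fun t h => by
  rw [Equiv.Perm.mul_apply, mem_GE.1 π'.2 t h, mem_GE.1 π.2 t h]⟩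

theorem md_gm (π π' : GE E) (μ : σ →₀ ℕ) :
    μ.mapDomain (gm π π').1 = (μ.mapDomain π'.1).mapDomain π.1 :=
  Finsupp.mapDomain_comp (f := π'.1) (g := π.1)

theorem mem_E (π : GE E) {t : σ} (h : t ∈ E) : π.1 t ∈ E := by
  by_contra n
  exact n ((π.1.injective (mem_GE.1 π.2 _ n)).symm ▸ h)

theorem card_GE : Fintype.card (GE E) = (#E).factorial := by
  rw [← Fintype.card_coe E, ← Fintype.card_perm]
  exact Fintype.card_congr ((Equiv.subtypeEquivRight fun _ => mem_GE).trans
    (Equiv.Perm.subtypeEquivSubtypePerm (· ∈ E)).symm)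

theorem wE_md (π : GE E) : (wE E).mapDomain π.1 = wE E := by
  rw [wE, Finsupp.mapDomain_finsetSum]
  simp only [Finsupp.mapDomain_single]
  exact sum_equiv π.1 (fun t => ⟨mem_E π, fun h => by_contra fun n =>
    n (mem_GE.1 π.2 t n ▸ h)⟩) fun _ _ => rfl

theorem W0_md (π : GE E) {s : ℕ} : ∀ μ ∈ W0 s E, μ.mapDomain π.1 ∈ W0 s E := fun μ h => by
  rw [W0, mem_filter, mem_sqf] at h ⊢
  refine ⟨⟨by rw [Finsupp.degree_mapDomain]; exact h.1.1, fun a => ?_⟩, fun t i => ?_⟩
  · rw [Finsupp.mapDomain_equiv_apply]; exact h.1.2 _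
  · obtain ⟨t, j, rfl⟩ := mem_image.1 (Finsupp.mapDomain_support i)
    exact mem_E π (h.2 j)

theorem full_md (π : Equiv.Perm σ) {s : ℕ} : ∀ μ ∈ full σ s, μ.mapDomain π ∈ full σ s :=
  fun μ h => by rw [mem_full] at h ⊢; rwa [Finsupp.degree_mapDomain]

section sys
variable {C : Type} {B : Bk (VV C σ) σ}

omit [Fintype σ] [DecidableEq σ] in
theorem md_rs (f : σ → σ) {a : B.N} {μ : σ →₀ ℕ} (h : μ ≤ B.wd a) :
    μ.mapDomain (rs B f a) = μ.mapDomain f := Finsupp.mapDomain_congr fun t i =>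
  if_neg fun z : B.wd a t = 0 => Finsupp.mem_support_iff.1 i (Nat.le_zero.1 (z ▸ h t))

omit [Fintype σ] [DecidableEq σ] in
theorem rs_rs (f : σ → σ) {a a' : B.N} (h : B.wd a' ≤ B.wd a) : rs B (rs B f a) a' = rs B f a' :=
  funext fun t => by
    unfold rs
    split_ifs with i j
    exacts [rfl, absurd (Nat.le_zero.1 (j ▸ h t)) i, rfl]

theorem syn_sur (x : (sy B E).N) : ∃ π a, syn B E π a = x := by
  obtain ⟨⟨a, f⟩, π, h, e⟩ := x
  exact ⟨⟨π, h⟩, a, Subtype.ext (Prod.ext rfl e.symm)⟩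

theorem wd_syn (π : GE E) (a : B.N) : (sy B E).wd (syn B E π a) = (B.wd a).mapDomain π.1 :=
  md_rs _ le_rfl

variable (B) in
/-- relabel the variables -/
def lf (π : GE E) : VV C σ ⊕ B.N → VV C σ ⊕ (sy B E).N :=
  Sum.map (fun v => (v.1, v.2.mapDomain π.1)) (syn B E π)

theorem Θ_syn (h : B.Ok Prod.snd) (π : GE E) (a : B.N) :
    (sy B E).Θ (syn B E π a) = rename (lf B π) (B.Θ a) := by
  refine hom_congr_vars (f₁ := (aeval _ : _ →ₐ[ℝ] _).toRingHom)
    (f₂ := (rename (lf B π) : _ →ₐ[ℝ] _).toRingHom) (RingHom.ext fun x => by simp; rfl)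
    (fun v i _ => ?_) rfl
  have k := wt_le (h.hom a) i
  refine (aeval_X _ _).trans (Eq.trans ?_ (rename_X _ _).symm)
  rcases v with v | b
  · exact congrArg (fun μ => X (Sum.inl (v.1, μ))) (md_rs _ k)
  · exact (dif_pos ⟨π.1, π.2, rs_rs _ k⟩).trans
      (congrArg (fun x => X (Sum.inr x)) (Subtype.ext (Prod.ext rfl (rs_rs _ k))))

theorem bo_sy (h : Bo B) : Bo (sy B E) where
  ok := {
    ne x z := by
      obtain ⟨π, a, rfl⟩ := syn_sur x
      rw [wd_syn] at z
      exact h.ok.ne a (Finsupp.mapDomain_injective π.1.injective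
        (z.trans Finsupp.mapDomain_zero.symm))
    hom x := by
      obtain ⟨π, a, rfl⟩ := syn_sur x
      rw [wd_syn, Θ_syn h.ok]
      exact hom_rn _ _ (by rintro (v | b); exacts [rfl, wd_syn π b]) (h.ok.hom a)
    live x c i z := by
      obtain ⟨π, a, rfl⟩ := syn_sur x
      rw [Θ_syn h.ok] at i
      obtain ⟨v | b, j, e⟩ := mem_vars_rename _ _ i
      · rw [← Sum.inl.inj e] at z
        exact h.ok.live a v j (Finsupp.mapDomain_injective π.1.injective
          (z.trans Finsupp.mapDomain_zero.symm))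
      · cases e
    tri x x' i := by
      obtain ⟨π, a, rfl⟩ := syn_sur x
      rw [Θ_syn h.ok] at i
      obtain ⟨v | b, j, e⟩ := mem_vars_rename _ _ i
      · cases e
      · rw [← Sum.inr.inj e]; exact h.ok.tri a b j }
  sq x t := by
    obtain ⟨π, a, rfl⟩ := syn_sur x
    rw [wd_syn, Finsupp.mapDomain_equiv_apply]; exact h.sq _ _

omit [Fintype σ] [DecidableEq σ] in
theorem rs_cmp (f g : σ → σ) (a : B.N) : rs B (f ∘ rs B g a) a = rs B (f ∘ g) a :=
  funext fun t => by
    unfold rs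
    split_ifs with i
    exacts [rfl, by simp [i]]

variable (B) in
/-- the action on the relabelled brackets -/
def eN (π : GE E) : (sy B E).N ≃ (sy B E).N :=
  eq (fun x => ⟨(x.1.1, rs B (π.1 ∘ x.1.2) x.1.1), by
    obtain ⟨π', h, e⟩ := x.2
    exact ⟨_, (gm π ⟨π', h⟩).2, by rw [e, rs_cmp]; rfl⟩⟩) fun x x' z => by
      obtain ⟨π1, a, rfl⟩ := syn_sur x
      obtain ⟨π2, a', rfl⟩ := syn_sur x'
      obtain rfl : a = a' := congrArg (·.1.1) z
      refine Subtype.ext (Prod.ext rfl (funext fun t => ?_))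
      have := congrFun ((rs_cmp _ _ a).symm.trans ((congrArg (·.1.2) z).trans (rs_cmp _ _ a))) t
      change rs B _ a t = rs B _ a t
      unfold rs at this ⊢
      split_ifs at this ⊢
      exacts [rfl, π.1.injective this]

theorem eN_syn (π π' : GE E) (a : B.N) : eN B π (syn B E π' a) = syn B E (gm π π') a :=
  Subtype.ext (Prod.ext rfl (rs_cmp _ _ a))

theorem wd_eN (π : GE E) (x : (sy B E).N) :
    (sy B E).wd (eN B π x) = ((sy B E).wd x).mapDomain π.1 := by
  obtain ⟨π', a, rfl⟩ := syn_sur x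
  rw [eN_syn, wd_syn, wd_syn, ← Finsupp.mapDomain_comp]; rfl

theorem Θ_eN (h : B.Ok Prod.snd) (π : GE E) (x : (sy B E).N) : (sy B E).Θ (eN B π x) =
    rename (Sum.map (fun v => (v.1, v.2.mapDomain π.1)) (eN B π)) ((sy B E).Θ x) := by
  obtain ⟨π', a, rfl⟩ := syn_sur x
  rw [eN_syn, Θ_syn h, Θ_syn h, rename_rename]
  congr 2
  funext v
  rcases v with v | b
  · exact congrArg (fun μ => Sum.inl (v.1, μ)) (md_gm π π' _)
  · exact congrArg Sum.inr (eN_syn π π' b).symm

theorem ug_gm (π π' : GE E) (P : MvPolynomial (VV C σ ⊕ B.N) ℝ) : ug B E (gm π π') P =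
    rename (Prod.map (Sum.map id (eN B π)) (Finsupp.mapDomain π.1)) (ug B E π' P) := by
  rw [ug, ug, rename_rename]
  congr 2
  funext v
  rcases v with v | b
  · exact Prod.ext rfl (md_gm π π' _)
  · exact Prod.ext (congrArg Sum.inr (eN_syn π π' b).symm) (md_gm π π' _)

end sys

section col
variable (s : ℕ) (T : TS Unit) (B : Bk (VV T.C σ) σ) (w : ℝ)

/-- the action on the coloured parts -/
def e0 (π : Equiv.Perm σ) : T.Cw (FS σ s) ≃ T.Cw (FS σ s) :=
  eq (fun p => ⟨(p.1.1, eW (full_md π) p.1.2),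
    (Finsupp.mapDomain_comp (f := π) (g := fun _ => ())).symm.trans p.2⟩) fun _ _ z =>
      Subtype.ext (Prod.ext (congrArg (·.1.1) z) ((eW _).injective (congrArg (·.1.2) z)))

theorem ren0 (π : Equiv.Perm σ) : (T.sh (FS σ s)).Ren (T.sh (FS σ s)) (e0 s T π) :=
  ren_MR (eC := Equiv.refl _) ⟨fun _ => rfl, fun _ => (rename_id_apply _).symm, fun _ _ => rfl⟩
    (full_md π) _ (fun _ => rfl) fun _ => rfl

/-- the action on the coloured tower -/
def eC (π : GE E) : (cE s T (sy B E) w).C ≃ (cE s T (sy B E) w).C :=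
  (e0 s T π.1).sumCongr (eN B π)

theorem deg_eC (π : GE E) (c : (cE s T (sy B E) w).C) : (cE s T (sy B E) w).deg (eC s T B w π c) =
    ((cE s T (sy B E) w).deg c).mapDomain π.1 := by
  rcases c with p | x
  exacts [rfl, wd_eN π x]

theorem renC (h : B.Ok Prod.snd) (π : GE E) :
    (cE s T (sy B E) w).Ren (cE s T (sy B E) w) (eC s T B w π) where
  lev c := (congrArg Finsupp.degree (deg_eC s T B w π c)).trans (Finsupp.degree_mapDomain _ _)
  K c c' := by
    rcases c with p | x <;> rcases c' with p' | x'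
    · exact (ren0 s T π.1).K p p'
    · rfl
    · rfl
    · exact congrArg (w * ·) (if_congr (eN B π).injective.eq_iff rfl rfl)
  Φ c := by
    rcases c with p | x
    · exact (congrArg (rename Sum.inl) ((ren0 s T π.1).Φ p)).trans
        ((rename_rename _ _ _).trans (rename_rename Sum.inl (eC s T B w π) _).symm)
    · change X (Sum.inr (eN B π x)) - aeval _ ((sy B E).Θ (eN B π x)) =
        rename ((e0 s T π.1).sumCongr (eN B π)) (X (Sum.inr x) - aeval _ ((sy B E).Θ x))
      rw [Θ_eN h, aeval_rename, map_sub, rename_X, comp_aeval_apply]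
      refine congrArg (fun f => _ - aeval f _) (funext fun v => ?_)
      rcases v with v | b
      · simp only [Function.comp_apply, Sum.map_inl, Sum.elim_inl, vp, map_sum, rename_X]
        refine (sum_equiv (e0 s T π.1) (fun q => ?_) fun q _ => rfl).symm
        simp only [mem_filter, mem_univ, true_and]
        exact and_congr Iff.rfl (Finsupp.mapDomain_injective π.1.injective).eq_iff.symm
      · exact (rename_X ((e0 s T π.1).sumCongr (eN B π)) (Sum.inr b)).symm

variable (κ : ℝ)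

/-- the action on the coordinates -/
def eS (π : GE E) : (cE s T (sy B E) w).Cw (MR id (W0 s E) (dk fun _ => κ)) ≃
    (cE s T (sy B E) w).Cw (MR id (W0 s E) (dk fun _ => κ)) :=
  eq (fun p => ⟨(eC s T B w π p.1.1, eW (W0_md π) p.1.2), Finsupp.mapDomain_id.trans
    ((congrArg (Finsupp.mapDomain π.1) (Finsupp.mapDomain_id.symm.trans p.2)).trans
      (deg_eC s T B w π _).symm)⟩) fun _ _ z => Subtype.ext (Prod.ext
        ((eC s T B w π).injective (congrArg (·.1.1) z)) ((eW _).injective (congrArg (·.1.2) z)))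

theorem bi_ren (h : B.Ok Prod.snd) (π : GE E) (Q : MvPolynomial (VV (T.C ⊕ (sy B E).N) σ) ℝ) :
    bi (cE s T (sy B E) w) (MR id (W0 s E) (dk fun _ => κ)) (fm s T _ w)
      (rename (Prod.map (Sum.map id (eN B π)) (Finsupp.mapDomain π.1)) Q) =
    bi (cE s T (sy B E) w) (MR id (W0 s E) (dk fun _ => κ)) (fm s T _ w) Q := by
  refine congrArg norm (Eq.trans (congrArg _ (funext fun y => ?_)) ((ren_MR (renC s T B w h π)
    (W0_md π) (eS s T B w κ π) (fun _ => rfl) fun _ => rfl).Ec _))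
  rw [eval_rename]
  refine congrArg (fun f => ee (eval f Q)) (funext fun v => ?_)
  refine (sum_equiv (eS s T B w κ π) (fun q => ?_) fun q _ => rfl).symm
  simp only [mem_filter, mem_univ, true_and]
  refine and_congr ?_ (Finsupp.mapDomain_injective π.1.injective).eq_iff.symm
  refine Iff.trans (Sum.map_injective.2 ⟨injective_id, (eN B π).injective⟩).eq_iff.symm
    (Eq.to_iff (congrArg (· = _) ?_))
  change _ = fm s T _ w (eC s T B w π q.1.1)
  rcases q.1.1 with p | x <;> rfl

end col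

end Pe

open Pe in
theorem perm : PERM := by
  intro σ _ _ s M T st B w κ E _ h hs _ _
  refine ⟨⟨bo_sy h, fun x => (Finsupp.degree_mapDomain _ _).trans_le (hs _), ?_, fun π e => ?_⟩,
    fun π P hP => ?_, fun π π1 π2 π1' π2' P e1 e2 => ?_⟩
  · rw [← card_GE, ← Fintype.card_prod]
    exact Fintype.card_le_of_surjective (fun x => syn B E x.2 x.1) fun x =>
      let ⟨π, a, e⟩ := syn_sur x; ⟨(a, π), e⟩
  · have k : ∀ μ : σ →₀ ℕ, μ.mapDomain π.1 = μ := fun μ => by rw [e]; exact Finsupp.mapDomain_id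
    refine ⟨fun _ _ z => congrArg (·.1.1) z, fun a => ⟨(wd_syn π a).trans (k _), ?_⟩⟩
    rw [Θ_syn h.ok, lf]
    simp only [k]; rfl
  · rw [← wE_md π]
    exact hom_rn _ _ (by rintro (v | b) <;> rfl) hP
  · rw [show π1' = gm π π1 from Subtype.ext e1, show π2' = gm π π2 from Subtype.ext e2, ug_gm,
      ug_gm π π2, ← map_sub, bi_ren s T B w κ h.ok]

end Crest.Agent.N49.Sw

end
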