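import Crest.Agent.N49.Sw.Desc0
import Crest.Agent.N49.Sw.Colw
import Crest.Agent.N49.Sw.Cola
import Crest.Agent.N49.Sw.Diag
import Crest.Agent.N49.Sw.Perm

/-!
# Row 49 (helper29): descent of a relation to the fibre of the diagonal tower (`DESC`)
-/

set_option autoImplicit false
set_option linter.unusedSectionVars false

open Matrix MvPolynomial Finset

noncomputable section

namespace Crest.Agent.N49.Sw

open Po Tw Sd

namespace De

theorem rx_of {τ : Type} {V V' : TS τ} {pr : V.C → V'.C} {rk : V'.C → ℕ} {p : V.C → Prop}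
    {p' : V'.C → Prop} [DecidablePred p] [DecidablePred p'] {y : V.C → ℝ} {y' : V'.C → ℝ}
    {G : (V.C → ℝ) → ℝ} {G' : (V'.C → ℝ) → ℝ} {b : ℝ}
    (h : Ds.Dd pr rk V.K V'.K V.u V'.u p p' y y' G G' b) : Rx V p y b G → Rx V' p' y' b G' :=
  fun ⟨_, r⟩ => h.desc r

section ex
variable {σ τ C : Type} [DecidableEq σ] [DecidableEq τ] [DecidableEq C] {U : TS σ} {col : τ → σ}
  {W : Finset (τ →₀ ℕ)} {K : Kn τ} {f : U.C → C} {y y' : U.Cw (MR col W K) → ℝ} {v : VV C τ}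

theorem ex_one (y : U.Cw (MR col W K) → ℝ) (p : U.Cw (MR col W K))
    (h : ∀ c, f c = f p.1.1 → c = p.1.1) : ex U _ f y (f p.1.1, p.1.2.1) = y p :=
  sum_eq_single_of_mem p (mem_filter.2 ⟨mem_univ _, rfl, rfl⟩) fun _ hq ne => (ne (Subtype.ext
    (Prod.ext (h _ (mem_filter.1 hq).2.1) (Subtype.ext (mem_filter.1 hq).2.2)))).elim

theorem ex_ne (h : ex U _ f y v ≠ 0) : ∃ p : U.Cw (MR col W K), f p.1.1 = v.1 ∧ p.1.2.1 = v.2 :=
  let ⟨p, hp, _⟩ := exists_ne_zero_of_sum_ne_zero h; ⟨p, (mem_filter.1 hp).2⟩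

theorem ex_cg (h : ∀ p : U.Cw (MR col W K), f p.1.1 = v.1 → y p = y' p) :
    ex U _ f y v = ex U _ f y' v := sum_congr rfl fun p hp => h p (mem_filter.1 hp).2.1

theorem tw0_u {Ψ : U.Twd (MR col W K)} (e : Ψ = U.tw0 _) (y : U.Cw (MR col W K) → ℝ)
    (p : U.Cw (MR col W K)) : (U.tw _ Ψ).u y p = (U.sh _).u y p := by
  subst e
  exact congrArg (fun P => eval y (Sh.cf _ _ p.1.2 P)) (TS.eval₂_tw0 _ _)

theorem sv_cg {P : MvPolynomial C ℝ} {μ : τ →₀ ℕ} {z z' : VV C τ → ℝ}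
    (h : ∀ F ∈ P.vars, ∀ ν ≤ μ, z (F, ν) = z' (F, ν)) : sv P μ z = sv P μ z' :=
  congrArg (coeff μ) (eval₂Hom_congr' rfl (fun F hF _ =>
    sum_congr rfl fun ν hν => by rw [h F hF ν (mem_Iic.1 hν)]) rfl)

theorem sv_inl {N : Type} (P : MvPolynomial C ℝ) (μ : τ →₀ ℕ) (z : VV (C ⊕ N) τ → ℝ) :
    sv (rename .inl P) μ z = sv P μ fun v => z (.inl v.1, v.2) := by
  rw [sv, aeval_rename]; rfl

theorem sv_sub (c : C) (P : MvPolynomial C ℝ) (μ : τ →₀ ℕ) (z : VV C τ → ℝ) :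
    sv (X c - P) μ z = z (c, μ) - sv P μ z := by
  rw [sv, map_sub, coeff_sub, aeval_X, Dg.cf_Y (fun ν => z (c, ν)) le_rfl]; rfl

theorem sw_md {μ : τ →₀ ℕ} {ν : σ →₀ ℕ} (h : ∀ t, μ.mapDomain col t ≤ 1) (k : ν ≤ μ.mapDomain col) :
    (sw col μ ν).mapDomain col = ν := by
  rw [sw, Dg.md_filter col (fun s => ν s ≠ 0)]
  ext s
  have := k s
  have := h s
  rw [Finsupp.filter_apply]; split_ifs <;> omega

theorem mr_ok {κ : (τ →₀ ℕ) → ℝ} (h : Dn W) (k : ∀ μ ∈ W, 0 < κ μ) : (MR col W (dk κ)).Ok :=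
  Sh.mono_ok h (by
    have : (MR col W (dk κ)).K = diagonal fun w : Sh.MW W => κ w.1 := by
      ext (w : Sh.MW _) (w' : Sh.MW _)
      exact if_congr Subtype.ext_iff.symm rfl rfl
    exact this ▸ PosDef.diagonal fun w => k _ (Sh.MW.mem w)) (Sh.dk_blk _)

end ex

variable {σ τ : Type} [Fintype σ] [DecidableEq σ] [DecidableEq τ] {s M : ℕ} {T : TS Unit}
  {st : T.C → ℕ} {B : Bk (VV T.C σ) σ} {w : ℝ} {E : Finset σ} {col : τ → σ}
  {W : Finset (τ →₀ ℕ)} {κ : (τ →₀ ℕ) → ℝ}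

omit [Fintype σ] in
theorem dgl_vars {P : MvPolynomial (VV T.C σ ⊕ B.N) ℝ} {a : B.N}
    (k : Sum.inr a ∈ (dgl T B P).vars) : Sum.inr a ∈ P.vars := Ca.tri_ae (fun v a z => by
  split_ifs at z
  · rw [smul_eq_C_mul] at z
    have := vars_mul _ _ z
    rw [vars_C, vars_X] at this
    simp at this
  · simp at z) k

theorem sur_sy (hB : Bo B) {a : B.N} {ν : σ →₀ ℕ} (ha : (B.wd a).support ⊆ E)
    (h1 : ∀ t, ν t ≤ 1) (h2 : ν.support ⊆ E) (h3 : ν.degree = (B.wd a).degree) :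
    ∃ x : (sy B E).N, x.1.1 = a ∧ (sy B E).wd x = ν := by
  have := Dg.count (hB.sq a) h1
  rw [if_pos h3] at this
  obtain ⟨f, hf, -⟩ := exists_ne_zero_of_sum_ne_zero (this.trans_ne (by positivity))
  obtain ⟨u, v⟩ := mem_filter.1 hf
  obtain ⟨π, hπ, e⟩ := Dg.ext_perm ha u (v.symm ▸ h1) (v.symm ▸ h2)
  exact ⟨syn B E ⟨π, hπ⟩ a, rfl, (Pe.wd_syn _ _).trans ((Dg.md_cg e).trans v)⟩

theorem sup_sy (x : (sy B E).N) (h : ((sy B E).wd x).support ⊆ E) : (B.wd x.1.1).support ⊆ E := by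
  obtain ⟨π, a, rfl⟩ := Pe.syn_sur x
  intro t ht
  by_contra n
  rw [Pe.wd_syn, Finsupp.mapDomain_support_of_injective π.1.injective] at h
  exact n (Pe.mem_GE.1 π.2 t n ▸ h (mem_image_of_mem _ ht))

variable (s T B w E) in
/-- forget the colours and the relabellings -/
def fg : (cE s T (sy B E) w).C → T.C ⊕ B.N := Sum.elim (fun p => .inl p.1.1) fun x => .inr x.1.1

variable (s T B w E col W κ) in
/-- the coordinates above -/
abbrev DD : Type := (cE s T (sy B E) w).Cw (MR col W (dk κ))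
variable (T B w W κ) in
/-- the coordinates below -/
abbrev DE : Type := (bar T B w).Cw (MR (fun _ => ()) W (dk κ))

/-- the projection -/
def pj (q : DD s T B w E col W κ) : DE T B w W κ := ⟨(fg s T B w E q.1.1, q.1.2), by
  obtain ⟨⟨p | x, μ⟩, e⟩ := q
  · exact Cw0.old p μ e
  · refine unit_ext ((degree_col _ _).trans (Eq.trans ?_ (Finsupp.degree_single _ _).symm))
    exact (degree_col col _).symm.trans ((congrArg Finsupp.degree e).trans (degree_col _ _))⟩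

/-- the ranks -/
def rk (q : DE T B w W κ) : ℕ := Sum.elim (fun _ => 0) (fun a => B.rk a + 1) q.1.1

theorem ps_eq (ξ : DD s T B w E col W κ → ℝ) (q : DE T B w W κ) :
    Ds.ps pj ξ q = ex _ _ (fg s T B w E) ξ (q.1.1, q.1.2.1) :=
  sum_congr (filter_congr fun _ _ => ⟨fun e => ⟨congrArg (·.1.1) e, congrArg (·.1.2.1) e⟩,
    fun e => Subtype.ext (Prod.ext e.1 (Subtype.ext e.2))⟩) fun _ _ => rfl

theorem br_eq (ξ : DD s T B w E col W κ → ℝ) :
    br B E (ex _ _ (fm s T _ w) ξ) = ex _ _ (fg s T B w E) ξ := by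
  funext ⟨c, μ⟩
  rcases c with F | a
  · refine sum_congr (filter_congr fun q _ => and_congr_left' ?_) fun _ _ => rfl
    obtain ⟨⟨p | x, ν⟩, e⟩ := q <;> simp [fm, fg]
  · refine (sum_congr rfl fun x _ => sum_filter _ _).trans (sum_comm.trans
      ((sum_congr rfl fun q _ => ?_).trans (sum_filter _ _).symm))
    obtain ⟨⟨p | x, ν⟩, e⟩ := q
    · exact (sum_eq_zero fun _ _ => if_neg fun z => Sum.inl_ne_inr z.1).trans
        (if_neg fun z => Sum.inl_ne_inr z.1).symm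
    by_cases k : x.1.1 = a
    · exact (sum_eq_single_of_mem x (mem_filter.2 ⟨mem_univ _, k⟩) fun x' _ n => if_neg fun z =>
        n (Sum.inr_injective z.1).symm).trans
        (if_congr (and_congr_left' (iff_of_true rfl (congrArg Sum.inr k))) rfl rfl)
    · exact (sum_eq_zero fun x' hx => if_neg fun z => k ((congrArg (·.1.1) (Sum.inr_injective z.1 :
        x = x')).trans (mem_filter.1 hx).2)).trans (if_neg fun z => k (Sum.inr_injective z.1)).symm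

theorem ps_new (g : DD s T B w E col W κ → ℝ) (a : B.N) (μ : Sh.MW W) (e) :
    Ds.ps pj g ⟨(.inr a, μ), e⟩ = ∑ x : (sp (sy B E) col W).N with x.1.1.1.1 = a ∧ x.1.2 = μ,
      g ⟨(.inr x.1.1, x.1.2), x.2⟩ := by
  refine (sum_bij (fun x _ => ⟨(.inr x.1.1, x.1.2), x.2⟩) (fun x hx => ?_)
    (fun x _ x' _ e => ?_) (fun d hd => ?_) fun x _ => rfl).symm
  · exact mem_filter.2 ⟨mem_univ _, Subtype.ext (Prod.ext
      (congrArg Sum.inr (mem_filter.1 hx).2.1) (mem_filter.1 hx).2.2)⟩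
  · exact Subtype.ext (Prod.ext (Sum.inr_injective (congrArg (·.1.1) e)) (congrArg (·.1.2) e))
  · have i := (mem_filter.1 hd).2
    obtain ⟨⟨p | a', μ'⟩, e''⟩ := d
    · exact absurd (congrArg (·.1.1) i) Sum.inl_ne_inr
    · exact ⟨⟨(a', μ'), e''⟩, mem_filter.2 ⟨mem_univ _, Sum.inr_injective (congrArg (·.1.1) i),
        congrArg (·.1.2) i⟩, rfl⟩

theorem sur (h : ∀ F, T.lev F ≤ s) (hB : Bo B)
    (hW : ∀ μ ∈ W, (∀ t, μ.mapDomain col t ≤ 1) ∧ (μ.mapDomain col).support ⊆ E)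
    (q : DE T B w W κ) (g : ∀ a, q.1.1 = .inr a → (B.wd a).support ⊆ E) :
    ∃ c : DD s T B w E col W κ, pj c = q := by
  obtain ⟨⟨F | a, μ⟩, e⟩ := q
  · exact ⟨Cw0.eqv _ w col W _ h (.inl ⟨(F, μ), e⟩), rfl⟩
  · obtain ⟨x, rfl, k⟩ := sur_sy hB (g a rfl) (hW _ (Sh.MW.mem μ)).1 (hW _ (Sh.MW.mem μ)).2
      ((degree_col col _).trans ((degree_col _ _).symm.trans
        ((congrArg Finsupp.degree e).trans (Finsupp.degree_single _ _))))
    exact ⟨⟨(.inr x, μ), k.symm⟩, rfl⟩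

theorem ex_res (ξ : DD s T B w E col W κ → ℝ) (v : VV T.C τ) :
    ex T _ id (res s T _ w col W _ ξ) v = ex _ _ (fm s T _ w) ξ (.inl v.1, v.2) := by
  obtain ⟨F, ν⟩ := v
  by_cases k : ∃ p : T.Cw (MR (fun _ => ()) W (dk κ)), p.1.1 = F ∧ p.1.2.1 = ν
  · obtain ⟨p, rfl, rfl⟩ := k
    exact ex_one (f := id) _ p fun _ e => e
  · rw [of_not_not (mt ex_ne k), of_not_not (mt ex_ne ?_)]
    rintro ⟨⟨⟨p | x, μ⟩, e⟩, e1, e2⟩
    · exact k ⟨⟨(p.1.1, μ), Cw0.old p μ e⟩, Sum.inl_injective e1, e2⟩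
    · exact Sum.inr_ne_inl e1

theorem ex_pj (h : ∀ F, T.lev F ≤ s) (hB : Bo B)
    (hW : ∀ μ ∈ W, (∀ t, μ.mapDomain col t ≤ 1) ∧ (μ.mapDomain col).support ⊆ E)
    {ξ : DD s T B w E col W κ → ℝ} {ξ' : DE T B w W κ → ℝ}
    (e : ∀ c : DD s T B w E col W κ, ξ' (pj c) = Ds.ps pj ξ (pj c)) {c : T.C ⊕ B.N}
    (g : ∀ a, c = .inr a → (B.wd a).support ⊆ E) (ν : τ →₀ ℕ) :
    ex (bar T B w) _ id ξ' (c, ν) = ex _ _ (fg s T B w E) ξ (c, ν) := by
  by_cases k : ∃ q : DE T B w W κ, q.1.1 = c ∧ q.1.2.1 = ν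
  · obtain ⟨q, rfl, rfl⟩ := k
    obtain ⟨d, rfl⟩ := sur (col := col) h hB hW q g
    rw [← ps_eq, ← e]
    exact ex_one (f := id) _ _ fun _ e => e
  · rw [of_not_not (mt ex_ne k), of_not_not (mt ex_ne fun ⟨d, e⟩ => k ⟨pj d, e⟩)]

theorem kb (h : Tb T st M s) (hB : Bo B) (hs : ∀ a, (B.wd a).degree ≤ s) (hw : 0 < w) (hW : Dn W)
    (k : ∀ μ ∈ W, 0 < κ μ) : Ds.Kb (pj : DD s T B w E col W κ → _) (rk · = 0)
      ((cE s T (sy B E) w).sh (MR col W (dk κ))).K ((bar T B w).sh (MR (fun _ => ()) W (dk κ))).K where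
  pd := TS.kw_posDef (Ca.cE_ok h (Pe.bo_sy hB) hw).pd (mr_ok hW k).pd
  pd' := TS.kw_posDef (Ca.tb_bar h hB hs hw).ok.pd (mr_ok hW k).pd
  sj q z := by
    obtain ⟨⟨F | a, μ⟩, e⟩ := q
    · exact ⟨Cw0.eqv _ w col W _ h.lev (.inl ⟨(F, μ), e⟩), rfl⟩
    · exact absurd z (Nat.succ_ne_zero _)
  ij c d z e := by
    obtain ⟨p | x, rfl⟩ := (Cw0.eqv _ w col W _ h.lev).surjective c
    · obtain ⟨p' | x', rfl⟩ := (Cw0.eqv _ w col W _ h.lev).surjective d
      · exact congrArg (fun p => Cw0.eqv _ w col W _ h.lev (.inl p)) (Subtype.ext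
          (Prod.ext (Sum.inl_injective (congrArg (·.1.1) e)) (congrArg (·.1.2) e)))
      · exact absurd (congrArg (·.1.1) e) Sum.inr_ne_inl
    · exact absurd z (Nat.succ_ne_zero _)
  old c d z z' := by
    obtain ⟨p | x, rfl⟩ := (Cw0.eqv _ w col W _ h.lev).surjective c
    · obtain ⟨p' | x', rfl⟩ := (Cw0.eqv _ w col W _ h.lev).surjective d
      · rw [TS.sh_K, Cw0.cE_K]
        exact Cw0.kw_eqv h.lev T.K 0 (w • 1) _ (mr_ok hW k).blk _ _
      · exact absurd z' (Nat.succ_ne_zero _)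
    · exact absurd z (Nat.succ_ne_zero _)
  dg c := by
    obtain ⟨p | x, rfl⟩ := (Cw0.eqv _ w col W _ h.lev).surjective c
    · rw [TS.sh_K, Cw0.cE_K]
      exact Cw0.kw_eqv h.lev T.K 0 (w • 1) _ (mr_ok hW k).blk _ _
    · exact congrArg (fun t => w * t * _) ((one_apply_eq _).trans (one_apply_eq _).symm)
  off c d z n := by
    obtain ⟨⟨p | x, μ⟩, e⟩ := c <;> obtain ⟨⟨p' | x', μ'⟩, e'⟩ := d
    · exact (z.elim (· rfl) (· rfl)).elim
    · exact zero_mul _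
    · exact zero_mul _
    · by_cases a : x = x'
      · exact mul_eq_zero_of_right _ (if_neg fun b => n (Subtype.ext
          (Prod.ext (congrArg Sum.inr a) (Subtype.ext b))))
      · exact mul_eq_zero_of_left (mul_eq_zero_of_right w (one_apply_ne a)) _
  off' c d z n := by
    obtain ⟨⟨p | x, μ⟩, e⟩ := c <;> obtain ⟨⟨p' | x', μ'⟩, e'⟩ := d
    · exact (z.elim (· rfl) (· rfl)).elim
    · exact zero_mul _
    · exact zero_mul _
    · by_cases a : x = x'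
      · exact mul_eq_zero_of_right _ (if_neg fun b => n (Subtype.ext
          (Prod.ext (congrArg Sum.inr a) (Subtype.ext b))))
      · exact mul_eq_zero_of_left (mul_eq_zero_of_right w (one_apply_ne a)) _

theorem u_inl (h : (bar T B w).Ok) (hW : Dn W) (ξ : DE T B w W κ → ℝ) (F : T.C) (μ : Sh.MW W) (e) :
    ((bar T B w).sh _).u ξ ⟨(.inl F, μ), e⟩ =
      sv (T.Φ F) μ.1 fun v => ex (bar T B w) _ id ξ (.inl v.1, v.2) :=
  (diag.2.1 τ _ W _ ξ _ h hW).trans (sv_inl _ _ _)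

theorem u_inr (h : (bar T B w).Ok) (hW : Dn W) (ξ : DE T B w W κ → ℝ) (a : B.N) (μ : Sh.MW W) (e) :
    ((bar T B w).sh _).u ξ ⟨(.inr a, μ), e⟩ = ξ ⟨(.inr a, μ), e⟩ -
      sv (dgl T B (B.Θ a)) μ.1 (ex (bar T B w) _ id ξ) :=
  (diag.2.1 τ _ W _ ξ _ h hW).trans ((sv_sub _ _ _ _).trans
    (congrArg (· - _) (ex_one (f := id) ξ ⟨(.inr a, μ), e⟩ fun _ e => e)))

/-- the value of a relabelled bracket -/
def Ev (ξ : DD s T B w E col W κ → ℝ) (x : (sp (sy B E) col W).N) : ℝ :=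
  eval (Sum.elim (ex T _ id (res s T _ w col W _ ξ)) (nw s T _ w col W _ ξ)) ((sp _ col W).Θ x)

/-- **the diagonal identity on the ring** -/
theorem sum_Ev (h : T.Ok) (hB : Bo B) (ξ : DD s T B w E col W κ → ℝ) (a : B.N) (μ : Sh.MW W)
    (ha : (B.wd a).support ⊆ E) (h1 : ∀ t, μ.1.mapDomain col t ≤ 1)
    (h2 : (μ.1.mapDomain col).support ⊆ E) (h3 : μ.1.degree = (B.wd a).degree) :
    ∑ x : (sp (sy B E) col W).N with x.1.1.1.1 = a ∧ x.1.2 = μ, Ev ξ x =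
      sv (dgl T B (B.Θ a)) μ.1 (ex _ _ (fg s T B w E) ξ) := by
  classical
  let z : VV (T.C ⊕ (sy B E).N) σ → ℝ := fun v =>
    if v.2 ≤ μ.1.mapDomain col then ex _ _ (fm s T _ w) ξ (v.1, sw col μ.1 v.2) else 0
  have hz : ∀ v, z v ≠ 0 → ∃ q : DD s T B w E col W κ, fm s T _ w q.1.1 = v.1 ∧
      (cE s T _ w).deg q.1.1 = v.2 := fun v n => by
    have k : v.2 ≤ μ.1.mapDomain col := of_not_not fun k => n (if_neg k)
    obtain ⟨q, e1, e2⟩ := ex_ne fun e => n ((if_pos k).trans e)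
    exact ⟨q, e1, q.2.symm.trans ((congrArg (Finsupp.mapDomain col) e2).trans (sw_md h1 k))⟩
  have := (diag.1 σ T B E z hB (fun F e => h.ne F ((Finsupp.degree_eq_zero_iff _).1 e))
    (fun F ν n => ?_) fun x ν n => ?_).2 a _ ha h2 h1 ((degree_col _ _).trans h3)
  · rw [Dg.part3 col _ _ _ h1, ← br_eq, ← sv_cg (z := br B E z) fun c _ ν k => ?_, ← this]
    · refine sum_bij (fun x _ => x.1.1) (fun x hx => ?_) (fun x hx x' hx' e => ?_)
        (fun x hx => ?_) fun x hx => ?_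
      · obtain ⟨a, rfl⟩ := (mem_filter.1 hx).2
        exact mem_filter.2 ⟨mem_univ _, a, x.2.symm⟩
      · exact Subtype.ext (Prod.ext e ((mem_filter.1 hx).2.2.trans (mem_filter.1 hx').2.2.symm))
      · obtain ⟨a, b⟩ := (mem_filter.1 hx).2
        exact ⟨⟨(x, μ), b.symm⟩, mem_filter.2 ⟨mem_univ _, a, rfl⟩, rfl⟩
      obtain ⟨-, rfl⟩ := (mem_filter.1 hx).2
      rw [up, eval_rename]
      refine (Dg.eval_aeval _ _ _).trans (eval_congr fun v hv => ?_)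
      have l := (wt_le ((Pe.bo_sy hB).ok.hom _) hv).trans_eq x.2.symm
      rcases v with v | x'
      · exact (eval_X _).trans ((ex_res ξ _).trans (if_pos l).symm)
      · refine Eq.trans ?_ (if_pos l).symm
        rw [Sum.elim_inr]
        split_ifs with k
        · exact (eval_X _).trans (ex_one (f := fm s T _ w) ξ ⟨(.inr x', ⟨_, k.1⟩), k.2⟩
            fun c e => c.rec (fun _ e => absurd e Sum.inl_ne_inr)
              (fun _ e => congrArg Sum.inr (Sum.inr_injective e)) e).symm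
        · refine (map_zero _).trans (of_not_not (mt ex_ne fun ⟨q, _, e⟩ => k ⟨?_, sw_md h1 l⟩)).symm
          exact (congrArg (· ∈ W.erase 0) e).mp q.1.2.2
    · rcases c with F | a
      · exact if_pos k
      · exact sum_congr rfl fun x _ => if_pos k
  · obtain ⟨⟨⟨p | x, ν'⟩, e⟩, e1, rfl⟩ := hz _ n
    · exact (Cw0.lev_cw p).trans (congrArg _ (Sum.inl_injective e1))
    · exact absurd e1 Sum.inr_ne_inl
  · obtain ⟨⟨⟨p | x, ν'⟩, e⟩, e1, rfl⟩ := hz _ n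
    · exact absurd e1 Sum.inl_ne_inr
    · exact congrArg (sy B E).wd (Sum.inr_injective e1)

end De

open De in
/-- **descent to the fibre of the diagonal tower** -/
theorem desc : DESC := by
  intro σ τ _ _ _ s M T st B w b κ0 E col W κ x y y' G G' h hB hs hw hW hκ k0 b0 hb hy hG
  have k : ∀ μ ∈ W, 0 < κ μ := fun μ m => k0.trans_le (hκ μ m).2.2
  have hE : ∀ μ ∈ W, (∀ t, μ.mapDomain col t ≤ 1) ∧ (μ.mapDomain col).support ⊆ E :=
    fun μ m => ⟨(hκ μ m).1, (hκ μ m).2.1⟩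
  have ob := (Ca.tb_bar h hB hs hw).ok
  obtain ⟨-, bo, -, -, c5, c6, -⟩ := colw σ τ s M T st (sy B E) w col W (dk κ) (T.tw0 _) h
    (Pe.bo_sy hB) (fun x => (degree_col _ _).trans_le (hs _)) hw hW (mr_ok hW k)
    (h.stg.adm (mr_ok hW k))
  have eu := tw0_u (col := col) (W := W) (K := dk κ) (Ca.cT_tw0 h (Pe.bo_sy (E := E) hB) hw)
  have d5 : ∀ (ξ : DD s T B w E col W κ → ℝ) p μ e, ((cE s T (sy B E) w).sh _).u ξ
      ⟨(.inl p, μ), e⟩ = sv (T.Φ p.1.1) μ.1 (ex T _ id (res s T _ w col W _ ξ)) := fun ξ p μ e =>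
    (eu ξ _).symm.trans ((c5 ξ p μ e (Cw0.old p μ e)).trans
      ((tw0_u rfl _ _).trans (diag.2.1 τ T W _ _ _ h.ok hW)))
  have d6 : ∀ (ξ : DD s T B w E col W κ → ℝ) (x : (sp (sy B E) col W).N),
      ((cE s T (sy B E) w).sh _).u ξ ⟨(.inr x.1.1, x.1.2), x.2⟩ =
      ξ ⟨(.inr x.1.1, x.1.2), x.2⟩ - Ev ξ x := fun ξ x => (eu ξ _).symm.trans (c6 ξ x)
  have KB := kb (E := E) (col := col) h hB hs hw hW k
  have rs : ∀ {ξ η : DD s T B w E col W κ → ℝ}, (∀ d, rk (pj d) = 0 → ξ d = η d) →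
      res s T _ w col W _ ξ = res s T _ w col W _ η := fun e => funext fun p => by
    rw [Cw0.res_eq h.lev, Cw0.res_eq h.lev]; exact e _ rfl
  have df : ∀ {a b c d e f : ℝ}, a = b - c → d = e - f → c = f → a - b = d - e := by
    rintro _ _ _ _ _ _ rfl rfl rfl; ring
  refine rx_of (V := (cE s T (sy B E) w).sh (MR col W (dk κ))) (pr := pj) (rk := rk)
    ⟨KB, fun _ => Iff.rfl, b0, fun c z => ?_, fun ξ η c z e => ?_, fun ξ η c z e => ?_,
      fun ξ η c z e => ?_, fun ξ ξ' e c => ?_, fun c z => ?_, fun ξ ξ' e1 e2 e => ?_⟩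
  · obtain ⟨⟨p | a, μ⟩, e⟩ := c
    · exact absurd rfl z
    · refine hb.trans_le (le_of_le_of_eq (mul_le_mul_of_nonneg_left (hκ _ (Sh.MW.mem μ)).2.2 hw.le) ?_)
      exact congrArg₂ (· * ·) ((mul_one w).symm.trans (congrArg (w * ·) (one_apply_eq a).symm))
        (if_pos rfl).symm
  · obtain ⟨⟨p | a, μ⟩, e'⟩ := c
    · exact absurd rfl z
    refine df (d6 ξ ⟨(a, μ), e'⟩) (d6 η ⟨(a, μ), e'⟩) (eval_congr fun v hv => ?_)
    rcases v with v | v
    · exact congrArg (ex T _ id · v) (rs fun d z => e d (z.trans_lt (Nat.succ_pos _)))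
    · exact e _ (Nat.succ_lt_succ (bo.ok.tri _ _ hv))
  · obtain ⟨⟨p | a, μ⟩, e'⟩ := c
    · exact absurd rfl z
    refine df (u_inr ob hW ξ a μ e') (u_inr ob hW η a μ e')
      (sv_cg fun c hc ν _ => ex_cg fun q (i : q.1.1 = c) => e q ?_)
    have i' := congrArg (Sum.elim (fun _ => 0) fun a => B.rk a + 1) i
    rcases c with F | a'
    · exact i'.trans_lt (Nat.succ_pos _)
    · exact i'.trans_lt (Nat.succ_lt_succ (hB.ok.tri _ _ (dgl_vars hc)))
  · obtain ⟨⟨p | a, μ⟩, e'⟩ := c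
    · exact (d5 ξ p μ e').trans ((congrArg (fun r => sv _ _ (ex T _ id r)) (rs e)).trans
        (d5 η p μ e').symm)
    · exact absurd z (Nat.succ_ne_zero _)
  · obtain ⟨⟨p | a, μ⟩, e'⟩ := c
    · refine (u_inl ob hW _ _ _ _).trans (Eq.trans (congrArg _ (funext fun v => ?_))
        ((KB.ps rfl _).trans (d5 ξ p μ e')).symm)
      exact (ex_pj h.lev hB hE e (fun _ z => absurd z Sum.inl_ne_inr) _).trans
        ((congrFun (br_eq ξ) _).symm.trans (ex_res ξ v).symm)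
    have ha := sup_sy a (le_of_eq_of_le (congrArg Finsupp.support e'.symm) (hE _ (Sh.MW.mem μ)).2)
    have := sum_Ev h.ok hB ξ a.1.1 μ ha (hE _ (Sh.MW.mem μ)).1 (hE _ (Sh.MW.mem μ)).2
      ((degree_col col _).symm.trans ((congrArg Finsupp.degree e').trans (degree_col _ _)))
    refine (u_inr ob hW _ _ _ _).trans ((congrArg₂ (· - ·) (e ⟨(.inr a, μ), e'⟩)
      ((sv_cg fun c hc ν _ => ex_pj h.lev hB hE e (fun a' i => ?_) ν).trans this.symm)).trans ?_)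
    · subst i
      exact (Finsupp.support_mono (wt_le (hB.ok.hom _) (dgl_vars hc))).trans ha
    exact (congrArg (· - _) (ps_new ξ _ _ _)).trans ((sum_sub_distrib _ _).symm.trans
      ((sum_congr rfl fun x _ => (d6 ξ x).symm).trans (ps_new _ _ _ _).symm))
  · exact (hy _ (not_not.1 z)).trans ((congrFun (br_eq y) _).trans (ps_eq y _).symm)
  · refine hG ξ ξ' (fun p z => e1 p (not_not.2 z)) (fun p z => e2 p (not_not.2 z)) fun p g => ?_
    obtain ⟨d, rfl⟩ := sur (col := col) h.lev hB hE p g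
    exact (e d).trans ((ps_eq ξ _).trans (congrFun (br_eq ξ) _).symm)

end Crest.Agent.N49.Sw

end
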