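import Crest.Agent.N49.Sw.Df4
import Crest.Agent.N49.Sd.Fk

/-!
# Row 49 (helper55): symmetrisation, the witness and the swap (FROZEN)
-/

set_option autoImplicit false
set_option linter.unusedSectionVars false

open Matrix MvPolynomial Finset

noncomputable section

namespace Crest.Agent.N49.Sw

open Po Tw Sd Sy Md Rm Mv

variable {τ L : Type} [Fintype τ] [DecidableEq τ] [Fintype L] [DecidableEq L]

/-- blind to the words with the letter `a` -/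
def Bl {σ τ' : Type} [DecidableEq σ] (U : TS σ) (S : Sh σ τ') (a : τ')
    (g : (U.Cw S → ℤ) → ℂ) : Prop := ∀ y y', (∀ p, S.ty p.1.2 a = 0 → y p = y' p) → g y = g y'

variable (τ) in
/-- the free ring with one more letter -/
abbrev FO {σ : Type} (col : Option τ → σ) (s : ℕ) (κ : ℝ) : Sh σ (Option τ) :=
  MR col (full (Option τ) s) (dk fun _ => κ)

/-- the words in the old letters -/
def uo {σ C : Type} [DecidableEq σ] [DecidableEq C] (U : TS σ) (fm : U.C → C) {col : Option τ → σ}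
    {s : ℕ} {κ : ℝ} (y : U.Cw (FO τ col s κ) → ℝ) : VV C τ → ℝ :=
  fun v => ex U _ fm y (v.1, v.2.mapDomain some)

/-- the direction `x - t` -/
def dxt (x t : τ) : Option τ → ℤ := Pi.single (some x) 1 - Pi.single (some t) 1

/-- **the witness** for `F` over `H` on the free ring of variance `κ` -/
def Wtn (s : ℕ) (B : Bs L) (W : Finset (Finset τ)) (blk : τ → L) (x t : τ)
    (H : Set (B.SC W → ℤ)) (F : Fm L (B.SC W)) (κ : ℝ) (m : ℕ) : Prop :=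
  ∃ (Ψ : B.T.Twd (FO τ (fun _ => ()) s κ)) (g A C : (B.T.Cw (FO τ (fun _ => ()) s κ) → ℤ) → ℂ),
    B.T.Adm _ B.st Ψ ∧ (∀ y, ‖g y‖ ≤ 1 ∧ ‖A y‖ ≤ 1 ∧ ‖C y‖ ≤ 1) ∧ Bl B.T _ (some x) g ∧
    Inv B.T _ (dxt x t) A ∧ Bl B.T _ (some t) C ∧
    (∀ y, g y ≠ 0 → ∃ y0 ∈ H, ∀ w : B.SC W, x ∉ w.1.2 →
      (y0 w : ℝ) = uo B.T id (zc y) (w.1.1, ind w.1.2)) ∧
    (∀ y y' : B.T.Cw (FO τ (fun _ => ()) s κ) → ℝ, (∀ p, p.1.2.1 (some x) = 0 → y p = y' p) →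
      ∀ p, ∀ A ∈ W, x ∈ A → p.1.2.1 = (ind A).mapDomain some →
      (B.T.tw _ Ψ).u y p - (B.T.tw _ Ψ).u y' p =
        sv (B.T.Φ p.1.1) (ind A) (uo B.T id y) - sv (B.T.Φ p.1.1) (ind A) (uo B.T id y')) ∧
    1 / 2 ^ m ≤ ‖(B.T.tw _ Ψ).Ec fun y => g y * A y * C y * ee (F (Sum.elim
      (fun w => uo B.T id (zc y) (w.1.1, ind w.1.2)) fun ℓ => if ℓ = blk x then 0 else 1))‖

/-- **the witnesses of the frames** -/
def WIT (s d : ℕ) : Prop := ∃ ε0 : ℝ, 0 < ε0 ∧ ∀ ε ≤ ε0, 0 < ε → ∀ M, ∃ e K : ℕ, ∀ (o : Og s d)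
  (f : o.cx.Fr) (H : Set (f.X → ℤ)) (n k Y : ℕ), o.Ok ε → o.cx.n ≤ n → f.Fo s n Y → f.M = M →
  n ^ e ≤ k → f.Rg 1 (k ^ K) (1 / 2 ^ k ^ K) (1 / 2 ^ k ^ K) → Rm.Sz n f.S H → Ov f.k H o.cx.H →
  ∀ a t, t ≠ none → Wtn s f.toBs (Wt d o.Q) bk none t H (f.F a) (1 / 2 ^ k) (n ^ e)

/-- the witness for the form `Γ` and symbols -/
def Wt2 (s : ℕ) (T : TS Unit) (st : T.C → ℕ) (W : Finset (Finset τ)) (x t : τ) (κ : ℝ)
    (B : Bk (VV T.C τ) τ) (Γ : MvPolynomial (VV T.C τ ⊕ B.N) ℝ) (δ : ℝ) : Prop :=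
  ∃ (Ψ : T.Twd (FO τ (fun _ => ()) s κ)) (g A C : (T.Cw (FO τ (fun _ => ()) s κ) → ℤ) → ℂ)
    (Pi : Finset τ → MvPolynomial T.C ℝ), T.Adm _ st Ψ ∧ (∀ y, ‖g y‖ ≤ 1 ∧ ‖A y‖ ≤ 1 ∧ ‖C y‖ ≤ 1) ∧
    Bl T _ (some x) g ∧ Inv T _ (dxt x t) A ∧ Bl T _ (some t) C ∧
    δ ≤ ‖(T.tw _ Ψ).Ec fun y => g y * A y * C y * ee (B.ev (uo T id (zc y)) Γ +
      ∑ U ∈ W with x ∈ U, sv (Pi U) (ind U) (uo T id (zc y)))‖

/-- the colours with `x = t` -/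
def cxt (x t : τ) : Option τ → τ := fun o => o.elim t (Function.update id x t)

/-- the witness for one word -/
def Wt3 {C : Type} [DecidableEq C] (s : ℕ) (U : TS τ) (st : U.C → ℕ) (fm : U.C → C) (κ : ℝ)
    (E : Finset τ) (x t : τ) (Q : MvPolynomial (VV C τ) ℝ) (δ : ℝ) : Prop :=
  ∃ (Ψ : U.Twd (FO τ (cxt x t) s κ)) (A : (U.Cw (FO τ (cxt x t) s κ) → ℤ) → ℂ)
    (Cf : τ → (U.Cw (FO τ (cxt x t) s κ) → ℤ) → ℂ), U.Adm _ st Ψ ∧ (∀ y, ‖A y‖ ≤ 1) ∧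
    (∀ a y, ‖Cf a y‖ ≤ 1) ∧ Inv U _ (dxt x t) A ∧ (∀ a ∈ E, Bl U _ (some a) (Cf a)) ∧
    δ ≤ ‖(U.tw _ Ψ).Ec fun y => A y * (∏ a ∈ E, Cf a y) * ee (eval (uo U fm (zc y)) Q)‖

/-- the form with the families of the wide tower -/
def rnP {C C' σ : Type} (f : C → C') (B : Bk (VV C σ) σ) (Γ : MvPolynomial (VV C σ ⊕ B.N) ℝ) :
    MvPolynomial (VV C' σ ⊕ (rnB f B).N) ℝ := rename (Sum.map (Prod.map f id) id) Γ

/-- the component of a word -/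
def cw {C : Type} (B : Bk (VV C τ) τ) (E : Finset τ) (Γ : MvPolynomial (VV C τ ⊕ B.N) ℝ) :
    MvPolynomial (VV C τ ⊕ B.N) ℝ := weightedHomogeneousComponent (B.wg Prod.snd) (wE E) Γ

/-- both semantic forms of the regularity -/
def HH {σ : Type} [DecidableEq σ] (U : TS σ) (st : U.C → ℕ) (N h r : ℕ) : Prop :=
  U.HM st N (1 / 2 ^ h) (1 / 2 ^ r) ∧ U.HP st N (1 / 2 ^ h) (1 / 2 ^ r)

/-- leaf: regularity of all the towers of a turn -/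
def REG : Prop := ∀ s M : ℕ, ∃ c : ℕ, ∀ (σ : Type) [Fintype σ] [DecidableEq σ] (T : TS Unit)
  (st : T.C → ℕ) (P : Bk T.C Unit) (B B' : Bk (VV T.C σ) σ) (w w' : ℝ) (N h r β : ℕ),
  Tb T st M s → Pb T P s → Bo B → Bo B' → (∀ a, (B.wd a).degree ≤ s) →
  (∀ a, (B'.wd a).degree ≤ s) → Fintype.card σ ≤ N → Fintype.card P.N ≤ N →
  Fintype.card B.N ≤ N → Fintype.card B'.N ≤ N → (N + h + r + 2) ^ c ≤ β →
  T.RgS st M 1 β (1 / 2 ^ β) (1 / 2 ^ β) → ((N + h + r + 2) ^ c * 2 ^ h : ℝ) ≤ w →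
  ((N + h + r + 2) ^ c * 2 ^ h : ℝ) ≤ w' →
  HH T st N h r ∧ HH (xw T P w') (xst T P w' s st M) N h r ∧
    HH (cE s (xw T P w') (rnB Sum.inl B) w)
      (cst s _ _ w (xst T P w' s st M) (M * (s + 1) ^ s)) N h r ∧
    HH (cE s T B' w) (cst s T B' w st M) N h r

/-- leaf: the relation is used in the witness -/
def W3P : Prop := ∀ s : ℕ, ∃ c : ℕ, ∀ (τ L D : Type) [Fintype τ] [DecidableEq τ] [Fintype L]
  [DecidableEq L] (B : Bs L) (W : Finset (Finset τ)) (blk : τ → L) (x t : τ) (P : Bk B.T.C Unit)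
  (Bt : Bk (VV B.T.C τ) τ) (Γ : D → MvPolynomial (VV B.T.C τ ⊕ Bt.N) ℝ) (F : D → Fm L (B.SC W))
  (d : D) (q : (τ →₀ ℕ) → Prop) (H : Set (B.SC W → ℤ)) (n m g k N : ℕ) (η : ℝ), Sb B W blk s n →
  Tb B.T B.st B.M s → Al s W blk x → Pn B P n s → Tyd blk x Bt → Tyf blk x Bt q (Γ d) →
  (B.SY W blk).Dat univ {blk x} (F d) →
  (RS B W blk (blk x) P H 1 n fun d p => F d p - Bt.ev (uv B W p) (Γ d)) →
  (n + m + 2) ^ c ≤ g → (g + 2) ^ c ≤ k → (n + 2) ^ s ≤ N → 0 ≤ η → η ≤ 1 / 8 →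
  (xw B.T P (4 ^ g * 2 ^ k)).HM (xst B.T P _ s B.st B.M) N (1 / 2 ^ k) η →
  Wtn s B W blk x t H (F d) (1 / 2 ^ k) m →
  Wt2 s (xw B.T P (4 ^ g * 2 ^ k)) (xst B.T P _ s B.st B.M) W x t (1 / 2 ^ k) (rnB Sum.inl Bt)
    (rnP Sum.inl Bt (Γ d)) (1 / 2 ^ (g + 2) ^ c)

open Classical in
/-- leaf: `INB` for a ring with other letters -/
def INB2 : Prop := ∀ (σ τ : Type) [Fintype σ] [DecidableEq σ] [DecidableEq τ] (s M m g : ℕ)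
  (T : TS Unit) (st : T.C → ℕ) (B : Bk (VV T.C σ) σ) (w : ℝ) (col : τ → σ) (lt : σ → τ)
  (W : Finset (τ →₀ ℕ)) (κ : (τ →₀ ℕ) → ℝ) (Ψ : T.Twd (MR (fun _ => ()) W (dk κ)))
  (G : (T.Cw (MR (fun _ => ()) W (dk κ)) → ℤ) → ℂ), Tb T st M s → Bo B →
  (∀ a, (B.wd a).degree ≤ s) → 0 < w → Dn W → T.Adm _ st Ψ → Function.Injective lt →
  (∀ a, (B.wd a).mapDomain lt ∈ W ∧ ∀ t, B.wd a t ≠ 0 → col (lt t) = t) →
  (∀ μ ∈ W, (Fintype.card B.N * #W + m + 1 : ℝ) ≤ w * κ μ ∧ w * κ μ ≤ 4 ^ g) → (∀ y, ‖G y‖ ≤ 1) →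
  ∃ c : (VV T.C σ → ℝ) → ℝ, (∀ z, 0 ≤ c z ∧ c z ≤ 1) ∧
    (∀ z z', (∀ F μ a, μ ≤ B.wd a → z (F, μ) = z' (F, μ)) → c z = c z') ∧
    ‖(T.tw _ Ψ).Ec G‖ / (2 * (3 * 2 ^ g) ^ Fintype.card B.N) - 2 / 2 ^ m ≤
      ‖((cE s T B w).tw _ (cT s T B w col W (dk κ) Ψ)).Ec fun y =>
        G (res s T B w col W _ y) *
        c (fun v => ex T _ id (zc (res s T B w col W _ y)) (v.1, v.2.mapDomain lt)) *
        if ∀ a, ex _ _ (fm s T B w) y (.inr a, (B.wd a).mapDomain lt) = B.om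
          (fun v => ex T _ id (zc (res s T B w col W _ y)) (v.1, v.2.mapDomain lt)) a
        then 1 else 0‖

/-- leaf: merging two letters in a symbol -/
def MRI : Prop := ∀ (τ : Type) [Fintype τ] [DecidableEq τ] (s : ℕ) (κ : ℝ) (T : TS Unit)
  (x t : τ) (P : MvPolynomial T.C ℝ) (U : Finset τ), (∀ F, T.lev F ≤ s) → x ∈ U → t ∈ U → t ≠ x →
  ∃ a b c : (T.Cw (FO τ (fun _ => ()) s κ) → ℤ) → ℝ,
    Inv T _ (dxt x t) (fun y => ee (a y)) ∧ Bl T _ (some x) (fun y => ee (b y)) ∧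
    Bl T _ (some t) (fun y => ee (c y)) ∧ ∀ y, sv P (ind U) (uo T id (zc y)) = a y + b y + c y

/-- leaf: isolating one word -/
def DEC : Prop := ∀ (τ L : Type) [Fintype τ] [DecidableEq τ] [Fintype L] [DecidableEq L]
  (s M m g : ℕ) (T : TS Unit) (st : T.C → ℕ) (W : Finset (Finset τ)) (blk : τ → L) (x t : τ)
  (B : Bk (VV T.C τ) τ) (Γ : MvPolynomial (VV T.C τ ⊕ B.N) ℝ) (q : (τ →₀ ℕ) → Prop)
  (E : Finset τ) (w κ δ : ℝ), Tb T st M s → Al s W blk x → Tyd blk x B → Tyf blk x B q Γ →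
  x ∈ E → t ∈ E → t ≠ x → (∀ μ, q μ → (∀ ℓ, μ.mapDomain blk ℓ ≤ 1) → wE E ≤ μ → μ = wE E) →
  0 < w → (Fintype.card B.N * #(full (Option τ) s) + m + 1 : ℝ) ≤ w * κ → w * κ ≤ 4 ^ g →
  Wt2 s T st W x t κ B Γ δ →
  Wt3 s (cE s T B w) (cst s T B w st M) (fm s T B w) κ E x t (up B (cw B E Γ))
    (δ / (2 * (3 * 2 ^ g) ^ Fintype.card B.N) - 2 / 2 ^ m)

/-- leaf: the two boxes -/
def TWB : Prop := ∀ s : ℕ, ∃ c : ℕ, ∀ (τ C : Type) [Fintype τ] [DecidableEq τ] [DecidableEq C]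
  (U : TS τ) (st : U.C → ℕ) (fm : U.C → C) (M n N m : ℕ) (κ κ' b η : ℝ) (E : Finset τ) (x t : τ)
  (Q : MvPolynomial (VV C τ) ℝ), U.Ok → U.Stg st M → Fintype.card τ ≤ n → #E ≤ s → x ∈ E →
  t ∈ E → t ≠ x → Q.IsWeightedHomogeneous Prod.snd (wE E) → (n + 2) ^ c ≤ N → 0 < b →
  2 ^ s * b ≤ κ' → (n + 2) ^ c * κ' ≤ κ → 0 ≤ η → η ≤ 1 / 2 ^ ((2 * m + 6) * 2 ^ s + 3) →
  U.HM st N b η → U.HP st N b η → Wt3 s U st fm κ E x t Q (1 / 2 ^ m) →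
  1 / 2 ^ ((2 * m + 6) * 2 ^ s + 1) ≤ bi U (MR (Function.update id x t) (W0 s E) (dk fun _ => κ'))
    fm (Q - rlb (Equiv.swap t x) Q)

/-- the biases of all the relabellings of the word `E` -/
def Bia (s : ℕ) (T : TS Unit) (W : Finset (Finset τ)) (x : τ) (B : Bk (VV T.C τ) τ)
    (Γ : MvPolynomial (VV T.C τ ⊕ B.N) ℝ) (E : Finset τ) (t : τ) (w κ : ℝ) (m : ℕ) : Prop :=
  ∀ π π' : GE E, π'.1 = π.1 * Equiv.swap t x → 1 / 2 ^ m ≤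
    bi (cE s T (sy B univ) w) (MR id (W.image ind) (dk fun _ => κ)) (fm s T _ w)
      (ug B univ (gi E π) (cw B E Γ) - ug B univ (gi E π') (cw B E Γ))

/-- **the swap** -/
def SWAP : Prop := ∀ s : ℕ, ∃ c : ℕ, ∀ (τ L : Type) [Fintype τ] [DecidableEq τ] [Fintype L]
  [DecidableEq L] (T : TS Unit) (st : T.C → ℕ) (M n N h r m g : ℕ) (W : Finset (Finset τ))
  (blk : τ → L) (x t : τ) (P : Bk T.C Unit) (B : Bk (VV T.C τ) τ)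
  (Γ : MvPolynomial (VV T.C τ ⊕ B.N) ℝ) (q : (τ →₀ ℕ) → Prop) (E : Finset τ) (w w' κ κ' : ℝ),
  Tb T st M s → Pb T P s → Al s W blk x → Tyd blk x B → Tyf blk x B q Γ → E ∈ W → x ∈ E → t ∈ E →
  t ≠ x → (∀ μ, q μ → (∀ ℓ, μ.mapDomain blk ℓ ≤ 1) → wE E ≤ μ → μ = wE E) →
  Fintype.card τ ≤ n → Fintype.card B.N ≤ n → Fintype.card P.N ≤ n → (n + 2) ^ c ≤ N →
  (n + m + g + 2) ^ c ≤ r → 2 ^ s / 2 ^ h ≤ κ' → (n + 2) ^ c * κ' ≤ κ → w * κ ≤ 4 ^ g →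
  (N + r + 1 : ℝ) ≤ w * κ' → (N + r + 1 : ℝ) ≤ w' * κ' →
  HH (cE s (xw T P w') (rnB Sum.inl B) w)
    (cst s _ _ w (xst T P w' s st M) (M * (s + 1) ^ s)) N h r →
  HH (cE s T (sy B univ) w) (cst s T _ w st M) N h r →
  Wt2 s (xw T P w') (xst T P w' s st M) W x t κ (rnB Sum.inl B) (rnP Sum.inl B Γ) (1 / 2 ^ m) →
  Bia s T W x B Γ E t w κ' ((n + m + g + 2) ^ c)

end Crest.Agent.N49.Sw

end
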