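import Crest.Agent.N49.Sw.Df4
import Crest.Agent.N49.Sw.Perm
import Crest.Agent.N49.Sd.Dil
import Crest.Agent.N49.Mv.Rx1

/-!
# Row 49 (helper29): entry to and exit from the symmetrisation loop
-/

set_option autoImplicit false
set_option linter.unusedSectionVars false

open Matrix MvPolynomial Finset

noncomputable section

namespace Crest.Agent.N49.Sw

open Po Tw Sd Sy Md Rm Mv

variable {τ L : Type} [Fintype τ] [DecidableEq τ] [Fintype L] [DecidableEq L]

namespace Et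

theorem le_md (f : τ → L) (μ : τ →₀ ℕ) (t : τ) : μ t ≤ μ.mapDomain f (f t) := by
  simpa using Finsupp.mapDomain_mono (f := f) (Finsupp.single_le_iff.2 (le_refl (μ t))) (f t)

theorem md_one {f : τ → L} {x : τ} (h : ∀ a, f a = f x → a = x) (μ : τ →₀ ℕ) :
    μ.mapDomain f (f x) = μ x := by
  rw [Finsupp.mapDomain, Finsupp.sum_apply, Finsupp.sum, sum_eq_single x
    (fun a _ n => Finsupp.single_eq_of_ne fun e => n (h a e.symm))
    fun k => by simp [Finsupp.notMem_support_iff.1 k], Finsupp.single_eq_same]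

theorem ind_le_one (S : Finset L) (ℓ : L) : ind S ℓ ≤ 1 := by rw [ind_apply]; split_ifs <;> simp

variable {B : Bs L} {W : Finset (Finset τ)} {blk : τ → L}

variable (B W) in
/-- a symbol coordinate as a universal variable -/
def rv (w : B.SC W) : VV B.T.C τ := (w.1.1, ind w.1.2)

theorem rv_inj : Function.Injective (rv B W) := fun _ _ e =>
  Subtype.ext (Prod.ext (Prod.ext_iff.1 e).1 (ind_inj (Prod.ext_iff.1 e).2))

theorem uv_rv (p : B.SC W ⊕ L → ℝ) (w : B.SC W) : uv B W p (rv B W w) = p (.inl w) :=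
  sum_eq_single_of_mem w (mem_filter.2 ⟨mem_univ _, rfl, rfl⟩) fun _ h n =>
    (n (rv_inj (Prod.ext (mem_filter.1 h).2.1 (mem_filter.1 h).2.2))).elim

section rn
variable {C C' Λ : Type} (g : C → C') (P : Bk C Λ)

/-- rename the coordinates of a bracket system -/
def rb : Bk C' Λ where
  N := P.N
  wd := P.wd
  rk := P.rk
  Θ a := rename (Sum.map g id) (P.Θ a)

theorem ev_map (z : C' → ℝ) (k : P.N → ℝ) (Q : MvPolynomial (C ⊕ P.N) ℝ) :
    eval (Sum.elim z k) (rename (Sum.map g id) Q) = eval (Sum.elim (z ∘ g) k) Q := by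
  rw [eval_rename]
  exact congrArg (eval · Q) (funext fun v => v.rec (fun _ => rfl) fun _ => rfl)

theorem omI_rb (z : C' → ℝ) (k : ℕ) : (rb g P).omI z k = P.omI (z ∘ g) k := by
  induction k with
  | zero => rfl
  | succ k ih => exact funext fun a => congrArg round ((ev_map g P z _ _).trans
      (congrArg (fun n : P.N → ℤ => eval (Sum.elim (z ∘ g) fun a => (n a : ℝ)) (P.Θ a)) ih))

theorem ev_rb (z : C' → ℝ) (Q : MvPolynomial (C ⊕ P.N) ℝ) :
    (rb g P).ev z (rename (Sum.map g id) Q) = P.ev (z ∘ g) Q :=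
  (ev_map g P z _ Q).trans (congrArg (fun n : P.N → ℝ => eval (Sum.elim (z ∘ g) n) Q)
    (funext fun a => congrArg Int.cast (congrFun (omI_rb g P z _) a)))

variable {g P} {dg : C → Λ →₀ ℕ} {dg' : C' → Λ →₀ ℕ}

theorem live_rb (e : ∀ c, dg' (g c) = dg c) {Q : MvPolynomial (C ⊕ P.N) ℝ}
    (h : ∀ c, Sum.inl c ∈ Q.vars → dg c ≠ 0) (v : C')
    (k : Sum.inl v ∈ (rename (Sum.map g (id : P.N → P.N)) Q).vars) : dg' v ≠ 0 := by
  obtain ⟨c | c, a, b⟩ := mem_vars_rename _ _ k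
  · rw [← Sum.inl_injective b, e]; exact h c a
  · exact absurd b Sum.inr_ne_inl

theorem ok_rb (e : ∀ c, dg' (g c) = dg c) (h : P.Ok dg) : (rb g P).Ok dg' where
  ne := h.ne
  hom a := Finsupp.mapDomain_id (v := P.wd a) ▸ Pe.hom_rn (Sum.map g id) id
    (fun v => (v.rec e fun _ => rfl : (rb g P).wg dg' (Sum.map g id v) = P.wg dg v).trans
      Finsupp.mapDomain_id.symm) (h.hom a)
  live a := live_rb e (h.live a)
  tri a a' k := by
    obtain ⟨c | c, u, b⟩ := mem_vars_rename _ _ k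
    · exact absurd b Sum.inl_ne_inr
    · exact h.tri a a' ((Sum.inr_injective b : c = a') ▸ u)

theorem wt_rb (e : ∀ c, dg' (g c) = dg c) {Q : MvPolynomial (C ⊕ P.N) ℝ} {m : C' ⊕ P.N →₀ ℕ}
    (k : m ∈ (rename (Sum.map g (id : P.N → P.N)) Q).support) : ∃ m0 ∈ Q.support,
      Finsupp.weight ((rb g P).wg dg') m = Finsupp.weight (P.wg dg) m0 := by
  obtain ⟨u, rfl, hu⟩ := coeff_rename_ne_zero _ _ _ (mem_support_iff.1 k)
  exact ⟨u, mem_support_iff.2 hu, (TS.weight_map _ _ u).trans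
    (congrArg (Finsupp.weight · u) (funext fun v => v.rec e fun _ => rfl))⟩

end rn

/-- pending families only weaken the relation -/
theorem rx_ext {T : TS Unit} (P : Bk T.C Unit) {la : L → ℝ} {x : L} {q : ℕ} {b : ℝ}
    {Y : (Bk.ext T P).C → Finset τ → ℤ} {F : (T.C → Finset τ → ℝ) → ℝ}
    (h : Mv.Rx T W blk la x (fun c => Y (.inl c)) q b F) :
    Mv.Rx (Bk.ext T P) W blk la x Y q b fun ξ => F fun c => ξ (.inl c) := by
  obtain ⟨I, h1, h2, h3⟩ := h
  refine ⟨fun ξ => I fun c => ξ (.inl c), fun a b ξ1 ξ2 ξ k1 k2 k e => ?_, fun ξ k => ?_,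
    fun ξ t k t0 e => ?_⟩
  · exact h1 a b (fun c => ξ1 (.inl c)) (fun c => ξ2 (.inl c)) (fun c => ξ (.inl c))
      (fun c => k1 (.inl c)) (fun c => k2 (.inl c)) (fun c => k (.inl c)) fun c => e (.inl c)
  · exact h2 (fun c => ξ (.inl c)) fun c => k (.inl c)
  · refine h3 (fun c => ξ (.inl c)) t (fun c => k (.inl c)) t0 fun c A a1 a2 a3 => ?_
    have u : ue (Bk.ext T P) ξ (.inl c) A = ue T (fun c => ξ (.inl c)) c A :=
      R0.sy_ren (Sum.inl : T.C → T.C ⊕ P.N) (Bk.ext T P).lev (T.Φ c) ξ A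
    rw [← u]
    exact e (.inl c) A a1 a2 a3



/-- relations of the symbol tower as states -/
theorem rs_of {s h q n : ℕ} {x : L} {H : Set (B.SC W → ℤ)} {D : Type} {F : D → Fm L (B.SC W)}
    (hB : B.Ok s h) (wf : Wf s W blk) (dat : ∀ d, (B.SY W blk).Dat univ {x} (F d))
    (rel : ∀ y ∈ H, ∀ d, (B.SY W blk).Rel univ {x} y q (2 ^ n) (F d)) :
    RS B W blk x (Bk.nil _ _) H q n F := fun y hy =>
  ⟨Sum.elim (fun G A => if h : B.st G < B.M + 1 ∧ A ∈ W ∧ #A = B.T.lev G then y ⟨(G, A), h⟩ else 0)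
    Empty.elim, fun w => dif_pos w.2, (·.elim), fun d => rx_ext _ (rx1 τ L B.T _ W blk B.la x s q _ y
      _ (F d) hB.old.ok.toTri (fun c => Nat.lt_succ_of_le (hB.old.stg.le c).1) wf
      (fun ℓ => lt_of_lt_of_le (by positivity) (hB.la ℓ).1) (fun w => dif_pos w.2) (dat d)
      (rel y hy d))⟩

theorem pn_nil (n l : ℕ) : Pn B (Bk.nil _ _) n l :=
  ⟨⟨(·.elim), (·.elim), (·.elim), (·.elim)⟩, Nat.zero_le _, (·.elim)⟩

end Et

open Et

variable {s h n n' : ℕ} {B : Bs L} {W : Finset (Finset τ)} {blk : τ → L} {x : τ} {D : Type}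
  {F : D → Fm L (B.SC W)} {H H' : Set (B.SC W → ℤ)} {q q' : Finset L → Prop}

theorem AS.mono (a : AS s B W blk x F H n q) (k : H' ⊆ H) (e : n ≤ n') (e' : ∀ S, q S → q' S) :
    AS s B W blk x F H' n' q' :=
  let ⟨P, Bt, Γ, a1, a2, a3, a4, a5⟩ := a
  ⟨P, Bt, Γ, a1.mono e le_rfl, a2, a3.trans e, fun d => ⟨(a4 d).live, fun m z =>
    ⟨((a4 d).ty m z).1, ((a4 d).ty m z).2.1, e' _ ((a4 d).ty m z).2.2⟩⟩, a5.mono k e⟩

/-- split states are states of the loop -/
theorem as_of (one : ∀ a, blk a = blk x → a = x) (hB : B.Ok s h) (wf : Wf s W blk)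
    (dat : ∀ d, (B.SY W blk).Dat univ {blk x} (F d)) {P : Bk (B.SC W) τ}
    {Γ : D → MvPolynomial (B.SC W ⊕ P.N) ℝ} (card : Fintype.card P.N ≤ n)
    (ok : P.Ok fun w => ind w.1.2) (wd : ∀ a, (P.wd a).mapDomain blk ≤ ind (univ.erase (blk x)))
    (gm : ∀ d, Gm P (fun w => ind w.1.2) blk (univ.erase (blk x)) {blk x} (Γ d))
    (hq : ∀ d, ∀ m ∈ (Γ d).support,
      q ((Finsupp.weight (P.wg fun w => ind w.1.2) m).mapDomain blk).support)
    (rel : ∀ y ∈ H, ∀ d, (B.SY W blk).Rel univ {blk x} y 1 (2 ^ n) fun p =>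
      F d p - P.ev (fun w => p (.inl w)) (Γ d)) : AS s B W blk x F H n q := by
  have u : (univ.erase (blk x) ∪ {blk x} : Finset L) = univ := by
    ext ℓ; by_cases h : ℓ = blk x <;> simp [h]
  have e : ∀ d p, (rb (rv B W) P).ev (uv B W p) (rename (Sum.map (rv B W) id) (Γ d)) =
      P.ev (fun w => p (.inl w)) (Γ d) := fun d p =>
    (ev_rb _ _ _ _).trans (congrArg (P.ev · (Γ d)) (funext (uv_rv p)))
  refine ⟨Bk.nil _ _, rb (rv B W) P, fun d => rename (Sum.map (rv B W) id) (Γ d), pn_nil n s,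
    ⟨⟨ok_rb (fun _ => rfl) ok, fun a t => (le_md blk _ t).trans ((wd a _).trans (ind_le_one _ _))⟩,
      fun a ℓ => (wd a ℓ).trans (ind_le_one _ _), fun a => Nat.le_zero.1 ((le_md blk _ x).trans
        ((wd a _).trans (by simp [ind_apply])))⟩, card,
    fun d => ⟨live_rb (dg' := Prod.snd) (fun _ => rfl) (gm d).live, fun m z => ?_⟩, ?_⟩
  · obtain ⟨m0, z0, e0⟩ := wt_rb (dg := fun w => ind w.1.2) (dg' := Prod.snd) (fun _ => rfl) z
    have k := (gm d).ty m0 z0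
    rw [e0]
    refine ⟨fun ℓ => (k.2 ℓ).trans (ind_le_one _ _), ?_, hq d m0 z0⟩
    rw [← md_one one]
    exact le_antisymm ((k.2 _).trans (ind_le_one _ _)) (le_trans (by simp [ind_apply]) (k.1 _))
  · simp only [e]
    refine rs_of hB wf (fun d => ?_) rel
    have g := Gm.dat (T := B.SY W blk) (fun w => map_ind blk (wf.inj _ w.2.2.1)) ok wd (by simp) (gm d)
    rw [u] at g
    exact ⟨fun p p' k => congrArg₂ (· - ·) ((dat d).1 p p' k) (g.1 p p' k), fun ℓ k a b p p' z =>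
      (congrArg₂ (· - ·) ((dat d).2 ℓ k a b p p' z) (g.2 ℓ k a b p p' z)).trans (by ring)⟩

/-- nothing remains -/
theorem AS.rs (a : AS s B W blk x F H n fun _ => False) :
    ∃ P : Bk B.T.C Unit, Pn B P n s ∧ RS B W blk (blk x) P H 1 n F := by
  obtain ⟨P, Bt, Γ, a1, -, -, a4, a5⟩ := a
  have : ∀ d, Γ d = 0 := fun d => support_eq_empty.1
    (eq_empty_of_forall_notMem fun m z => ((a4 d).ty m z).2.2)
  simp only [this, Bk.ev, map_zero, sub_zero] at a5
  exact ⟨P, a1, a5⟩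

variable {d : ℕ}

theorem al_gW {Q : ℕ} (h : d + 1 ≤ s) : Al s (Wt d Q) bk none :=
  ⟨fun _ => Br.mem_gW, fun a e => (Br.gk_eq a).1 e, (Fintype.card_fin _).trans_le h⟩

variable (s d) in
/-- the state of the loop as a property of frames -/
abbrev AP (q : Finset (Lb d) → Prop) : Pp d :=
  fun c f H n => AS s f.toBs (Wt d c.Q) bk none f.F H n q

theorem AP.up (q : Finset (Lb d) → Prop) : (AP s d q).Up := fun _ _ _ _ _ e a =>
  a.mono subset_rfl e fun _ => id

/-- **entry** -/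
theorem ent (r : ℕ) : Lk (Fs s (SP1 d r)) (Fs s (AP s d fun _ => True)) :=
  Lk.of_imp (mon_fs _) fun _ _ _ _ _ ⟨o, e, f, H, fo, m, g, z, v, _, _, k⟩ =>
    ⟨o, e, f, H, fo, m, g, z, v, as_of (al_gW o.ds).one fo.ok.toOk (Kx.wf o) (fo.dat o) k.card k.ok
      k.wd k.gm (fun _ _ _ => trivial) k.rel⟩

/-- **exit** -/
theorem ext : Lk (Fs s (AP s d fun _ => False)) (Fs s (PR s d)) :=
  Lk.of_imp (mon_fs _) fun _ _ _ _ _ ⟨o, e, f, H, fo, m, g, z, v, k⟩ => by
    obtain ⟨P, a, b⟩ := k.rs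
    refine ⟨o, e, f, H, fo, m, g, z, v, P, 1, 0, a, le_rfl, Nat.one_le_two_pow,
      fun _ _ => isWeightedHomogeneous_zero _ _ _, fun y hy => ?_⟩
    obtain ⟨Y, b1, b2, b3⟩ := b y hy
    refine ⟨Y, b1, b2, fun i => ?_⟩
    simp only [Pi.zero_apply, Sy.sy, map_zero, coeff_zero, sum_const_zero, sub_zero]
    exact b3 i

/-- the exit directly to the pending families -/
theorem ext' : Lk (Fs s (AP s d fun _ => False)) (Fs s (PS d s)) :=
  Lk.of_imp (mon_fs _) fun _ _ _ _ _ ⟨o, e, f, H, fo, m, g, z, v, k⟩ =>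
    let ⟨P, a, b⟩ := k.rs
    ⟨o, e, f, H, fo, m, g, z, v, P, 1, a, le_rfl, Nat.one_le_two_pow, b⟩

end Crest.Agent.N49.Sw

end
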