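import Crest.Agent.N49.Sw.Frz
import Crest.Agent.N49.Md.Idf

/-!
# Row 49 (helper61): the frame on the small alphabet
-/

set_option autoImplicit false
set_option linter.unusedSectionVars false
set_option maxHeartbeats 400000

open Matrix MvPolynomial Finset

noncomputable section

namespace Crest.Agent.N49.Fz

open Po Tw Sy Md Rm
open Sw (MR ex sbv)

namespace Km

variable {τ τ' : Type} [Fintype τ] [DecidableEq τ] [Fintype τ'] [DecidableEq τ']

theorem md_ap (col : τ' → τ) (μ : τ' →₀ ℕ) (a : τ) :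
    μ.mapDomain col a = ∑ t with col t = a, μ t := by
  rw [Finsupp.mapDomain, Finsupp.sum_fintype _ _ fun _ => Finsupp.single_zero _,
    Finsupp.finsetSum_apply, sum_filter]
  exact sum_congr rfl fun t _ => Finsupp.single_apply

/-- the preimages of a squarefree word -/
theorem md_ind {col : τ' → τ} {μ : τ' →₀ ℕ} {A : Finset τ} (h : μ.mapDomain col = ind A) :
    μ = ind μ.support ∧ Set.InjOn col μ.support ∧ μ.support.image col = A := by
  have e : ∀ a, ∑ t with col t = a, μ t = if a ∈ A then 1 else 0 := fun a => by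
    rw [← md_ap, h, ind_apply]
  have l : ∀ a, ∑ t with col t = a, μ t ≤ 1 := fun a => by rw [e]; split_ifs <;> omega
  refine ⟨?_, fun t a t' b c => by_contra fun n => ?_, ?_⟩
  · ext t
    have := (single_le_sum (f := μ) (fun _ _ => Nat.zero_le _)
      (show t ∈ univ.filter (col · = col t) by simp)).trans (l _)
    rw [ind_apply]
    simp only [Finsupp.mem_support_iff]
    split_ifs <;> omega
  · have := (sum_le_sum_of_subset (f := μ) (show {t, t'} ⊆ univ.filter (col · = col t) by
      simp [insert_subset_iff, c])).trans (l _)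
    rw [sum_pair n] at this
    have a' := Finsupp.mem_support_iff.1 a
    have b' := Finsupp.mem_support_iff.1 b
    omega
  · ext a
    have := e a
    simp only [mem_image, Finsupp.mem_support_iff]
    constructor
    · rintro ⟨t, z, rfl⟩
      by_contra n
      rw [if_neg n, sum_eq_zero_iff] at this
      exact z (this t (by simp))
    · intro m
      rw [if_pos m] at this
      obtain ⟨t, a, b⟩ := exists_ne_zero_of_sum_ne_zero (this.trans_ne one_ne_zero)
      exact ⟨t, b, (mem_filter.1 a).2⟩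

theorem lsub_sb (k : τ' → ℕ) (col : τ' → τ) :
    lsub (R := ℤ) (fun t => Pi.single (col t) (k t : ℤ)) = sb k col ℤ := by
  refine algHom_ext fun t => ?_
  rw [sb_X, lsub, aeval_X, sum_eq_single (col t) (fun b _ n => by simp [n]) (by simp)]
  simp [smul_eq_C_mul]

/-- the substitution in coordinates -/
theorem coeff_sb (k : τ' → ℕ) (col : τ' → τ) (U : Finset (τ' →₀ ℕ)) (ν : τ →₀ ℕ)
    (hU : ∀ μ : τ' →₀ ℕ, μ.mapDomain col = ν → μ ∈ U) (P : MvPolynomial τ' ℝ) :
    coeff ν (sb k col ℝ P) =
      ∑ μ ∈ U, (smat (fun t => Pi.single (col t) (k t : ℤ)) ν μ : ℝ) * coeff μ P := by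
  induction P using MvPolynomial.induction_on' with
  | monomial μ a =>
    simp only [smat, lsub_sb, sb_mon, coeff_monomial, mul_ite, mul_zero, sum_ite_eq, one_mul]
    by_cases e : μ.mapDomain col = ν
    · simp [e, hU μ e, mul_comm, Finsupp.prod]
    · simp [e]
  | add p q a b => simp only [map_add, coeff_add, a, b, mul_add, sum_add_distrib]

end Km

theorem kmp : KMP := by
  intro τ τ' L _ _ _ _ _ _ B W blk W' col i μ k c s n h f hB hW ct ok fw hf
  have y1 : (1 : ℝ) ≤ 2 ^ n := one_le_pow₀ one_le_two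
  have hk : ∀ t, (k t : ℝ) ≤ 2 ^ n := fun t => by exact_mod_cast ct.k1 t
  have hc : (c : ℝ) ≤ 2 ^ n := by exact_mod_cast ct.c1.2
  refine ⟨?_, ⟨ct.c1.1, rfl, (Idf.bs_mono (B := f.toBs) ⟨ok.old, fw.la⟩ (by omega)).la, fw.ne,
    fun G F e => ?_⟩, fun y z hz w => ?_⟩
  · have o := Idf.fr_mono hB.old.ok.toTri ok (show h ≤ h + n * (s + 1) by omega)
    refine ⟨o.toOk, Idf.tan_mono (ok.θ.mp hf y1 hk hB.old.lev) (by positivity) ?_,
      fun _ => ⟨ct.c1.1, ct.c1.2.trans (Nat.pow_le_pow_right two_pos (by nlinarith))⟩, o.co⟩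
    rw [← pow_mul, ← pow_add]
    exact pow_le_pow_right₀ one_le_two (by nlinarith)
  · have a := fw.bd G F e
    have b := ok.θ.mp_l1 (col := col) y1 hk e
    have l := (ok.θ.le F G e).1
    have l' := hB.old.lev F
    rw [Nat.cast_one, one_pow, mul_one] at a
    calc _ ≤ |f.θ.sc G| * (l1 (zr (f.θ.mon G)) * (2 ^ n) ^ (B.T.lev F - f.T.lev G)) *
          (2 ^ n) ^ f.T.lev G :=
          mul_le_mul (mul_le_mul_of_nonneg_left b (abs_nonneg _))
            (pow_le_pow_left₀ (Nat.cast_nonneg _) hc _) (by positivity)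
            (mul_nonneg (abs_nonneg _) ((l1_nonneg _).trans b))
      _ = |f.θ.sc G| * l1 (zr (f.θ.mon G)) * (2 ^ n) ^ B.T.lev F := by
          rw [mul_assoc, mul_assoc, ← pow_add, Nat.sub_add_cancel l, mul_assoc]
      _ ≤ 2 ^ h * (2 ^ n) ^ s := mul_le_mul a (pow_le_pow_right₀ y1 l') (by positivity)
          (by positivity)
      _ ≤ _ := by
          rw [← pow_mul, ← pow_add]
          exact pow_le_pow_right₀ one_le_two (by nlinarith)
  · have e1 := Tan.Y_mp (k := k) (col := col) f.θ (Z := Yi f.toBs W i μ (zc y))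
      (Y := Yp f.T.lev (sx f.T _ W (zc y))) (m := fun _ => (c : ℝ)) (fun G =>
        (sb_ren k col ct.ci ℝ _ _).trans (congrArg (fun m => scl m _) (funext fun a => by
          exact_mod_cast ct.mu a))) w.1.1
    refine (congrArg (coeff (ind w.1.2)) e1).symm.trans ((Km.coeff_sb k col (W'.image ind) _
      (fun ω e => ?_) _).trans (sum_congr rfl fun ω m => congrArg _ (hz _ ω m).symm))
    obtain ⟨a, b, d⟩ := Km.md_ind e
    exact mem_image.2 ⟨_, ct.dn _ b (d.symm ▸ w.2.2.1), a.symm⟩

end Crest.Agent.N49.Fz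

end
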