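import Crest.Agent.N49.Sw.Df4
import Crest.Agent.N49.Sw.Kmp

/-!
# Row 49 (helper61): the morphism of the small frame
-/

set_option autoImplicit false
set_option linter.unusedSectionVars false
set_option maxHeartbeats 400000

open Matrix MvPolynomial Finset

noncomputable section

namespace Crest.Agent.N49.Sw

open Po Tw Sd Sy Md Rm Mv

namespace Kq

variable {τ τ' L : Type} [Fintype τ] [DecidableEq τ] [Fintype τ'] [DecidableEq τ'] [Fintype L]
  [DecidableEq L]

/-- transversal words -/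
theorem md_le {g : τ → L} {μ : τ →₀ ℕ} (h : ∀ ℓ, μ.mapDomain g ℓ ≤ 1) :
    μ = ind μ.support ∧ Set.InjOn g μ.support := by
  have e : μ.mapDomain g = ind (μ.mapDomain g).support := by
    ext ℓ
    have := h ℓ
    rw [ind_apply]
    simp only [Finsupp.mem_support_iff]
    split_ifs <;> omega
  exact ⟨(Fz.Km.md_ind e).1, (Fz.Km.md_ind e).2.1⟩

/-- the polynomial of a frame -/
def Yk (B : Bs L) (W : Finset (Finset τ)) (blk : τ → L) (f : Fr B.T τ L) (p : f.SC W ⊕ L → ℝ)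
    (F : B.T.C) : MvPolynomial τ ℝ :=
  f.θ.Y (fun a => p (.inr (blk a))) (fun a => f.m (blk a))
    (Yp f.T.lev (sx f.T _ W fun w' => p (.inl w'))) F

theorem uv_ka (B : Bs L) (W : Finset (Finset τ)) (blk : τ → L) (f : Fr B.T τ L)
    (p : f.SC W ⊕ L → ℝ) (F : B.T.C) {A : Finset τ} (hA : A ∈ W) (hs : B.st F < B.M + 1)
    (h : (Yk B W blk f p F).IsHomogeneous (B.T.lev F)) :
    uv B W (ka B W blk f p) (F, ind A) = coeff (ind A) (Yk B W blk f p F) := by
  by_cases e : #A = B.T.lev F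
  · exact sum_eq_single_of_mem (⟨(F, A), hs, hA, e⟩ : B.SC W) (by simp) fun w a n => absurd
      (Subtype.ext (Prod.ext (mem_filter.1 a).2.1 (ind_inj (mem_filter.1 a).2.2))) n
  · rw [h.coeff_eq_zero ((Ec.deg_ind A).trans_ne e)]
    refine sum_eq_zero fun w a => absurd ?_ e
    rw [← ind_inj (mem_filter.1 a).2.2, w.2.2.2]
    exact congrArg B.T.lev (mem_filter.1 a).2.1

theorem sb_scl (k : τ' → ℕ) (col : τ' → τ) (e : τ → ℝ) (P : MvPolynomial τ' ℝ) :
    sb k col ℝ (scl (fun t => e (col t)) P) = scl e (sb k col ℝ P) := by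
  induction P using MvPolynomial.induction_on with
  | C a => simp [sb, scl]
  | add p q a b => simp only [map_add, a, b]
  | mul_X p t a =>
    rw [map_mul, map_mul, map_mul, a, map_mul]
    simp only [scl, aeval_X, map_mul, sb_C, sb_X, aeval_C, algebraMap_eq]
    ring

/-- the small frame is the substitution after the large one -/
theorem sb_Yk (B : Bs L) (la : L → ℝ) {W : Finset (Finset τ)} {W' : Finset (Finset τ')}
    (blk : τ → L) {col : τ' → τ} {i : τ → τ'} {c : ℕ} {k : τ' → ℕ} {m : L → ℕ} (f : Fr B.T τ' L)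
    (p : f.SC W ⊕ L → ℝ) (hc : ∀ a, col (i a) = a) (hW : ∀ A ∈ W, A.image i ∈ W')
    (hm : ∀ a, m (blk a) * k (i a) = c) (F : B.T.C) :
    sb k col ℝ (Yk { B with la := la } W' (blk ∘ col) (Fz.sm f m) (Fz.zx f.toBs W W' i p) F) =
      Yk B W blk (Fz.fm f k col c) p F := by
  have hi : Function.Injective i := Function.LeftInverse.injective hc
  refine (map_add _ _ _).trans (congrArg₂ (· + ·) ((sb_scl k col (fun a => p (.inr (blk a))) _).trans
    (congrArg _ (zr_sb k col _).symm)) ((map_sum _ _ _).trans (sum_congr rfl fun G _ =>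
      (map_mul _ _ _).trans (congrArg₂ (· * ·) ((sb_scl k col (fun a => p (.inr (blk a))) _).trans
        (congrArg _ (zr_sb k col _).symm)) ?_))))
  refine (congrArg (fun P => sb k col ℝ (scl (fun t => (m (blk (col t)) : ℝ)) P))
    (Fz.Yp_zx f.toBs hi hW p G)).trans ((congrArg (sb k col ℝ) (Fz.scl_ren i _ _)).trans
      ((sb_ren k col hc ℝ _ _).trans (congrArg (fun m => scl m _) (funext fun a => ?_))))
  rw [hc]
  exact_mod_cast hm a

theorem im_mem {W : Finset (Finset τ)} {W' : Finset (Finset τ')} {blk : τ → L} {col : τ' → τ}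
    {i : τ → τ'} {s : ℕ} {x : τ} {x' : τ'} (al : Al s W blk x) (al' : Al s W' (blk ∘ col) x')
    (hc : ∀ a, col (i a) = a) : ∀ A ∈ W, A.image i ∈ W' := fun A a => (al'.mem _).2 <| by
  intro t b t' b' e
  obtain ⟨u, c, rfl⟩ := mem_image.1 (mem_coe.1 b)
  obtain ⟨u', c', rfl⟩ := mem_image.1 (mem_coe.1 b')
  simp only [Function.comp, hc] at e
  rw [(al.mem _).1 a c c' e]

theorem pre_mem {W' : Finset (Finset τ')} {blk : τ → L} {col : τ' → τ} {s : ℕ} {x' : τ'}
    (al' : Al s W' (blk ∘ col) x') {ν : τ →₀ ℕ} (hv : ∀ ℓ, ν.mapDomain blk ℓ ≤ 1) (ω : τ' →₀ ℕ)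
    (z : ω.mapDomain col = ν) : ω ∈ W'.image ind := by
  obtain ⟨a', b'⟩ := md_le (g := blk ∘ col) (μ := ω) fun ℓ => by
    rw [Finsupp.mapDomain_comp, z]; exact hv ℓ
  exact mem_image.2 ⟨_, (al'.mem _).2 b', a'.symm⟩

theorem core {C : Type} (k : τ' → ℕ) (col : τ' → τ) (U : Finset (τ' →₀ ℕ)) (ν : τ →₀ ℕ) (F : C)
    (hU : ∀ μ : τ' →₀ ℕ, μ.mapDomain col = ν → μ ∈ U) (P : MvPolynomial τ' ℝ) (z : VV C τ' → ℝ)
    (h : ∀ μ ∈ U, z (F, μ) = coeff μ P) :
    coeff ν (sb k col ℝ P) = sbv (fun t => Pi.single (col t) (k t : ℤ)) U z (F, ν) :=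
  (Fz.Km.coeff_sb k col U ν hU P).trans (sum_congr rfl fun ω a => congrArg _ (h ω a).symm)

end Kq

theorem kmq : KMQ := by
  intro τ τ' L _ _ _ _ _ _ B la W W' blk col i x s n c k m f p v hB ok al al' hc hm hv
  obtain ⟨F, ν⟩ := v
  have hs : B.st F < B.M + 1 := Nat.lt_succ_of_le (hB.old.stg.le F).1
  have e := Kq.sb_Yk B la blk f p hc (Kq.im_mem al al' hc) hm F
  have h1 : (Kq.Yk { B with la := la } W' (blk ∘ col) (Fz.sm f m) (Fz.zx f.toBs W W' i p)
      F).IsHomogeneous (B.T.lev F) := Ec.hom_Y ok.θ _ _ _ F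
  have h2 := sb_hom k col h1
  rw [e] at h2
  obtain ⟨a, b⟩ := Kq.md_le hv
  have e1 := Kq.uv_ka B W blk (Fz.fm f k col c) p F ((al.mem _).2 b) hs h2
  rw [← a, ← e] at e1
  refine e1.trans (Kq.core k col _ ν F (Kq.pre_mem al' hv) _ _ fun ω z => ?_)
  obtain ⟨A', z', rfl⟩ := mem_image.1 z
  exact Kq.uv_ka { B with la := la } W' (blk ∘ col) (Fz.sm f m) (Fz.zx f.toBs W W' i p) F z' hs h1

end Crest.Agent.N49.Sw

end
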