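import Crest.Agent.N49.Sw.Cols

/-!
# Row 49 (helper19): wide brackets keep the regularity, polynomially many colours
-/

set_option autoImplicit false
set_option linter.unusedSectionVars false

open Matrix MvPolynomial Finset

noncomputable section

namespace Crest.Agent.N49.Sw

open Po Tw Sd TS Nold Cq

namespace Cn

theorem card_full' (σ : Type) [Fintype σ] [DecidableEq σ] (s : ℕ) :
    #(full σ s) ≤ (Fintype.card σ + 1) ^ s := by
  induction s with
  | zero =>
    refine card_le_one.2 fun a ha b hb => ?_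
    rw [(Finsupp.degree_eq_zero_iff _).1 (Nat.le_zero.1 (mem_full.1 ha)),
      (Finsupp.degree_eq_zero_iff _).1 (Nat.le_zero.1 (mem_full.1 hb))]
  | succ s ih =>
    have : full σ (s + 1) ⊆ (univ ×ˢ full σ s).image fun p : Option σ × (σ →₀ ℕ) =>
        p.2 + p.1.elim 0 fun a => Finsupp.single a 1 := fun μ h => by
      by_cases z : μ = 0
      · exact mem_image.2 ⟨(none, 0), mem_product.2 ⟨mem_univ _, mem_full.2 (by simp)⟩, by simp [z]⟩
      obtain ⟨a, ha⟩ := Finsupp.support_nonempty_iff.2 z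
      have e : μ - Finsupp.single a 1 + Finsupp.single a 1 = μ := tsub_add_cancel_of_le
        (Finsupp.single_le_iff.2 (Nat.pos_of_ne_zero (Finsupp.mem_support_iff.1 ha)))
      refine mem_image.2 ⟨(some a, μ - Finsupp.single a 1), mem_product.2 ⟨mem_univ _,
        mem_full.2 ?_⟩, e⟩
      have := mem_full.1 h
      rw [← e, map_add, Finsupp.degree_single] at this
      exact Nat.le_of_succ_le_succ this
    refine (card_le_card this).trans (card_image_le.trans ?_)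
    rw [card_product, card_univ, Fintype.card_option, pow_succ']
    exact Nat.mul_le_mul_left _ ih

theorem rg_ext (M M' C' k : ℕ) (hM : M ≤ M') : ∃ C c : ℕ, ∀ (σ σ' : Type)
    [DecidableEq σ] [DecidableEq σ'] (T : TS σ') (U : TS σ) (st : T.C → ℕ) (su : U.C → ℕ) (N n : ℕ)
    (w a η : ℝ), Ex T U st su M N n w → 1 ≤ N → N ≤ (n + 1) ^ k → 1 ≤ n → 0 < a → a ≤ 1 → 0 < η →
    η ≤ 1 → T.RgS st M C n (a / (n + 2) ^ c) ((η * a / (n + 2) ^ c) ^ (n + 2) ^ c) →
    (n + 2) ^ c * (1 + Real.log η⁻¹ + Real.log a⁻¹) ≤ w * a → U.RgS su M' C' n a η := by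
  refine ⟨C' + k, C' * (M' + 2) + (2 + M' * (1 + (M' + 1) * C') + 2),
    fun σ σ' _ _ T U st su N n w a η h hN hk n1 a0 a1 e0 e1 r hw => ?_⟩
  obtain ⟨κ, lb, r⟩ := rgS_iff.1 r
  have n1' : (1 : ℝ) ≤ n := by exact_mod_cast n1
  have two : ∀ m : ℕ, (m : ℝ) ≤ (n + 1) ^ m := fun m =>
    (by exact_mod_cast Nat.lt_two_pow_self.le : (m : ℝ) ≤ 2 ^ m).trans (by gcongr; linarith)
  set P : ℝ := (n + 1) ^ C' with hP
  set E := 2 + M' * (1 + (M' + 1) * C') with hE
  set Q : ℝ := (n + 2) ^ (C' * (M' + 2) + (E + 2)) with hQ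
  have P1 : 1 ≤ P := one_le_pow₀ (by linarith)
  have le := log_inv_nonneg e0 e1
  have la := log_inv_nonneg a0 a1
  set Y := 1 + Real.log η⁻¹ + Real.log a⁻¹ with hY
  have lp : Real.log (a / P ^ (M' + 1))⁻¹ ≤ Real.log a⁻¹ + (M' + 1) * C' * n := by
    have := Real.log_le_sub_one_of_pos (show (0 : ℝ) < n + 1 by linarith)
    rw [inv_div, div_eq_inv_mul, Real.log_mul (by positivity) (by positivity), hP, Real.log_pow,
      Real.log_pow]
    push_cast
    rw [mul_assoc]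
    gcongr
    linarith
  set Z := 2 + Real.log η⁻¹ + M' * (1 + n * (1 + Real.log (a / P ^ (M' + 1))⁻¹)) with hZ
  have z1 : Z ≤ E * (n + 2) ^ 2 * Y := by
    set D : ℝ := (M' + 1) * C'
    have D0 : 0 ≤ D := by positivity
    have Y1 : 1 ≤ Y := by linarith
    have s : 1 + n * (1 + Real.log (a / P ^ (M' + 1))⁻¹) ≤ (1 + D) * ((n + 2) ^ 2 * Y) := by
      have b1 : n * (1 + Real.log (a / P ^ (M' + 1))⁻¹) ≤ n * (Y + D * n) :=
        mul_le_mul_of_nonneg_left (by linarith) (by linarith)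
      have b2 : D * (n * n) ≤ D * ((n + 2) ^ 2 * Y) :=
        mul_le_mul_of_nonneg_left (by nlinarith) D0
      nlinarith
    have b3 : Y ≤ (n + 2) ^ 2 * Y := le_mul_of_one_le_left (by linarith) (by nlinarith)
    have := mul_le_mul_of_nonneg_left s (Nat.cast_nonneg (α := ℝ) M')
    rw [hE]; push_cast
    nlinarith
  have q1 : P ^ (M' + 2) * (E * (n + 2) ^ 2) ≤ Q := by
    rw [hQ, pow_add _ (C' * _), pow_add _ E, hP, ← pow_mul]
    gcongr
    · linarith
    · exact (two E).trans (by gcongr; linarith)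
  have Z0 : 0 ≤ Z := by
    have := log_inv_nonneg (η := a / P ^ (M' + 1)) (by positivity)
      ((div_le_self a0.le (one_le_pow₀ P1)).trans a1)
    positivity
  have q2 : P ^ (M' + 2) * Z ≤ Q * Y :=
    (mul_le_mul_of_nonneg_left z1 (by positivity)).trans (by rw [← mul_assoc]; gcongr)
  have E1 : (1 : ℝ) ≤ E * (n + 2) ^ 2 :=
    one_le_mul_of_one_le_of_one_le (by exact_mod_cast (by omega : 1 ≤ E)) (by nlinarith)
  have q3 : P ^ (M' + 1) ≤ Q := (pow_le_pow_right₀ P1 (Nat.le_succ _)).trans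
    ((le_mul_of_one_le_right (by positivity) E1).trans q1)
  have Q3 : 3 ≤ Q := le_trans (by linarith) (le_self_pow₀ (by linarith) (by omega))
  refine rgS_iff.2 ⟨_, _, h.rgP r hM hN P1 ?_ a1 (by gcongr) le ?_ ?_⟩
  · rw [pow_add]; gcongr; exact_mod_cast hk
  · have lq : 1 ≤ Real.log Q := by
      rw [Real.le_log_iff_exp_le (by linarith)]; linarith [Real.exp_one_lt_d9]
    have : Z ≤ P ^ (M' + 2) * Z := le_mul_of_one_le_left Z0 (one_le_pow₀ P1)
    rw [Real.log_inv ((_ : ℝ) ^ _), Real.log_pow, Real.log_div (by positivity) (by positivity),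
      Real.log_mul e0.ne' a0.ne']
    rw [Real.log_inv η, Real.log_inv a] at hY
    push_cast
    rw [← hQ]
    nlinarith
  · rw [← mul_div_assoc, le_div_iff₀ (by positivity)]
    refine le_trans (le_of_eq ?_) (q2.trans hw)
    ring

variable {σ : Type} [Fintype σ] [DecidableEq σ] {s M n N : ℕ} {T : TS Unit} {st : T.C → ℕ}
  {B : Bk (VV T.C σ) σ} {w : ℝ}

theorem ex_cE (ha : COLA) (hc : COLW) (h : Tb T st M s) (o : Bo B)
    (hs : ∀ a, (B.wd a).degree ≤ s) (hw : 0 < w) (hN : (Fintype.card σ + 1) ^ s ≤ N)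
    (hn : Fintype.card B.N ≤ n) : Ex T (cE s T B w) st (cst s T B w st M) M N n w := by
  have hb := (ha σ s M T st B w h o hs hw).1.2
  have ad := h.stg.adm (fs_ok (σ := σ) (s := s))
  have cw : Fintype.card (FS σ s).W ≤ N :=
    (Fintype.card_coe _).trans_le (card_erase_le.trans ((card_full' σ s).trans hN))
  have k := Cq.ex_cE ha hc h o hs hw le_rfl hn
  refine ⟨k.t, k.u, fun t ht => ?_, k.sy, k.new⟩
  have a := old_ct (mor_cE h hb.tri) fun c e =>
    cE_rg h o hs c (((stg_lev c).symm.trans e).trans_le ht)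
  have b := lw_ct h.stg ad fs_ok one_pos le_rfl (fun x => by
    rw [fs_K]; simp [qf, dotProduct, sq]) t
  rw [Real.sqrt_one, inv_one, one_pow, one_mul] at b
  exact ⟨a.1.trans (b.trans (pow_le_pow_right₀ (one_le_ct h.stg.tri t) cw)),
    a.2.trans ((lw_R t).trans (Nat.mul_le_mul_left _ cw))⟩

end Cn

/-- `COLS` with polynomially many colours -/
theorem coln (ha : COLA) (hc : COLW) (s M C' : ℕ) : ∃ C c : ℕ, ∀ (σ : Type) [Fintype σ]
    [DecidableEq σ] (T : TS Unit) (st : T.C → ℕ) (B : Bk (VV T.C σ) σ) (w a η : ℝ) (n : ℕ),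
    Tb T st M s → Bo B → (∀ a, (B.wd a).degree ≤ s) → Fintype.card σ ≤ n → Fintype.card B.N ≤ n →
    1 ≤ n → 0 < a → a ≤ 1 → 0 < η → η ≤ 1 →
    T.RgS st M C n (a / (n + 2) ^ c) ((η * a / (n + 2) ^ c) ^ (n + 2) ^ c) →
    (n + 2) ^ c * (1 + Real.log η⁻¹ + Real.log a⁻¹) ≤ w * a →
    (cE s T B w).RgS (cst s T B w st M) (M * (s + 1) ^ s) C' n a η ∧
      (bar T B w).RgS (bst T B s w st M) (M * (s + 1) ^ s) C' n a η := by
  obtain ⟨C, c, r⟩ := Cn.rg_ext M (M * (s + 1) ^ s) C' s (Nat.le_mul_of_pos_right _ (by positivity))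
  refine ⟨C, c, fun σ _ _ T st B w a η n h o hs hk hn n1 a0 a1 e0 e1 g hw => ?_⟩
  have w0 : 0 < w := (mul_pos_iff_of_pos_right a0).1 (lt_of_lt_of_le (by
    have := log_inv_nonneg e0 e1
    have := log_inv_nonneg a0 a1
    positivity) hw)
  have N1 : 1 ≤ (n + 1) ^ s := Nat.one_le_pow _ _ (Nat.succ_pos _)
  exact ⟨r _ _ T _ st _ _ n w a η (Cn.ex_cE ha hc h o hs w0
      (Nat.pow_le_pow_left (Nat.succ_le_succ hk) _) hn) N1 le_rfl n1 a0 a1 e0 e1 g hw,
    r _ _ T _ st _ _ n w a η (Cq.ex_bar h o hs w0 (ha σ s M T st B w h o hs w0).2.1 N1 hn)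
      N1 le_rfl n1 a0 a1 e0 e1 g hw⟩

end Crest.Agent.N49.Sw

end
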