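import Crest.Agent.N49.Sw.Defs
import Crest.Agent.N49.Tw.Sa

/-!
# Row 49 (helper91): calculus of substitutions on monomial rings
-/

set_option autoImplicit false
set_option linter.unusedSectionVars false

open Matrix MvPolynomial Finset

noncomputable section

namespace Crest.Agent.N49.Sw

open Po Tw Sd

namespace Sb

variable {σ τ τ' τ'' : Type} [DecidableEq σ] [DecidableEq τ] [DecidableEq τ'] [DecidableEq τ'']
  [Fintype τ'] [Fintype τ''] {U : TS σ} {col : τ → σ} {W : Finset (τ →₀ ℕ)} {K : Kn τ}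
  {col' : τ' → σ} {W' : Finset (τ' →₀ ℕ)} {K' : Kn τ'} {φ : τ → τ' → ℤ}

theorem lsub_mon (ν : τ' →₀ ℕ) (μ : τ →₀ ℕ) (c : ℤ) :
    coeff ν (lsub φ (monomial μ c)) = smat φ ν μ * c := by
  rw [show monomial μ c = c • monomial μ (1 : ℤ) by simp [smul_monomial], map_smul, coeff_smul,
    smul_eq_mul, mul_comm]
  rfl

theorem lsub_lsub (φ' : τ' → τ'' → ℤ) (P : MvPolynomial τ ℤ) :
    lsub φ' (lsub φ P) = lsub (fun a c => ∑ b, φ a b * φ' b c) P := by
  have : (lsub (R := ℤ) φ').comp (lsub φ) = lsub fun a c => ∑ b, φ a b * φ' b c :=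
    algHom_ext fun a => by
      simp only [AlgHom.comp_apply, lsub, aeval_X, map_sum, map_zsmul, smul_sum, smul_smul, sum_smul]
      exact sum_comm
  exact DFunLike.congr_fun this P

theorem lsub_lin [Fintype τ] (lam : τ → ℤ) : lsub φ (∑ a, lam a • X a : MvPolynomial τ ℤ) =
    ∑ b, (∑ a, lam a * φ a b) • X b := by
  simp only [lsub, aeval_X, map_sum, map_zsmul, smul_sum, smul_smul, sum_smul]
  exact sum_comm

theorem smat_ne {ν : τ' →₀ ℕ} {μ : τ →₀ ℕ} (z : smat φ ν μ ≠ 0) : ν ≠ 0 ↔ μ ≠ 0 := by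
  rw [ne_eq, ne_eq, ← Finsupp.degree_eq_zero_iff, ← Finsupp.degree_eq_zero_iff, Sh.smat_degree z]

variable (U col W K) in
/-- the polynomial of a family -/
def Py (y : U.Cw (MR col W K) → ℤ) (F : U.C) : MvPolynomial τ ℤ :=
  ∑ p : U.Cw (MR col W K) with p.1.1 = F, monomial p.1.2.1 (y p)

theorem hs_apply {τ1 : Type} [Fintype τ1] (S' : Sh σ τ1) (φ : τ → τ1 → ℤ)
    (y : U.Cw (MR col W K) → ℤ) (p' : U.Cw S') : hs U S' φ y p' =
      ∑ p : U.Cw (MR col W K) with p.1.1 = p'.1.1, smat φ (S'.ty p'.1.2) p.1.2.1 * y p := rfl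

theorem hs_eq (S' : Sh σ τ') (y : U.Cw (MR col W K) → ℤ) (p' : U.Cw S') :
    hs U S' φ y p' = coeff (S'.ty p'.1.2) (lsub φ (Py U col W K y p'.1.1)) := by
  rw [hs_apply, Py, map_sum, coeff_sum]
  exact sum_congr rfl fun p _ => (lsub_mon _ _ _).symm

/-- the substitution only sees the words of the ring -/
theorem sum_smat (hc : ∀ a a', φ a a' ≠ 0 → col a = col' a') {ν : τ' →₀ ℕ} (n0 : ν ≠ 0) {F : U.C}
    (nF : ν.mapDomain col' = U.deg F) (h : ∀ μ, smat φ ν μ ≠ 0 → μ ∈ W) (P : MvPolynomial τ ℤ) :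
    ∑ p : U.Cw (MR col W K) with p.1.1 = F, smat φ ν p.1.2.1 * coeff p.1.2.1 P =
      coeff ν (lsub φ P) := by
  refine (TS.sum_cw (S := MR col W K) F fun w => smat φ ν w.1 * coeff w.1 P).trans ?_
  refine Eq.trans (sum_filter_of_ne (s := univ)
    (p := fun w : Sh.MW W => (MR col W K).cd w = U.deg F)
    (f := fun w : Sh.MW W => smat φ ν w.1 * coeff w.1 P)
    fun w _ k => (Sh.smat_col hc (left_ne_zero_of_mul k)).symm.trans nF) ?_
  induction P using MvPolynomial.induction_on' with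
  | add p q a b => simp only [coeff_add, mul_add, sum_add_distrib, map_add, a, b]
  | monomial μ c =>
    rw [lsub_mon]
    simp only [coeff_monomial, mul_ite, mul_zero]
    by_cases z : smat φ ν μ = 0
    · rw [z, zero_mul]
      refine sum_eq_zero fun w _ => ?_
      split_ifs with e
      · rw [← e, z, zero_mul]
      · rfl
    · exact Sh.sum_word (fun x => smat φ ν x * c) ((smat_ne z).1 n0) fun _ => h μ z

theorem ex_hs {C : Type} [DecidableEq C] (fm : U.C → C) (hc : ∀ a a', φ a a' ≠ 0 → col a = col' a')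
    (y : U.Cw (MR col W K) → ℤ) (c : C) {ν : τ' →₀ ℕ} (hν : ν ∈ W') :
    ex U (MR col' W' K') fm (zc (hs U (MR col' W' K') φ y)) (c, ν) =
      sbv φ W (ex U (MR col W K) fm (zc y)) (c, ν) := by
  have r : sbv φ W (ex U (MR col W K) fm (zc y)) (c, ν) =
      ∑ p : U.Cw (MR col W K), if fm p.1.1 = c then (smat φ ν p.1.2.1 : ℝ) * y p else 0 := by
    rw [← sum_fiberwise_of_maps_to (s := univ) (t := W) (g := fun p : U.Cw (MR col W K) => p.1.2.1)
      fun p _ => Sh.MW.mem p.1.2]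
    refine sum_congr rfl fun μ _ => ?_
    unfold ex
    rw [mul_sum, sum_filter, sum_filter]
    refine sum_congr rfl fun p _ => ?_
    show (if fm p.1.1 = c ∧ p.1.2.1 = μ then (smat φ ν μ : ℝ) * y p else 0) = _
    by_cases a : p.1.2.1 = μ
    · simp [a]
    · simp [a]
  rw [r]
  have l : ∀ p' : U.Cw (MR col' W' K'), zc (hs U (MR col' W' K') φ y) p' =
      ∑ p : U.Cw (MR col W K), if p.1.1 = p'.1.1 then (smat φ p'.1.2.1 p.1.2.1 : ℝ) * y p else 0 :=
    fun p' => by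
      rw [← sum_filter]
      show ((hs U (MR col' W' K') φ y p' : ℤ) : ℝ) = _
      rw [hs_apply]
      push_cast
      rfl
  unfold ex
  rw [sum_congr rfl fun p' _ => l p', sum_comm]
  refine sum_congr rfl fun p _ => ?_
  by_cases z : smat φ ν p.1.2.1 = 0
  · rw [z, Int.cast_zero, zero_mul, ite_self]
    refine sum_eq_zero fun p' hp => ?_
    rw [show p'.1.2.1 = ν from (mem_filter.1 hp).2.2, z, Int.cast_zero, zero_mul, ite_self]
  · let p0 : U.Cw (MR col' W' K') := ⟨(p.1.1, ⟨ν, mem_erase.2 ⟨(smat_ne z).2 (Sh.MW.ne p.1.2), hν⟩⟩),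
      (Sh.smat_col hc z).trans p.2⟩
    rw [sum_filter, sum_eq_single p0]
    · show (if fm p.1.1 = c ∧ ν = ν then (if p.1.1 = p.1.1 then (smat φ ν p.1.2.1 : ℝ) * y p else 0)
        else 0) = _
      simp
    · intro p' _ ne
      split_ifs with a b
      · exact absurd (Subtype.ext (Prod.ext b.symm (Subtype.ext a.2))) ne
      · rfl
      · rfl
    · exact fun k => absurd (mem_univ _) k

theorem md_hs [Fintype τ] (hc : ∀ a a', φ a a' ≠ 0 → col a = col' a')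
    (h : ∀ ν ∈ W', ∀ μ, smat φ ν μ ≠ 0 → μ ∈ W) {lam : τ → ℤ} {y y' : U.Cw (MR col W K) → ℤ}
    (m : Md U (MR col W K) lam y y') : Md U (MR col' W' K') (fun b => ∑ a, lam a * φ a b)
      (hs U _ φ y) (hs U _ φ y') := by
  obtain ⟨Q, hQ⟩ := m
  refine ⟨fun F => lsub φ (Q F), fun p' => ?_⟩
  rw [← lsub_lin, ← map_mul, hs_apply, hs_apply, ← sum_sub_distrib]
  refine Eq.trans (sum_congr rfl fun p hp => ?_) (sum_smat (K := K) hc (Sh.MW.ne p'.1.2) p'.2
    (h _ (Sh.MW.mem p'.1.2)) _)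
  rw [← mul_sub, hQ, (mem_filter.1 hp).2]
  rfl

theorem hs_hs {col'' : τ'' → σ} {W'' : Finset (τ'' →₀ ℕ)} {K'' : Kn τ''} {φ' : τ' → τ'' → ℤ}
    (h : ∀ ν ∈ W'', ∀ μ, smat φ' ν μ ≠ 0 → μ ∈ W') (hc : ∀ a a', φ' a a' ≠ 0 → col' a = col'' a')
    (y : U.Cw (MR col W K) → ℤ) : hs U (MR col'' W'' K'') φ' (hs U (MR col' W' K') φ y) =
      hs U (MR col'' W'' K'') (fun a c => ∑ b, φ a b * φ' b c) y := by
  funext p''
  rw [hs_apply, hs_eq, ← lsub_lsub]
  refine Eq.trans (sum_congr rfl fun p hp => ?_) (sum_smat (K := K') hc (Sh.MW.ne p''.1.2) p''.2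
    (h _ (Sh.MW.mem p''.1.2)) _)
  rw [hs_eq, (mem_filter.1 hp).2]
  rfl

end Sb

theorem sbc : SBC := fun _ _ _ _ _ _ _ _ _ _ _ fm _ _ _ _ _ _ _ hc =>
  ⟨fun y c _ hν => Sb.ex_hs fm hc y c hν, fun _ _ h i _ _ m => i _ _ (Sb.md_hs hc h m),
    fun _ _ _ _ _ _ _ h k y => Sb.hs_hs h k y⟩

end Crest.Agent.N49.Sw

end
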