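import Crest.Agent.N49.Sw.Df4
import Crest.Agent.N49.Mv.Abs

/-!
# Row 49 (helper72): symbols are absorbed as pending families, pointwise
-/

set_option autoImplicit false
set_option linter.unusedSectionVars false

open Matrix MvPolynomial Finset

noncomputable section

namespace Crest.Agent.N49.Sw

open Po Tw Sd Sy Md Rm Mv

open Mv.Ab in
/-- **ABS0** -/
theorem abs0 : ABS0 := by
  classical
  intro τ L _ _ _ _ B W blk x P s n D _ Pi hb hp hD hh
  unfold Rf
  generalize hq' : (1 : ℕ) = q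
  have hq : 1 ≤ q := hq'.le
  let Wx := W.filter fun U => x ∈ U.image blk
  let l : D × Wx → ℕ := fun z => #z.2.1
  let Q : D × Wx → MvPolynomial (B.T.C ⊕ P.N) ℝ := fun z => (q : ℝ) • Pi z.1 z.2.1
  let P' := ad P l Q
  let j := jj P l Q
  have hj := lev_jj P l Q
  have hl : ∀ z, (Bk.ext B.T P').lev (.inr (.inr z)) = #z.2.1 := lev_nw P l Q
  have u1 := ue_jj (τ := τ) P l Q
  have u2 : ∀ ξ z (A : Finset τ), #A = #z.2.1 → ue (Bk.ext B.T P') ξ (.inr (.inr z)) A =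
      ξ (.inr (.inr z)) A - q * Sy.sy (Bk.ext B.T P).lev (Pi z.1 z.2.1) (fun c => ξ (j c)) A :=
    fun ξ z A e => (ue_nw P l Q ξ z A e).trans (congrArg _ (sy_smul _ _ _ _ _))
  have cW : #Wx ≤ (n + 1) ^ s := (card_filter_le _ _).trans ((card_le hb.wf.le).trans
    (Nat.pow_le_pow_left (Nat.succ_le_succ hb.cτ) _))
  have cW' : (#Wx : ℝ) ≤ 2 ^ n := by
    exact_mod_cast (card_le_univ _).trans ((Fintype.card_finset (α := τ)).trans_le
      (Nat.pow_le_pow_right two_pos hb.cτ))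
  have n1 : n ≤ n ^ (2 * s + 3) := Nat.le_self_pow (by omega) _
  have n2 : (2 : ℝ) ^ n ≤ 2 ^ n ^ (2 * s + 3) := pow_le_pow_right₀ one_le_two n1
  refine ⟨P', ⟨ad_ok P l Q hp.ok hb.ok.old.ok.ne (fun z => ?_) fun z m k => ?_, ?_, ?_⟩, ?_⟩
  · obtain ⟨a, m, -⟩ := mem_image.1 (mem_filter.1 z.2.2).2
    exact card_ne_zero_of_mem m
  · exact hh z.1 z.2.1 (right_ne_zero_of_mul ((coeff_smul _ _ _).symm.trans_ne k))
  · refine le_trans ?_ (num1 hb.two)
    change Fintype.card (P.N ⊕ D × Wx) ≤ _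
    rw [Fintype.card_sum, Fintype.card_prod, Fintype.card_coe]
    exact Nat.add_le_add hp.card (Nat.mul_le_mul hD cW)
  · rintro (a | z)
    exacts [hp.lv a, (hl z).trans_le (hb.wf.le _ (mem_filter.1 z.2.2).1)]
  rintro y Y ⟨y1, y2⟩
  let Y' : (Bk.ext B.T P').C → Finset τ → ℤ := Sum.elim (fun c => Y (.inl c))
    (Sum.elim (fun a => Y (.inr a)) fun z A =>
      round (q * Sy.sy (Bk.ext B.T P).lev (Pi z.1 z.2.1) (Mv.wr Y) A))
  have hY : ∀ c, Y' (j c) = Y c := by rintro (c | a) <;> rfl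
  have hY' : (fun c => Mv.wr Y' (j c)) = Mv.wr Y := funext fun c => funext fun A =>
    congrArg (fun f : Finset τ → ℤ => (f A : ℝ)) (hY c)
  have fb : ∀ ξ, Fb (Bk.ext B.T P') W blk x Y' ξ → Fb (Bk.ext B.T P) W blk x Y fun c => ξ (j c) :=
    fun ξ k c A m o e => (k (j c) A m o (e.trans (hj c).symm)).trans (by rw [hY])
  refine ⟨Y', ⟨y1, ?_⟩, fun d G ⟨I, i1, i2, i3⟩ => ?_⟩
  · rintro (a | z) A m o e
    · exact ((congrArg _ ((u1 _ (.inr a) A).trans (by rw [hY']))).trans_le (y2 a A m o e)).trans n2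
    · rw [u2 _ z A (e.trans (hl z)), hY', abs_sub_comm]
      exact (abs_sub_round _).trans (le_trans (by norm_num) (one_le_pow₀ one_le_two))
  refine ⟨fun ξ => I (fun c => ξ (j c)) + ∑ U : Wx, ξ (.inr (.inr (d, U))) U.1, ?_, ?_, ?_⟩
  · intro a b ξ1 ξ2 ξ f1 f2 f k
    have : ∀ U : Wx, ξ (.inr (.inr (d, U))) U.1 =
        a * ξ1 (.inr (.inr (d, U))) U.1 + b * ξ2 (.inr (.inr (d, U))) U.1 := fun U =>
      k _ _ (mem_filter.1 U.2).1 (mem_filter.1 U.2).2 (hl (d, U)).symm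
    simp only [this, sum_add_distrib, ← mul_sum]
    rw [i1 a b _ _ _ (fb _ f1) (fb _ f2) (fb _ f) fun c A m o e =>
      k (j c) A m o (e.trans (hj c).symm)]
    ring
  · intro ξ f
    obtain ⟨k, e⟩ := i2 (fun c => ξ (j c)) (fb _ f)
    exact ⟨k + ∑ U : Wx, ξ (.inr (.inr (d, U))) U.1, by
      rw [Int.cast_add, Int.cast_sum, ← e]; rfl⟩
  · intro ξ t f t0 k
    have q1 : (1 : ℝ) ≤ q := by exact_mod_cast hq
    have a := i3 _ t (fb _ f) t0 fun c A m o e => by
      rw [← u1]; exact k (j c) A m o (e.trans (hj c).symm)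
    have b : ∀ U : Wx, |ue (Bk.ext B.T P') ξ (.inr (.inr (d, U))) U.1 / q| ≤ t * 2 ^ (n * s) := by
      intro U
      have m := (mem_filter.1 U.2).1
      have c := k _ _ m (mem_filter.1 U.2).2 (hl (d, U)).symm
      have e : (1 / 2 ^ n : ℝ) ^ #U.1 ≤ ∏ a ∈ U.1, B.la (blk a) := by
        rw [← prod_const]
        exact prod_le_prod (fun _ _ => by positivity) fun a _ => (hb.ok.la (blk a)).1
      have e' : (1 / 2 ^ n : ℝ) ^ s ≤ (1 / 2 ^ n) ^ #U.1 := pow_le_pow_of_le_one (by positivity)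
        (div_le_one_of_le₀ (one_le_pow₀ one_le_two) (by positivity)) (hb.wf.le _ m)
      rw [abs_mul, abs_of_nonneg (le_trans (by positivity) e)] at c
      rw [abs_div, Nat.abs_cast]
      refine (div_le_self (abs_nonneg _) q1).trans ?_
      rw [← div_le_iff₀ (by positivity), pow_mul, div_eq_inv_mul, ← inv_pow, ← one_div]
      exact (mul_le_mul_of_nonneg_right (e'.trans e) (abs_nonneg _)).trans c
    have c : G (Mv.pt B W x P' ξ) - (I (fun c => ξ (j c)) +
        ∑ U : Wx, ξ (.inr (.inr (d, U))) U.1) / q = G (Mv.pt B W x P fun c => ξ (j c)) -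
          ∑ U ∈ Wx, Sy.sy (Bk.ext B.T P).lev (Pi d U) (fun c => ξ (j c)) U - I (fun c => ξ (j c)) / q -
          ∑ U : Wx, ue (Bk.ext B.T P') ξ (.inr (.inr (d, U))) U.1 / q := by
      rw [← sum_coe_sort Wx, sum_congr rfl fun U _ => congrArg (· / (q : ℝ)) (u2 ξ (d, U) _ rfl),
        ← sum_div, sum_sub_distrib, ← mul_sum]
      change G (Mv.pt B W x P fun c => ξ (j c)) - _ = _
      field_simp
      ring
    refine (congrArg _ c).trans_le ((abs_sub _ _).trans ((add_le_add a ((abs_sum_le_sum_abs _ _).trans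
      (sum_le_card_nsmul _ _ _ fun U _ => b U))).trans ?_))
    have e : (2 : ℝ) ^ (n * (s + 1) + 1) ≤ 2 ^ n ^ (2 * s + 3) :=
      pow_le_pow_right₀ one_le_two (num2 hb.two)
    have e' : (1 : ℝ) ≤ 2 ^ (n * s) := one_le_pow₀ one_le_two
    rw [card_univ, Fintype.card_coe, nsmul_eq_mul]
    rw [pow_succ, mul_add, mul_one, pow_add] at e
    have : (2 : ℝ) ^ n + #Wx * 2 ^ (n * s) ≤ 2 ^ n ^ (2 * s + 3) := by
      nlinarith [mul_le_mul_of_nonneg_right cW' (zero_le_one.trans e'),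
        mul_le_mul_of_nonneg_left e' (by positivity : (0 : ℝ) ≤ 2 ^ n)]
    nlinarith [mul_le_mul_of_nonneg_left this t0]

end Crest.Agent.N49.Sw

end
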