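import Crest.Agent.N49.Sw.Pl1
import Crest.Agent.N49.Sw.Df4

/-!
# Row 49 (helper35): PUL0 (after helper38's PUL)
-/

set_option autoImplicit false
set_option linter.unusedSectionVars false

open Finset MvPolynomial

noncomputable section

namespace Crest.Agent.N49.Mv.P0

open Tw Sy Md Sd Rm Pl

section
variable {τ L : Type} [Fintype τ] [DecidableEq τ] [Fintype L] [DecidableEq L] {T T2 : TS Unit}
  {P : Bk T.C Unit} {W : Finset (Finset τ)} {blk : τ → L} {x : L} {θ : Md.Tan T T2 τ}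
  {k : P.N → MvPolynomial τ ℤ} {X Λ : ℝ} {s : ℕ} {B : Finset τ} {m : τ → ℕ}

theorem kp_inj (h : P.Tri) {κ κ' : P.N × Finset τ → ℤ} (e : ∀ a, ∀ B ∈ W, x ∉ B.image blk →
    #B = (P.wd a).degree → κ (a, B) - round (c0 P W blk x θ (kp P W blk x κ) a B) =
      κ' (a, B) - round (c0 P W blk x θ (kp P W blk x κ') a B)) :
    kp P W blk x κ = kp P W blk x κ' := by
  have : ∀ r a, P.rk a < r → kp P W blk x κ a = kp P W blk x κ' a := fun r => by
    induction r with
    | zero => intro a h0; omega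
    | succ r ih =>
      refine fun a h0 => sum_congr rfl fun A c => congrArg _ ?_
      have := e a A (mem_filter.1 c).1 (mem_filter.1 c).2.1 (mem_filter.1 c).2.2
      rwa [c0, c0, th_congr W blk x h fun a' d => ih a' (by omega), sub_left_inj] at this
  exact funext fun a => this _ a (Nat.lt_succ_self _)

/-- the mixed words are rounded, the background is the rest -/
theorem fix (h : P.Tri) (y : T2.C → Finset τ → ℤ) (Y : T.C ⊕ P.N → Finset τ → ℤ) :
    ∃ (κ : P.N × Finset τ → ℤ) (Y' : T2.C ⊕ NN P W blk x → Finset τ → ℤ), (∀ G, Y' (.inl G) = y G) ∧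
      (∀ z B, Y' (.inr z) B =
        round (sy (l2 T2 P W blk x) ((nb P W blk x θ (kp P W blk x κ)).Θ z) (wr Y') B)) ∧
      ∀ a, ∀ B ∈ W, x ∉ B.image blk → #B = (P.wd a).degree →
        io P W blk x θ (kp P W blk x κ) m (wr Y') (.inr a) B = Y (.inr a) B := by
  let g : ((P.N × Finset τ) ⊕ (NN P W blk x × Finset τ) → ℤ) → T2.C ⊕ NN P W blk x →
    Finset τ → ℤ := fun z => Sum.elim y fun n B => z (.inr (n, B))
  obtain ⟨z, hz⟩ := exists_fix (N := (P.N × Finset τ) ⊕ (NN P W blk x × Finset τ))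
    (V := fun _ => ℤ) (Sum.elim (fun p => 2 * P.rk p.1 + 1) fun p => 2 * P.rk p.1.1.1)
    (fun z => Sum.elim (fun p => Y (.inr p.1) p.2 - round (coeff (ind p.2) (ev (ex blk x)
      (Yp (l2 T2 P W blk x) (ms m (wr (g z)))) (zz (s0 T2 P W blk x p.1))))) fun p =>
        round (sy (l2 T2 P W blk x) (coeff (ind p.1.1.2) (th P W blk x θ
          (kp P W blk x fun p => z (.inl p)) p.1.1.1)) (wr (g z)) p.2)) 0 (by
      rintro z z' (p | p) e
      · refine congrArg (fun t => _ - round t) (ev_congr _ (cs_s0 W blk x (p := (· = p.1)) rfl) ?_)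
        rintro (G | n) hc A - -
        · rfl
        · exact congrArg (fun t : ℤ => _ * (t : ℝ)) (e (.inr (n, A)) (by
            have := hc n rfl
            simp only [Sum.elim_inl, Sum.elim_inr, this]; omega))
      · refine congrArg round ?_
        rw [th_congr W blk x h (k := kp P W blk x fun p => z (.inl p)) (a := p.1.1.1)
          (k' := kp P W blk x fun p => z' (.inl p)) fun a' d => sum_congr rfl fun A _ =>
            congrArg _ (e (.inl (a', A)) (by simp only [Sum.elim_inl, Sum.elim_inr]; omega))]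
        refine sy_congr _ (cs_th W blk x h _ _) ?_
        rintro (G | n) hc A - -
        · rfl
        · exact congrArg Int.cast (e (.inr (n, A)) (by
            have := hc n rfl
            simp only [Sum.elim_inr]; omega)))
  refine ⟨fun p => z (.inl p), g z, fun _ => rfl, fun n B => (congrFun hz (.inr (n, B))).symm,
    fun a B hB hx l => ?_⟩
  obtain ⟨n, hn⟩ := ev_int (lev := l2 T2 P W blk x) (ex_int (blk := blk) (x := x))
    (fun v A => (∏ a ∈ A, (m a : ℤ)) * g z v A) (s0 T2 P W blk x a) B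
  rw [← ms_wr] at hn
  rw [io_inr _ _ hx, kp_coeff _ hB hx l, ← congrFun hz (.inl (a, B))]
  simp [hn]

variable {Y : T.C ⊕ P.N → Finset τ → ℤ} {Y' : T2.C ⊕ NN P W blk x → Finset τ → ℤ}

theorem half (d : ∀ z B, Y' (.inr z) B = round (sy (l2 T2 P W blk x) ((nb P W blk x θ k).Θ z)
    (wr Y') B)) (z : NN P W blk x) (l : #B = l2 T2 P W blk x (.inr z)) : |sy (l2 T2 P W blk x)
      (MvPolynomial.X (.inr z) - (nb P W blk x θ k).Θ z) (wr Y') B| ≤ 1 / 2 := by
  refine (congrArg abs ((sy_sub (l2 T2 P W blk x) _ _ _ _).trans (congrArg (· - _)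
    ((sy_X (l2 T2 P W blk x) _ _ (.inr z)).trans (if_pos l))))).trans_le ?_
  rw [abs_sub_comm]
  exact (congrArg (fun t : ℤ => |_ - (t : ℝ)|) (d z B)).trans_le (abs_sub_round _)

theorem vanish (h : P.Tri) (d : ∀ z B, Y' (.inr z) B = round (sy (l2 T2 P W blk x)
    ((nb P W blk x θ k).Θ z) (wr Y') B)) {a : τ} (e : ∀ G A, a ∈ A → Y' (.inl G) A = 0) :
    ∀ c A, a ∈ A → Y' c A = 0 := by
  have : ∀ r (z : NN P W blk x), P.rk z.1.1 < r → ∀ A, a ∈ A → Y' (.inr z) A = 0 := fun r => by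
    induction r with
    | zero => intro a h0; omega
    | succ r ih =>
      intro z h0 A ha
      refine (d z A).trans ((congrArg round ((sy_congr (l2 T2 P W blk x)
        (y' := fun c B => if a ∈ B then 0 else wr Y' c B) (cs_th W blk x h z.1.1 _) ?_).trans
        ((sy_lin _ _ ha (y₁ := fun c B => if a ∈ B then 0 else wr Y' c B)
          (y₂ := fun c B => if a ∈ B then 0 else wr Y' c B) 0 0 (fun _ _ _ => rfl) (fun _ _ _ => rfl)
          fun _ _ u => by simp [u]).trans (by simp)))).trans round_zero)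
      rintro (G | n) hc B - -
      · split_ifs with u
        exacts [by simp [wr, e G B u], rfl]
      · split_ifs with u
        exacts [by simp [wr, ih n (by have := hc n rfl; omega) B u], rfl]
  rintro (G | z)
  exacts [e G, this _ z (Nat.lt_succ_self _)]

theorem ue2 (ξ : T2.C ⊕ NN P W blk x → Finset τ → ℝ) (v : T2.C ⊕ NN P W blk x) :
    ue (Bk.ext T2 (nb P W blk x θ k)) ξ v B =
      sy (l2 T2 P W blk x) ((Bk.ext T2 (nb P W blk x θ k)).Φ v) ξ B :=
  congrArg (fun l => sy l _ ξ B) (lev2 P W blk x θ k)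

theorem ue2_inr (ξ : T2.C ⊕ NN P W blk x → Finset τ → ℝ) (z : NN P W blk x) :
    ue (Bk.ext T2 (nb P W blk x θ k)) ξ (.inr z) B = sy (l2 T2 P W blk x)
      (MvPolynomial.X (.inr z) - (nb P W blk x θ k).Θ z) ξ B := ue2 ξ _

theorem ue2_inl (ξ : T2.C ⊕ NN P W blk x → Finset τ → ℝ) (G : T2.C) :
    ue (Bk.ext T2 (nb P W blk x θ k)) ξ (.inl G) B = ue T2 (fun G => ξ (.inl G)) G B :=
  (ue2 ξ _).trans (sy_rename (lev := T2.lev) (lev' := l2 T2 P W blk x) (g := .inl)
    (fun _ => rfl) _ _ _)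

theorem fb_io (w : Wf s W blk) (e : ∀ v, ∀ B ∈ W, x ∉ B.image blk → #B = l1' P v →
    io P W blk x θ k m (wr Y') v B = Y v B) {ξ : T2.C ⊕ NN P W blk x → Finset τ → ℝ}
    (h : Fb (Bk.ext T2 (nb P W blk x θ k)) W blk x Y' ξ) :
    Fb (Bk.ext T P) W blk x Y (io P W blk x θ k m ξ) := fun v B hB hx l =>
  (io_congr (ξ' := wr Y') (fun c A a d => h c A (w.dw B hB A a)
    (fun z => hx (image_subset_image a z)) (d.trans (congrFun (lev2 ..) c).symm)) v).trans
      (e v B hB hx (l.trans (congrFun (lev1 P) v)))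

/-- the background is within a bounded distance from the value of the form -/
theorem c0_le (h : Hy P θ k X) (w : Wf s W blk) (hΛ : ∀ A ∈ W, ∏ a ∈ A, (m a : ℝ) ≤ Λ) {R : ℝ}
    (e : ∀ v, ∀ B ∈ W, x ∉ B.image blk → #B = l1' P v → io P W blk x θ k m (wr Y') v B = Y v B)
    (d : ∀ z B, Y' (.inr z) B = round (sy (l2 T2 P W blk x) ((nb P W blk x θ k).Θ z) (wr Y') B))
    {a : P.N} (hB : B ∈ W) (hx : x ∉ B.image blk) (l : #B = (P.wd a).degree)
    (u : |ue (Bk.ext T P) (wr Y) (.inr a) B| ≤ R) :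
    |((coeff (ind B) (k a) : ℤ) : ℝ) - c0 P W blk x θ k a B| ≤ R + 2 ^ s * Λ := by
  have p := pend h w (fun A i => hΛ A (w.dw B hB A i)) (wr Y') hB l (t := 1) zero_le_one
    fun z i j => (half d z (by rw [card_sdiff_of_subset j, l, ← i]; rfl)).trans (by norm_num)
  rw [if_neg hx, one_mul, mul_one, sy_congr' _ (y' := wr Y) _ fun v A i j =>
    e v A (w.dw B hB A i) (fun z => hx (image_subset_image i z)) j] at p
  have := mul_le_mul_of_nonneg_right (pw_le w hB) (le_trans (by positivity) (hΛ B hB))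
  have u' : |sy (l1' P) (MvPolynomial.X (.inr a) - P.Θ a) (wr Y) B| ≤ R :=
    (congrArg abs (ue1_inr (wr Y) a)).symm.trans_le u
  rw [abs_le] at p u' ⊢
  constructor <;> linarith [p.1, p.2, u'.1, u'.2]

theorem err (h : Hy P θ k X) (w : Wf s W blk) (hΛ : ∀ A ∈ W, ∏ a ∈ A, (m a : ℝ) ≤ Λ)
    (ξ : T2.C ⊕ NN P W blk x → Finset τ → ℝ) {t : ℝ} (ht : 0 ≤ t)
    (u : ∀ v, ∀ A ∈ W, x ∈ A.image blk → #A = l2 T2 P W blk x v →
      |ue (Bk.ext T2 (nb P W blk x θ k)) ξ v A| ≤ t) (v : T.C ⊕ P.N) (hB : B ∈ W)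
    (hx : x ∈ B.image blk) (l : #B = l1' P v) : |ue (Bk.ext T P) (io P W blk x θ k m ξ) v B| ≤
      (Fintype.card T2.C * (X * X) + 2 ^ s) * (Λ * t) := by
  have z : 0 ≤ Λ * t := mul_nonneg (le_trans (by positivity) (hΛ B hB)) ht
  have z1 : 0 ≤ Fintype.card T2.C * (X * X) * (Λ * t) :=
    mul_nonneg (mul_nonneg (by positivity) (mul_self_nonneg X)) z
  have z2 : 0 ≤ 2 ^ s * (Λ * t) := by positivity
  rcases v with F | a
  · rw [ue1_inl]
    exact (old h (fun A i => hΛ A (w.dw B hB A i)) ξ F hx ht fun G A i j d =>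
      (congrArg abs (ue2_inl ξ G)).symm.trans_le (u (.inl G) A (w.dw B hB A i) j d)).trans
      (by linarith)
  have p := pend h w (fun A i => hΛ A (w.dw B hB A i)) ξ hB l ht fun z i j =>
    (congrArg abs (ue2_inr ξ z)).symm.trans_le (u (.inr z) _ (w.dw B hB _ sdiff_subset)
      (x_sdiff hx z.2.2.1) (by rw [card_sdiff_of_subset j, l, ← i]; rfl))
  have := mul_le_mul_of_nonneg_right (pw_le w hB) z
  rw [if_pos hx, zero_mul, sub_zero] at p
  rw [ue1_inr]
  linarith

theorem io_int (ξ : T2.C ⊕ NN P W blk x → Finset τ → ℤ) : io P W blk x θ k m (wr ξ) =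
    wr fun v B => round (io P W blk x θ k m (wr ξ) v B) := funext fun v => funext fun B => by
  obtain ⟨n, e⟩ := ev_int (lev := l2 T2 P W blk x) (ex_int (blk := blk) (x := x))
    (fun v A => (∏ a ∈ A, (m a : ℤ)) * ξ v A) (sg P W blk x θ k v) B
  rw [wr, io, ms_wr, e, round_intCast]

/-- **pull-back of the relation** -/
theorem rx (h : Hy P θ k X) (w : Wf s W blk) (Λ0 : 0 ≤ Λ) (hΛ : ∀ A ∈ W, ∏ a ∈ A, (m a : ℝ) ≤ Λ)
    (e : ∀ v, ∀ B ∈ W, x ∉ B.image blk → #B = l1' P v → io P W blk x θ k m (wr Y') v B = Y v B)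
    {la la' : L → ℝ} {Bd Bd' : ℝ} (h2 : ∀ A ∈ W, |∏ a ∈ A, la (blk a)| ≤ Λ)
    (h3 : ∀ A ∈ W, 1 ≤ Λ * |∏ a ∈ A, la' (blk a)|)
    (h4 : Λ * ((Fintype.card T2.C * (X * X) + 2 ^ s) * (Λ * Λ)) * Bd ≤ Bd') {q : ℕ}
    {F : (T.C ⊕ P.N → Finset τ → ℝ) → ℝ} (hR : Rx (Bk.ext T P) W blk la x Y q Bd F) :
    Rx (Bk.ext T2 (nb P W blk x θ k)) W blk la' x Y' q Bd' fun ξ => F (io P W blk x θ k m ξ) := by
  obtain ⟨I, i1, i2, i3⟩ := hR
  have f := fun ξ => fb_io (ξ := ξ) w e
  have l := congrFun (lev2 P W blk x θ k)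
  refine ⟨fun ξ => I (io P W blk x θ k m ξ), fun a b ξ1 ξ2 ξ f1 f2 f3 z =>
    i1 a b _ _ _ (f ξ1 f1) (f ξ2 f2) (f ξ f3) fun v B hB hx _ =>
      ev_lin w hB hx a b (fun c A p p' d => ⟨congrArg _ ((f1 c A p p' (d.trans (l c).symm)).trans
        (f3 c A p p' (d.trans (l c).symm)).symm), congrArg _ ((f2 c A p p' (d.trans (l c).symm)).trans
        (f3 c A p p' (d.trans (l c).symm)).symm)⟩)
        (fun c A p p' d => 

          (congrArg ((∏ a ∈ A, (m a : ℝ)) * ·) (z c A p p' (d.trans (l c).symm))).trans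
            (show _ = a * (_ * _) + b * (_ * _) by ring)) _,
    fun ξ f1 => ?_, fun ξ t f1 ht z => ?_⟩
  · have u := io_int (θ := θ) (k := k) (m := m) ξ
    obtain ⟨n, hn⟩ := i2 _ (u ▸ f _ f1)
    exact ⟨n, (congrArg I u).trans hn⟩
  · have c : 0 ≤ Fintype.card T2.C * (X * X) := mul_nonneg (by positivity) (mul_self_nonneg X)
    refine (i3 _ (t * (Λ * ((Fintype.card T2.C * (X * X) + 2 ^ s) * (Λ * Λ)))) (f ξ f1)
      (by positivity) fun v B hB hx l' => ?_).trans
      ((mul_assoc _ _ _).trans_le (mul_le_mul_of_nonneg_left h4 ht))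
    rw [abs_mul]
    refine (mul_le_mul (h2 B hB) (err h w hΛ ξ (t := Λ * t) (by positivity) (fun v A p p' d => ?_)
      v hB hx (l'.trans (congrFun (lev1 P) v))) (abs_nonneg _) Λ0).trans_eq (by ring)
    have := z v A p p' (d.trans (l v).symm)
    rw [abs_mul] at this
    exact (le_mul_of_one_le_left (abs_nonneg _) (h3 A p)).trans
      ((mul_assoc _ _ _).trans_le (mul_le_mul_of_nonneg_left this Λ0))
end

variable {τ L : Type} [Fintype τ] [DecidableEq τ] [Fintype L] [DecidableEq L]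
  {B : Bs L} {W : Finset (Finset τ)} {blk : τ → L} {x : L} {P : Bk B.T.C Unit}
  {f : Fr B.T τ L} {s h : ℕ} {k : P.N → MvPolynomial τ ℤ}

theorem pt_io (o : f.Ok s h) (w : Wf s W blk) (ξ : f.T.C ⊕ NN P W blk x → Finset τ → ℝ) :
    pt B W x P (io P W blk x f.θ k (fun a => f.m (blk a)) ξ) =
      ka B W blk f (pt f.toBs W x (nb P W blk x f.θ k) ξ) := funext fun v => by
  rcases v with v | ℓ
  · refine Eq.trans ?_ (Cm.ka_inl B W blk f _ v).symm
    refine (congrArg (coeff (ind v.1.2)) (ev_inl _ ξ v.1.1)).trans ?_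
    refine Cm.Y_congr _ _ _ (fun G A a => ?_) _
    rw [Cm.coeff_Yp, Cm.coeff_Yp]
    split_ifs with l
    · exact (sx_coe (fun w' => pt f.toBs W x (nb P W blk x f.θ k) ξ (.inl w'))
        ⟨(G, A), Nat.lt_succ_of_le (o.old.stg.le G).1, w.dw _ v.2.2.1 A a, l⟩).symm
    · rfl
  · exact Eq.trans rfl (Cm.ka_inr B W blk f (pt f.toBs W x (nb P W blk x f.θ k) ξ) ℓ).symm

theorem prod_le {n : ℕ} (w : Wf s W blk) {g : τ → ℝ} (h : ∀ a, 0 ≤ g a ∧ g a ≤ 2 ^ n)
    {A : Finset τ} (u : A ∈ W) : ∏ a ∈ A, g a ≤ 2 ^ (n * s) := by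
  rw [pow_mul]
  exact (prod_le_prod (g := fun _ => 2 ^ n) (fun a _ => (h a).1) fun a _ => (h a).2).trans
    ((prod_const _).trans_le <| pow_le_pow_right₀ (one_le_pow₀ one_le_two) (w.le A u))

end Crest.Agent.N49.Mv.P0

namespace Crest.Agent.N49.Sw

open Tw Sy Md Sd Rm Mv Mv.P0
open Mv.Pl (kp kp_hom kp_coeff sz wr_sz l1' Y_e)

set_option maxHeartbeats 800000 in
theorem pul0 (s : ℕ) : PUL0 s := by
  obtain ⟨K, nu⟩ : PB fun n => (4 * n * s + 4 * n + s + 4) * (n * ((n + 1) ^ s + 1)) :=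
    ((((((PB.const 4).mul .idt).mul (.const s)).add ((PB.const 4).mul .idt)).add (.const s)).add
      (.const 4)).mul (PB.idt.mul (((PB.idt.add (.const 1)).pow s).add (.const 1)))
  refine ⟨K, fun τ L _ _ _ _ B W blk x P n f Ω pr H y y0 Y pg hB hP hf hc hH => ?_⟩
  have n2 := hB.two
  have w := hB.wf
  have t2 := hf.old.ok
  have hy' : ∀ κ, Hy P f.θ (kp P W blk x κ) (2 ^ n) := fun κ => ⟨t2, hP.ok, hf.θ, kp_hom κ⟩
  have hm : ∀ A ∈ W, ∏ a ∈ A, ((f.m (blk a) : ℕ) : ℝ) ≤ 2 ^ (n * s) := fun A u =>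
    prod_le w (fun a => ⟨by positivity, by exact_mod_cast (hf.m _).2⟩) u
  have A : ∀ ω ∈ H, ∃ κ, ∃ Y' : f.T.C ⊕ NN P W blk x → Finset τ → ℤ,
      (∀ c, Y' (.inl c) = sz f.toBs W (y ω) c) ∧ (∀ z A, Y' (.inr z) A =
        round (Sy.sy (l2 f.T P W blk x) ((nb P W blk x f.θ (kp P W blk x κ)).Θ z) (Mv.wr Y') A)) ∧
      ∀ v, ∀ A ∈ W, x ∉ A.image blk → #A = l1' P v → io P W blk x f.θ (kp P W blk x κ)
        (fun a => f.m (blk a)) (Mv.wr Y') v A = Y ω v A := fun ω hy => by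
    obtain ⟨e0, a1, -⟩ := hH ω hy
    obtain ⟨κ, Y', b1, b2, b3⟩ := fix (W := W) (blk := blk) (x := x) (θ := f.θ)
      (m := fun a => f.m (blk a)) hP.ok.tri (sz f.toBs W (y ω)) (Y ω)
    have c : (fun c => Mv.wr Y' (.inl c)) = sx f.T _ W fun w => (y ω w : ℝ) :=
      Eq.trans (funext fun c => funext fun A => congrArg Int.cast (congrFun (b1 c) A))
        (wr_sz f.toBs W (y ω))
    refine ⟨κ, Y', b1, b2, ?_⟩
    rintro (c' | a) A i j m
    · let v : B.SC W := ⟨(c', A), Nat.lt_succ_of_le (hB.ok.old.stg.le c').1, i, m⟩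
      have := (Cm.ka_inl B W blk f _ v).symm.trans (congrFun e0 (.inl v))
      refine (congrArg (coeff (ind A)) (ev_inl _ _ c')).trans ?_
      rw [c, Y_e f.θ (e := Pl.ex blk x) (e' := fun _ => 1) _ _ _ fun a u =>
        if_neg fun z => j (mem_image.2 ⟨a, u, z⟩)]
      exact this.trans (congrArg Int.cast (a1 v).symm)
    · exact b3 a A i j m
  choose! κ hκ using A
  let d : Ω → P.N × {A // A ∈ W} → ℤ := fun ω p =>
    if x ∉ p.2.1.image blk ∧ #p.2.1 = (P.wd p.1).degree then κ ω (p.1, p.2.1) - round (c0 P W blk x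
      f.θ (kp P W blk x (κ ω)) p.1 p.2.1) else 0
  have p2 := fun j j' (e : j ≤ j') => pow_le_pow_right₀ (one_le_two (α := ℝ)) e
  obtain ⟨i, -, hi⟩ := pg.pg (Fintype.piFinset fun _ =>
    Icc (-(2 : ℤ) ^ (n + s + n * s + 2)) (2 ^ (n + s + n * s + 2))) H d ⟨0, by simp⟩
    fun ω hy => Fintype.mem_piFinset.2 fun p => by
      rw [mem_Icc, ← abs_le]
      simp only [d]
      split_ifs with z
      · obtain ⟨Y', -, b2, b4⟩ := hκ ω hy
        have a := c0_le (hy' (κ ω)) w hm b4 b2 p.2.2 z.1 z.2 ((hH ω hy).2.err _ _ p.2.2 z.1 z.2)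
        rw [kp_coeff _ p.2.2 z.1 z.2, ← pow_add] at a
        have := (abs_sub_le _ _ _).trans ((add_le_add a (abs_sub_round _)).trans
          (show _ ≤ (2 : ℝ) ^ (n + s + n * s + 2) by
            have := p2 n (n + s + n * s) (by omega)
            have := p2 (s + n * s) (n + s + n * s) (by omega)
            have := p2 0 (n + s + n * s) (by omega)
            rw [pow_add _ _ 2]; linarith))
        exact_mod_cast this
      · simp
  obtain ⟨κ0, h0⟩ : ∃ κ0, ∀ ω ∈ H, d ω = i → kp P W blk x (κ ω) = kp P W blk x κ0 := by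
    by_cases z : ∃ ω ∈ H, d ω = i
    · obtain ⟨y0, -, e0⟩ := z
      refine ⟨κ y0, fun y _ e1 => kp_inj (θ := f.θ) hP.ok.tri fun a A b c u => ?_⟩
      simpa only [d, if_pos (And.intro c u)] using congrFun (e1.trans e0.symm) (a, ⟨A, b⟩)
    · exact ⟨0, fun y a b => absurd ⟨y, a, b⟩ z⟩
  have cW : Fintype.card (P.N × {A // A ∈ W}) ≤ n * ((n + 1) ^ s + 1) := by
    rw [Fintype.card_prod, Fintype.card_coe]
    exact Nat.mul_le_mul hP.card ((card_W szb w).trans (by have := hB.cτ; gcongr))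
  have nu := nu n n2
  have nu1 := (Nat.le_mul_of_pos_left _ (by omega)).trans nu
  have nu2 := (Nat.le_mul_of_pos_right _ (by positivity)).trans nu
  refine ⟨nb P W blk x f.θ (kp P W blk x κ0), {ω ∈ H | d ω = i}, fun y hy => hy.1,
    ⟨(hy' κ0).nb W blk x, ?_, fun z => ?_⟩, hi.trans ?_, fun ω hy => ?_⟩
  · refine le_trans (Fintype.card_le_of_injective (fun z : NN P W blk x =>
      (z.1.1, (⟨z.1.2, z.2.1⟩ : {A // A ∈ W}))) fun z z' u => ?_) (cW.trans nu1)
    exact Subtype.ext (Prod.ext (congrArg (·.1) u :) (congrArg (·.2.1) u :))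
  · exact (Finsupp.degree_single _ _).trans_le ((Nat.sub_le _ _).trans (hP.lv z.1.1))
  · refine mul_le_mul_of_nonneg_right ?_ (pg.nn _)
    rw [Fintype.card_piFinset, prod_const, card_univ, Int.card_Icc]
    have b : n + s + n * s + 2 + 2 ≤ 4 * n * s + 4 * n + s + 4 := by nlinarith
    generalize n + s + n * s + 2 = m at *
    have a : ((2 : ℤ) ^ m + 1 - -2 ^ m).toNat ≤ 2 ^ (m + 2) := by
      have : (0 : ℤ) < 2 ^ m := by positivity
      rw [Int.toNat_le]; push_cast; rw [pow_add]; omega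
    exact_mod_cast (Nat.pow_le_pow_left a _).trans (by
      rw [← pow_mul]
      exact Nat.pow_le_pow_right two_pos ((Nat.mul_le_mul b cW).trans nu))
  obtain ⟨Y', b1, b2, b4⟩ := hκ ω hy.1
  rw [h0 ω hy.1 hy.2] at b2 b4
  refine ⟨Y', ⟨fun v => (congrFun (b1 _) _).trans (dif_pos v.2), fun z A _ _ u =>
    (congrArg abs (ue2_inr _ z)).trans_le ((half b2 z (u.trans (Finsupp.degree_single _ _))).trans
      ((by norm_num : (1 : ℝ) / 2 ≤ 1).trans (one_le_pow₀ one_le_two)))⟩,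
    fun a e => vanish hP.ok.tri b2 fun G A u => ?_, fun G r => ?_⟩
  · rw [b1, sz]
    split_ifs with z
    exacts [e _ u, rfl]
  have := rx (hy' κ0) w (by positivity) hm b4 (la' := f.la) (Bd' := 2 ^ n ^ K) (fun A u => by
      have := fun a => le_trans (by positivity) (hB.ok.la (blk a)).1
      rw [abs_of_nonneg (prod_nonneg fun a _ => this a)]
      exact prod_le w (fun a => ⟨this a, (hB.ok.la _).2⟩) u) (fun A u => by
      have p := fun a => lt_of_lt_of_le (by positivity) (hf.la (blk a)).1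
      have := prod_le (n := n) w (g := fun a => (f.la (blk a))⁻¹) (fun a => ⟨(inv_pos.2 (p a)).le,
        inv_le_of_inv_le₀ (by positivity) (by simpa using (hf.la (blk a)).1)⟩) u
      rw [prod_inv_distrib] at this
      have q := prod_pos fun a (_ : a ∈ A) => p a
      rwa [abs_of_pos q, ← div_le_iff₀ q, one_div]) (by
      have c : (Fintype.card f.T.C : ℝ) ≤ 2 ^ n := by exact_mod_cast hc
      have e : (Fintype.card f.T.C * (2 ^ n * 2 ^ n) + 2 ^ s : ℝ) ≤ 2 ^ (3 * n + s + 1) := by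
        have := mul_le_mul_of_nonneg_right c (show (0 : ℝ) ≤ 2 ^ n * 2 ^ n by positivity)
        rw [← pow_add, ← pow_add] at this
        have := p2 (n + (n + n)) (3 * n + s) (by omega)
        have := p2 s (3 * n + s) (by omega)
        rw [pow_succ, ← pow_add]; linarith
      refine le_trans (mul_le_mul_of_nonneg_right (mul_le_mul_of_nonneg_left
        (mul_le_mul_of_nonneg_right e (by positivity)) (by positivity)) (by positivity)) ?_
      rw [← pow_add, ← pow_add, ← pow_add, ← pow_add]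
      exact p2 _ _ (le_trans (by nlinarith) nu2)) r
  exact (congrArg (Mv.Rx (Bk.ext f.T (nb P W blk x f.θ (kp P W blk x κ0))) W blk f.la x Y' 1
    (2 ^ n ^ K)) (funext fun ξ => congrArg G (pt_io hf w ξ))).mp this

end Crest.Agent.N49.Sw

end
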