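import Crest.Agent.N49.Sw.Df4

/-!
# Row 49 (helper16): restriction to a smaller alphabet
-/

set_option autoImplicit false
set_option linter.unusedSectionVars false

open Matrix MvPolynomial Finset

noncomputable section

namespace Crest.Agent.N49.Sw

open Po Tw Sd Sy Md Rm Mv

namespace Rn0

variable {τ τ' C R : Type} [Fintype τ] [DecidableEq τ] [Fintype τ'] [DecidableEq τ'] {i : τ → τ'}

/-- extension by zero of a word function -/
def ez [Zero R] (i : τ → τ') (ξ : C → Finset τ → R) : C → Finset τ' → R :=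
  fun c => Function.extend (image i) (ξ c) 0

theorem ez_im [Zero R] (hi : i.Injective) (ξ : C → Finset τ → R) (c : C) (A : Finset τ) :
    ez i ξ c (A.image i) = ξ c A := (image_injective hi).extend_apply _ _ _

theorem ez_out [Zero R] (ξ : C → Finset τ → R) (c : C) {A : Finset τ'} {t : τ'} (h : t ∈ A)
    (k : t ∉ Set.range i) : ez i ξ c A = 0 :=
  Function.extend_apply' _ _ _ fun ⟨_, e⟩ => k (by
    obtain ⟨a, -, e⟩ := mem_image.1 (e ▸ h); exact ⟨a, e⟩)

theorem dich (i : τ → τ') (A : Finset τ') :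
    (∃ A0 : Finset τ, A0.image i = A) ∨ ∃ t ∈ A, t ∉ Set.range i := by
  refine or_iff_not_imp_right.2 fun h => ⟨univ.filter fun a => i a ∈ A, ext fun t => ?_⟩
  simp only [mem_image, mem_filter, mem_univ, true_and]
  exact ⟨fun ⟨_, a, e⟩ => e ▸ a, fun a => by
    obtain ⟨b, rfl⟩ : t ∈ Set.range i := by_contra fun k => h ⟨t, a, k⟩
    exact ⟨b, a, rfl⟩⟩

theorem wr_ez (hi : i.Injective) (ξ : C → Finset τ → ℤ) : Mv.wr (ez i ξ) = ez i (Mv.wr ξ) := by
  funext c A
  rcases dich i A with ⟨A, rfl⟩ | ⟨t, a, b⟩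
  · rw [ez_im hi, Mv.wr, ez_im hi, Mv.wr]
  · rw [ez_out _ _ a b, Mv.wr, ez_out _ _ a b, Int.cast_zero]

theorem sy_im (hi : i.Injective) (lev : C → ℕ) (P : MvPolynomial C ℝ) (z : C → Finset τ' → ℝ)
    (A : Finset τ) : Sy.sy lev P (fun c B => z c (B.image i)) A = Sy.sy lev P z (A.image i) := by
  have := sy_map lev ⟨i, hi⟩ P z A
  simp only [map_eq_image] at this
  exact this

theorem sum_im [AddCommMonoid R] (hi : i.Injective) {T : TS Unit} {q : T.C → Prop} [DecidablePred q]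
    {W : Finset (Finset τ)} (p : SC T q W → R) (w : SC T q W) :
    ∑ w0 : SC T q W with w0.1.1 = w.1.1 ∧ w0.1.2.image i = w.1.2.image i, p w0 = p w :=
  sum_eq_single_of_mem w (by simp) fun w0 a n =>
    (n (Subtype.ext (Prod.ext (mem_filter.1 a).2.1 (image_injective hi (mem_filter.1 a).2.2)))).elim

end Rn0

open Rn0 in
/-- **RNM** -/
theorem rnm : RNM := by
  intro τ τ' L _ _ _ _ _ _ B W W' blk blk' i x P s n y Y' _ _ _ _ hi hb hW pw h0
  have im : ∀ A : Finset τ, (A.image i).image blk' = A.image blk := fun A => by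
    rw [image_image]; exact image_congr fun a _ => hb a
  have cd : ∀ A : Finset τ, #(A.image i) = #A := fun A => card_image_of_injective A hi
  refine ⟨fun c A => Y' c (A.image i), ⟨fun w => ?_, fun a A hA hx e => ?_⟩,
    fun G ⟨I, i1, i2, i3⟩ => ?_⟩
  · exact (pw.old ⟨(w.1.1, w.1.2.image i), w.2.1, (hW _).1 w.2.2.1, (cd _).trans w.2.2.2⟩).trans
      (sum_im hi y w)
  · exact (congrArg abs (sy_im hi _ _ (Mv.wr Y') A)).trans_le
      (pw.err a _ ((hW A).1 hA) (by rwa [im]) ((cd A).trans e))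
  have fb : ∀ ξ, Fb (Bk.ext B.T P) W blk x (fun c A => Y' c (A.image i)) ξ →
      Fb (Bk.ext B.T P) W' blk' x Y' (ez i ξ) := fun ξ h c A hA hx e => by
    rcases dich i A with ⟨A, rfl⟩ | ⟨t, a, b⟩
    · rw [ez_im hi]
      exact h c A ((hW A).2 hA) (by rwa [im] at hx) ((cd A).symm.trans e)
    · rw [ez_out _ _ a b, h0 c A t a b, Int.cast_zero]
  refine ⟨fun ξ => I (ez i ξ), fun a b ξ1 ξ2 ξ h1 h2 h k => i1 a b _ _ _ (fb _ h1) (fb _ h2)
    (fb _ h) fun c A hA hx e => ?_, fun ξ h => ?_, fun ξ t h t0 k => ?_⟩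
  · rcases dich i A with ⟨A, rfl⟩ | ⟨t, u, v⟩
    · simp only [ez_im hi]
      exact k c A ((hW A).2 hA) (by rwa [im] at hx) ((cd A).symm.trans e)
    · simp only [ez_out _ _ u v, mul_zero, add_zero]
  · have := i2 (ez i ξ) (by rw [wr_ez hi]; exact fb _ h)
    rwa [wr_ez hi] at this
  have e : Fz.zx B W W' i (Mv.pt B W x P ξ) = Mv.pt B W' x P (ez i ξ) := by
    funext v
    rcases v with ⟨⟨F, A⟩, h1, h2, h3⟩ | l
    · rcases dich i A with ⟨A, rfl⟩ | ⟨t, u, v⟩
      · exact (sum_im hi (fun w => ξ (.inl w.1.1) w.1.2)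
          ⟨(F, A), h1, (hW A).2 h2, (cd A).symm.trans h3⟩).trans (ez_im hi ξ _ _).symm
      · refine (sum_eq_zero fun w a => (v ?_).elim).trans (ez_out ξ _ u v).symm
        have k : w.1.2.image i = A := (mem_filter.1 a).2.2
        obtain ⟨b, -, e⟩ := mem_image.1 (k ▸ u)
        exact ⟨b, e⟩
    · rfl
  simp only [e]
  refine i3 _ t (fb _ h) t0 fun c A hA hx e => ?_
  rcases dich i A with ⟨A, rfl⟩ | ⟨t, u, v⟩
  · have := k c A ((hW A).2 hA) (by rwa [im] at hx) ((cd A).symm.trans e)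
    rw [prod_image hi.injOn, ue, ← sy_im hi]
    simp only [hb, ez_im hi]
    exact this
  · rw [ue, sy_lin _ _ u (y₁ := ez i ξ) (y₂ := ez i ξ) 0 0 (fun _ _ _ => rfl) (fun _ _ _ => rfl)
      fun c B a => by rw [ez_out _ _ a v]; simp]
    simpa using t0

end Crest.Agent.N49.Sw

end
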