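import Crest.Agent.N49.Sd.Syl
import Crest.Agent.N49.Sd.Pull

/-!
# Row 49 (helper38): typed forms in typed brackets are data
-/

set_option autoImplicit false

open MvPolynomial Finset

noncomputable section

namespace Crest.Agent.N49.Sw

open Tw Sd Sy Md Rm

theorem datv : Sd.DATV := by
  intro τ L _ _ _ _ B W blk x s h Bt o w al ty
  have u : ∀ p p' : B.SC W ⊕ L → ℝ, (∀ w : B.SC W, x ∉ w.1.2 → p (.inl w) = p' (.inl w)) →
      ∀ v : VV B.T.C τ, v.2 x = 0 → uv B W p v = uv B W p' v := fun p p' e v z =>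
    sum_congr rfl fun c k => e c fun m => by
      rw [← (mem_filter.1 k).2.2, ind_apply, if_pos m] at z
      exact one_ne_zero z
  have a : ∀ p p' : B.SC W ⊕ L → ℝ, (∀ w : B.SC W, x ∉ w.1.2 → p (.inl w) = p' (.inl w)) →
      Bt.om (uv B W p) = Bt.om (uv B W p') := fun p p' e => funext fun a =>
    ty.bo.ok.om_congr (w := Bt.wd a) (fun v _ k => u p p' e v
      (Nat.le_zero.1 ((k x).trans_eq (ty.fr a)))) a le_rfl
  have m : ∀ c : B.SC W, blk x ∈ (B.SY W blk).tv (.inl c) ↔ x ∈ c.1.2 := fun c =>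
    ⟨fun k => by
      obtain ⟨y, b, e⟩ := mem_image.1 k
      exact al.one y e ▸ b, mem_image_of_mem blk⟩
  refine ⟨a, fun q Γ t => ⟨fun p p' e => ?_, fun ℓ hℓ r r' p p' e => ?_⟩⟩
  · exact congrArg (Bt.ev · Γ) (funext fun v => sum_congr rfl fun c _ =>
      e (.inl c) (subset_univ _) ((sc_ne o.old.ok.toTri c).image blk))
  obtain rfl := mem_singleton.1 hℓ
  have e1 : ∀ c : B.SC W, x ∉ c.1.2 → p (.inl c) = (B.SY W blk).cmb (blk x) r r' p p' (.inl c) :=
    fun c k => (TT.cmb_out (mt (m c).1 k)).symm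
  have e2 := fun (c : B.SC W) (k : x ∉ c.1.2) => (e _ (mt (m c).1 k)).symm.trans (e1 c k)
  refine eval_lin (t := fun v => Bt.wg Prod.snd v x) (fun μ k => ?_) r r' ?_ ?_
  · rw [← (t.ty μ k).2.1]
    simp only [Finsupp.weight_apply, Finsupp.sum, Finsupp.finset_sum_apply, Finsupp.smul_apply]
  · rintro (v | b) z
    · exact ⟨u _ _ e1 v z, u _ _ e2 v z⟩
    · exact ⟨congrArg Int.cast (congrFun (a _ _ e1) b), congrArg Int.cast (congrFun (a _ _ e2) b)⟩
  · rintro (v | b) z
    · simp only [Bk.lf_inl, uv, mul_sum, ← sum_add_distrib]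
      refine sum_congr rfl fun c k => TT.cmb_in ((m c).2 (by_contra fun n => z ?_))
      change v.2 x = 0
      rw [← (mem_filter.1 k).2.2, ind_apply, if_neg n]
    · exact absurd (ty.fr b) z

end Crest.Agent.N49.Sw

end
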