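import Crest.Agent.N49.Sw.Df4
import Crest.Agent.N49.Mv.Abs

/-!
# Row 49 (helper12): two systems of pending families are merged
-/

set_option autoImplicit false
set_option linter.unusedSectionVars false

open Matrix MvPolynomial Finset

noncomputable section

namespace Crest.Agent.N49.Sw

open Po Tw Sd Sy Md Rm Mv

/-- `MRG` on valid bases -/
def MRG2 : Prop := ∀ (τ L : Type) [Fintype τ] [DecidableEq τ] [Fintype L] [DecidableEq L]
  (B : Bs L) (W : Finset (Finset τ)) (blk : τ → L) (x : L) (P1 P2 : Bk B.T.C Unit) (s n h : ℕ),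
  B.Ok s h → Wf s W blk →
  Pn B P1 n s → Pn B P2 n s → ∃ P : Bk B.T.C Unit, Pn B P (2 * n + 1) s ∧ ∀ y Y1 Y2,
    Pw B W blk x P1 n y Y1 → Pw B W blk x P2 n y Y2 → ∃ Y, Pw B W blk x P (2 * n + 1) y Y ∧
      ∀ (G1 G2 G : Fm L (B.SC W)) (c : ℕ), c ≤ 2 ^ n → Rf B W blk x P1 n Y1 G1 →
        Rf B W blk x P2 n Y2 G2 → (∀ p ∈ (B.SY W blk).Fib {x} y, G p = G1 p + c * G2 p) →
        Rf B W blk x P (2 * n + 1) Y G

namespace Mg

variable {τ L : Type} [Fintype τ] [DecidableEq τ] [Fintype L] [DecidableEq L]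

/-- disjoint union of two systems -/
def mg {C : Type} (P1 P2 : Bk C Unit) : Bk C Unit where
  N := P1.N ⊕ P2.N
  wd := Sum.elim P1.wd P2.wd
  rk := Sum.elim P1.rk P2.rk
  Θ := Sum.elim (fun a => rename (Sum.map id .inl) (P1.Θ a)) fun a =>
    rename (Sum.map id .inr) (P2.Θ a)

theorem mg_ok {C : Type} {P1 P2 : Bk C Unit} {dg : C → Unit →₀ ℕ} (h1 : P1.Ok dg) (h2 : P2.Ok dg)
    (h0 : ∀ c, dg c ≠ 0) : (mg P1 P2).Ok dg where
  ne := by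
    rintro (a | a)
    exacts [h1.ne a, h2.ne a]
  hom := by
    rintro (a | a)
    exacts [Ab.hom_rn (w' := P1.wg dg) _ (by rintro (c | a) <;> rfl) (h1.hom a),
      Ab.hom_rn (w' := P2.wg dg) _ (by rintro (c | a) <;> rfl) (h2.hom a)]
  live _ c _ := h0 c
  tri := by
    rintro (a | a) a' k <;> obtain ⟨c | b, m, e⟩ := mem_vars_rename _ _ k <;> cases e
    exacts [h1.tri a b m, h2.tri a b m]

/-- subsystems -/
structure Eb {C : Type} (P0 P : Bk C Unit) (j : P0.N → P.N) : Prop where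
  wd : ∀ a, P.wd (j a) = P0.wd a
  Θ : ∀ a, P.Θ (j a) = rename (Sum.map id j) (P0.Θ a)

variable {T : TS Unit} {P0 P : Bk T.C Unit} {j : P0.N → P.N}

/-- the inclusion of the families -/
def jm (j : P0.N → P.N) : (Bk.ext T P0).C → (Bk.ext T P).C := (Sum.map id j : T.C ⊕ P0.N → _)

theorem Eb.lev (h : Eb P0 P j) (c : (Bk.ext T P0).C) :
    (Bk.ext T P).lev (jm j c) = (Bk.ext T P0).lev c := by
  rcases c with c | a
  exacts [rfl, congrArg Finsupp.degree (h.wd a)]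

theorem Eb.phi (h : Eb P0 P j) (c : (Bk.ext T P0).C) :
    (Bk.ext T P).Φ (jm j c) = rename (jm j) ((Bk.ext T P0).Φ c) := by
  rcases c with c | a
  · exact (rename_rename (R := ℝ) (Sum.inl : T.C → T.C ⊕ P0.N)
      (Sum.map id j : T.C ⊕ P0.N → T.C ⊕ P.N) (T.Φ c)).symm
  · have : rename (Sum.map id j : T.C ⊕ P0.N → T.C ⊕ P.N) (X (.inr a) - P0.Θ a) =
        X (.inr (j a)) - P.Θ (j a) := by rw [map_sub, rename_X, h.Θ]; rfl
    exact this.symm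

theorem Eb.ue (h : Eb P0 P j) (ξ : (Bk.ext T P).C → Finset τ → ℝ) (c : (Bk.ext T P0).C)
    (A : Finset τ) : ue (Bk.ext T P) ξ (jm j c) A = ue (Bk.ext T P0) (fun c => ξ (jm j c)) c A := by
  rw [Mv.ue, Mv.ue, ← Ab.sy_rn _ h.lev, h.phi]

variable {W : Finset (Finset τ)} {blk : τ → L} {la : L → ℝ} {x : L}
  {Y : (Bk.ext T P).C → Finset τ → ℤ} {Y0 : (Bk.ext T P0).C → Finset τ → ℤ}

theorem Eb.err (h : Eb P0 P j) (w : Dw W)
    (e : ∀ c, ∀ A ∈ W, #A = (Bk.ext T P0).lev c → Y (jm j c) A = Y0 c A) (c : (Bk.ext T P0).C)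
    {A : Finset τ} (m : A ∈ W) :
    Mv.ue (Bk.ext T P) (Mv.wr Y) (jm j c) A = Mv.ue (Bk.ext T P0) (Mv.wr Y0) c A :=
  (h.ue _ c A).trans (sy_congr' _ _ fun c' A' k l =>
    congrArg (fun z : ℤ => (z : ℝ)) (e c' A' (w A m A' k) l))

theorem Eb.rx (h : Eb P0 P j)
    (e : ∀ c, ∀ A ∈ W, #A = (Bk.ext T P0).lev c → Y (jm j c) A = Y0 c A) {q : ℕ} {Bd : ℝ}
    {F : ((Bk.ext T P0).C → Finset τ → ℝ) → ℝ} (r : Mv.Rx (Bk.ext T P0) W blk la x Y0 q Bd F) :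
    Mv.Rx (Bk.ext T P) W blk la x Y q Bd fun ξ => F fun c => ξ (jm j c) := by
  have fb : ∀ ξ, Fb (Bk.ext T P) W blk x Y ξ → Fb (Bk.ext T P0) W blk x Y0 fun c => ξ (jm j c) :=
    fun ξ k c A m o l => (k (jm j c) A m o (l.trans (h.lev c).symm)).trans (by rw [e c A m l])
  obtain ⟨I, i1, i2, i3⟩ := r
  exact ⟨fun ξ => I fun c => ξ (jm j c), fun a b ξ1 ξ2 ξ f1 f2 f k =>
    i1 a b _ _ _ (fb _ f1) (fb _ f2) (fb _ f) fun c A m o l =>
      k (jm j c) A m o (l.trans (h.lev c).symm),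
    fun ξ f => i2 (fun c => ξ (jm j c)) (fb _ f), fun ξ t f t0 k => i3 _ t (fb _ f) t0
      fun c A m o l => by rw [← h.ue]; exact k (jm j c) A m o (l.trans (h.lev c).symm)⟩

theorem rx_add {Z : T.C → Finset τ → ℤ} {B1 B2 B : ℝ} {F1 F2 F : (T.C → Finset τ → ℝ) → ℝ}
    (r1 : Mv.Rx T W blk la x Z 1 B1 F1) (r2 : Mv.Rx T W blk la x Z 1 B2 F2) (c : ℕ)
    (e : ∀ ξ, Fb T W blk x Z ξ → F ξ = F1 ξ + c * F2 ξ) (b : B1 + c * B2 ≤ B) :
    Mv.Rx T W blk la x Z 1 B F := by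
  obtain ⟨I, i1, i2, i3⟩ := r1
  obtain ⟨J, j1, j2, j3⟩ := r2
  refine ⟨fun ξ => I ξ + c * J ξ, fun a b ξ1 ξ2 ξ f1 f2 f k => ?_, fun ξ f => ?_,
    fun ξ t f t0 k => ?_⟩
  · beta_reduce; rw [i1 a b _ _ _ f1 f2 f k, j1 a b _ _ _ f1 f2 f k]; ring
  · obtain ⟨u, p⟩ := i2 ξ f
    obtain ⟨v, q⟩ := j2 ξ f
    exact ⟨u + c * v, by beta_reduce; rw [p, q]; push_cast; rfl⟩
  · have p := i3 ξ t f t0 k
    have q := mul_le_mul_of_nonneg_left (j3 ξ t f t0 k) (Nat.cast_nonneg (α := ℝ) c)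
    have u : F ξ - (I ξ + c * J ξ) / (1 : ℕ) =
        F1 ξ - I ξ / (1 : ℕ) + c * (F2 ξ - J ξ / (1 : ℕ)) := by rw [e ξ f]; ring
    beta_reduce
    rw [u]
    refine (abs_add_le _ _).trans ?_
    rw [abs_mul, Nat.abs_cast]
    nlinarith [mul_le_mul_of_nonneg_left b t0]

/-- points of the extended fibre lie in the fibre of the symbol tower -/
theorem pt_fib {B : Bs L} {P : Bk B.T.C Unit} {y : B.SC W → ℤ}
    {Y : (Bk.ext B.T P).C → Finset τ → ℤ} (o : ∀ w : B.SC W, Y (.inl w.1.1) w.1.2 = y w)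
    {ξ : (Bk.ext B.T P).C → Finset τ → ℝ} (f : Fb (Bk.ext B.T P) W blk x Y ξ) :
    Mv.pt B W x P ξ ∈ (B.SY W blk).Fib {x} y :=
  ⟨fun w k => (f (.inl w.1.1) w.1.2 w.2.2.1 (disjoint_singleton_right.1 k) w.2.2.2).trans
    (by rw [o]), fun _ => if_congr mem_singleton.symm rfl rfl⟩

end Mg

open Mg in
/-- **MRG** -/
theorem mrg : MRG2 := by
  intro τ L _ _ _ _ B W blk x P1 P2 s n h o w p1 p2
  have e1 : Eb P1 (mg P1 P2) .inl := ⟨fun _ => rfl, fun _ => rfl⟩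
  have e2 : Eb P2 (mg P1 P2) .inr := ⟨fun _ => rfl, fun _ => rfl⟩
  have b : (2 : ℝ) ^ n ≤ 2 ^ (2 * n + 1) := pow_le_pow_right₀ one_le_two (by omega)
  refine ⟨mg P1 P2, ⟨mg_ok p1.ok p2.ok o.old.ok.ne, ?_, ?_⟩, fun y Y1 Y2 w1 w2 => ?_⟩
  · change Fintype.card (P1.N ⊕ P2.N) ≤ _
    have := p1.card
    have := p2.card
    rw [Fintype.card_sum]; omega
  · rintro (a | a)
    exacts [p1.lv a, p2.lv a]
  let Y : (Bk.ext B.T (mg P1 P2)).C → Finset τ → ℤ := Sum.elim (fun c => Y1 (.inl c))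
    (Sum.elim (fun a => Y1 (.inr a)) fun a => Y2 (.inr a))
  have a1 : ∀ c, ∀ A ∈ W, #A = (Bk.ext B.T P1).lev c → Y (jm .inl c) A = Y1 c A := by
    rintro (c | a) _ _ _ <;> rfl
  have a2 : ∀ c, ∀ A ∈ W, #A = (Bk.ext B.T P2).lev c → Y (jm .inr c) A = Y2 c A := by
    rintro (c | a) A m l
    · have k : B.st c < B.M + 1 := Nat.lt_succ_of_le (o.old.stg.le c).1
      exact (w1.old ⟨(c, A), k, m, l⟩).trans (w2.old ⟨(c, A), k, m, l⟩).symm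
    · rfl
  refine ⟨Y, ⟨w1.old, ?_⟩, fun G1 G2 G c hc r1 r2 e =>
    rx_add (e1.rx a1 r1) (e2.rx a2 r2) c (fun ξ f => e _ (pt_fib (P := mg P1 P2) (Y := Y) w1.old f)) ?_⟩
  · rintro (a | a) A m k l
    exacts [((congrArg _ (e1.err w.dw a1 (.inr a) m)).trans_le (w1.err a A m k l)).trans b,
      ((congrArg _ (e2.err w.dw a2 (.inr a) m)).trans_le (w2.err a A m k l)).trans b]
  · have c1 : (c : ℝ) ≤ 2 ^ n := by exact_mod_cast hc
    have c2 : (1 : ℝ) ≤ 2 ^ n := one_le_pow₀ one_le_two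
    rw [pow_succ, two_mul, pow_add]
    nlinarith

end Crest.Agent.N49.Sw

end
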