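import Crest.Agent.N49.Tw.Cd
import Crest.Agent.N49.Tw.ConH
import Crest.Agent.N49.Sd.Bk

/-!
# Row 49 (helper55): symmetrisation, the engine on monomial rings (FROZEN definitions and leaves)
-/

set_option autoImplicit false

open Matrix MvPolynomial Finset

noncomputable section

namespace Crest.Agent.N49.Sw

open Po Tw Sd

/-- universal variables: a family and a word -/
abbrev VV (C τ : Type) : Type := C × (τ →₀ ℕ)
/-- kernels on words -/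
abbrev Kn (τ : Type) : Type := (τ →₀ ℕ) → (τ →₀ ℕ) → ℝ

section ring
variable {σ τ τ' : Type} [DecidableEq τ] [DecidableEq τ']

/-- monomial rings without mass -/
abbrev MR (col : τ → σ) (W : Finset (τ →₀ ℕ)) (K : Kn τ) : Sh σ τ := Sh.mono col W 0 K

/-- a configuration on the universal variables (`fm` = the name of a family) -/
def ex {C R : Type} [DecidableEq σ] [DecidableEq C] [AddCommMonoid R] (U : TS σ) (S : Sh σ τ)
    (fm : U.C → C) (y : U.Cw S → R) (v : VV C τ) : R :=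
  ∑ p : U.Cw S with fm p.1.1 = v.1 ∧ S.ty p.1.2 = v.2, y p

/-- a substitution on the universal variables -/
def sbv {C : Type} [Fintype τ'] (φ : τ → τ' → ℤ) (W : Finset (τ →₀ ℕ)) (z : VV C τ → ℝ)
    (v : VV C τ') : ℝ := ∑ μ ∈ W, (smat φ v.2 μ : ℝ) * z (v.1, μ)

/-- the image of a configuration under the substitution `φ` -/
def hs [DecidableEq σ] [Fintype τ'] (U : TS σ) {col : τ → σ} {W : Finset (τ →₀ ℕ)} {K : Kn τ}
    (S' : Sh σ τ') (φ : τ → τ' → ℤ) (y : U.Cw (MR col W K) → ℤ) : U.Cw S' → ℤ :=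
  U.hm (MR col W K) S' (Sh.smm col W 0 K S' φ) y

/-- congruent modulo the linear form `lam` -/
def Md [DecidableEq σ] [Fintype τ] (U : TS σ) (S : Sh σ τ) (lam : τ → ℤ) (y y' : U.Cw S → ℤ) :
    Prop := ∃ Q : U.C → MvPolynomial τ ℤ, ∀ p : U.Cw S,
  y p - y' p = coeff (S.ty p.1.2) ((∑ a, lam a • X a) * Q p.1.1)

/-- a function that does not see the ideal of `lam` -/
def Inv [DecidableEq σ] [Fintype τ] (U : TS σ) (S : Sh σ τ) (lam : τ → ℤ)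
    (f : (U.Cw S → ℤ) → ℂ) : Prop := ∀ y y', Md U S lam y y' → f y = f y'

/-- the old part and the new part of a word -/
def wl {L : Type} (μ : τ ⊕ L →₀ ℕ) : τ →₀ ℕ := μ.comapDomain Sum.inl Sum.inl_injective.injOn
/-- the new part -/
def wr {L : Type} (μ : τ ⊕ L →₀ ℕ) : L →₀ ℕ := μ.comapDomain Sum.inr Sum.inr_injective.injOn

variable {l : ℕ}

/-- the words after `j` clonings -/
def WX [Fintype τ] (s : ℕ) (W : Finset (τ →₀ ℕ)) (B : Finset (Fin l →₀ ℕ)) (j : ℕ) :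
    Finset (τ ⊕ Fin l × Bool →₀ ℕ) := (full _ s).filter fun μ => wl μ ∈ W ∧
  wr μ ∈ Bj l s j ∧ (wr μ).mapDomain Prod.fst ∈ B

/-- the vertex `ω` of the cube -/
def fw (lam : Fin l → τ → ℤ) (ω : Fin l → Bool) : τ ⊕ Fin l × Bool → τ → ℤ :=
  Sum.elim (fun a => Pi.single a 1) fun i => if i.2 = ω i.1 then lam i.1 else 0

/-- the kernel of the cube: the new words are independent of variance `v` -/
def KX [Fintype τ] (s : ℕ) (W : Finset (τ →₀ ℕ)) (K : Kn τ) (B : Finset (Fin l →₀ ℕ))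
    (lam : Fin l → τ → ℤ) (v : ℕ → ℝ) : Kn (τ ⊕ Fin l × Bool) := fun μ ν =>
  if wr μ = 0 ∧ wr ν = 0 then K (wl μ) (wl ν) - ∑ x ∈ WX s W B 0, if wr x = 0 then 0 else
    v x.degree * (smat (fw lam fun _ => false) (wl μ) x * smat (fw lam fun _ => false) (wl ν) x)
  else if μ = ν then v μ.degree else 0

/-- **the cube ring** -/
abbrev CX [Fintype τ] (s : ℕ) (col : τ → σ) (W : Finset (τ →₀ ℕ)) (K : Kn τ) (cl : Fin l → σ)
    (B : Finset (Fin l →₀ ℕ)) (lam : Fin l → τ → ℤ) (v : ℕ → ℝ) (j : ℕ) :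
    Sh σ (τ ⊕ Fin l × Bool) :=
  MR (Sum.elim col fun i => cl i.1) (WX s W B j) (KX s W K B lam v)

/-- a twist moved along a substitution (any direction) -/
def ts [DecidableEq σ] [Fintype τ'] (U : TS σ) {col : τ → σ} {W : Finset (τ →₀ ℕ)} {K : Kn τ}
    (S' : Sh σ τ') (φ : τ → τ' → ℤ) (Ψ : U.Twd (MR col W K)) : U.Twd S' :=
  U.tp (MR col W K) S' (Sh.smm col W 0 K S' φ) Ψ

/-- the inclusion of the old letters -/
def il {L : Type} [DecidableEq L] : τ → τ ⊕ L → ℤ := fun a => Pi.single (.inl a) 1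

/-- conjugation at the odd vertices -/
def cj (ω : Fin l → Bool) (z : ℂ) : ℂ := if Even #{i | ω i = true} then z else (starRingEnd ℂ) z

/-- the data of a cube -/
structure Cb [Fintype τ] (s n : ℕ) (a : ℝ) (col : τ → σ) (W : Finset (τ →₀ ℕ)) (K : Kn τ)
    (cl : Fin l → σ) (B : Finset (Fin l →₀ ℕ)) (lam : Fin l → τ → ℤ) (v : ℕ → ℝ) : Prop where
  sz : (MR col W K).Sz n a
  dn : Dn W
  z : 0 ∈ W
  dg : ∀ μ ∈ W, μ.degree ≤ s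
  one : ∀ t, Finsupp.single t 1 ∈ W
  dB : Dn B
  zB : 0 ∈ B
  oB : ∀ i, Finsupp.single i 1 ∈ B
  s1 : 1 ≤ s
  col : ∀ i t, lam i t ≠ 0 → col t = cl i
  ht : ∀ i t, |lam i t| ≤ n
  /-- the monomials outside `B` go to zero -/
  wd : ∀ ν ∈ W, ∀ μ, smat (fw lam fun _ => false) ν μ ≠ 0 → wl μ ∈ W ∧
    (wr μ).mapDomain Prod.fst ∈ B

end ring

/-- leaf: calculus of substitutions -/
def SBC : Prop := ∀ (σ τ τ' C : Type) [DecidableEq σ] [DecidableEq τ] [DecidableEq τ']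
  [DecidableEq C] [Fintype τ] [Fintype τ'] (U : TS σ) (fm : U.C → C) (col : τ → σ)
  (W : Finset (τ →₀ ℕ)) (K : Kn τ) (col' : τ' → σ) (W' : Finset (τ' →₀ ℕ)) (K' : Kn τ')
  (φ : τ → τ' → ℤ), (∀ a a', φ a a' ≠ 0 → col a = col' a') →
  (∀ (y : U.Cw (MR col W K) → ℤ) (c : C), ∀ ν ∈ W', ex U (MR col' W' K') fm
    (zc (hs U (MR col' W' K') φ y)) (c, ν) = sbv φ W (ex U (MR col W K) fm (zc y)) (c, ν)) ∧
  (∀ (lam : τ → ℤ) (f : (U.Cw (MR col' W' K') → ℤ) → ℂ), (∀ ν ∈ W', ∀ μ, smat φ ν μ ≠ 0 → μ ∈ W) →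
    Inv U _ (fun b => ∑ a, lam a * φ a b) f → Inv U _ lam fun y : U.Cw (MR col W K) → ℤ =>
      f (hs U _ φ y)) ∧
  ∀ (τ'' : Type) [DecidableEq τ''] [Fintype τ''] (col'' : τ'' → σ) (W'' : Finset (τ'' →₀ ℕ))
    (K'' : Kn τ'') (φ' : τ' → τ'' → ℤ), (∀ ν ∈ W'', ∀ μ, smat φ' ν μ ≠ 0 → μ ∈ W') →
    (∀ a a', φ' a a' ≠ 0 → col' a = col'' a') → ∀ y : U.Cw (MR col W K) → ℤ,
      hs U (MR col'' W'' K'') φ' (hs U (MR col' W' K') φ y) =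
        hs U (MR col'' W'' K'') (fun a c => ∑ b, φ a b * φ' b c) y

/-- leaf: a criterion for split surjections of monomial rings -/
def MSEC : Prop := ∀ (σ τ τ' : Type) [DecidableEq τ] [DecidableEq τ'] [Fintype τ] [Fintype τ']
  (col : τ → σ) (W : Finset (τ →₀ ℕ)) (K : Kn τ) (col' : τ' → σ) (W' : Finset (τ' →₀ ℕ))
  (K' : Kn τ') (φ : τ → τ' → ℤ) (ι : τ' → τ) (h s : ℕ), Dn W → Dn W' → (MR col W K).Ok →
  (∀ μ ∈ W, μ.degree ≤ s) → 1 ≤ h →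
  (∀ a b, |φ a b| ≤ h) → (∀ a a', φ a a' ≠ 0 → col a = col' a') →
  (∀ ν ∈ W', ∀ μ, smat φ ν μ ≠ 0 → μ ∈ W) →
  (∀ ν ∈ W', ∀ b ∈ ν.support, φ (ι b) = Pi.single b 1) →
  (∀ a b, φ a b ≠ 0 → Finsupp.single b 1 ∈ W') →
  (∀ ν, ν ∉ W' → (∀ b ∈ ν.support, Finsupp.single b 1 ∈ W') → ν.mapDomain ι ∈ W →
    ∃ (b : τ') (j : τ) (c : ℤ), c ≠ 0 ∧ φ j = Pi.single b c ∧ ν b ≠ 0 ∧ Finsupp.single j 1 ∈ W ∧
      (ν - Finsupp.single b 1).mapDomain ι + Finsupp.single j 1 ∉ W) →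
  (∀ ν ∈ W', ∀ ν' ∈ W', ν ≠ 0 → ν' ≠ 0 → K' ν ν' = kpush φ (W.erase 0) K ν ν') →
  ∃ e, (MR col W K).Sec (MR col' W' K') ((h * (Fintype.card τ' + 1)) ^ s)
    (Sh.smm col W 0 K _ φ) e

/-- leaf: the cube rings are shapes and the first one maps onto the base -/
def CUB : Prop := ∀ s l : ℕ, ∃ c : ℕ, ∀ (σ τ : Type) [DecidableEq τ] [Fintype τ] (n : ℕ) (a b : ℝ)
  (col : τ → σ) (W : Finset (τ →₀ ℕ)) (K : Kn τ) (cl : Fin l → σ) (B : Finset (Fin l →₀ ℕ))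
  (lam : Fin l → τ → ℤ) (v : ℕ → ℝ), Cb s n a col W K cl B lam v → 0 < b →
  (∀ j, b ≤ v j ∧ (n + 2) ^ c * v j ≤ a) →
  (∀ j, (CX s col W K cl B lam v j).Sz ((n + 2) ^ c) b ∧ Dn (WX s W B j)) ∧
  (∀ t, Finsupp.single t 1 ∈ WX s W B l) ∧
  (∀ ω, ∀ ν ∈ W, ∀ μ, smat (fw lam ω) ν μ ≠ 0 → μ ∈ WX s W B l) ∧
  ∃ e, (CX s col W K cl B lam v 0).Sec (MR col W K) ((n + 2) ^ c)
    (Sh.smm _ _ 0 _ _ (fw lam fun _ => false)) e

/-- leaf: **the box inequality** -/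
def BOX : Prop := ∀ s l : ℕ, ∃ c : ℕ, ∀ (σ τ : Type) [DecidableEq σ] [DecidableEq τ] [Fintype τ]
  (U : TS σ) (st : U.C → ℕ) (M n N : ℕ) (a b η δ : ℝ) (col : τ → σ) (W : Finset (τ →₀ ℕ)) (K : Kn τ)
  (cl : Fin l → σ) (B : Finset (Fin l →₀ ℕ)) (lam : Fin l → τ → ℤ) (v : ℕ → ℝ)
  (Ψ : U.Twd (MR col W K)) (g : (U.Cw (MR col W K) → ℤ) → ℂ)
  (f : Fin l → (U.Cw (MR col W K) → ℤ) → ℂ), Cb s n a col W K cl B lam v → 0 < b →
  (∀ j, b ≤ v j ∧ (n + 2) ^ c * v j ≤ a) → (n + 2) ^ c ≤ N → U.Stg st M → U.Adm _ st Ψ →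
  0 ≤ η → η ≤ 1 / 8 → U.HM st N b η → U.HP st N b η → (∀ y, ‖g y‖ ≤ 1) → (∀ i y, ‖f i y‖ ≤ 1) →
  (∀ i, Inv U _ (lam i) (f i)) → 0 ≤ δ → δ + 2 * η ≤ ‖(U.tw _ Ψ).Ec fun y => g y * ∏ i, f i y‖ →
  U.Adm _ st (ts U (CX s col W K cl B lam v l) il Ψ) ∧
  (δ / 2) ^ 2 ^ l ≤ ‖(U.tw (CX s col W K cl B lam v l) (ts U _ il Ψ)).Ec fun y =>
    ∏ ω : Fin l → Bool, cj ω (g (hs U _ (fw lam ω) y))‖

/-- leaf: alternating sums keep the top part -/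
def ALT : Prop := ∀ (τ τ0 C : Type) [DecidableEq τ] [DecidableEq τ0] [Fintype τ0] (l : ℕ)
  (e : Fin l → τ0) (φ : τ → τ0 → ℤ) (lam : Fin l → τ0 → ℤ) (W : Finset (τ ⊕ Fin l × Bool →₀ ℕ))
  (z : VV C (τ ⊕ Fin l × Bool) → ℝ) (w : τ0 →₀ ℕ) (G : MvPolynomial (VV C τ0) ℝ),
  Function.Injective e → (∀ i b, lam i b ≠ 0 → b = e i) → (∀ b, w b ≤ 1) →
  G.IsWeightedHomogeneous Prod.snd w → (∀ i, w (e i) = 1) →
  ∑ ω : Fin l → Bool, (-1) ^ #{i | ω i = true} * eval (sbv (Sum.elim φ fun i : Fin l × Bool =>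
      if i.2 = ω i.1 then lam i.1 else 0) W z) G =
    eval (sbv (Sum.elim (fun a b => if b ∈ Set.range e then 0 else φ a b) fun i : Fin l × Bool =>
      if i.2 then -lam i.1 else lam i.1) W z) G

/-- the words of a product of rings -/
def WP {ι τ : Type} [Fintype ι] [DecidableEq ι] [DecidableEq τ] (W : ι → Finset (τ →₀ ℕ)) :
    Finset (ι × τ →₀ ℕ) := univ.biUnion fun i => (W i).image (Finsupp.mapDomain (i, ·))

/-- the projection to a factor -/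
def pr {ι τ : Type} [DecidableEq ι] [DecidableEq τ] (i : ι) : ι × τ → τ → ℤ :=
  fun a => if a.1 = i then Pi.single a.2 1 else 0

/-- leaf: the law on a product of rings is the product law -/
def PROD : Prop := ∀ (σ τ ι : Type) [DecidableEq σ] [DecidableEq τ] [Fintype τ] [Fintype ι]
  [DecidableEq ι] (U : TS σ) (st : U.C → ℕ) (M : ℕ) (col : τ → σ) (W : ι → Finset (τ →₀ ℕ))
  (u : ι → ℕ → ℝ) (V : (ι × τ →₀ ℕ) → ℝ)
  (g : ∀ i, (U.Cw (MR col (W i) (dk fun μ => u i μ.degree)) → ℤ) → ℂ),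
  U.Ok → U.Stg st M → (∀ i, Dn (W i)) → (∀ i j, 0 < u i j) →
  (∀ i, ∀ μ ∈ W i, μ ≠ 0 → V (μ.mapDomain (i, ·)) = u i μ.degree) → (∀ i y, ‖g i y‖ ≤ 1) →
  (U.sh (MR (col ∘ Prod.snd) (WP W) (dk V))).Ec (fun y => ∏ i, g i (hs U _ (pr i) y)) =
    ∏ i, (U.sh (MR col (W i) (dk fun μ => u i μ.degree))).Ec (g i)

/-- **the relation on a fibre**: `G` is an integer form up to `B` times the norm of the errors -/
def Rx {τ : Type} (V : TS τ) (p : V.C → Prop) [DecidablePred p] (y : V.C → ℝ) (B : ℝ)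
    (G : (V.C → ℝ) → ℝ) : Prop := ∃ I : V.C → ℤ, (∀ c, ¬ p c → I c = 0) ∧ ∀ ξ : V.C → ℝ,
  (∀ c, ¬ p c → ξ c = y c) → |G ξ - ∑ c, I c * ξ c| ≤
    B * √(qf (V.K.submatrix (Subtype.val : {c // p c} → V.C) Subtype.val)⁻¹ fun c => V.u ξ c.1)

/-- leaf: a biased linear form on a centred lattice Gaussian is almost integral -/
def FIB : Prop := ∀ (τ : Type) (V : TS τ) (χ : V.C → ℝ) (m : ℕ), V.Tri →
  (∀ a b : V.C → ℝ, V.u (a + b) = V.u a + V.u b) →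
  1 / 2 ^ m ≤ ‖V.Ec fun y => ee (χ ⬝ᵥ zc y)‖ →
  ∃ I : V.C → ℤ, ∀ ξ, |χ ⬝ᵥ ξ - ∑ c, I c * ξ c| ≤ (Fintype.card V.C + m + 2) * √(qf V.K⁻¹ (V.u ξ))

/-- leaf: several letters `x c`, never together in a word: on a dense set all the forms are almost
integral on their fibres -/
def FIBS : Prop := ∀ (τ ι : Type) [Fintype ι] (V : TS τ) (x : ι → τ) (m : ℕ)
  (Φ : (V.C → ℤ) → ℂ) (G : ι → MvPolynomial V.C ℝ) [∀ i, DecidablePred fun c => V.deg c (x i) ≠ 0],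
  V.Ok → (∀ c i, V.deg c (x i) ≤ 1) → (∀ c i j, V.deg c (x i) ≠ 0 → V.deg c (x j) ≠ 0 → i = j) →
  (∀ c c' i, V.K c c' ≠ 0 → V.deg c (x i) = V.deg c' (x i)) →
  (∀ i, ∀ μ ∈ (G i).support, Finsupp.weight V.deg μ (x i) = 1 ∧
    ∀ j, j ≠ i → Finsupp.weight V.deg μ (x j) = 0) →
  (∀ y, ‖Φ y‖ ≤ 1) → (∀ y y', (∀ c, (∀ i, V.deg c (x i) = 0) → y c = y' c) → Φ y = Φ y') →
  1 / 2 ^ m ≤ ‖V.Ec fun y => Φ y * ∏ i, ee (eval (zc y) (G i))‖ →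
  1 / 2 ^ (m + 1) ≤ V.P {y | Φ y ≠ 0 ∧ ∀ i, Rx V (fun c => V.deg c (x i) ≠ 0) (zc y)
    (Fintype.card V.C + m + 3) fun ξ => eval ξ (G i)}

/-- leaf: tails -/
def TAIL : Prop := ∀ (σ τ : Type) [DecidableEq σ] (U : TS σ) (S : Sh σ τ) (st : U.C → ℕ)
  (M n m : ℕ) (a η : ℝ) (Ψ : U.Twd S), U.Stg st M → U.Adm S st Ψ → S.Sz n a → 0 ≤ a → 0 ≤ η →
  η ≤ 1 / 8 → U.HM st n a η → (U.tw S Ψ).P {y | ∃ p, (Fintype.card (U.Cw S) + 1) * (m + 1) *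
    (U.tw S Ψ).K p p < (U.tw S Ψ).u (zc y) p ^ 2} ≤ 1 / 2 ^ m

/-- the law in which the brackets are free words of variance `v` -/
def exw {Λ Λ' : Type} (V : TS Λ') (B : Bk V.C Λ) (d : B.N → Λ' →₀ ℕ) (v : B.N → ℝ) : TS Λ' where
  C := V.C ⊕ B.N
  deg := Sum.elim V.deg d
  Φ := Sum.elim (fun c => rename .inl (V.Φ c)) fun a => X (.inr a) - B.Θ a
  K := fromBlocks V.K 0 0 (diagonal v)

/-- the weight of the brackets -/
def bw {C Λ : Type} (B : Bk C Λ) (v : B.N → ℝ) (y : C → ℝ) (k : B.N → ℤ) : ℝ :=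
  ∏ a, Real.exp (-Real.pi * ((k a - eval (Sum.elim y fun a => (k a : ℝ)) (B.Θ a)) ^ 2 / v a))

/-- leaf: wide brackets have a constant normaliser -/
def WN : Prop := ∀ (C Λ : Type) (B : Bk C Λ) (v : B.N → ℝ) (m : ℕ) (y : C → ℝ), B.Tri →
  (∀ a, (Fintype.card B.N + m + 1 : ℝ) ≤ v a) → Summable (bw B v y) ∧
    |∑' k, bw B v y k - ∏ a, √(v a)| ≤ 1 / 2 ^ m * ∏ a, √(v a)

/-- leaf: the marginal on a closed subsystem `j` (the words outside `j` are wide) -/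
def WS : Prop := ∀ (C Λ Λ0 : Type) (B : Bk C Λ) (B0 : Bk C Λ0) (j : B0.N → B.N) (v : B.N → ℝ)
  (m : ℕ) (y : C → ℝ) (g : (B0.N → ℤ) → ℂ), B.Tri → B0.Tri → Function.Injective j →
  (∀ a, B.Θ (j a) = rename (Sum.map id j) (B0.Θ a)) →
  (∀ a, (Fintype.card B.N + m + 1 : ℝ) ≤ v a) → (∀ k, ‖g k‖ ≤ 1) →
  ‖(∑' k, (bw B v y k : ℂ) * g (k ∘ j)) / (∏ a, √(v a) : ℝ) -
    (∑' k, (bw B0 (v ∘ j) y k : ℂ) * g k) / (∏ a, √(v (j a)) : ℝ)‖ ≤ 2 / 2 ^ m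

end Crest.Agent.N49.Sw

end
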