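import Crest.Agent.N49.Md.Exl
import Crest.Agent.N49.Md.Syu
import Crest.Agent.N49.Sw.Defs

/-!
# Row 49 (helper62): the law on a smaller monomial ring is a mixture of marginals
-/

set_option autoImplicit false
set_option linter.unusedSectionVars false

open Finset Matrix MvPolynomial

noncomputable section

namespace Crest.Agent.N49.Sw

open Tw Po Md Sy

namespace Xm

variable {σ τ : Type} [DecidableEq σ] [Fintype τ] [DecidableEq τ] {T : TS σ} {col : τ → σ}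
  {U U' : Finset (τ →₀ ℕ)} {K K' : Kn τ}

theorem coeff_Yw (y : T.Cw (MR col U K) → ℝ) (F : T.C) (μ : τ →₀ ℕ) :
    coeff μ (En.rho (MR col U K) ℝ (T.Yw (MR col U K) y F)) = ex T (MR col U K) id y (F, μ) := by
  rw [TS.Yw, map_sum, coeff_sum, ex, ← filter_filter]
  refine Eq.trans (sum_congr rfl fun x _ => ?_) (sum_filter _ _).symm
  rw [X, C_mul_monomial, mul_one, En.rho_mon, Finsupp.weight_single, one_smul, coeff_monomial]

/-- the errors of the law on a monomial ring -/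
theorem u_MR (y : T.Cw (MR col U K) → ℝ) (x : T.Cw (MR col U K)) :
    (T.tw (MR col U K) (T.tw0 _)).u y x = coeff x.1.2.1
      (T.hz 0 (fun c => En.rho (MR col U K) ℝ (T.Yw (MR col U K) y c)) x.1.1) := by
  refine (TS.tw_u _ _).trans ((En.cf_rho _ _).trans (congrArg (coeff x.1.2.1) ?_))
  have a := fun Y => TS.eval₂_tw0 (T := T) (S := MR col U K) (R := ℝ) Y x.1.1
  rw [show (MR col U K).ε = 0 from funext fun _ => sum_eq_zero fun _ _ => ite_self _,
    show (MR col U K).el (R := ℝ) 0 = 0 by simp [Sh.el],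
    show MvPolynomial.map (algebraMap ℝ ℝ) = RingHom.id (MvPolynomial (MR col U K).W ℝ) by
      ext1 <;> simp] at a
  refine (congrArg (En.rho (MR col U K) ℝ) (a _)).trans ((T.hz_map _ _ _ _).trans ?_)
  rw [map_zero]

variable (K K') in
/-- the inclusion of coordinates -/
def inc (h : U ⊆ U') (p : T.Cw (MR col U K)) : T.Cw (MR col U' K') :=
  ⟨(p.1.1, ⟨p.1.2.1, erase_subset_erase _ h p.1.2.2⟩), p.2⟩

theorem inc_inj (h : U ⊆ U') : Function.Injective (inc (T := T) (col := col) K K' h) :=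
  fun _ _ e => Subtype.ext (Prod.ext (congrArg (fun x => x.1.1) e)
    (Subtype.ext (congrArg (fun x => x.1.2.1) e)))

theorem inc_rg (h : U ⊆ U') {q : T.Cw (MR col U' K')} (k : q.1.2.1 ∈ U) :
    ∃ p, inc K K' h p = q :=
  ⟨⟨(q.1.1, ⟨q.1.2.1, mem_erase.2 ⟨(mem_erase.1 q.1.2.2).1, k⟩⟩), q.2⟩, rfl⟩

theorem ex_inc {R : Type} [AddCommMonoid R] (h : U ⊆ U') (y : T.Cw (MR col U' K') → R) (F : T.C)
    {μ : τ →₀ ℕ} (k : μ ∈ U) : ex T (MR col U K) id (fun p => y (inc K K' h p)) (F, μ) =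
      ex T (MR col U' K') id y (F, μ) := by
  refine sum_bij (fun p _ => inc K K' h p) (fun p hp => mem_filter.2 ⟨mem_univ _,
    (mem_filter.1 hp).2⟩) (fun _ _ _ _ e => inc_inj h e) (fun q hq => ?_) fun _ _ => rfl
  obtain ⟨p, rfl⟩ := inc_rg (K := K) h (q := q)
    (Eq.mpr (congrArg (· ∈ U) (mem_filter.1 hq).2.2) k)
  exact ⟨p, mem_filter.2 ⟨mem_univ _, (mem_filter.1 hq).2⟩, rfl⟩

theorem u_inc (hU : Dn U) (h : U ⊆ U') (y : T.Cw (MR col U' K') → ℝ) (p : T.Cw (MR col U K)) :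
    (T.tw (MR col U' K') (T.tw0 _)).u y (inc K K' h p) =
      (T.tw (MR col U K) (T.tw0 _)).u (fun q : T.Cw (MR col U K) => y (inc K K' h q)) p := by
  refine (u_MR y _).trans (Eq.trans ?_ (u_MR _ p).symm)
  have : Ideal.Quotient.mkₐ ℝ (idl ℝ hU) (T.hz 0
      (fun c => En.rho (MR col U' K') ℝ (T.Yw (MR col U' K') y c)) p.1.1) =
      Ideal.Quotient.mkₐ ℝ (idl ℝ hU) (T.hz 0 (fun c => En.rho (MR col U K) ℝ
        (T.Yw (MR col U K) (fun q => y (inc K K' h q)) c)) p.1.1) := by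
    rw [T.hz_map, T.hz_map]
    refine congrArg (fun z => T.hz _ z p.1.1) (funext fun c => Ideal.Quotient.eq.2 fun ν hν => ?_)
    rw [coeff_sub, coeff_Yw, coeff_Yw, ex_inc h y c hν, sub_self]
  have := Ideal.Quotient.eq.1 this _ (mem_of_mem_erase p.1.2.2)
  rwa [coeff_sub, sub_eq_zero] at this

theorem P_of_N {σ' : Type} {X : TS σ} {X' : TS σ'} (h : X.Tri) (h' : X'.Tri) (A : Set (X.C → ℤ))
    (f : (X'.C → ℤ) → X.C → ℤ) (k : X.N (fun y => A.indicator 1 y - X.P A) ≤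
      X'.N fun y => A.indicator 1 (f y) - X.P A) : X.P A ≤ X'.P {y | f y ∈ A} := by
  have a := TS.Tri.S_sub h (f := A.indicator 1) (Bb.ind _) (Bb.const (X.P A))
  have c := TS.Tri.S_sub h' (f := {y | f y ∈ A}.indicator 1) (Bb.ind _) (Bb.const (X.P A))
  rw [TS.S_const] at a c
  have z : X.N (fun y => A.indicator 1 y - X.P A) = 0 := div_eq_zero_iff.2 (.inl
    (a.trans (sub_eq_zero.2 (mul_div_cancel₀ _ h.Z_pos.ne').symm)))
  have b := (le_div_iff₀ h'.Zc_pos).1 (z.symm.trans_le k)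
  rw [zero_mul] at b
  exact (le_div_iff₀' h'.Z_pos).2 (sub_nonneg.1 (b.trans_eq (Eq.trans rfl c)))

end Xm

open Xm

variable {σ τ : Type} [DecidableEq σ] [Fintype τ] [DecidableEq τ] {T : TS σ} {col : τ → σ}
  {U U' : Finset (τ →₀ ℕ)} {K K' : Kn τ} {st : T.C → ℕ} {M : ℕ}

/-- **new words on monomial rings**, any kernels that agree on the old words -/
theorem exm_N (s : T.Stg st M) (hU : Dn U) (h : U ⊆ U') (o : (MR col U' K').Ok)
    (e : ∀ μ ∈ U, ∀ ν ∈ U, K' μ ν = K μ ν) {g : (T.Cw (MR col U K) → ℤ) → ℝ} (hg : Bb g) :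
    ∃ x : T.Cw (MR col U' K') → ℝ, (∀ p, x (inc K K' h p) = 0) ∧
      (T.tw (MR col U K) (T.tw0 _)).N g ≤ (T.tw (MR col U' K') (Ho.ot (T.tw0 _) x)).N
        fun y => g fun p => y (inc K K' h p) := by
  let q : T.Cw (MR col U' K') → Prop := fun c => c.1.2.1 ∈ U
  let E : T.Cw (MR col U K) ≃ {c // q c} := Equiv.ofBijective
    (fun p => ⟨inc K K' h p, mem_of_mem_erase p.1.2.2⟩)
    ⟨fun _ _ e => inc_inj h (congrArg (·.1) e), fun c =>
      let ⟨p, k⟩ := inc_rg (K := K) h c.2; ⟨p, Subtype.ext k⟩⟩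
  have lw : (T.tw (MR col U' K') (T.tw0 _)).Low q := fun c hc => by
    obtain ⟨p, rfl⟩ := inc_rg (K := K) h (q := c) hc
    refine Exl.vars_of fun y => (u_inc hU h y p).trans (Eq.trans ?_ (u_inc hU h _ p).symm)
    exact congrArg (fun z => (T.tw (MR col U K) (T.tw0 _)).u z p)
      (funext fun p' => (if_pos (mem_of_mem_erase p'.1.2.2)).symm)
  have r : (T.tw (MR col U K) (T.tw0 _)).Ren ((T.tw (MR col U' K') (T.tw0 _)).cut q 0) E := by
    refine ⟨fun _ => rfl, fun c : T.Cw (MR col U K) => MvPolynomial.funext fun y => ?_,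
      fun (c c' : T.Cw (MR col U K)) => congrArg (T.K c.1.1 c'.1.1 * ·)
        (e _ (mem_of_mem_erase c.1.2.2) _ (mem_of_mem_erase c'.1.2.2))⟩
    refine ((T.tw (MR col U' K') (T.tw0 _)).u_cut q 0 y _).trans ?_
    refine (u_inc hU h _ c).trans (Eq.trans ?_ (eval_rename _ _ _).symm)
    exact congrArg (fun z => (T.tw (MR col U K) (T.tw0 _)).u z c)
      (funext fun p => dif_pos (mem_of_mem_erase p.1.2.2))
  obtain ⟨x, hx, k⟩ := (TS.tw_tri s.cl (s.adm o) o).ext_ren lw r hg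
  exact ⟨x, fun p => hx _ (mem_of_mem_erase p.1.2.2), k.trans_eq (TS.tw_N_off o x _).symm⟩

/-- the same for probabilities -/
theorem exm_P (s : T.Stg st M) (hU : Dn U) (h : U ⊆ U') (o0 : (MR col U K).Ok)
    (o : (MR col U' K').Ok) (e : ∀ μ ∈ U, ∀ ν ∈ U, K' μ ν = K μ ν)
    (A : Set (T.Cw (MR col U K) → ℤ)) : ∃ x : T.Cw (MR col U' K') → ℝ,
      (∀ p, x (inc K K' h p) = 0) ∧ (T.tw (MR col U K) (T.tw0 _)).P A ≤
        (T.tw (MR col U' K') (Ho.ot (T.tw0 _) x)).P {y | (fun p => y (inc K K' h p)) ∈ A} := by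
  obtain ⟨x, hx, k⟩ := exm_N s hU h o e (g := fun y => A.indicator 1 y -
    (T.tw (MR col U K) (T.tw0 _)).P A) ((Bb.ind A).sub (.const _))
  exact ⟨x, hx, P_of_N (TS.tw_tri s.cl (s.adm o0) o0)
    (TS.tw_tri s.cl (Ho.adm_ot s.cl.1 (s.adm o) x) o) A _ k⟩

theorem tw_P_tw0 {S : Sh σ τ} (A : Set (T.Cw S → ℤ)) : (T.tw S (T.tw0 S)).P A = (T.sh S).P A :=
  congrArg (fun Φ => ((T.sh S).setΦ Φ).P A)
    (funext fun p => congrArg (S.cf _ p.1.2) (TS.eval₂_tw0 _ _))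

/-- the form used for freezing: law `T.sh`, constant twist `tc` -/
theorem exm {T : TS Unit} {col : τ → Unit} {st : T.C → ℕ} (s : T.Stg st M) (hU : Dn U)
    (h : U ⊆ U') (o0 : (MR col U K).Ok) (o : (MR col U' K').Ok)
    (e : ∀ μ ∈ U, ∀ ν ∈ U, K' μ ν = K μ ν) (A : Set (T.Cw (MR col U K) → ℤ)) :
    ∃ x : T.Cw (MR col U' K') → ℝ, (∀ p, x (inc K K' h p) = 0) ∧ (T.sh (MR col U K)).P A ≤
      (T.tw (MR col U' K') (tc T _ (T.Yw _ x))).P {y | (fun p => y (inc K K' h p)) ∈ A} :=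
  let ⟨x, hx, k⟩ := exm_P s hU h o0 o e A
  ⟨x, hx, (tw_P_tw0 A).symm.trans_le k⟩

end Crest.Agent.N49.Sw

end
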