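import Crest.Agent.N49.Sw.Frz
import Crest.Agent.N49.Sw.Exm

/-!
# Row 49 (helper62): the leaf EXL1
-/

set_option autoImplicit false

open Finset

noncomputable section

namespace Crest.Agent.N49.Fz

open Tw Md Sw Sw.Xm

theorem exl1 : EXL1 := fun τ' _ _ T st M s U U' κ κ' A o hU hU' h p e => by
  have o' : (DR U' κ').Ok := En.mono_dk_ok hU' p
  have o0 : (DR U κ).Ok := En.mono_dk_ok hU fun ω k => (p ω (h k)).trans_eq (e ω k).symm
  obtain ⟨x, -, k⟩ := exm (col := fun _ => ()) (K := dk κ) (K' := dk κ') o.stg hU h o0 o'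
    (fun μ a _ _ => if_congr Iff.rfl (e μ a).symm rfl) A
  refine ⟨x, k.trans ((TS.tw_tri o.stg.cl (Ho.adm_ot o.stg.cl.1 (o.stg.adm o') x) o').P_mono
    fun y hy => ⟨_, hy, fun F ω a => ex_inc h (Po.zc y) F a⟩)⟩

end Crest.Agent.N49.Fz

end
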