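import Crest.Agent.N49.Sw.Frz
import Crest.Agent.N49.Md.Hmk

/-!
# Row 49 (helper49): `ph` on configurations (leaf HMK1)
-/

set_option autoImplicit false
set_option linter.unusedSectionVars false

open Matrix MvPolynomial Finset

noncomputable section

namespace Crest.Agent.N49.Fz

open Po Tw Sy Md Rm
open Sw (MR ex sbv)

namespace H1

variable {τ τ' : Type} [Fintype τ] [DecidableEq τ] [Fintype τ'] [DecidableEq τ']

theorem scl_ind (m : τ → ℝ) (A : Finset τ) (a : ℝ) :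
    scl m (monomial (ind A) a) = monomial (ind A) ((∏ t ∈ (ind A).support, m t) * a) := by
  rw [scl, aeval_monomial, monomial_eq, Finsupp.prod, Finsupp.prod, algebraMap_eq, mul_comm _ a,
    map_mul, map_prod, mul_assoc, ← prod_mul_distrib]
  refine congrArg _ (prod_congr rfl fun t k => ?_)
  rw [show ind A t = 1 from if_pos k, pow_one, pow_one]

theorem cf_dir (i : τ → τ') (μ : τ → ℕ) {W : Finset (Finset τ)} {ν : τ →₀ ℕ} (h : ν ∈ W.image ind)
    (o ω : τ' →₀ ℕ) (a : ℤ) : coeff ω (monomial o ((1 : ℤ) : ℝ) *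
      rename i (scl (fun t => (μ t : ℝ)) (monomial ν (a : ℝ)))) =
    (((if o + ν.mapDomain i = ω then ∏ t ∈ ν.support, (μ t : ℤ) else 0) * a : ℤ) : ℝ) := by
  obtain ⟨A, -, rfl⟩ := mem_image.1 h
  rw [scl_ind, rename_monomial, monomial_mul, coeff_monomial]
  split_ifs <;> simp

/-- the entries of `ph` -/
def pc {L : Type} [Fintype L] [DecidableEq L] (blk : τ → L) (blk' : τ' → L) (s g : ℕ)
    (W : Finset (Finset τ)) (i : τ → τ') (μ : τ → ℕ) (κ0 : (τ' →₀ ℕ) → ℝ) (ω : τ' →₀ ℕ)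
    (x : (t3 blk blk' s g W κ0).W) : ℤ :=
  if ow blk' (fun _ => 1) x.1.1 + (x.1.2.elim 0 fun w' => w'.1).mapDomain i = ω then
    ∏ a ∈ (x.1.2.elim 0 fun w' => w'.1 : τ →₀ ℕ).support, (μ a : ℤ) else 0

end H1
open H1 Hmk0

theorem hmk1 : HMK1 := fun τ τ' L _ _ _ _ _ _ B W blk blk' s h g i μ κ κ0 Ψ0 b hp ho Y y hB hW _
    h1 h2 F ω hω => by
  have e : coeff ω (Yb (tf B blk' (fun _ => 1) s univ b hp (fun _ => 2 ^ g) 1).toBs W i μ
      (tθ blk' (fun _ => 1) B.T s univ b hp)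
      (zc fun w => wv blk (fun _ => 2 ^ g) _ y w.1.1 (ind w.1.2)) F) =
      ((∑ z : B.T.Cw (t3 blk blk' s g W κ0) with z.1.1 = F,
        pc blk blk' s g W i μ κ0 ω z.1.2 * Y z : ℤ) : ℝ) := by
    rw [TS.sum_tE (S0 := cn blk' s κ0) (v := vv blk' (fun _ => 1) s univ) b Ψ0 ho F
      fun z => pc blk blk' s g W i μ κ0 ω z.1.2 * Y z]
    refine (coeff_add _ _ _).trans ((add_comm _ _).trans
      (Eq.trans (congrArg₂ _ ?_ ?_) (Int.cast_add _ _).symm))
    · refine (coeff_sum _ _ _).trans (Eq.trans (sum_congr (Finset.ext fun _ => ⟨fun k => mem_flt.2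
        ⟨mem_univ _, Option.some.inj (mem_flt.1 k).2⟩, fun k => mem_flt.2 ⟨mem_univ _,
          congrArg some (mem_flt.1 k).2⟩⟩) fun x _ => ?_) (Int.cast_sum _ _).symm)
      refine (congrArg (coeff _) ((congrArg₂ _ (Tb.zr_mon _ 1) ((congrArg (fun P => rename i
        (scl _ P)) (Yp_wv (tT blk' (fun _ => 1) B.T s univ b) _ y (Nat.lt_succ_of_le
          (hB.old.stg.ts_le x)))).trans ((congrArg _ (map_sum _ _ _)).trans
            (map_sum _ _ _)))).trans (mul_sum _ _ _))).trans ((coeff_sum _ _ _).trans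
              (Eq.trans (sum_congr rfl fun q hq => ?_) (Int.cast_sum _ _).symm))
      obtain rfl := (mem_flt.1 hq).2
      exact (cf_dir i μ (Sh.MW.mem q.1.2) _ _ _).trans (congrArg _ (congrArg _ (h2 q).symm))
    · refine (congrArg (coeff _) (map_sum _ _ _)).trans ((coeff_sum _ _ _).trans
        (Eq.trans (sum_congr rfl fun q _ => ?_) (Int.cast_sum _ _).symm))
      refine (congrArg (coeff _) (Tb.zr_mon _ _)).trans ((cf_mon _ _ _).trans (congrArg _ ?_))
      exact congrArg₂ _ (if_congr (Eq.congr_left ((congrArg _ Finsupp.mapDomain_zero).trans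
        (add_zero _)).symm) rfl rfl) (h1 q).symm
  rw [e]
  by_cases k : ω.degree = B.T.lev F
  · let p : B.T.Cw (DR (UU s W i) κ) := ⟨(F, ⟨ω, mem_erase.2 ⟨fun z => (hp F).ne'
      (k.symm.trans (z ▸ map_zero _)), hω⟩⟩), unit_ext ((Sh.cd_degree _).trans k)⟩
    exact sum_eq_single p (fun _ k n => absurd (Subtype.ext (Prod.ext (mem_flt.1 k).2.1
      (Subtype.ext (mem_flt.1 k).2.2))) n) fun n => absurd (mem_flt.2 ⟨mem_univ _, rfl, rfl⟩) n
  refine (sum_eq_zero fun p z => absurd ?_ k).trans (Int.cast_eq_zero.2 (sum_eq_zero fun z m =>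
    mul_eq_zero_of_left (if_neg fun n => k ?_) _)).symm
  · obtain ⟨-, a, c⟩ := mem_flt.1 z
    exact (congrArg _ c.symm).trans ((TS.lev_cw p).symm.trans (congrArg _ a))
  · refine (congrArg _ n.symm).trans ((map_add _ _ _).trans (Eq.trans (congrArg₂ _ (Tb.ow_od _)
      ((degree_col _ _).trans ?_)) ((Sh.ten_dg z.1.2).symm.trans ((TS.lev_cw z).symm.trans
        (congrArg _ (mem_flt.1 m).2)))))
    rcases z.1.2.1.2 with _ | w
    · exact map_zero _
    · rfl

end Crest.Agent.N49.Fz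

end
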