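import Crest.Agent.N49.Sw.Frz
import Crest.Agent.N49.Mv.Tay
import Crest.Agent.N49.Md.Tfb

/-!
# Row 49 (helper17): the unit tangent substitution (`PUR`)
-/

set_option autoImplicit false

open Matrix MvPolynomial Finset

noncomputable section

namespace Crest.Agent.N49.Fz

open Tw Md

theorem un_dia {σ : Type} (T : TS σ) (d : T.C → ℝ) (c : T.C) (h : d c = 1) :
    (T.un (diagonal d)).Φ c = T.Φ c := by
  change (∑ c', C (diagonal d c c') * T.Φ c' : MvPolynomial T.C ℝ) = T.Φ c
  rw [sum_eq_single c (fun c' _ n => by rw [diagonal_apply_ne _ n.symm, C_0, zero_mul])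
    (by simp), diagonal_apply_eq, h, C_1, one_mul]

theorem pur : PUR := by
  intro τ' L _ _ _ _ T st M s blk' b hp h
  have k : ∀ μ : τ' →₀ ℕ, kw blk' (fun _ => (1 : ℝ)) μ = 1 := fun μ => prod_const_one
  refine ⟨fun G => (congrArg (·⁻¹) (k _)).trans inv_one, fun F => ?_⟩
  exact (un_dia (t0 blk' (fun _ => 1) T s univ b) _ _ (k _)).trans
    (Mv.Ty.tan_pure (vv blk' (fun _ => 1) s univ) b
      (h.stg.adm (Tb.bg_ok fun _ => one_pos)) hp F fun m z => by
        rw [TS.weight_lev, h.ok.hom F z]; rfl)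

end Crest.Agent.N49.Fz

end
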