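import Crest.Agent.N49.Sw.Frz
import Crest.Agent.N49.Md.Spl
import Crest.Agent.N49.Md.Tfb
import Crest.Agent.N49.Mv.Lift

/-!
# Row 49 (helper90): centres and dilated directions (leaf SPL1)
-/

set_option autoImplicit false
set_option linter.unusedSectionVars false
set_option maxHeartbeats 400000

open Matrix MvPolynomial Finset

noncomputable section

namespace Crest.Agent.N49.Fz

open Po Tw Sy Md

namespace S1

variable {τ τ' L : Type} [Fintype τ] [DecidableEq τ] [Fintype τ'] [DecidableEq τ'] [Fintype L]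
  [DecidableEq L] {blk : τ → L} {blk' : τ' → L} {s g : ℕ} {W : Finset (Finset τ)} {i : τ → τ'}
  {μ : τ → ℕ} {κ κ0 : (τ' →₀ ℕ) → ℝ}

variable (i) in
/-- the part in the directions -/
def ci (ω : τ' →₀ ℕ) : τ →₀ ℕ := Finsupp.equivFunOnFinite.symm fun a => ω (i a)

theorem mem_UU {ω : τ' →₀ ℕ} : ω ∈ UU s W i ↔ ω.degree ≤ s ∧ ci i ω ∈ W.image ind := by
  rw [UU, mem_filter, mem_full, mem_image]
  exact and_congr_right fun _ => exists_congr fun A => and_congr_right fun _ =>
    ⟨fun h => Finsupp.ext fun a => (h a).symm, fun h a => (DFunLike.congr_fun h a).symm⟩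

theorem dn_UU (h : Dw W) : Dn (UU s W i) := fun _ a _ b => mem_UU.2
  ⟨(degree_mono b).trans (mem_UU.1 a).1, h.dn _ (mem_UU.1 a).2 _ fun t => b (i t)⟩

theorem le_ci (hi : Function.Injective i) (α : τ' →₀ ℕ) (β : τ →₀ ℕ) :
    β ≤ ci i (α + β.mapDomain i) := fun t => by
  change β t ≤ α (i t) + β.mapDomain i (i t)
  rw [Finsupp.mapDomain_apply hi]; omega

variable (μ) in
/-- the multiplier of a monomial -/
def mq (β : τ →₀ ℕ) : ℤ := β.prod fun a n => (μ a : ℤ) ^ n

theorem mq_add (β β' : τ →₀ ℕ) : mq μ (β + β') = mq μ β * mq μ β' :=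
  Finsupp.prod_add_index' (fun _ => pow_zero _) fun _ _ _ => pow_add _ _ _

theorem mq_single (a : τ) : mq μ (Finsupp.single a 1) = μ a := by simp [mq]

variable (blk blk' s g W κ0) in
/-- the words -/
abbrev XX : Type := Sh.TW (cn blk' s κ0) (dn blk g W)

/-- the part in the centres -/
def A (x : XX blk blk' s g W κ0) : τ' →₀ ℕ := ow blk' (fun _ => 1) x.1.1
/-- the part in the directions -/
def B (x : XX blk blk' s g W κ0) : τ →₀ ℕ := x.1.2.elim 0 fun w => w.1

theorem B_mem (x : XX blk blk' s g W κ0) (h : B x ≠ 0) : B x ∈ W.image ind := by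
  obtain ⟨⟨_, _ | w⟩, _⟩ := x
  · exact (h rfl).elim
  · exact Sh.MW.mem w

theorem ph_eq (w : Sh.MW (UU s W i)) (x : XX blk blk' s g W κ0) :
    ph blk blk' s g W i μ κ κ0 w x = if A x + (B x).mapDomain i = w.1 then mq μ (B x) else 0 := by
  refine if_congr Iff.rfl (prod_congr rfl fun a k => ?_) rfl
  obtain ⟨S, -, e⟩ := mem_image.1 (B_mem x (Finsupp.support_nonempty_iff.1 ⟨a, k⟩))
  have k' : a ∈ (B x).support := k
  rw [← e] at k' ⊢
  rw [ind_apply, if_pos (show a ∈ S from k')]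
  exact (pow_one _).symm

theorem t_r (x : XX blk blk' s g W κ0) (m : XX blk blk' s g W κ0 →₀ ℕ) :
    (t3 blk blk' s g W κ0).r x m =
      if Finsupp.weight A m = A x ∧ Finsupp.weight B m = B x then 1 else 0 := by
  refine (congrArg₂ (· * ·) (Spl.ru_eq (S := cn blk' s κ0) (fun w => w.1.1)
    (fun w => Sh.MW.ne w.1) (fun w m => if_congr
      (iff_of_eq (congrArg (· = w.1.1) (TS.weight_map _ _ m))) rfl rfl)
    (fun y : XX blk blk' s g W κ0 => y.1.1) x.1.1 m) (Spl.ru_eq (S := dn blk g W)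
    (fun w => w.1) Sh.MW.ne (fun _ _ => rfl) (fun y : XX blk blk' s g W κ0 => y.1.2) x.1.2 m)).trans ?_
  exact (ite_zero_mul_ite_zero _ _ _ _).trans (if_congr Iff.rfl (mul_one _) rfl)

theorem t_dg (x : XX blk blk' s g W κ0) :
    (t3 blk blk' s g W κ0).dg x = (A x).degree + (B x).degree := by
  refine (Finsupp.degree_single _ _).trans (congrArg₂ _ ?_ ?_)
  · unfold A; cases x.1.1 <;> rfl
  · unfold B; cases x.1.2 <;> rfl

theorem ext' {x y : XX blk blk' s g W κ0} (a : A x = A y) (b : B x = B y) : x = y := by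
  obtain ⟨⟨x0, x1⟩, _⟩ := x
  obtain ⟨⟨y0, y1⟩, _⟩ := y
  refine Subtype.ext (Prod.ext (Tb.ow_inj a) ?_)
  rcases x1 with _ | x1 <;> rcases y1 with _ | y1
  · rfl
  · exact (Sh.MW.ne y1 b.symm).elim
  · exact (Sh.MW.ne x1 b).elim
  · exact congrArg some (Subtype.ext b)

theorem ex {α : τ' →₀ ℕ} {β : τ →₀ ℕ} (a : α.degree ≤ s) (b : β ≠ 0 → β ∈ W.image ind)
    (n : α ≠ 0 ∨ β ≠ 0) : ∃ x : XX blk blk' s g W κ0, A x = α ∧ B x = β := by
  obtain ⟨o, rfl⟩ := Tb.ow_surj (blk := blk') (lam := fun _ => 1) (J := univ) a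
    fun _ _ => mem_univ _
  by_cases b0 : β = 0
  · refine ⟨⟨(o, none), fun z => ?_⟩, rfl, b0.symm⟩
    cases z
    exact n.elim (· rfl) (· b0)
  · exact ⟨⟨(o, some ⟨β, mem_erase.2 ⟨b0, b b0⟩⟩), nofun⟩, rfl, rfl⟩

theorem ne0 (x : XX blk blk' s g W κ0) : A x ≠ 0 ∨ B x ≠ 0 := by
  obtain ⟨⟨_ | w, _ | w'⟩, n⟩ := x
  · exact (n rfl).elim
  · exact .inr (Sh.MW.ne w')
  all_goals exact .inl (Sh.MW.ne w.1)

theorem ne1 (hi : Function.Injective i) {α : τ' →₀ ℕ} {β : τ →₀ ℕ} :
    α + β.mapDomain i ≠ 0 ↔ α ≠ 0 ∨ β ≠ 0 := by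
  rw [Ne, add_eq_zero, not_and_or, ← Finsupp.mapDomain_zero (f := i),
    (Finsupp.mapDomain_injective hi).eq_iff, Finsupp.mapDomain_zero]

theorem ex' (h : Dw W) (hi : Function.Injective i) (w : Sh.MW (UU s W i)) {α : τ' →₀ ℕ}
    {β : τ →₀ ℕ} (e : α + β.mapDomain i = w.1) : ∃ x : XX blk blk' s g W κ0, A x = α ∧ B x = β :=
  ex ((degree_mono (e ▸ le_self_add)).trans (mem_UU.1 w.mem).1)
    (fun _ => h.dn _ (mem_UU.1 w.mem).2 _ (e ▸ le_ci hi α β)) ((ne1 hi).1 (e ▸ w.ne))

theorem hm (h : Dw W) (hi : Function.Injective i) :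
    (t3 blk blk' s g W κ0).Hm (DR (UU s W i) κ) (ph blk blk' s g W i μ κ κ0) where
  cd (w : Sh.MW (UU s W i)) (x : XX blk blk' s g W κ0) z := unit_ext ((Sh.cd_degree _).trans
    (Eq.trans (by
      rw [ph_eq] at z
      rw [t_dg, ← Finsupp.degree_mapDomain i (B x), ← map_add,
        show A x + (B x).mapDomain i = w.1 from of_not_not fun n => z (if_neg n)]; rfl)
      (Sh.cd_degree _).symm))
  mul (w : Sh.MW (UU s W i)) (m : XX blk blk' s g W κ0 →₀ ℕ) _ := by
    have q : (Ideal.Quotient.mkₐ ℤ (idl ℤ (dn_UU (s := s) (i := i) h))).comp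
        ((Sh.rz (UU s W i) ℤ).comp (aeval fun x : XX blk blk' s g W κ0 =>
          (DR (UU s W i) κ).el fun w => ph blk blk' s g W i μ κ κ0 w x)) =
        (Ideal.Quotient.mkₐ ℤ (idl ℤ (dn_UU h))).comp (aeval fun x : XX blk blk' s g W κ0 =>
          monomial (A x + (B x).mapDomain i) (mq μ (B x))) := algHom_ext fun x => by
      refine Ideal.Quotient.eq.2 fun ν k => ?_
      change coeff ν (Sh.rz _ ℤ (aeval _ (X x)) - aeval _ (X x)) = 0
      rw [aeval_X, aeval_X, coeff_sub, sub_eq_zero, coeff_monomial]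
      change coeff ν (Sh.rz _ ℤ (∑ w : Sh.MW (UU s W i),
        ph blk blk' s g W i μ κ κ0 w x • X w)) = _
      simp only [map_sum, map_zsmul, Sh.rz, aeval_X, coeff_sum, coeff_smul, coeff_monomial,
        smul_eq_mul, ph_eq, mul_ite, mul_one, mul_zero]
      refine Eq.trans (sum_congr rfl fun w _ => ?_) (Sh.sum_word
        (fun ν' => if ν' = ν then mq μ (B x) else 0) ((ne1 hi).2 (ne0 x)) fun z =>
          of_not_not (fun n => z (if_neg n)) ▸ k)
      split_ifs <;> rfl
    have q' := sub_eq_zero.1 ((coeff_sub _ _ _ _).symm.trans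
      (Ideal.Quotient.eq.1 (DFunLike.congr_fun q (monomial m 1)) w.1 w.mem))
    have e' : ∀ m : XX blk blk' s g W κ0 →₀ ℕ, aeval (fun x : XX blk blk' s g W κ0 =>
        monomial (A x + (B x).mapDomain i) (mq μ (B x))) (monomial m (1 : ℤ)) =
        monomial (Finsupp.weight A m + (Finsupp.weight B m).mapDomain i)
          (mq μ (Finsupp.weight B m)) := fun m => by
      induction m using Finsupp.induction_linear with
      | zero => simp [mq]
      | add a b p q =>
        rw [← one_mul (1 : ℤ), ← monomial_mul, map_mul, p, q, monomial_mul, map_add, map_add,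
          Finsupp.mapDomain_add, mq_add, add_add_add_comm]
      | single x n =>
        induction n with
        | zero => simp [mq]
        | succ n p =>
          rw [Finsupp.single_add, ← one_mul (1 : ℤ), ← monomial_mul, map_mul, p, map_add, map_add,
            Finsupp.mapDomain_add, mq_add, add_add_add_comm, ← monomial_mul]
          simp only [Finsupp.weight_single, one_smul]
          exact congrArg _ (aeval_X _ _)
    refine Eq.trans ?_ ((Sh.cf_rz w _).trans (q'.trans (congrArg (coeff w.1) (e' m)))).symm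
    rw [coeff_monomial]
    change ∑ x : XX blk blk' s g W κ0, ph blk blk' s g W i μ κ κ0 w x *
      (t3 blk blk' s g W κ0).r x m = _
    simp only [ph_eq, t_r]
    split_ifs with k
    · obtain ⟨x, a, b⟩ := ex' (blk := blk) (blk' := blk') (g := g) (κ0 := κ0) h hi w k
      rw [sum_eq_single x (fun y _ n => by
        rw [if_neg (c := _ ∧ _) fun z => n (ext' (z.1.symm.trans a.symm) (z.2.symm.trans b.symm)),
          mul_zero])
        (fun n => (n (mem_univ _)).elim), if_pos (a ▸ b ▸ k), if_pos ⟨a.symm, b.symm⟩, mul_one, b]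
    · refine sum_eq_zero fun x _ => ?_
      split_ifs with a b
      · exact (k (b.1 ▸ b.2 ▸ a)).elim
      all_goals simp
  mass := by
    have z : (t3 blk blk' s g W κ0).ε = 0 := funext fun x => by
      obtain ⟨⟨_ | w, _ | w'⟩, n⟩ := x
      · rfl
      · exact sum_eq_zero fun _ _ => ite_self _
      · exact sum_eq_zero fun _ _ => ite_self _
      · rfl
    rw [z, mulVec_zero]
    exact funext fun w => (sum_eq_zero fun _ _ => ite_self _).symm

/-- the section -/
def io (w : Sh.MW (UU s W i)) : XX blk blk' s g W κ0 :=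
  ⟨(some ⟨⟨w.1, mem_erase.2 ⟨w.ne, mem_full.2 (mem_UU.1 w.mem).1⟩⟩, fun _ _ => mem_univ _⟩, none),
    nofun⟩

theorem ci_single (hi : Function.Injective i) (a : τ) :
    ci i (Finsupp.single (i a) 1) = Finsupp.single a 1 := Finsupp.ext fun b => by
  change Finsupp.single (i a) 1 (i b) = _
  simp only [Finsupp.single_apply, hi.eq_iff]

theorem split {ι : Type} {α : ι →₀ ℕ} {a : ι} (h : a ∈ α.support) :
    ∃ β, α = Finsupp.single a 1 + β := exists_add_of_le
  (Finsupp.single_le_iff.2 (Nat.one_le_iff_ne_zero.2 (Finsupp.mem_support_iff.1 h)))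

/-- the functional on all the monomials -/
def kp (f : XX blk blk' s g W κ0 → ℤ) (α : τ' →₀ ℕ) (β : τ →₀ ℕ) : ℤ :=
  ∑ z, f z * if α = A z ∧ β = B z then 1 else 0

theorem kp_eq (f : XX blk blk' s g W κ0 → ℤ) (y : XX blk blk' s g W κ0) :
    kp f (A y) (B y) = f y := by
  rw [kp, sum_eq_single y (fun z _ n => by rw [if_neg fun e => n (ext' e.1 e.2).symm, mul_zero])
    (fun n => (n (mem_univ _)).elim), if_pos ⟨rfl, rfl⟩, mul_one]

theorem kp_ne {f : XX blk blk' s g W κ0 → ℤ} {α : τ' →₀ ℕ} {β : τ →₀ ℕ} (h : kp f α β ≠ 0) :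
    ∃ z, f z ≠ 0 ∧ α = A z ∧ β = B z := by
  obtain ⟨z, -, k⟩ := exists_ne_zero_of_sum_ne_zero h
  exact ⟨z, left_ne_zero_of_mul k, of_not_not fun n => right_ne_zero_of_mul k (if_neg n)⟩

variable (i μ κ) in
/-- the conclusion of `Sec.gen` -/
def Gl (f : XX blk blk' s g W κ0 → ℤ) (d : ℕ) : Prop :=
  ∃ (j : XX blk blk' s g W κ0) (m : XX blk blk' s g W κ0 →₀ ℕ),
    j ∉ Set.range (io (i := i)) ∧ (t3 blk blk' s g W κ0).dg j = 1 ∧ m.degree + 1 = d ∧
    (∀ y ∈ m.support, (t3 blk blk' s g W κ0).dg y = 1) ∧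
      ∑ y, f y * ((t3 blk blk' s g W κ0).r y (Finsupp.single j 1 + m) -
        ∑ w : Sh.MW (UU s W i), ph blk blk' s g W i μ κ κ0 w j *
          (t3 blk blk' s g W κ0).r y (Finsupp.single (io w) 1 + m)) ≠ 0

theorem key (s1 : 1 ≤ s) {f : XX blk blk' s g W κ0 → ℤ} {α : τ' →₀ ℕ} {β : τ →₀ ℕ}
    (hβ : ∀ b ∈ β.support, Finsupp.single b 1 ∈ W.image ind) (j : XX blk blk' s g W κ0)
    (j0 : j ∉ Set.range (io (i := i))) (j1 : (A j).degree + (B j).degree = 1)
    (k : kp f (A j + α) (B j + β) - ∑ w : Sh.MW (UU s W i),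
      ph blk blk' s g W i μ κ κ0 w j * kp f (w.1 + α) β ≠ 0) :
    Gl i μ κ f (α.degree + β.degree + 1) := by
  choose c c1 c2 using fun b : τ' => ex (blk := blk) (blk' := blk') (g := g) (κ0 := κ0) (s := s)
    (W := W) (α := Finsupp.single b 1) (β := 0) (by simpa using s1) (fun n => (n rfl).elim)
    (by simp)
  have : ∀ b : τ, ∃ z : XX blk blk' s g W κ0, b ∈ β.support →
      A z = 0 ∧ B z = Finsupp.single b 1 := fun b => by
    by_cases k : b ∈ β.support
    · obtain ⟨z, e⟩ := ex (blk := blk) (blk' := blk') (g := g) (κ0 := κ0) (s := s) (W := W)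
        (α := 0) (β := Finsupp.single b 1) (by simp) (fun _ => hβ b k) (by simp)
      exact ⟨z, fun _ => e⟩
    · exact ⟨j, fun n => (k n).elim⟩
  choose v hv using this
  have wt : ∀ {ι ι' : Type} {u : ι → ι' →₀ ℕ} {γ : ι →₀ ℕ}, (∀ b ∈ γ.support, u b = 0) →
      Finsupp.weight u γ = 0 := fun h => by
    rw [Finsupp.weight_apply]; exact sum_eq_zero fun b k => by simp [h b k]
  have mA : Finsupp.weight A (α.mapDomain c + β.mapDomain v) = α := by
    rw [map_add, TS.weight_map, TS.weight_map, Spl.wt_id fun b _ => c1 b,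
      wt fun b k => (hv b k).1, add_zero]
  have mB : Finsupp.weight B (α.mapDomain c + β.mapDomain v) = β := by
    rw [map_add, TS.weight_map, TS.weight_map, wt fun b _ => c2 b,
      Spl.wt_id fun b k => (hv b k).2, zero_add]
  have r1 : ∀ u z : XX blk blk' s g W κ0, (t3 blk blk' s g W κ0).r z (Finsupp.single u 1 +
      (α.mapDomain c + β.mapDomain v)) = if A u + α = A z ∧ B u + β = B z then 1 else 0 :=
    fun u z => by
      refine (t_r z (Finsupp.single u 1 + _)).trans ?_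
      rw [map_add, map_add (Finsupp.weight B), Finsupp.weight_single, Finsupp.weight_single,
        one_smul, one_smul, mA, mB]
  refine ⟨j, α.mapDomain c + β.mapDomain v, j0, (t_dg j).trans j1, by
    rw [map_add, Finsupp.degree_mapDomain, Finsupp.degree_mapDomain], fun z hz => ?_,
    fun z => k (Eq.trans ?_ z)⟩
  · rcases mem_union.1 (Finsupp.support_add hz) with k | k <;>
      obtain ⟨b, k1, rfl⟩ := mem_image.1 (Finsupp.mapDomain_support k)
    · rw [t_dg, c1, c2]; simp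
    · rw [t_dg, (hv b k1).1, (hv b k1).2]; simp
  · simp only [r1, mul_sub, sum_sub_distrib, kp, mul_sum]
    rw [sum_comm]
    refine congrArg₂ _ rfl (sum_congr rfl fun z _ => sum_congr rfl fun w _ => ?_)
    rw [mul_left_comm, show B (io w : XX blk blk' s g W κ0) + β = β from zero_add _]; rfl

theorem keyV (hi : Function.Injective i) (s1 : 1 ≤ s) {f : XX blk blk' s g W κ0 → ℤ}
    {α : τ' →₀ ℕ} {β : τ →₀ ℕ} (hβ : ∀ b ∈ β.support, Finsupp.single b 1 ∈ W.image ind) {a : τ}
    (ha : Finsupp.single a 1 ∈ W.image ind) (k : kp f α (Finsupp.single a 1 + β) -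
      μ a * kp f (Finsupp.single (i a) 1 + α) β ≠ 0) :
    Gl i μ κ f (α.degree + β.degree + 1) := by
  obtain ⟨j, j1, j2⟩ := ex (blk := blk) (blk' := blk') (g := g) (κ0 := κ0) (s := s) (W := W)
    (α := 0) (β := Finsupp.single a 1) (by simp) (fun _ => ha) (by simp)
  refine key s1 hβ j (fun ⟨w, e⟩ => Sh.MW.ne w ((congrArg A e).trans j1)) (by simp [j1, j2]) ?_
  simp only [ph_eq, j1, j2, zero_add, Finsupp.mapDomain_single, mq_single, ite_mul, zero_mul]
  rwa [Sh.sum_word (fun ν => μ a * kp f (ν + α) β) (by simp) fun _ =>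
    mem_UU.2 ⟨by simpa using s1, (ci_single hi a).symm ▸ ha⟩]

theorem keyC (s1 : 1 ≤ s) {f : XX blk blk' s g W κ0 → ℤ}
    {α : τ' →₀ ℕ} {β : τ →₀ ℕ} (hβ : ∀ b ∈ β.support, Finsupp.single b 1 ∈ W.image ind) {t : τ'}
    (ht : Finsupp.single t 1 ∉ UU s W i) (k : kp f (Finsupp.single t 1 + α) β ≠ 0) :
    Gl i μ κ f (α.degree + β.degree + 1) := by
  obtain ⟨j, j1, j2⟩ := ex (blk := blk) (blk' := blk') (g := g) (κ0 := κ0) (s := s) (W := W)
    (α := Finsupp.single t 1) (β := 0) (by simpa using s1) (fun n => (n rfl).elim) (by simp)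
  refine key s1 hβ j (fun ⟨w, e⟩ => ht ((congrArg A e).trans j1 ▸ Sh.MW.mem w))
    (by simp [j1, j2]) ?_
  simp only [ph_eq, j1, j2, zero_add, Finsupp.mapDomain_zero, add_zero]
  rwa [sum_eq_zero fun w _ => by
    rw [if_neg fun e : Finsupp.single t 1 = w.1 => ht (e ▸ Sh.MW.mem w), zero_mul], sub_zero]

theorem gen (h : Wf s W blk) (hi : Function.Injective i) (hμ : ∀ a, 1 ≤ μ a)
    (f : XX blk blk' s g W κ0 → ℤ) (hf : ∀ w : Sh.MW (UU s W i), f (io w) = 0)
    (x : XX blk blk' s g W κ0) (hx : f x ≠ 0) : Gl i μ κ f ((A x).degree + (B x).degree) := by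
  have lt : ∀ z : XX blk blk' s g W κ0, ∀ β ≤ B z, ∀ b ∈ β.support,
      Finsupp.single b 1 ∈ W.image ind := fun z β k b hb =>
    have := (Finsupp.single_le_iff.2 (Nat.one_le_iff_ne_zero.2
      (Finsupp.mem_support_iff.1 hb))).trans k
    h.dw.dn _ (B_mem z fun e => by simp [e] at this) _ this
  obtain ⟨y, hy, mn⟩ := exists_min_image (univ.filter fun y : XX blk blk' s g W κ0 => f y ≠ 0 ∧
    (A y).degree + (B y).degree = (A x).degree + (B x).degree) (fun y => (B y).degree)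
    ⟨x, mem_filter.2 ⟨mem_univ _, hx, rfl⟩⟩
  obtain ⟨-, y1, y2⟩ := mem_filter.1 hy
  rw [← y2]
  by_cases b0 : B y = 0
  swap
  · obtain ⟨a, ha⟩ := Finsupp.support_nonempty_iff.2 b0
    obtain ⟨β, e⟩ := split ha
    have d : (B y).degree = 1 + β.degree := by rw [e, map_add, Finsupp.degree_single]
    have s1 : 1 ≤ s := le_trans (by omega) (mem_full.1 (Sb.img h (B_mem y b0)))
    rw [d, add_comm 1, ← add_assoc]
    refine keyV hi s1 (lt y β (e ▸ le_add_self)) (lt y _ le_rfl a ha) ?_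
    rw [← e, kp_eq, of_not_not fun n : kp f (Finsupp.single (i a) 1 + A y) β ≠ 0 => ?_, mul_zero,
      sub_zero]
    · exact y1
    obtain ⟨z, z1, z2, z3⟩ := kp_ne n
    have := mn z (mem_filter.2 ⟨mem_univ _, z1, by
      rw [← y2, ← z2, ← z3, map_add, Finsupp.degree_single]; omega⟩)
    simp only [← z3] at this
    omega
  have a0 : A y ≠ 0 := (ne0 y).resolve_right (· b0)
  have dy : (A y).degree ≤ s := Sb.ow_deg _
  have s1 : 1 ≤ s := le_trans (Nat.pos_of_ne_zero fun e =>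
    a0 ((Finsupp.degree_eq_zero_iff _).1 e)) dy
  have nu : A y ∉ UU s W i := fun k => y1 (by
    rw [show y = io ⟨A y, mem_erase.2 ⟨a0, k⟩⟩ from ext' rfl b0]; exact hf _)
  obtain ⟨z, hz, mx⟩ := exists_max_image (univ.filter fun z : XX blk blk' s g W κ0 => f z ≠ 0 ∧
    A z + (B z).mapDomain i = A y) (fun y => (B y).degree)
    ⟨y, mem_filter.2 ⟨mem_univ _, y1, by simp [b0]⟩⟩
  obtain ⟨-, z1, z2⟩ := mem_filter.1 hz
  have : ∃ t ∈ (A z).support, Finsupp.single t 1 ∈ UU s W i → ∃ a, t = i a := by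
    by_contra n
    push Not at n
    have e : ci i (A y) = B z := Finsupp.ext fun a => by
      change A y (i a) = _
      rw [← z2, Finsupp.add_apply, Finsupp.mapDomain_apply hi, of_not_not fun k =>
        (n _ (Finsupp.mem_support_iff.2 k)).2 a rfl, zero_add]
    refine nu (mem_UU.2 ⟨dy, e ▸ ?_⟩)
    by_cases c : B z = 0
    · obtain ⟨t, k⟩ := Finsupp.support_nonempty_iff.2 ((ne0 z).resolve_right (· c))
      exact h.dw.dn _ (mem_UU.1 (n t k).1).2 _ (c ▸ zero_le)
    · exact B_mem z c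
  obtain ⟨t, k, l⟩ := this
  obtain ⟨α, e⟩ := split k
  have d : (A y).degree + (B y).degree = α.degree + (B z).degree + 1 := by
    rw [b0, ← z2, e, map_add, map_add, Finsupp.degree_single, Finsupp.degree_mapDomain, map_zero]
    omega
  rw [d]
  by_cases u : Finsupp.single t 1 ∈ UU s W i
  swap
  · exact keyC s1 (lt z _ le_rfl) u (by rwa [← e, kp_eq])
  obtain ⟨a, rfl⟩ := l u
  refine keyV hi s1 (lt z _ le_rfl) (ci_single hi a ▸ (mem_UU.1 u).2) ?_
  rw [← e, kp_eq, of_not_not fun n : kp f α (Finsupp.single a 1 + B z) ≠ 0 => ?_, zero_sub,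
    neg_ne_zero]
  · exact mul_ne_zero (by have := hμ a; omega) z1
  obtain ⟨z', p1, p2, p3⟩ := kp_ne n
  have := mx z' (mem_filter.2 ⟨mem_univ _, p1, by
    rw [← z2, ← p2, ← p3, e, Finsupp.mapDomain_add, Finsupp.mapDomain_single]; abel⟩)
  simp only [← p3, map_add, Finsupp.degree_single] at this
  omega

theorem t_K (x y : XX blk blk' s g W κ0) : (t3 blk blk' s g W κ0).K x y = if x = y then
    x.1.2.elim (κ0 (A x)) (fun w => (kw blk (fun _ => 2 ^ g) w.1 ^ 2)⁻¹) else 0 := by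
  obtain ⟨⟨x0, _ | x1⟩, n⟩ := x <;> obtain ⟨⟨y0, _ | y1⟩, n'⟩ := y
  · obtain _ | x0 := x0
    · exact (n rfl).elim
    obtain _ | y0 := y0
    · exact (n' rfl).elim
    change diagonal (fun w : (b1 blk' s).W => κ0 w.1.1) x0 y0 = _
    by_cases e : x0 = y0
    · subst e; rw [if_pos rfl]; exact diagonal_apply_eq _ _
    · rw [if_neg fun z => e (Option.some.inj (congrArg (·.1.1) z))]; exact diagonal_apply_ne _ e
  · exact (if_neg fun e => by simp at e).symm
  · exact (if_neg fun e => by simp at e).symm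
  · change vv blk' (fun _ => 1) s univ x0 y0 * (if x1.1 = y1.1 then _ else 0) = _
    by_cases e : x0 = y0
    · subst e
      rw [vv, diagonal_apply_eq, show kw blk' (fun _ => 1) (ow blk' (fun _ => 1) x0) = 1 from
        prod_const_one, one_pow, inv_one, one_mul]
      exact if_congr ⟨fun e => ext' rfl e, fun e => congrArg B e⟩ rfl rfl
    · rw [show vv blk' (fun _ => 1) s univ x0 y0 = 0 from diagonal_apply_ne _ e, zero_mul]
      exact (if_neg fun z => e (congrArg (·.1.1) z)).symm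

variable (blk g W i μ) in
/-- the variance carried by the directions -/
def dv (ω : τ' →₀ ℕ) : ℝ := ∑ u : Sh.MW (W.image ind), if u.1.mapDomain i ≤ ω then
  (mq μ u.1 : ℝ) ^ 2 * (kw blk (fun _ => 2 ^ g) u.1 ^ 2)⁻¹ else 0

variable (blk s g W i μ κ) in
/-- the variance of the centres -/
def k0 (ω : τ' →₀ ℕ) : ℝ := if ω.degree ≤ s then κ ω - dv blk g W i μ ω else 1

theorem one_o {ω : τ' →₀ ℕ} (d : ω.degree ≤ s) (ν : τ' →₀ ℕ) (c : ℝ) :
    ∑ o : Option (b1 blk' s).W, (if ow blk' (fun _ => 1) o + ν = ω then c else 0) =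
      if ν ≤ ω then c else 0 := by
  split_ifs with k
  · obtain ⟨o, e⟩ := Tb.ow_surj (blk := blk') (lam := fun _ => 1) (J := univ) (μ := ω - ν)
      ((degree_mono tsub_le_self).trans d) fun _ _ => mem_univ _
    rw [sum_eq_single o (fun o' _ n => if_neg fun z => n (Tb.ow_inj ?_)) (by simp), e,
      if_pos (tsub_add_cancel_of_le k)]
    rw [e, ← z, add_tsub_cancel_right]
  · exact sum_eq_zero fun o _ => if_neg fun z => k (le_add_self.trans_eq z)

theorem hK : (DR (UU s W i) κ).K = rl (ph blk blk' s g W i μ κ (k0 blk s g W i μ κ)) *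
    (t3 blk blk' s g W (k0 blk s g W i μ κ)).K *
      (rl (ph blk blk' s g W i μ κ (k0 blk s g W i μ κ)))ᵀ := by
  refine Matrix.ext fun (w : Sh.MW (UU s W i)) (w' : Sh.MW (UU s W i)) => ?_
  refine Eq.trans ?_ (Spl.K_app (κ := XX blk blk' s g W (k0 blk s g W i μ κ))
    (ph blk blk' s g W i μ κ _) _ _ t_K w w').symm
  refine Eq.trans (b := if w.1 = w'.1 then κ w.1 else 0) rfl ?_
  simp only [ph_eq]
  split_ifs with e
  · rw [← e]
    have d := (mem_UU.1 w.mem).1
    refine Eq.trans ?_ (Sh.tsplit' _).symm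
    refine (sub_add_cancel _ (dv blk g W i μ w.1)).symm.trans (congrArg₂ (· + ·) ?_ ?_)
    · let u : (b1 blk' s).W := ⟨⟨w.1, mem_erase.2 ⟨w.ne, mem_full.2 d⟩⟩, fun _ _ => mem_univ _⟩
      refine Eq.trans ?_ (sum_eq_single u (fun u' _ n => ?_) fun n => (n (mem_univ _)).elim).symm
      · change _ = ((if w.1 + Finsupp.mapDomain i 0 = w.1 then mq μ 0 else 0 : ℤ) : ℝ) *
          k0 blk s g W i μ κ w.1 * ((if w.1 + Finsupp.mapDomain i 0 = w.1 then mq μ 0 else 0 : ℤ) : ℝ)
        simp [mq, k0, d]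
      · change ((if u'.1.1 + Finsupp.mapDomain i 0 = w.1 then mq μ 0 else 0 : ℤ) : ℝ) * _ * _ = 0
        rw [Finsupp.mapDomain_zero, add_zero, if_neg fun z => n (Subtype.ext (Subtype.ext z)),
          Int.cast_zero, zero_mul, zero_mul]
    · refine ((sum_congr rfl fun u _ => (one_o (blk' := blk') d _ _).symm).trans sum_comm).trans
        (Eq.trans ?_ (Fintype.sum_prod_type _).symm)
      refine sum_congr rfl fun o _ => sum_congr rfl fun u _ => ?_
      change _ = ((if ow blk' (fun _ => 1) o + u.1.mapDomain i = w.1 then mq μ u.1 else 0 : ℤ) : ℝ) *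
        (kw blk (fun _ => 2 ^ g) u.1 ^ 2)⁻¹ *
        ((if ow blk' (fun _ => 1) o + u.1.mapDomain i = w.1 then mq μ u.1 else 0 : ℤ) : ℝ)
      split_ifs
      · ring
      · simp
  · refine (sum_eq_zero fun x _ => ?_).symm
    split_ifs with a b
    · exact (e (a.symm.trans b)).elim
    all_goals simp

theorem mq_ind (S : Finset τ) : mq μ (ind S) = ∏ a ∈ S, (μ a : ℤ) :=
  prod_congr rfl fun a k => by rw [ind_apply, if_pos (show a ∈ S from k)]; exact pow_one _

theorem dv_le (hi : Function.Injective i) {m h : ℕ} (hμ : ∀ a, μ a ≤ m)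
    (hg : 2 ^ (s + h + 1) * m ^ 2 ≤ 4 ^ g) {ω : τ' →₀ ℕ} (d : ω.degree ≤ s) :
    dv blk g W i μ ω ≤ 1 / 2 ^ (h + 1) := by
  have c : (m : ℝ) ^ 2 * ((2 ^ g) ^ 2)⁻¹ ≤ 1 / 2 ^ (s + h + 1) := by
    rw [← div_eq_mul_inv, div_le_div_iff₀ (by positivity) (by positivity), one_mul, mul_comm,
      ← pow_mul, mul_comm g, pow_mul]
    norm_num
    exact_mod_cast hg
  rw [dv, ← sum_filter]
  refine (sum_le_card_nsmul _ _ (1 / 2 ^ (s + h + 1)) fun u _ => ?_).trans ?_
  · obtain ⟨S, -, e⟩ := mem_image.1 u.mem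
    obtain ⟨a, ha⟩ : S.Nonempty := nonempty_iff_ne_empty.2 fun z => u.ne (e ▸ z ▸ ind_empty)
    rw [← e, mq_ind, show kw blk (fun _ => 2 ^ g) (ind S) = ∏ _a ∈ S, (2 : ℝ) ^ g from rfl,
      ← prod_pow, ← prod_inv_distrib, Int.cast_prod, ← prod_pow, ← prod_mul_distrib,
      ← mul_prod_erase _ _ ha]
    have q : ∀ b, ((μ b : ℤ) : ℝ) ^ 2 * ((2 ^ g) ^ 2)⁻¹ ≤ 1 / 2 ^ (s + h + 1) := fun b =>
      le_trans (by have : (μ b : ℝ) ≤ m := by exact_mod_cast hμ b
                   push_cast; gcongr) c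
    refine (mul_le_of_le_one_right (by positivity) (prod_le_one (fun _ _ => by positivity)
      fun b _ => (q b).trans ?_)).trans (q a)
    rw [div_le_one (by positivity)]; exact one_le_pow₀ one_le_two
  · have : #{u : Sh.MW (W.image ind) | u.1.mapDomain i ≤ ω} ≤ 2 ^ s := by
      refine (card_le_card_of_injOn (t := ω.support.powerset) (fun u => u.1.support.image i)
        (fun u k => mem_coe.2 (mem_powerset.2 ?_)) fun u _ u' _ e => ?_).trans ?_
      · exact (Finsupp.mapDomain_support_of_injective hi u.1).symm.trans_subset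
          (Finsupp.support_mono (mem_filter.1 k).2)
      · obtain ⟨S, -, a⟩ := mem_image.1 u.mem
        obtain ⟨S', -, b⟩ := mem_image.1 u'.mem
        have := image_injective hi e
        rw [← a, ← b] at this
        exact Subtype.ext (a.symm.trans ((congrArg ind this).trans b))
      · rw [card_powerset]
        exact Nat.pow_le_pow_right two_pos ((Sb.supp_le ω).trans d)
    rw [nsmul_eq_mul, add_assoc, pow_add]
    refine (mul_le_mul_of_nonneg_right (show _ ≤ (2 : ℝ) ^ s by exact_mod_cast this)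
      (by positivity)).trans_eq (by field_simp)

theorem ph_io (w w' : Sh.MW (UU s W i)) :
    ph blk blk' s g W i μ κ κ0 w (io w') = if w = w' then 1 else 0 := by
  change (if w'.1 + Finsupp.mapDomain i 0 = w.1 then (1 : ℤ) else 0) = _
  rw [Finsupp.mapDomain_zero, add_zero]
  exact if_congr ⟨fun z => Subtype.ext z.symm, fun z => by rw [z]⟩ rfl rfl

variable (blk' s W i κ κ0) in
/-- the words as words of centres -/
def jm : Matrix (cn blk' s κ0).W (DR (UU s W i) κ).W ℤ :=
  Matrix.of fun w' w => if w.1 = w'.1.1 then 1 else 0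

theorem back : ((t3 blk blk' s g W κ0).pu (DR (UU s W i) κ) (ph blk blk' s g W i μ κ κ0)).comp
    ((rename (R := ℝ) (Sh.i0 (S0 := cn blk' s κ0) (dn blk g W))).toRingHom.comp
      ((DR (UU s W i) κ).pu (cn blk' s κ0) (jm blk' s W i κ κ0))) = RingHom.id _ := by
  refine ringHom_ext (fun a => ?_) fun w => ?_
  · exact (congrArg _ ((congrArg _ (Mv.Lf.pu_C a)).trans (rename_C _ _))).trans (Mv.Lf.pu_C a)
  · let u : (cn blk' s κ0).W := ⟨⟨w.1, mem_erase.2 ⟨Sh.MW.ne w,
      mem_full.2 (mem_UU.1 (Sh.MW.mem w)).1⟩⟩, fun _ _ => mem_univ _⟩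
    have a : ∀ w', jm blk' s W i κ κ0 w' w = if w' = u then 1 else 0 := fun w' =>
      if_congr ⟨fun z => Subtype.ext (Subtype.ext z.symm), fun z => by rw [z]⟩ rfl rfl
    have b : (t3 blk blk' s g W κ0).pu (DR (UU s W i) κ) (ph blk blk' s g W i μ κ κ0)
        (X (io w : XX blk blk' s g W κ0)) = X w := Mv.Lf.pu_X fun w' => ph_io w' w
    have c : rename (R := ℝ) (Sh.i0 (S0 := cn blk' s κ0) (dn blk g W))
        ((DR (UU s W i) κ).pu (cn blk' s κ0) (jm blk' s W i κ κ0) (X w)) =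
        X (io w : XX blk blk' s g W κ0) := (congrArg _ (Mv.Lf.pu_X a)).trans (rename_X _ _)
    exact (congrArg _ c).trans b

end S1

open S1 in
/-- **SPL1** -/
theorem spl1 : SPL1 := fun τ τ' L _ _ _ _ _ _ blk blk' s g h m W i μ κ hW hi hμ m1 hκ hg => by
  refine ⟨k0 blk s g W i μ κ, fun ω => ?_, lsec _ _ _ _ _ _ _ io ⟨En.mono_dk_ok (dn_UU hW.dw)
    fun ω _ => lt_of_lt_of_le (by positivity) (hκ ω).1, hm hW.dw hi, hK, fun w w' => ?_,
    fun w x => ?_, fun f hf x hx => ?_⟩ (Nat.one_le_pow _ _ m1), fun T x => ⟨T.hmM _ _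
      ((jm blk' s W i κ _).map (Int.cast : ℤ → ℝ)) *ᵥ x, fun F => ?_⟩⟩
  · unfold k0
    split_ifs with d
    · have := dv_le (blk := blk) (W := W) hi (fun a => (hμ a).2) hg d
      have := (hκ ω).1
      have : (1 : ℝ) / 2 ^ h = 2 * (1 / 2 ^ (h + 1)) := by field_simp; ring
      linarith
    · rw [div_le_one (by positivity)]; exact one_le_pow₀ one_le_two
  · exact ph_io w w'
  · rw [ph_eq]
    split_ifs
    · by_cases z : B x = 0
      · rw [z, show mq μ 0 = 1 from rfl]; exact_mod_cast Nat.one_le_pow s m m1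
      obtain ⟨S, k, e⟩ := mem_image.1 (B_mem x z)
      rw [← e, mq_ind, ← Nat.cast_prod, Nat.abs_cast, Nat.cast_le]
      exact (prod_le_pow_card _ _ m fun a _ => (hμ a).2).trans
        (Nat.pow_le_pow_right m1 (hW.le S k))
    · simp
  · exact t_dg x ▸ gen hW hi (fun a => (hμ a).1) f hf x hx
  · refine Eq.trans ?_ (DFunLike.congr_fun (back (blk := blk) (blk' := blk') (g := g) (μ := μ)
      (κ0 := k0 blk s g W i μ κ)) (T.Yw _ x F))
    exact congrArg _ (congrArg _ (TS.hA_Yw (S := DR (UU s W i) κ) (S' := cn blk' s _)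
      (φ := jm blk' s W i κ _) (fun w' w z => congrArg (Finsupp.mapDomain fun _ => ())
        (of_not_not fun n => z (if_neg n) : w.1 = w'.1.1).symm) x F).symm)


end Crest.Agent.N49.Fz

end
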