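import Crest.Agent.N49.Sw.Frz
import Crest.Agent.N49.Md.Szb

/-!
# Row 49 (helper64): sizes of the rings of the freezing step
-/

set_option autoImplicit false

open Matrix MvPolynomial Finset

noncomputable section

namespace Crest.Agent.N49.Fz

open Po Tw Sy Md Rm

/-- **SZ1** -/
theorem sz1 : SZ1 := by
  intro τ τ' L _ _ _ _ _ _ blk' s n a W i κ0 hW hn a0 a1 hk
  have hl : ∀ _ : L, (0 : ℝ) < 1 ∧ (1 : ℝ) ≤ 2 ^ 0 := fun _ => ⟨one_pos, by simp⟩
  obtain ⟨z, t, -, -⟩ := (szb τ' L blk' (fun _ => 1) s 0 n 1 hl hn (by simp)).2.2.2 univ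
  refine ⟨?_, ⟨t.pd, t.blk, t.lo⟩, fun ω h ν l => ?_, fun W' d c hi up => ⟨d.dn, fun ω h => ?_⟩⟩
  · refine { z with pd := ?_, blk := fun w w' k => ?_, lo := fun x => ?_ }
    · exact PosDef.diagonal fun w => a0.trans_le (hk _)
    · rw [of_not_not fun e => k (diagonal_apply_ne _ e)]
    · change _ ≤ qf (diagonal fun w : (b1 blk' s).W => κ0 w.1.1) x
      rw [qf, mul_sum, dotProduct]
      refine sum_le_sum fun w _ => ?_
      rw [mulVec_diagonal]
      nlinarith [hk w.1.1, sq_nonneg (x w)]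
  · obtain ⟨f, A, hA, e⟩ := mem_filter.1 h
    refine mem_filter.2 ⟨dn_full ω f ν l, A.filter fun b => ν (i b) ≠ 0,
      hW A hA _ (filter_subset _ _), fun b => ?_⟩
    have k : ν (i b) ≤ ind A b := (l _).trans_eq (e b)
    rw [ind_apply] at k ⊢
    by_cases q : ν (i b) = 0
    · rw [if_neg (by simp [q]), q]
    · have m : b ∈ A := of_not_not fun m => by rw [if_neg m] at k; omega
      rw [if_pos m] at k
      rw [if_pos (mem_filter.2 ⟨m, q⟩)]
      omega
  · obtain ⟨A', hA, rfl⟩ := mem_image.1 h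
    refine mem_filter.2 ⟨mem_full.2 ((Sb.deg_ind' A').trans_le (c A' hA)),
      univ.filter fun b => i b ∈ A', up _ (d A' hA _ fun t k => ?_), fun b => ?_⟩
    · obtain ⟨b, m, rfl⟩ := mem_image.1 k
      exact (mem_filter.1 m).2
    · simp [ind_apply]

end Crest.Agent.N49.Fz

end
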