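import Crest.Agent.N49.Sw.Frz2
import Crest.Agent.N49.Sw.Exl1
import Crest.Agent.N49.Sw.Spl1
import Crest.Agent.N49.Sw.Sz1
import Crest.Agent.N49.Sw.Kmp
import Crest.Agent.N49.Sw.Pur
import Crest.Agent.N49.Sw.Hmk1
import Crest.Agent.N49.Md.All
import Crest.Agent.N49.Mv.Cnb
import Crest.Agent.N49.Sd.Stt

/-!
# Row 49 (helper98): closure of the freezing lemma
-/

namespace Crest.Agent.N49.Fz

open Md

theorem frzL (s M : ℕ) : FRZ1 s M :=
  frz' exl1 spl1 sz1 hmk1 kmp pur txa szb bgp tfa syp tfoA Mv.cnb Sd.stt Tw.tangA s M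

theorem frzA (s M : ℕ) : FRZ s M := (frzL s M).frz

end Crest.Agent.N49.Fz
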