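import Crest.Agent.N49.Sw.Df4
import Crest.Agent.N49.Sd.Pull

/-!
# Row 49 (helper47): the brackets are split again along a frame over the large alphabet
-/

set_option autoImplicit false
set_option linter.unusedSectionVars false

open MvPolynomial Finset

noncomputable section

namespace Crest.Agent.N49.Sw

open Po Tw Sd Sy Md Rm Mv

namespace Rp

theorem bt_ex {V V' Λ : Type} [DecidableEq Λ] {t : V → Λ →₀ ℕ} {t' : V' → Λ →₀ ℕ} {M : Finset Λ}
    {θ : V' → MvPolynomial V ℝ} (h : ∀ v, Bt t M (t' v) (θ v)) {P : MvPolynomial V' ℝ}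
    {m : V →₀ ℕ} (hm : m ∈ (aeval θ P).support) : ∃ m0 ∈ P.support,
      Finsupp.weight t m ≤ Finsupp.weight t' m0 ∧
        ∀ ℓ ∈ M, Finsupp.weight t m ℓ = Finsupp.weight t' m0 ℓ := by
  classical
  rw [P.as_sum, map_sum] at hm
  obtain ⟨m0, h0, k⟩ := mem_biUnion.1 (support_sum hm)
  exact ⟨m0, h0, (Bt.of_hom (isWeightedHomogeneous_monomial t' m0 _ rfl)).aeval'
    (fun v _ => h v) m k⟩

theorem wt_hom {V Λ Λ' : Type} (g : (Λ →₀ ℕ) →+ Λ' →₀ ℕ) (t : V → Λ →₀ ℕ) (m : V →₀ ℕ) :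
    Finsupp.weight (fun v => g (t v)) m = g (Finsupp.weight t m) := by
  rw [Finsupp.weight_apply, Finsupp.weight_apply, Finsupp.sum, Finsupp.sum, map_sum]
  exact sum_congr rfl fun v _ => (map_nsmul g _ _).symm

variable {τ τ' L : Type} [Fintype τ] [DecidableEq τ] [Fintype τ'] [DecidableEq τ'] [Fintype L]
  [DecidableEq L] {i : τ → τ'} (hi : Function.Injective i)

/-- the part of a word in the small alphabet -/
abbrev cm : (τ' →₀ ℕ) →+ τ →₀ ℕ := Finsupp.comapDomain.addMonoidHom hi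

theorem cm_ind (A : Finset τ) : cm hi (ind (A.image i)) = ind A := by
  ext a
  change ind (A.image i) (i a) = _
  simp [ind_apply, hi.eq_iff]

theorem cm_le {blk : τ → L} {blk' : τ' → L} (hb : ∀ a, blk' (i a) = blk a) (w : τ' →₀ ℕ) :
    (cm hi w).mapDomain blk ≤ w.mapDomain blk' := by
  rw [show blk = blk' ∘ i from funext fun a => (hb a).symm, Finsupp.mapDomain_comp]
  refine Finsupp.mapDomain_mono fun t => ?_
  by_cases h : t ∈ Set.range i
  · obtain ⟨a, rfl⟩ := h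
    rw [Finsupp.mapDomain_apply hi]; exact le_rfl
  · rw [Finsupp.mapDomain_of_notMem_range _ _ h]; exact Nat.zero_le _

theorem uv_at (B : Bs L) (W : Finset (Finset τ)) (p : B.SC W ⊕ L → ℝ) (w : B.SC W) :
    uv B W p (w.1.1, ind w.1.2) = p (.inl w) := by
  refine sum_eq_single_of_mem w (by simp) fun w' h k => absurd ?_ k
  exact Subtype.ext (Prod.ext (mem_filter.1 h).2.1 (ind_inj (mem_filter.1 h).2.2))

variable (B : Bs L) (W : Finset (Finset τ)) (W' : Finset (Finset τ')) (blk' : τ' → L) (i)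
  (f : Fr B.T τ' L)

/-- zero extension as a substitution -/
def zs (w : f.SC W') : MvPolynomial (f.SC W) ℝ :=
  ∑ w0 : f.SC W with w0.1.1 = w.1.1 ∧ w0.1.2.image i = w.1.2, X w0

/-- the morphism after the zero extension as a substitution -/
def sb (ε : L → ℝ) (v : VV B.T.C τ') : MvPolynomial (VV f.T.C τ) ℝ :=
  rename (fun w0 : f.SC W => (w0.1.1, ind w0.1.2))
    (∑ w : B.SC W' with w.1.1 = v.1 ∧ ind w.1.2 = v.2,
      aeval (zs i B W W' f) (ks B W' blk' f ε w))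

theorem eval_sb (p : f.SC W ⊕ L → ℝ) (v : VV B.T.C τ') :
    eval (uv f.toBs W p) (sb i B W W' blk' f (fun ℓ => p (.inr ℓ)) v) =
      uv B W' (ka B W' blk' f (Fz.zx f.toBs W W' i p)) v := by
  rw [sb, eval_rename, map_sum]
  refine sum_congr rfl fun w _ => ?_
  rw [← eval_ks, Sd.eval_aeval]
  refine eval_congr fun w' _ => ?_
  rw [zs, map_sum]
  exact sum_congr rfl fun w0 _ => (eval_X _).trans (uv_at f.toBs W p w0)

theorem sb_live (hl : ∀ G, f.T.lev G ≠ 0) (ε : L → ℝ) (v : VV B.T.C τ') :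
    ∀ c ∈ (sb i B W W' blk' f ε v).vars, c.2 ≠ 0 := fun c h => by
  obtain ⟨w, -, rfl⟩ := mem_vars_rename _ _ h
  exact fun e => hl w.1.1 (by rw [← w.2.2.2, ind_eq_zero.1 e, card_empty])

variable {i}

theorem sb_bt {M : Finset τ} {ε : L → ℝ}
    (h : ∀ A : Finset τ', ∏ a ∈ A, ε (blk' a) ≠ 0 → ∀ ℓ ∈ M, cm hi (ind A) ℓ = 0)
    (v : VV B.T.C τ') : Bt Prod.snd M (cm hi v.2) (sb i B W W' blk' f ε v) := by
  refine Bt.rename (.sum _ fun w a => ?_)
  rw [← (mem_filter.1 a).2.2]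
  refine (ks_bt B W' blk' f (cm hi) h w).aeval' fun w' _ => .sum _ fun w0 k => ?_
  rw [← (mem_filter.1 k).2.2, cm_ind]
  exact .X _ le_rfl fun _ _ => rfl

/-- the shifted system with the words in the small alphabet -/
abbrev sh {C : Type} (B1 : Bk (VV C τ') τ') (o : B1.N → ℝ) : Bk (VV C τ') τ :=
  ⟨B1.N, fun a => cm hi (B1.wd a), B1.rk, fun a => B1.Θ a - MvPolynomial.C (o a)⟩

theorem core {C C' D Ω : Type} {blk : τ → L} {blk' : τ' → L} (hb : ∀ a, blk' (i a) = blk a) {x : τ}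
    {s : ℕ} (cL : Fintype.card L ≤ s) {B1 : Bk (VV C τ') τ'} {o : B1.N → ℝ}
    {Γ : D → MvPolynomial (VV C τ' ⊕ B1.N) ℝ} {q : Finset L → Prop} {pr : Set Ω → ℝ} {H : Set Ω}
    (ζ : Ω → VV C' τ → ℝ) {k : Ω → B1.N → ℤ} (σ σ' : VV C τ' → MvPolynomial (VV C' τ) ℝ)
    (hp : Pg pr) (hT : Tyd blk' (i x) B1) (hq : ∀ S S', S' ⊆ S → q S → q S')
    (hΓ : ∀ d, Tyf blk' (i x) B1 (fun w => q ((cm hi w).mapDomain blk).support) (Γ d))
    (l1 : ∀ v, ∀ c ∈ (σ v).vars, c.2 ≠ 0) (l2 : ∀ v, ∀ c ∈ (σ' v).vars, c.2 ≠ 0)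
    (s1 : ∀ v, Bt Prod.snd ∅ (cm hi v.2) (σ v)) (s2 : ∀ v, Bt Prod.snd {x} (cm hi v.2) (σ' v))
    (hk : ∀ ω ∈ H, ∀ a, |eval (Sum.elim (fun c => eval (ζ ω) (σ c)) fun a => (k ω a : ℝ)) (B1.Θ a) -
      o a - k ω a| ≤ 1) :
    ∃ (B2 : Bk (VV C' τ) τ) (Γ2 : D → MvPolynomial (VV C' τ ⊕ B2.N) ℝ) (H' : Set Ω),
      H' ⊆ H ∧ pr H ≤ (2 ^ (2 ^ s + 2) : ℝ) ^ Fintype.card B1.N * pr H' ∧ Tyd blk x B2 ∧
      Fintype.card B2.N ≤ Fintype.card B1.N * 2 ^ s ∧
      (∀ d, Tyf blk x B2 (fun w => q (w.mapDomain blk).support) (Γ2 d)) ∧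
      ∀ ω ∈ H', ∀ ξ : VV C' τ → ℝ, (∀ c : VV C' τ, c.2 x = 0 → ξ c = ζ ω c) → ∀ d,
        eval (Sum.elim (fun c => eval ξ (σ' c)) fun a => (k ω a : ℝ)) (Γ d) = B2.ev ξ (Γ2 d) := by
  have wg : (fun v => cm hi (B1.wg Prod.snd v)) =
      Sum.elim (fun v : VV C τ' => cm hi v.2) (sh hi B1 o).wd := funext fun v => by cases v <;> rfl
  have tri : (sh hi B1 o).Tri := fun a a' h => hT.bo.ok.tri a a' (by
    classical
    have := vars_sub_subset _ h
    rwa [vars_C, union_empty] at this)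
  have le : ∀ a, Bt (Sum.elim (fun v : VV C τ' => cm hi v.2) (sh hi B1 o).wd) ∅ ((sh hi B1 o).wd a)
      ((sh hi B1 o).Θ a) := fun a => by
    rw [← wg, show (sh hi B1 o).Θ a = B1.Θ a + MvPolynomial.C (-o a) by
      rw [map_neg, ← sub_eq_add_neg]]
    refine Bt.add (fun m hm => ⟨?_, by simp⟩) (.C _ (by simp))
    rw [wt_hom, hT.bo.ok.hom a (mem_support_iff.1 hm)]
  have lo : ((sh hi B1 o).pl σ).Lo Prod.snd := ⟨fun a => Bk.ps_bt (le a) fun c _ => s1 c,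
    fun a c h => let ⟨c0, _, k2⟩ := (Bk.ps_vars h).1 c rfl; l1 c0 c k2, tri.pl σ⟩
  have tr : ∀ a ℓ, (cm hi (B1.wd a)).mapDomain blk ℓ ≤ 1 := fun a ℓ =>
    (cm_le hi hb _ ℓ).trans (hT.tr a ℓ)
  have hs : ∀ a, (((sh hi B1 o).pl σ).wd a).degree ≤ s := fun a => by
    rw [← Finsupp.degree_mapDomain blk]
    refine (Finsupp.degree_mono (b := ind univ) fun ℓ => ?_).trans ((degree_ind _).trans_le cL)
    simpa [ind_apply] using tr a ℓ
  obtain ⟨b, H', a1, a2, a3⟩ := lo.rsp hp ζ k (H := H) (R := 1) hs fun ω hω a => by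
    have := Bk.eval_ps (B := sh hi B1 o) (σ := σ) (ζ ω) (fun a => (k ω a : ℝ))
      (B1.Θ a - MvPolynomial.C (o a))
    rw [map_sub (eval _), eval_C] at this
    exact (congrArg (fun z => |z - (k ω a : ℝ)|) this).trans_le ((hk ω hω a).trans (by simp))
  have fr : ∀ a : ((sh hi B1 o).pl σ).CN, a.2.1 x = 0 := fun a =>
    Nat.le_zero.1 ((Bk.sw_le a.2 x).trans_eq (hT.fr a.1))
  have ty : Tyd blk x (((sh hi B1 o).pl σ).cmp Prod.snd b) :=
    ⟨⟨lo.cmp_ok b, fun a t => (Bk.sw_le a.2 t).trans (hT.bo.sq a.1 (i t))⟩, fun a ℓ =>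
      (Finsupp.mapDomain_mono (f := blk) (Bk.sw_le a.2) ℓ).trans (tr a.1 ℓ), fr⟩
  have a2' : pr H ≤ (2 ^ (2 ^ s + 2) : ℝ) ^ Fintype.card B1.N * pr H' := by
    rw [show 2 ^ s + 2 = 1 + 2 ^ s + 1 by omega]; exact a2
  refine ⟨((sh hi B1 o).pl σ).cmp Prod.snd b, fun d => aeval (((sh hi B1 o).pl σ).sg b)
    (aeval ((sh hi B1 o).ps σ') (Γ d)), H', a1, a2', ty, Bk.card_cn (B := (sh hi B1 o).pl σ) hs,
    fun d => ⟨fun v h => ?_, fun m hm => ?_⟩, fun ω hω ξ hξ d => ?_⟩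
  · have h1 : Sum.inl v ∈ (aeval ((sh hi B1 o).ps σ') (Γ d)).vars :=
      Bk.sg_vars (B := (sh hi B1 o).pl σ) (b := b) (v := .inl v) h
    obtain ⟨c0, -, k2⟩ := (Bk.ps_vars (B := sh hi B1 o) (σ := σ') (P := Γ d) h1).1 v rfl
    exact l2 c0 v k2
  · obtain ⟨m1, h1, b1, b2⟩ := bt_ex (Bk.sg_bt (B := (sh hi B1 o).pl σ) (dg := Prod.snd) (b := b)
      id monotone_id (M := {x}) fun a ℓ e => by
        rw [mem_singleton.1 e]; exact hT.fr a) hm
    obtain ⟨m0, h0, c1, c2⟩ := bt_ex (t := Sum.elim Prod.snd (sh hi B1 o).wd) (M := {x})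
      (t' := fun v => cm hi (B1.wg Prod.snd v)) (θ := (sh hi B1 o).ps σ') (fun v => by
        cases v with
        | inl c => exact Bt.rename (s2 c)
        | inr a => exact .X _ le_rfl fun _ _ => rfl) h1
    rw [wt_hom] at c1 c2
    obtain ⟨d1, d2, d3⟩ := (hΓ d).ty m0 h0
    have e := Finsupp.mapDomain_mono (f := blk) (b1.trans c1)
    exact ⟨fun ℓ => (e ℓ).trans ((cm_le hi hb _ ℓ).trans (d1 ℓ)),
      (b2 x (mem_singleton_self x)).trans ((c2 x (mem_singleton_self x)).trans d2),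
      hq _ _ (Finsupp.support_mono e) d3⟩
  · have e : (((sh hi B1 o).pl σ).cmp Prod.snd b).om ξ =
        (((sh hi B1 o).pl σ).cmp Prod.snd b).om (ζ ω) := funext fun a =>
      (lo.cmp_ok b).om_congr (w := a.2.1)
        (fun c _ e => hξ c (Nat.le_zero.1 ((e x).trans_eq (fr a)))) a le_rfl
    have k1 := Bk.eval_sg (B := (sh hi B1 o).pl σ) (b := b) ξ (n := k ω)
      (n' := (((sh hi B1 o).pl σ).cmp Prod.snd b).om ξ)
      (P := aeval ((sh hi B1 o).ps σ') (Γ d)) fun a _ => by rw [e]; exact a3 ω hω a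
    have k2 := Bk.eval_ps (B := sh hi B1 o) (σ := σ') ξ (fun a => (k ω a : ℝ)) (Γ d)
    exact (k1.trans k2).symm

end Rp

open Rp in
theorem rspl : RSPL := by
  intro τ τ' L D _ _ _ _ _ _ B W W' blk blk' i hi x s n f B1 o Γ q Ω pr H y k hp hB hf aW aW' hb
    hT hq hΓ hk
  have hl : ∀ G, f.T.lev G ≠ 0 := fun G e =>
    hf.old.ok.ne G ((Finsupp.degree_eq_zero_iff _).1 e)
  obtain ⟨B2, Γ2, H', a1, a2, a3, a4, a5, a6⟩ := core hi hb aW.cL (o := o) (H := H) (k := k)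
    (fun ω => uv f.toBs W (TT.cf (y ω))) (sb i B W W' blk' f fun _ => 1)
    (sb i B W W' blk' f fun ℓ => if ℓ ∈ ({blk x} : Finset L) then 0 else 1) hp hT hq hΓ
    (sb_live i B W W' blk' f hl _) (sb_live i B W W' blk' f hl _)
    (sb_bt hi B W W' blk' f (by simp)) (sb_bt hi B W W' blk' f fun A e ℓ k => by
      rw [mem_singleton.1 k]
      exact if_neg fun z => e (prod_eq_zero z (by simp [hb]))) fun ω hω a => by
      have := hk ω hω a
      rw [← funext (eval_sb i B W W' blk' f (TT.cf (y ω)))] at this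
      exact this
  refine ⟨B2, Γ2, H', a1, a2, a3, a4, a5, fun ω hω p hp d => ?_⟩
  rw [← funext (eval_sb i B W W' blk' f p), funext hp.2]
  refine a6 ω hω _ (fun c e => sum_congr rfl fun w z => hp.1 w ?_) d
  refine disjoint_singleton_right.2 fun u => ?_
  obtain ⟨t, t1, t2⟩ := mem_image.1 u
  rw [← (mem_filter.1 z).2.2, ind_apply, if_pos (aW.one t t2 ▸ t1)] at e
  omega

end Crest.Agent.N49.Sw

end
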