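import Crest.Agent.N49.Sw.Ent

/-!
# Row 49 (helper29): the state of the loop without pending families; entry and exit
-/

set_option autoImplicit false
set_option linter.unusedSectionVars false

open Matrix MvPolynomial Finset

noncomputable section

namespace Crest.Agent.N49.Sw

open Po Tw Sd Sy Md Rm Mv Et

variable {τ L : Type} [Fintype τ] [DecidableEq τ] [Fintype L] [DecidableEq L]

/-- **the state of the loop without pending families** -/
def AZ (B : Bs L) (W : Finset (Finset τ)) (blk : τ → L) (x : τ) {D : Type}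
    (F : D → Fm L (B.SC W)) (H : Set (B.SC W → ℤ)) (n : ℕ) (q : Finset L → Prop) : Prop :=
  ∃ (Bt : Bk (VV B.T.C τ) τ) (Γ : D → MvPolynomial (VV B.T.C τ ⊕ Bt.N) ℝ),
    Tyd blk x Bt ∧ Fintype.card Bt.N ≤ n ∧
    (∀ d, Tyf blk x Bt (fun w => q (w.mapDomain blk).support) (Γ d)) ∧
    ∀ y ∈ H, ∀ d, (B.SY W blk).Rel univ {blk x} y 1 (2 ^ n) fun p =>
      F d p - Bt.ev (uv B W p) (Γ d)

variable {s h n n' : ℕ} {B : Bs L} {W : Finset (Finset τ)} {blk : τ → L} {x : τ} {D : Type}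
  {F : D → Fm L (B.SC W)} {H H' : Set (B.SC W → ℤ)} {q q' : Finset L → Prop}

theorem AZ.mono (a : AZ B W blk x F H n q) (k : H' ⊆ H) (e : n ≤ n') (e' : ∀ S, q S → q' S) :
    AZ B W blk x F H' n' q' :=
  let ⟨Bt, Γ, a2, a3, a4, a5⟩ := a
  ⟨Bt, Γ, a2, a3.trans e, fun d => ⟨(a4 d).live, fun m z =>
    ⟨((a4 d).ty m z).1, ((a4 d).ty m z).2.1, e' _ ((a4 d).ty m z).2.2⟩⟩,
    fun y hy d => (a5 y (k hy) d).mono (pow_le_pow_right₀ one_le_two e)⟩

/-- split states are states of the loop -/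
theorem az_of (one : ∀ a, blk a = blk x → a = x) {P : Bk (B.SC W) τ}
    {Γ : D → MvPolynomial (B.SC W ⊕ P.N) ℝ} (card : Fintype.card P.N ≤ n)
    (ok : P.Ok fun w => ind w.1.2) (wd : ∀ a, (P.wd a).mapDomain blk ≤ ind (univ.erase (blk x)))
    (gm : ∀ d, Gm P (fun w => ind w.1.2) blk (univ.erase (blk x)) {blk x} (Γ d))
    (hq : ∀ d, ∀ m ∈ (Γ d).support,
      q ((Finsupp.weight (P.wg fun w => ind w.1.2) m).mapDomain blk).support)
    (rel : ∀ y ∈ H, ∀ d, (B.SY W blk).Rel univ {blk x} y 1 (2 ^ n) fun p =>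
      F d p - P.ev (fun w => p (.inl w)) (Γ d)) : AZ B W blk x F H n q := by
  have e : ∀ d p, (rb (rv B W) P).ev (uv B W p) (rename (Sum.map (rv B W) id) (Γ d)) =
      P.ev (fun w => p (.inl w)) (Γ d) := fun d p =>
    (ev_rb _ _ _ _).trans (congrArg (P.ev · (Γ d)) (funext (uv_rv p)))
  refine ⟨rb (rv B W) P, fun d => rename (Sum.map (rv B W) id) (Γ d),
    ⟨⟨ok_rb (fun _ => rfl) ok, fun a t => (le_md blk _ t).trans ((wd a _).trans (ind_le_one _ _))⟩,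
      fun a ℓ => (wd a ℓ).trans (ind_le_one _ _), fun a => Nat.le_zero.1 ((le_md blk _ x).trans
        ((wd a _).trans (by simp [ind_apply])))⟩, card,
    fun d => ⟨live_rb (dg' := Prod.snd) (fun _ => rfl) (gm d).live, fun m z => ?_⟩, ?_⟩
  · obtain ⟨m0, z0, e0⟩ := wt_rb (dg := fun w => ind w.1.2) (dg' := Prod.snd) (fun _ => rfl) z
    have k := (gm d).ty m0 z0
    rw [e0]
    refine ⟨fun ℓ => (k.2 ℓ).trans (ind_le_one _ _), ?_, hq d m0 z0⟩
    rw [← md_one one]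
    exact le_antisymm ((k.2 _).trans (ind_le_one _ _)) (le_trans (by simp [ind_apply]) (k.1 _))
  · simp only [e]
    exact rel

/-- nothing remains -/
theorem AZ.rel (a : AZ B W blk x F H n fun _ => False) :
    ∀ y ∈ H, ∀ d, (B.SY W blk).Rel univ {blk x} y 1 (2 ^ n) (F d) := by
  obtain ⟨Bt, Γ, -, -, a4, a5⟩ := a
  have : ∀ d, Γ d = 0 := fun d => support_eq_empty.1
    (eq_empty_of_forall_notMem fun m z => ((a4 d).ty m z).2.2)
  simp only [this, Bk.ev, map_zero, sub_zero] at a5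
  exact a5

variable {d : ℕ}

variable (d) in
/-- the state as a property of frames -/
abbrev AP0 (q : Finset (Lb d) → Prop) : Pp d :=
  fun c f H n => AZ f.toBs (Wt d c.Q) bk none f.F H n q

theorem AP0.up (q : Finset (Lb d) → Prop) : (AP0 d q).Up := fun _ _ _ _ _ e a =>
  a.mono subset_rfl e fun _ => id

/-- **entry** -/
theorem ent0 (r : ℕ) : Lk (Fs s (SP1 d r)) (Fs s (AP0 d fun _ => True)) :=
  Lk.of_imp (mon_fs _) fun _ _ _ _ _ ⟨o, e, f, H, fo, m, g, z, v, _, _, k⟩ =>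
    ⟨o, e, f, H, fo, m, g, z, v, az_of (al_gW o.ds).one k.card k.ok k.wd k.gm
      (fun _ _ _ => trivial) k.rel⟩

theorem ent_pt {r : ℕ} {c : Kx d} {f : c.Fr} {H : Set (f.X → ℤ)} (o : c.Ok s)
    (k : SP1 d r c f H n) : AP0 d (fun _ => True) c f H n :=
  let ⟨_, _, k⟩ := k
  az_of (al_gW o.ds).one k.card k.ok k.wd k.gm (fun _ _ _ => trivial) k.rel

/-- **entry**, with a property `Z` of the frame -/
theorem entZ (r : ℕ) (Z : Pp d) : Lk (Fs s fun c f H n => SP1 d r c f H n ∧ Z c f H n)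
    (Fs s fun c f H n => AP0 d (fun _ => True) c f H n ∧ Z c f H n) :=
  Lk.of_imp (mon_fs _) fun _ _ _ _ _ ⟨o, e, f, H, fo, m, g, z, v, k, j⟩ =>
    ⟨o, e, f, H, fo, m, g, z, v, ent_pt o k, j⟩

/-- **exit**, with a property `Z` of the frame -/
theorem extZ (Z : Pp d) : Lk (Fs s fun c f H n => AP0 d (fun _ => False) c f H n ∧ Z c f H n)
    (Fs s (RL d)) :=
  Lk.of_imp (mon_fs _) fun _ _ _ _ _ ⟨o, e, f, H, fo, m, g, z, v, k, _⟩ =>
    ⟨o, e, f, H, fo, m, g, z, v, k.rel⟩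

/-- **exit** to the last property -/
theorem ext1 : Lk (Fs s (AP0 d fun _ => False)) (Fs s (RL d)) :=
  Lk.of_imp (mon_fs _) fun _ _ _ _ _ ⟨o, e, f, H, fo, m, g, z, v, k⟩ =>
    ⟨o, e, f, H, fo, m, g, z, v, k.rel⟩

theorem rl_pr : Lk (Fs s (RL d)) (Fs s (PR s d)) :=
  Lk.of_imp (mon_fs _) fun _ _ _ _ _ ⟨o, e, f, H, fo, m, g, z, v, k⟩ => by
    have b := rs_of fo.ok.toOk (Kx.wf o) (fo.dat o) k
    refine ⟨o, e, f, H, fo, m, g, z, v, Bk.nil _ _, 1, 0, pn_nil _ _, le_rfl, Nat.one_le_two_pow,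
      fun _ _ => isWeightedHomogeneous_zero _ _ _, fun y hy => ?_⟩
    obtain ⟨Y, b1, b2, b3⟩ := b y hy
    refine ⟨Y, b1, b2, fun i => ?_⟩
    simp only [Pi.zero_apply, Sy.sy, map_zero, coeff_zero, sum_const_zero, sub_zero]
    exact b3 i

/-- **exit** -/
theorem ext0 : Lk (Fs s (AP0 d fun _ => False)) (Fs s (PR s d)) :=
  ext1.trans rl_pr (mon_fs _) (mon_fs _)

end Crest.Agent.N49.Sw

end
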