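import Crest.Agent.N49.Sw.Df3
import Crest.Agent.N49.Sw.Diag

/-!
# Row 49 (helper11): transport of a fibre relation along a renaming of the letters (leaf RTR)
-/

set_option autoImplicit false
set_option linter.unusedSectionVars false

open Matrix MvPolynomial Finset

noncomputable section

namespace Crest.Agent.N49.Sw

open Po Tw Sd

namespace Rt

section
variable {σ τ τ' : Type} [DecidableEq τ] [DecidableEq τ'] {g : τ' → τ}

theorem le_md (hg : Function.Injective g) {μ : τ' →₀ ℕ} {ρ : τ →₀ ℕ} (h : ρ ≤ μ.mapDomain g) :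
    ∃ ν ≤ μ, ν.mapDomain g = ρ := by
  refine ⟨ρ.comapDomain g hg.injOn, fun t => ?_, Finsupp.mapDomain_comapDomain g hg ρ
    fun t ht => by_contra fun n => ?_⟩
  · have := h (g t)
    rwa [Finsupp.mapDomain_apply hg] at this
  · have := h t
    rw [Finsupp.mapDomain_of_notMem_range _ _ n] at this
    exact Finsupp.mem_support_iff.1 ht (Nat.le_zero.1 this)

/-- symbols along an injection of the letters -/
theorem sv_md {C : Type} (hg : Function.Injective g) (P : MvPolynomial C ℝ) (μ : τ' →₀ ℕ)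
    {z : VV C τ → ℝ} {z' : VV C τ' → ℝ} (h : ∀ F, ∀ ν ≤ μ, z' (F, ν) = z (F, ν.mapDomain g)) :
    sv P (μ.mapDomain g) z = sv P μ z' := by
  rw [Dg.sv_eq P (Y := fun F => rename g (∑ ν ∈ Iic μ, monomial ν (z' (F, ν)))) fun F ρ hρ => ?_]
  · rw [sv, ← coeff_rename_mapDomain g hg, ← AlgHom.comp_apply, comp_aeval]
  · obtain ⟨ν, hν, rfl⟩ := le_md hg hρ
    rw [coeff_rename_mapDomain g hg, Dg.cf_Y (fun ν => z' (F, ν)) hν, h F ν hν]

theorem qf_eqv {A B : Type} [Fintype A] [Fintype B] [DecidableEq A] [DecidableEq B] (e : A ≃ B)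
    (K : Matrix B B ℝ) (x : B → ℝ) : qf (K.submatrix e e)⁻¹ (x ∘ e) = qf K⁻¹ x := by
  rw [inv_submatrix_equiv, qf, submatrix_mulVec_equiv, comp_equiv_dotProduct_comp_equiv]
  simp only [Function.comp_assoc, Equiv.self_comp_symm, Function.comp_id, qf]

variable [DecidableEq σ] (U : TS σ) {col : τ → σ} {W : Finset (τ →₀ ℕ)} (K : Kn τ)
  {col' : τ' → σ} {W' : Finset (τ' →₀ ℕ)} (K' : Kn τ') (hg : Function.Injective g)
  (hc : ∀ t, col (g t) = col' t) (hW : ∀ μ ∈ W', μ.mapDomain g ∈ W)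

omit [DecidableEq τ] [DecidableEq τ'] [DecidableEq σ] in
include hc in
theorem md_col (μ : τ' →₀ ℕ) : (μ.mapDomain g).mapDomain col = μ.mapDomain col' := by
  rw [← Finsupp.mapDomain_comp, show col ∘ g = col' from funext hc]

/-- the inclusion of the coordinates -/
def jj (p : U.Cw (MR col' W' K')) : U.Cw (MR col W K) :=
  ⟨(p.1.1, ⟨p.1.2.1.mapDomain g, mem_erase.2 ⟨fun e => (mem_erase.1 p.1.2.2).1
    (Finsupp.mapDomain_injective hg (e.trans Finsupp.mapDomain_zero.symm)),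
    hW _ (mem_erase.1 p.1.2.2).2⟩⟩), (md_col hc _).trans p.2⟩

theorem jj_inj : Function.Injective (jj U K K' hg hc hW) := fun _ _ e =>
  Subtype.ext (Prod.ext (congrArg (·.1.1) e)
    (Subtype.ext (Finsupp.mapDomain_injective hg (congrArg (·.1.2.1) e))))

theorem jj_sur (p : U.Cw (MR col W K)) {μ : τ' →₀ ℕ} (h : μ ∈ W') (e : μ.mapDomain g = p.1.2.1) :
    ∃ p', jj U K K' hg hc hW p' = p ∧ p'.1.2.1 = μ :=
  ⟨⟨(p.1.1, ⟨μ, mem_erase.2 ⟨fun z => (mem_erase.1 p.1.2.2).1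
    (by rw [← e, z, Finsupp.mapDomain_zero]), h⟩⟩),
    (md_col hc μ).symm.trans ((congrArg (Finsupp.mapDomain col) e).trans p.2)⟩,
    Subtype.ext (Prod.ext rfl (Subtype.ext e)), rfl⟩

theorem ex_jj (ξ : U.Cw (MR col W K) → ℝ) (F : U.C) {μ : τ' →₀ ℕ} (h : μ ∈ W') :
    ex U _ id (fun p => ξ (jj U K K' hg hc hW p)) (F, μ) = ex U _ id ξ (F, μ.mapDomain g) := by
  refine sum_bij (fun p _ => jj U K K' hg hc hW p) (fun p hp => ?_)
    (fun _ _ _ _ e => jj_inj U K K' hg hc hW e) (fun p hp => ?_) fun _ _ => rfl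
  · obtain ⟨-, a, b⟩ := mem_filter.1 hp
    exact mem_filter.2 ⟨mem_univ _, a, congrArg (Finsupp.mapDomain g) b⟩
  · obtain ⟨-, a, b⟩ := mem_filter.1 hp
    obtain ⟨p', rfl, e⟩ := jj_sur U K K' hg hc hW p h b.symm
    exact ⟨p', mem_filter.2 ⟨mem_univ _, a, e⟩, rfl⟩

theorem ex_at (ξ : U.Cw (MR col W K) → ℝ) (p : U.Cw (MR col W K)) :
    ex U _ id ξ (p.1.1, p.1.2.1) = ξ p := by
  refine sum_eq_single_of_mem p (mem_filter.2 ⟨mem_univ _, rfl, rfl⟩) fun q hq n => ?_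
  obtain ⟨-, a, b⟩ := mem_filter.1 hq
  exact absurd (Subtype.ext (Prod.ext a (Subtype.ext b))) n

theorem u_jj (o : U.Ok) (d : Dn W') (ξ : U.Cw (MR col W K) → ℝ) (p : U.Cw (MR col' W' K')) :
    (U.sh (MR col' W' K')).u (fun p => ξ (jj U K K' hg hc hW p)) p =
      (U.sh (MR col W K)).u ξ (jj U K K' hg hc hW p) := by
  refine (Dg.part2 U (MR col' W' K') (fun _ _ => rfl) _ p o).trans
    (.trans ?_ (Dg.part2 U (MR col W K) (fun _ _ => rfl) ξ _ o).symm)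
  exact (sv_md hg _ _ fun F ν hν =>
    ex_jj U K K' hg hc hW ξ F (d _ (mem_erase.1 p.1.2.2).2 _ hν)).symm
end

end Rt
open Rt

theorem rtr : RTR := by
  intro σ τ τ' _ _ _ U col W κ col' W' κ' g x b y y' G G' o hg hc _ d hW hs hy hG ⟨I, h0, hI⟩
  have hW' : ∀ μ ∈ W', μ.mapDomain g ∈ W := fun μ h => (hW μ h).1
  obtain ⟨j, hj⟩ : ∃ j, j = jj U (dk κ) (dk κ') hg hc hW' := ⟨_, rfl⟩
  have ji : Function.Injective j := hj ▸ jj_inj U (dk κ) (dk κ') hg hc hW'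
  have jx : ∀ p, (j p).1.2.1 (g x) = p.1.2.1 x := fun p => by
    rw [hj]; exact Finsupp.mapDomain_apply hg _ _
  have js : ∀ p : U.Cw (MR col W (dk κ)), p.1.2.1 (g x) ≠ 0 → ∃ p', j p' = p := fun p h => by
    obtain ⟨μ, a, e⟩ := hs _ (mem_erase.1 p.1.2.2).2 h
    exact hj ▸ (jj_sur U (dk κ) (dk κ') hg hc hW' p a e).imp fun _ k => k.1
  refine ⟨fun p => I (j p), fun p h => h0 _ fun k => h fun z => k ((jx p).trans z),
    fun (ξ' : U.Cw (MR col' W' (dk κ')) → ℝ) hξ => ?_⟩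
  obtain ⟨ξ, hx⟩ : ∃ ξ, ξ = Function.extend j ξ' y := ⟨_, rfl⟩
  have e0 : ∀ p, ξ (j p) = ξ' p := fun p => hx ▸ ji.extend_apply ξ' y p
  have e1 : ξ' = fun p => ξ (j p) := funext fun p => (e0 p).symm
  have e2 : ∀ p : U.Cw (MR col W (dk κ)), ¬ p.1.2.1 (g x) ≠ 0 → ξ p = y p := fun p h => by
    by_cases k : ∃ p', j p' = p
    · obtain ⟨p', rfl⟩ := k
      rw [jx] at h
      rw [e0, hξ p' h, ← ex_at U _ y' p', hy _ _ (mem_erase.1 p'.1.2.2).2
        (not_not.1 h), ← ex_at U _ y (j p'), hj]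
      rfl
    · rw [hx, Function.extend_apply' _ _ _ k]
  have e3 : G ξ = G' ξ' := hG ξ ξ' fun F μ h => by
    rw [e1, hj]; exact ex_jj U _ _ hg hc hW' ξ F h
  have e4 : ∑ c, (I (j c) : ℝ) * ξ' c = ∑ c : U.Cw (MR col W (dk κ)), (I c : ℝ) * ξ c := by
    refine Fintype.sum_of_injective j ji _ _ (fun p h => ?_) fun p => by rw [e0]
    rw [h0 p fun k => h (js p k), Int.cast_zero, zero_mul]
  let e : {p : U.Cw (MR col' W' (dk κ')) // p.1.2.1 x ≠ 0} ≃
      {p : U.Cw (MR col W (dk κ)) // p.1.2.1 (g x) ≠ 0} := Equiv.ofBijective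
    (fun p => ⟨j p.1, fun z => p.2 ((jx p.1).symm.trans z)⟩)
    ⟨fun _ _ k => Subtype.ext (ji (congrArg Subtype.val k)), fun p => by
        obtain ⟨p', k⟩ := js p.1 p.2
        exact ⟨⟨p', fun z => p.2 (k ▸ (jx p').trans z)⟩, Subtype.ext k⟩⟩
  have h := (hI ξ e2).trans_eq (congrArg (fun t => b * √t) (qf_eqv e _ _).symm)
  refine le_of_eq_of_le (congrArg₂ (fun s t => |s - t|) e3.symm e4) (h.trans_eq ?_)
  refine congrArg₂ (fun K u => b * √(qf K⁻¹ u)) (Matrix.ext fun p q => ?_) (funext fun p => ?_)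
  · change U.K (j p.1).1.1 (j q.1).1.1 * dk κ (j p.1).1.2.1 (j q.1).1.2.1 =
      U.K p.1.1.1 q.1.1.1 * dk κ' p.1.1.2.1 q.1.1.2.1
    rw [hj]
    change U.K p.1.1.1 q.1.1.1 * dk κ (p.1.1.2.1.mapDomain g) (q.1.1.2.1.mapDomain g) = _
    rw [dk, dk, (hW _ (mem_erase.1 p.1.1.2.2).2).2 p.2]
    exact congrArg _ (if_congr (Finsupp.mapDomain_injective hg).eq_iff rfl rfl)
  · change (U.sh (MR col W (dk κ))).u ξ (j p.1) = (U.sh (MR col' W' (dk κ'))).u ξ' p.1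
    rw [e1, hj]
    exact (u_jj U _ _ hg hc hW' o d ξ p.1).symm

end Crest.Agent.N49.Sw

end
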