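import Crest.Agent.N49.Sw.Defs

/-! # Row 49 (helper14): split surjections of monomial rings -/

set_option autoImplicit false

open Matrix MvPolynomial Finset

noncomputable section

namespace Crest.Agent.N49.Sw

open Po Tw Tw.Sh

namespace Ms

variable {σ τ τ' : Type} [Fintype τ'] {φ : τ → τ' → ℤ} {ι : τ' → τ}

/-- a functional that kills `t a - ι φ t a` sees only the image of `ι φ` -/
theorem core (g : (τ →₀ ℕ) → ℤ) (h : ∀ a μ, g (Finsupp.single a 1 + μ) =
    ∑ b, φ a b * g (Finsupp.single (ι b) 1 + μ)) (x : τ →₀ ℕ)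
    (z : ∀ ν, smat φ ν x ≠ 0 → g (ν.mapDomain ι) = 0) : g x = 0 := by
  classical
  let L : MvPolynomial τ ℤ →ₗ[ℤ] ℤ := (basisMonomials τ ℤ).constr ℤ g
  have hL : ∀ μ c, L (monomial μ c) = c * g μ := fun μ c => by
    rw [show monomial μ c = c • basisMonomials τ ℤ μ by simp [smul_monomial], map_smul,
      Module.Basis.constr_basis, smul_eq_mul]
  let ψ : MvPolynomial τ ℤ →ₐ[ℤ] MvPolynomial τ ℤ := (rename ι).comp (lsub φ)
  have hX : ∀ a, ψ (X a) = ∑ b, φ a b • X (ι b) := fun a => by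
    simp [ψ, lsub]
  have h1 : ∀ a P, L (X a * P) = L (ψ (X a) * P) := fun a P => by
    induction P using MvPolynomial.induction_on' with
    | add p q hp hq => rw [mul_add, mul_add, map_add, map_add, hp, hq]
    | monomial μ c =>
      rw [hX, sum_mul, map_sum, X, monomial_mul, hL, h, mul_sum]
      refine sum_congr rfl fun b _ => ?_
      rw [smul_mul_assoc, map_smul, X, monomial_mul, hL, smul_eq_mul]; ring
  have h2 : ∀ Q P, L (Q * P) = L (ψ Q * P) := fun Q => by
    induction Q using MvPolynomial.induction_on with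
    | C c => intro P; rw [algHom_C, algebraMap_eq]
    | add p q hp hq => intro P; rw [map_add, add_mul, add_mul, map_add, map_add, hp, hq]
    | mul_X p a hp =>
      intro P
      rw [mul_assoc, hp, mul_left_comm, h1, map_mul ψ]; congr 1; ring
  have h3 := h2 (monomial x 1) 1
  rw [mul_one, mul_one, hL, one_mul] at h3
  rw [h3]
  change L (rename ι (lsub φ (monomial x 1))) = 0
  rw [(lsub φ (monomial x (1 : ℤ))).as_sum, map_sum, map_sum]
  refine sum_eq_zero fun ν k => ?_
  rw [rename_monomial, hL, z ν (mem_support_iff.1 k), mul_zero]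

theorem smat_sec [DecidableEq τ'] {ν : τ' →₀ ℕ} (h : ∀ b ∈ ν.support, φ (ι b) = Pi.single b 1)
    (ν' : τ' →₀ ℕ) : smat φ ν' (ν.mapDomain ι) = if ν = ν' then 1 else 0 := by
  rw [smat, ← rename_monomial, ← coeff_monomial, lsub, aeval_rename, aeval_monomial, monomial_eq,
    algebraMap_eq]
  congr 2
  refine Finsupp.prod_congr fun b k => ?_
  simp [h b k, Pi.single_apply]

theorem smat_let {ν : τ' →₀ ℕ} {μ : τ →₀ ℕ} (z : smat φ ν μ ≠ 0) {b : τ'} (k : ν b ≠ 0) :
    ∃ a, φ a b ≠ 0 := by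
  classical
  have e := smat_col (col := fun _ => True) (col' := fun b => ∃ a, φ a b ≠ 0)
    (fun a b y => propext ⟨fun _ => ⟨a, y⟩, fun _ => trivial⟩) z
  have := mapD_mem (fun b => ∃ a, φ a b ≠ 0) k
  rw [e] at this
  obtain ⟨_, -, y⟩ := mem_image.1 (Finsupp.mapDomain_support this)
  exact y ▸ trivial

theorem smat_le {h : ℕ} (hφ : ∀ a b, |φ a b| ≤ h) (n : ℕ) : ∀ μ : τ →₀ ℕ, μ.degree = n →
    ∀ ν, |smat φ ν μ| ≤ (h * Fintype.card τ' : ℕ) ^ n := by
  classical
  induction n with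
  | zero =>
    intro μ k ν
    rw [(Finsupp.degree_eq_zero_iff _).1 k, smat, monomial_zero', map_one, map_one, coeff_one]
    split_ifs <;> simp
  | succ n ih =>
    intro μ k ν
    obtain ⟨a, ha⟩ := Finsupp.ne_iff.1 (show μ ≠ 0 by rintro rfl; simp at k)
    have e := split_letter ha
    have d : (μ - Finsupp.single a 1).degree = n := by
      have := congrArg Finsupp.degree e
      rw [map_add, Finsupp.degree_single] at this; omega
    have : smat φ ν μ = ∑ b, φ a b * if b ∈ ν.support then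
        smat φ (ν - Finsupp.single b 1) (μ - Finsupp.single a 1) else 0 := by
      rw [← e, smat, ← one_mul (1 : ℤ), ← monomial_mul, map_mul, add_tsub_cancel_left]
      change coeff ν (lsub φ (X a) * _) = _
      rw [lsub, aeval_X, sum_mul, coeff_sum]
      refine sum_congr rfl fun b _ => ?_
      rw [smul_mul_assoc, coeff_smul, coeff_X_mul', smul_eq_mul]; rfl
    rw [this]
    refine (abs_sum_le_sum_abs _ _).trans ((sum_le_card_nsmul _ _
      ((h : ℤ) * ((h * Fintype.card τ' : ℕ) : ℤ) ^ n) fun b _ => ?_).trans_eq ?_)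
    · rw [abs_mul]
      refine mul_le_mul (hφ a b) ?_ (abs_nonneg _) (by positivity)
      split_ifs
      · exact ih _ d _
      · rw [abs_zero]; positivity
    · rw [card_univ, nsmul_eq_mul]; push_cast; ring

variable [DecidableEq τ] {col : τ → σ} {W : Finset (τ →₀ ℕ)} {K : Kn τ}

omit [Fintype τ'] in
theorem ex_word {μ : τ →₀ ℕ} (h : ∀ a, μ a ≠ 0 → Finsupp.single a 1 ∈ W) :
    ∃ m : MW W →₀ ℕ, Finsupp.weight Subtype.val m = μ ∧ m.degree = μ.degree ∧
      ∀ y ∈ m.support, y.1.degree = 1 := by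
  obtain ⟨f, e⟩ := ex_letters _ μ rfl
  have k : ∀ i, Finsupp.single (f i) 1 ∈ W.erase 0 := fun i => mem_erase.2
    ⟨by simp, h _ (e ▸ sum_single_ne.2 ⟨i, rfl⟩)⟩
  refine ⟨∑ i, Finsupp.single ⟨_, k i⟩ 1, by simp [Finsupp.weight_single, e], by simp, fun y z => ?_⟩
  obtain ⟨i, rfl⟩ := sum_single_ne.1 (Finsupp.mem_support_iff.1 z)
  exact Finsupp.degree_single _ _

omit [Fintype τ'] in
theorem sum_r (g : (τ →₀ ℕ) → ℤ) (h : ∀ μ, g μ ≠ 0 → μ ∈ W) (j : MW W) (m : MW W →₀ ℕ) :
    ∑ y : MW W, g y.1 * (MR col W K).r y (Finsupp.single j 1 + m) =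
      g (j.1 + Finsupp.weight Subtype.val m) := by
  have e : Finsupp.weight Subtype.val (Finsupp.single j 1 + m) =
      j.1 + Finsupp.weight Subtype.val m := by rw [map_add, Finsupp.weight_single, one_smul]
  change ∑ y : MW W, g y.1 *
    (if Finsupp.weight Subtype.val (Finsupp.single j 1 + m) = y.1 then 1 else 0) = _
  simp only [mul_ite, mul_one, mul_zero, e]
  exact sum_word g (fun z => j.ne (add_eq_zero.1 z).1) (h _)

end Ms

open Ms in
/-- **a criterion for split surjections of monomial rings** -/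
theorem msec : MSEC := by
  intro σ τ τ' _ _ _ _ col W K col' W' K' φ ι h s hW hW' ok hs h1 hφ hc wd hι hl out hK
  have sec : ∀ ν ∈ W', ∀ ν', smat φ ν' (ν.mapDomain ι) = if ν = ν' then 1 else 0 :=
    fun ν k => smat_sec (hι ν k)
  have mem : ∀ w : MW W', w.1.mapDomain ι ∈ W.erase 0 := fun w => mem_erase.2
    ⟨fun z => w.ne ((Finsupp.degree_eq_zero_iff _).1 (by rw [← degree_col ι, z, map_zero])),
      wd _ w.mem _ (by rw [sec _ w.mem, if_pos rfl]; exact one_ne_zero)⟩
  let e : MW W' → MW W := fun w => ⟨_, mem w⟩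
  have sec' : ∀ w w' : MW W', smat φ w.1 (e w').1 = if w = w' then 1 else 0 := fun w w' =>
    (sec _ w'.mem _).trans (if_congr (eq_comm.trans Subtype.ext_iff.symm) rfl rfl)
  have hm : (MR col W K).Hm (MR col' W' K') (smm col W 0 K _ φ) :=
    hm_mono hW' ⟨hc, wd, fun _ => by simp⟩
  have eK : (MR col' W' K').K = rl (smm col W 0 K (MR col' W' K') φ) * (MR col W K).K *
      (rl (smm col W 0 K (MR col' W' K') φ))ᵀ := by
    ext (ν : MW W') (ν' : MW W')
    change K' ν.1 ν'.1 = ∑ w' : MW W, (∑ w : MW W, (smat φ ν.1 w.1 : ℝ) * K w.1 w'.1) *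
      (smat φ ν'.1 w'.1 : ℝ)
    rw [hK _ ν.mem _ ν'.mem ν.ne ν'.ne, kpush, ← sum_coe_sort,
      sum_congr rfl fun _ _ => (sum_coe_sort _ _).symm, sum_comm]
    simp only [sum_mul]
  have o := mono_ok (col := col') (ε := 0) (Kw := dk fun _ => 1) hW'
    ((kb_dk (a := 1) (b := 1) fun _ _ => ⟨le_rfl, le_rfl⟩).pd' one_pos) (dk_blk _)
  refine ⟨e, ⟨o.ne, o.one, o.gr, o.mul, o.eps, ?_, fun w w' z => ?_⟩, hm, eK, sec',
    fun (w : MW W') (x : MW W) => ?_, fun (κ : MW W → ℤ) hκ (x : MW W) hx => ?_⟩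
  · rw [eK, ← conjTranspose_eq_transpose_of_trivial]
    refine ok.pd.mul_mul_conjTranspose_same fun (u : MW W' → ℝ) (v : MW W' → ℝ) k =>
      funext fun w => ?_
    have t : ∀ u : MW W' → ℝ, ∑ i : MW W', u i * (smat φ i.1 (e w).1 : ℝ) = u w := fun u => by
      simp [sec']
    exact (t u).symm.trans ((congrFun k (e w)).trans (t v))
  · rw [eK, mul_apply] at z
    obtain ⟨x', -, z⟩ := exists_ne_zero_of_sum_ne_zero z
    have z1 := left_ne_zero_of_mul z
    rw [mul_apply] at z1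
    obtain ⟨x, -, z1⟩ := exists_ne_zero_of_sum_ne_zero z1
    rw [hm.cd w x (Int.cast_ne_zero.1 (left_ne_zero_of_mul z1)),
      hm.cd w' x' (Int.cast_ne_zero.1 (right_ne_zero_of_mul z))]
    exact ok.blk _ _ (right_ne_zero_of_mul z1)
  · refine (smat_le hφ _ x.1 rfl w.1).trans ?_
    exact_mod_cast (Nat.pow_le_pow_left (Nat.mul_le_mul_left _ (Nat.le_succ _)) _).trans
      (Nat.pow_le_pow_right (Nat.mul_pos h1 (Nat.succ_pos _)) (hs _ x.mem))
  by_contra hn
  push Not at hn
  let κ0 : (τ →₀ ℕ) → ℤ := fun μ => if k : μ ∈ W.erase 0 then κ ⟨μ, k⟩ else 0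
  have k1 : ∀ y : MW W, κ0 y.1 = κ y := fun y => dif_pos y.2
  have k2 : ∀ μ, κ0 μ ≠ 0 → μ ∈ W := fun μ z =>
    mem_of_mem_erase (of_not_not fun n => z (dif_neg n))
  have k3 : ∀ (a : τ) (μ : τ →₀ ℕ), μ.degree + 1 = x.1.degree → κ0 (Finsupp.single a 1 + μ) =
      ∑ w : MW W', smat φ w.1 (Finsupp.single a 1) * κ0 (w.1.mapDomain ι + μ) := by
    intro a μ d
    by_cases c1 : ∀ c, μ c ≠ 0 → Finsupp.single c 1 ∈ W
    swap
    · have t : ∀ ν, κ0 (ν + μ) = 0 := fun ν => of_not_not fun z => c1 fun c y =>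
        hW.single _ (hW _ (k2 _ z) μ le_add_self) c y
      simp [t]
    by_cases c2 : Finsupp.single a 1 ∈ W
    swap
    · rw [sum_eq_zero fun w _ => mul_eq_zero_of_left (of_not_not fun z => c2 (wd _ w.mem _ z)) _]
      exact of_not_not fun z => c2 (hW _ (k2 _ z) _ le_self_add)
    let j : MW W := ⟨Finsupp.single a 1, mem_erase.2 ⟨by simp, c2⟩⟩
    by_cases c3 : j ∈ Set.range e
    · obtain ⟨w, k⟩ := c3
      have t : Finsupp.single a 1 = (e w).1 := (congrArg Subtype.val k).symm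
      rw [t]
      simp [sec', e]
    obtain ⟨m, rfl, e2, e3⟩ := ex_word c1
    have := hn j m c3 (Finsupp.degree_single _ _) (e2 ▸ d) e3
    change ∑ y : MW W, κ y * ((MR col W K).r y (Finsupp.single j 1 + m) - ∑ w : MW W',
      smat φ w.1 j.1 * (MR col W K).r y (Finsupp.single (e w) 1 + m)) = 0 at this
    simp only [← k1, mul_sub, sum_sub_distrib, mul_sum, mul_left_comm (κ0 _)] at this
    rw [sum_comm] at this
    simp only [← mul_sum, sum_r κ0 k2] at this
    exact sub_eq_zero.1 this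
  have k4 : ∀ (a : τ) (μ : τ →₀ ℕ), μ.degree + 1 = x.1.degree → κ0 (Finsupp.single a 1 + μ) =
      ∑ b, φ a b * κ0 (Finsupp.single (ι b) 1 + μ) := fun a μ d => by
    rw [k3 a μ d]
    simp only [smat_single, sum_mul, ite_mul, zero_mul]
    rw [sum_comm]
    refine sum_congr rfl fun b _ => ?_
    rw [sum_word (fun ν => φ a b * κ0 (ν.mapDomain ι + μ)) (by simp)
      fun z => hl a b (left_ne_zero_of_mul z), Finsupp.mapDomain_single]
  have := core (φ := φ) (ι := ι) (fun μ => if μ.degree = x.1.degree then κ0 μ else 0)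
    (fun a μ => ?_) x.1 fun ν z => ?_
  · rw [if_pos rfl, k1] at this
    exact hx this
  · simp only [map_add, Finsupp.degree_single, add_comm 1]
    split_ifs with d
    · exact k4 a μ d
    · simp
  · refine ite_eq_right_iff.2 fun d => of_not_not fun y => ?_
    by_cases c : ν ∈ W'
    · have n : ν ≠ 0 := fun n => x.ne ((Finsupp.degree_eq_zero_iff _).1
        (by rw [← smat_degree z, n, map_zero]))
      exact y ((k1 (e ⟨ν, mem_erase.2 ⟨n, c⟩⟩)).trans (hκ _))
    obtain ⟨b, j, c, c0, e1, e2, -, e4⟩ := out ν c (fun b k =>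
      let ⟨a, t⟩ := smat_let z (Finsupp.mem_support_iff.1 k); hl a b t) (k2 _ y)
    have t : Finsupp.single (ι b) 1 + (ν - Finsupp.single b 1).mapDomain ι = ν.mapDomain ι := by
      rw [← Finsupp.mapDomain_single, ← Finsupp.mapDomain_add, split_letter e2]
    have := k4 j ((ν - Finsupp.single b 1).mapDomain ι) (by
      rw [← d, ← t, map_add, Finsupp.degree_single, add_comm])
    simp only [e1, Pi.single_apply, ite_mul, zero_mul, sum_ite_eq', mem_univ, if_true, t] at this
    exact e4 (add_comm (Finsupp.single j 1) _ ▸ k2 _ (this ▸ mul_ne_zero c0 y))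

end Crest.Agent.N49.Sw

end
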