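import Crest.Agent.N49.Sw.Defs

/-!
# Row 49 (helper97): the fat cube (all the clones of a block are doubled together)
-/

set_option autoImplicit false

open Matrix MvPolynomial Finset

noncomputable section

namespace Crest.Agent.N49.Sw

open Po Tw Sd

section ring
variable {σ τ κ : Type} [DecidableEq τ] [Fintype κ] [DecidableEq κ] {l : ℕ} (bl : κ → Fin l)

/-- the fresh monomials after `j` clonings of blocks -/
def BjF (s j : ℕ) : Finset (κ × Bool →₀ ℕ) := (full (κ × Bool) s).filter fun β =>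
  (∀ a a', bl a = bl a' → β (a, false) = 0 ∨ β (a', true) = 0) ∧
    ∀ a, j ≤ (bl a).1 → β (a, true) = 0

/-- the words after `j` clonings -/
def WXF [Fintype τ] (s : ℕ) (Wt : Finset (τ ⊕ κ →₀ ℕ)) (j : ℕ) :
    Finset (τ ⊕ κ × Bool →₀ ℕ) := (full _ s).filter fun μ =>
  μ.mapDomain (Sum.map id Prod.fst) ∈ Wt ∧ wr μ ∈ BjF bl s j

omit [Fintype κ] [DecidableEq κ] in
/-- the vertex `ω` of the cube -/
def fwF (lam : κ → τ → ℤ) (ω : Fin l → Bool) : τ ⊕ κ × Bool → τ → ℤ :=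
  Sum.elim (fun a => Pi.single a 1) fun i => if i.2 = ω (bl i.1) then lam i.1 else 0

/-- the kernel of the cube: the new words are independent of variance `v` -/
def KXF [Fintype τ] (s : ℕ) (Wt : Finset (τ ⊕ κ →₀ ℕ)) (K : Kn τ)
    (lam : κ → τ → ℤ) (v : ℕ → ℝ) : Kn (τ ⊕ κ × Bool) := fun μ ν =>
  if wr μ = 0 ∧ wr ν = 0 then K (wl μ) (wl ν) - ∑ x ∈ WXF bl s Wt 0, if wr x = 0 then 0 else
    v x.degree * (smat (fwF bl lam fun _ => false) (wl μ) x *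
      smat (fwF bl lam fun _ => false) (wl ν) x)
  else if μ = ν then v μ.degree else 0

/-- **the fat cube ring** -/
abbrev CXF [Fintype τ] (s : ℕ) (col : τ → σ) (Wt : Finset (τ ⊕ κ →₀ ℕ)) (K : Kn τ) (cl : κ → σ)
    (lam : κ → τ → ℤ) (v : ℕ → ℝ) (j : ℕ) : Sh σ (τ ⊕ κ × Bool) :=
  MR (Sum.elim col fun i => cl i.1) (WXF bl s Wt j) (KXF bl s Wt K lam v)

/-- the data of a fat cube -/
structure CbF [Fintype τ] (s n : ℕ) (a : ℝ) (col : τ → σ) (W : Finset (τ →₀ ℕ)) (K : Kn τ)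
    (cl : κ → σ) (Wt : Finset (τ ⊕ κ →₀ ℕ)) (lam : κ → τ → ℤ) : Prop where
  sz : (MR col W K).Sz n a
  dn : Dn Wt
  z : 0 ∈ Wt
  old : ∀ ν, ν ∈ W ↔ ν.mapDomain Sum.inl ∈ Wt
  dg : ∀ μ ∈ W, μ.degree ≤ s
  one : ∀ t, Finsupp.single t 1 ∈ Wt
  s1 : 1 ≤ s
  col : ∀ i t, lam i t ≠ 0 → col t = cl i
  ht : ∀ i t, |lam i t| ≤ n
  cd : Fintype.card κ ≤ n
  /-- the monomials outside `Wt` go to zero -/
  wd : ∀ ν ∈ W, ∀ μ, smat (fwF bl lam fun _ => false) ν μ ≠ 0 →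
    μ.mapDomain (Sum.map id Prod.fst) ∈ Wt

end ring

/-- leaf: the fat cube rings are shapes and the first one maps onto the base -/
def CUBF : Prop := ∀ s : ℕ, ∃ c : ℕ, ∀ (l : ℕ) (σ τ κ : Type) [DecidableEq τ] [Fintype τ]
  [Fintype κ] [DecidableEq κ] (bl : κ → Fin l) (n : ℕ) (a b : ℝ)
  (col : τ → σ) (W : Finset (τ →₀ ℕ)) (K : Kn τ) (cl : κ → σ) (Wt : Finset (τ ⊕ κ →₀ ℕ))
  (lam : κ → τ → ℤ) (v : ℕ → ℝ), CbF bl s n a col W K cl Wt lam → 0 < b →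
  (∀ j, b ≤ v j ∧ (n + 2) ^ c * v j ≤ a) →
  (∀ j, (CXF bl s col Wt K cl lam v j).Sz ((n + 2) ^ c) b ∧ Dn (WXF bl s Wt j)) ∧
  (∀ t, Finsupp.single t 1 ∈ WXF bl s Wt l) ∧
  (∀ ω, ∀ ν ∈ W, ∀ μ, smat (fwF bl lam ω) ν μ ≠ 0 → μ ∈ WXF bl s Wt l) ∧
  ∃ e, (CXF bl s col Wt K cl lam v 0).Sec (MR col W K) ((n + 2) ^ c)
    (Sh.smm _ _ 0 _ _ (fwF bl lam fun _ => false)) e

/-- leaf: **the fat box inequality** -/
def BOXF : Prop := ∀ s : ℕ, ∃ c : ℕ, ∀ (l : ℕ) (σ τ κ : Type) [DecidableEq σ] [DecidableEq τ]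
  [Fintype τ] [Fintype κ] [DecidableEq κ] (bl : κ → Fin l)
  (U : TS σ) (st : U.C → ℕ) (M n N : ℕ) (a b η δ : ℝ) (col : τ → σ) (W : Finset (τ →₀ ℕ)) (K : Kn τ)
  (cl : κ → σ) (Wt : Finset (τ ⊕ κ →₀ ℕ)) (lam : κ → τ → ℤ) (v : ℕ → ℝ)
  (Ψ : U.Twd (MR col W K)) (g : (U.Cw (MR col W K) → ℤ) → ℂ),
  CbF bl s n a col W K cl Wt lam → 0 < b →
  (∀ j, b ≤ v j ∧ (n + 2) ^ c * v j ≤ a) → (n + 2) ^ c ≤ N → U.Stg st M → U.Adm _ st Ψ →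
  0 ≤ η → η ≤ 1 / 8 → U.HM st N b η → U.HP st N b η → (∀ y, ‖g y‖ ≤ 1) →
  0 ≤ δ → δ + 2 * η ≤ ‖(U.tw _ Ψ).Ec g‖ →
  U.Adm _ st (ts U (CXF bl s col Wt K cl lam v l) il Ψ) ∧
  (δ / 2) ^ 2 ^ l ≤ ‖(U.tw (CXF bl s col Wt K cl lam v l) (ts U _ il Ψ)).Ec fun y =>
    ∏ ω : Fin l → Bool, cj ω (g (hs U _ (fwF bl lam ω) y))‖

/-- leaf: alternating sums keep the top part of a word that meets every block once -/
def ALTF : Prop := ∀ (τ τ0 κ C : Type) [DecidableEq τ] [DecidableEq τ0] [Fintype τ0]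
  [DecidableEq κ] (l : ℕ) (bl : κ → Fin l)
  (e : Fin l → τ0) (φ : τ → τ0 → ℤ) (lam : κ → τ0 → ℤ) (W : Finset (τ ⊕ κ × Bool →₀ ℕ))
  (z : VV C (τ ⊕ κ × Bool) → ℝ) (w : τ0 →₀ ℕ) (G : MvPolynomial (VV C τ0) ℝ),
  Function.Injective e → (∀ a b, lam a b ≠ 0 → b = e (bl a)) →
  G.IsWeightedHomogeneous Prod.snd w → (∀ i, w (e i) = 1) →
  ∑ ω : Fin l → Bool, (-1) ^ #{i | ω i = true} * eval (sbv (Sum.elim φ fun i : κ × Bool =>
      if i.2 = ω (bl i.1) then lam i.1 else 0) W z) G =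
    eval (sbv (Sum.elim (fun a b => if b ∈ Set.range e then 0 else φ a b) fun i : κ × Bool =>
      if i.2 then -lam i.1 else lam i.1) W z) G

end Crest.Agent.N49.Sw

end
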