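import Crest.Agent.N49.Sw.Cub
import Crest.Agent.N49.Sw.Fat

/-!
# Row 49 (helper76): the fat cube rings are shapes (port of `Sw/Cub`)
-/

set_option autoImplicit false
set_option linter.unusedSectionVars false

open Matrix MvPolynomial Finset

noncomputable section

namespace Crest.Agent.N49.Sw

open Po Tw Sd

namespace C2

open Cu hiding mem_bj mem_wx lsub_fw smat_old dn_wx old_mem single_mem smat_mem xsplit bil card_W
  card_τ card_wx fw_le fw_col lo old_ne sz push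

theorem card_fl (σ : Type) [Fintype σ] [DecidableEq σ] (s : ℕ) :
    #(full σ s) ≤ (Fintype.card σ + 1) ^ s := by
  induction s with
  | zero =>
    refine card_le_one.2 fun a ha b hb => ?_
    rw [(Finsupp.degree_eq_zero_iff _).1 (Nat.le_zero.1 (mem_full.1 ha)),
      (Finsupp.degree_eq_zero_iff _).1 (Nat.le_zero.1 (mem_full.1 hb))]
  | succ s ih =>
    have : full σ (s + 1) ⊆ (full σ s ×ˢ (univ : Finset (Option σ))).image
        fun p => p.1 + p.2.elim 0 fun a => Finsupp.single a 1 := fun μ h => by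
      by_cases z : μ = 0
      · exact mem_image.2 ⟨(0, none), by simp [mem_full], by simp [z]⟩
      obtain ⟨a, ha⟩ := Finsupp.ne_iff.1 z
      obtain ⟨ν, rfl⟩ := exists_add_of_le (Finsupp.single_le_iff.2 (Nat.one_le_iff_ne_zero.2 ha))
      refine mem_image.2 ⟨(ν, some a), ?_, add_comm _ _⟩
      rw [mem_full, map_add, Finsupp.degree_single] at h
      simp only [mem_product, mem_full, mem_univ, and_true]
      omega
    refine (card_le_card this).trans (card_image_le.trans ?_)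
    rw [card_product, card_univ, Fintype.card_option, pow_succ]
    exact Nat.mul_le_mul_right _ ih

theorem md_jn {τ L L' : Type} (α : τ →₀ ℕ) (β : L →₀ ℕ) (f : L → L') :
    (α.sumElim β).mapDomain (Sum.map id f) = α.sumElim (β.mapDomain f) := by
  rw [Finsupp.sumElim_eq_add, Finsupp.sumElim_eq_add, Finsupp.mapDomain_add,
    ← Finsupp.mapDomain_comp, ← Finsupp.mapDomain_comp, ← Finsupp.mapDomain_comp]
  rfl

theorem md_old {τ L L' : Type} (α : τ →₀ ℕ) (f : L → L') :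
    (α.sumElim (0 : L →₀ ℕ)).mapDomain (Sum.map id f) = α.mapDomain Sum.inl := by
  rw [md_jn, Finsupp.mapDomain_zero, Finsupp.sumElim_eq_add, Finsupp.mapDomain_zero, add_zero]

variable {σ τ κ : Type} [DecidableEq τ] [Fintype τ] [Fintype κ] [DecidableEq κ] {s l n : ℕ}
  {a b : ℝ} {bl : κ → Fin l} {col : τ → σ}
  {W : Finset (τ →₀ ℕ)} {K : Kn τ} {cl : κ → σ} {Wt : Finset (τ ⊕ κ →₀ ℕ)}
  {lam : κ → τ → ℤ} {v : ℕ → ℝ} {j : ℕ}

theorem mem_bj {β : κ × Bool →₀ ℕ} : β ∈ BjF bl s j ↔ β.degree ≤ s ∧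
    (∀ a a', bl a = bl a' → β (a, false) = 0 ∨ β (a', true) = 0) ∧
      ∀ a, j ≤ (bl a).1 → β (a, true) = 0 := by
  rw [BjF, mem_filter, mem_full]

theorem mem_wx {μ : τ ⊕ κ × Bool →₀ ℕ} : μ ∈ WXF bl s Wt j ↔ μ.degree ≤ s ∧
    μ.mapDomain (Sum.map id Prod.fst) ∈ Wt ∧ wr μ ∈ BjF bl s j := by
  rw [WXF, mem_filter, mem_full]

theorem lsub_fw (ω : Fin l → Bool) (α : τ →₀ ℕ) (β : κ × Bool →₀ ℕ) :
    lsub (fwF bl lam ω) (monomial (α.sumElim β) (1 : ℤ)) = monomial α 1 *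
      β.prod fun i k => (∑ b, fwF bl lam ω (.inr i) b • X b : MvPolynomial τ ℤ) ^ k := by
  rw [lsub_mon, Finsupp.prod_sumElim, monomial_eq, C_1, one_mul]
  congr 1
  refine Finsupp.prod_congr fun t _ => ?_
  simp [fwF, Pi.single_apply]

theorem smat_old (ω : Fin l → Bool) (ν α : τ →₀ ℕ) :
    smat (fwF bl lam ω) ν (α.sumElim 0) = if α = ν then 1 else 0 := by
  rw [smat, lsub_fw, Finsupp.prod_zero_index, mul_one, coeff_monomial]

variable (h : CbF bl s n a col W K cl Wt lam)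
include h

theorem dnW : Dn W := fun _ k _ e =>
  (h.old _).2 (h.dn _ ((h.old _).1 k) _ (Finsupp.mapDomain_mono e))

theorem zW : 0 ∈ W := (h.old _).2 (by rw [Finsupp.mapDomain_zero]; exact h.z)

theorem oneW (t : τ) : Finsupp.single t 1 ∈ W :=
  (h.old _).2 (by rw [Finsupp.mapDomain_single]; exact h.one _)

theorem wl_mem {μ : τ ⊕ κ × Bool →₀ ℕ} (k : μ ∈ WXF bl s Wt j) : wl μ ∈ W := by
  refine (h.old _).2 (h.dn _ (mem_wx.1 k).2.1 _ ?_)
  conv_rhs => rw [← jn_w μ, md_jn, Finsupp.sumElim_eq_add]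
  exact le_self_add

theorem dn_wx : Dn (WXF bl s Wt j) := fun μ k ν e => by
  obtain ⟨k1, k2, k3⟩ := mem_wx.1 k
  obtain ⟨k5, k6, k7⟩ := mem_bj.1 k3
  have r : wr ν ≤ wr μ := fun i => e (.inr i)
  have z : ∀ i, wr μ i = 0 → wr ν i = 0 := fun i k => Nat.le_zero.1 (k ▸ r i)
  exact mem_wx.2 ⟨(degree_mono e).trans k1, h.dn _ k2 _ (Finsupp.mapDomain_mono e),
    mem_bj.2 ⟨(degree_mono r).trans k5, fun i i' c => (k6 i i' c).imp (z _) (z _),
      fun i k => z _ (k7 i k)⟩⟩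

theorem old_mem {α : τ →₀ ℕ} (k : α ∈ W) : α.sumElim 0 ∈ WXF bl s Wt j :=
  mem_wx.2 ⟨by rw [deg_jn, map_zero]; exact h.dg _ k, by rw [md_old]; exact (h.old _).1 k,
    by rw [wr_jn]; exact mem_bj.2 (by simp)⟩

theorem single_mem (t : τ ⊕ κ × Bool) : Finsupp.single t 1 ∈ WXF bl s Wt l := by
  refine mem_wx.2 ⟨by simpa using h.s1, by rw [Finsupp.mapDomain_single]; exact h.one _, ?_⟩
  rcases t with t | ⟨i, β⟩
  · rw [← Finsupp.sumElim_single_zero, wr_jn]; exact mem_bj.2 (by simp)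
  · rw [← Finsupp.sumElim_zero_single, wr_jn]
    exact mem_bj.2 ⟨by simpa using h.s1, fun i' _ _ => by cases β <;> simp [Finsupp.single_apply],
      fun i' k => absurd (bl i').2 (not_lt.2 k)⟩

theorem smat_mem {ω : Fin l → Bool} (hω : ∀ i : Fin l, j ≤ i.1 → ω i = false) {ν : τ →₀ ℕ}
    (k : ν ∈ W) {μ : τ ⊕ κ × Bool →₀ ℕ} (z : smat (fwF bl lam ω) ν μ ≠ 0) : μ ∈ WXF bl s Wt j := by
  have d : μ.degree ≤ s := Sh.smat_degree z ▸ h.dg _ k
  have o : ∀ i, wr μ i ≠ 0 → i.2 = ω (bl i.1) := fun i e => of_not_not fun c =>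
    smat_ne z (a := .inr i) e (if_neg c)
  have e : smat (fwF bl lam fun _ => false) ν
      ((wl μ).sumElim ((wr μ).mapDomain fun i => (i.1, false))) = smat (fwF bl lam ω) ν μ := by
    conv_rhs => rw [← jn_w μ]
    rw [smat, smat, lsub_fw, lsub_fw, Finsupp.prod_mapDomain_index (fun _ => pow_zero _)
      fun _ _ _ => pow_add _ _ _]
    congr 2
    refine Finsupp.prod_congr fun i m => ?_
    simp [fwF, o i (Finsupp.mem_support_iff.1 m)]
  have w := h.wd ν k _ (e ▸ z)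
  rw [md_jn, ← Finsupp.mapDomain_comp] at w
  refine mem_wx.2 ⟨d, ?_, mem_bj.2 ⟨(deg_wr μ).trans d, fun i i' e => ?_, fun i c => ?_⟩⟩
  · rw [← jn_w μ, md_jn]; exact w
  · by_contra c
    push Not at c
    exact Bool.false_ne_true ((o _ c.1).trans ((congrArg ω e).trans (o _ c.2).symm))
  · exact of_not_not fun c' => Bool.false_ne_true ((o _ c').trans (hω _ c)).symm

theorem xsplit (g : (τ ⊕ κ × Bool →₀ ℕ) → ℝ) : ∑ μ ∈ (WXF bl s Wt j).erase 0, g μ =
    ∑ w ∈ W.erase 0, g (w.sumElim 0) + ∑ μ ∈ WXF bl s Wt j with wr μ ≠ 0, g μ := by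
  rw [← sum_filter_add_sum_filter_not _ fun μ => wr μ = 0]
  congr 1
  · refine sum_nbij' wl (fun w => w.sumElim 0) (fun μ k => ?_) (fun w k => ?_)
      (fun μ k => jn_zero (mem_filter.1 k).2) (fun w _ => wl_jn _ _)
      fun μ k => by rw [jn_zero (mem_filter.1 k).2]
    · obtain ⟨k1, k2⟩ := mem_filter.1 k
      refine mem_erase.2 ⟨fun e => ne_of_mem_erase k1 ?_, wl_mem h (mem_of_mem_erase k1)⟩
      rw [← jn_zero k2, e, Finsupp.sumElim_zero_zero]
    · exact mem_filter.2 ⟨mem_erase.2 ⟨fun e => ne_of_mem_erase k ((wl_jn w 0).symm.trans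
        (wl_zero e)), old_mem h (mem_of_mem_erase k)⟩, wr_jn _ _⟩
  · refine sum_congr (Finset.ext fun μ => ?_) fun _ _ => rfl
    simp only [mem_filter, mem_erase]
    exact ⟨fun k => ⟨k.1.2, k.2⟩, fun k => ⟨⟨fun e => k.2 (wr_zero e), k.1⟩, k.2⟩⟩

/-- the bilinear form of the kernel -/
theorem bil (x y : (τ ⊕ κ × Bool →₀ ℕ) → ℝ) :
    ∑ μ ∈ (WXF bl s Wt j).erase 0, ∑ ν ∈ (WXF bl s Wt j).erase 0, x μ * KXF bl s Wt K lam v μ ν * y ν =
      ∑ w ∈ W.erase 0, ∑ w' ∈ W.erase 0, x (w.sumElim 0) * K w w' * y (w'.sumElim 0) -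
      ∑ t ∈ WXF bl s Wt 0 with wr t ≠ 0, v t.degree *
        ((∑ w ∈ W.erase 0, smat (fwF bl lam fun _ => false) w t * x (w.sumElim 0)) *
          ∑ w ∈ W.erase 0, smat (fwF bl lam fun _ => false) w t * y (w.sumElim 0)) +
      ∑ t ∈ WXF bl s Wt j with wr t ≠ 0, v t.degree * (x t * y t) := by
  rw [xsplit h]
  congr 1
  · simp only [sum_mul_sum]
    simp only [mul_sum]
    rw [sum_comm (s := filter _ _), ← sum_sub_distrib]
    refine sum_congr rfl fun w _ => ?_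
    rw [xsplit h, sum_eq_zero (s := filter _ _) fun ν k => by
      have k := (mem_filter.1 k).2
      rw [KXF, if_neg fun e => k e.2, if_neg (c := w.sumElim 0 = ν) fun e => k (e ▸ wr_jn _ _),
        mul_zero, zero_mul],
      add_zero, sum_comm (s := filter _ _), ← sum_sub_distrib]
    refine sum_congr rfl fun w' _ => ?_
    rw [KXF, if_pos ⟨wr_jn _ _, wr_jn _ _⟩, wl_jn, wl_jn, mul_sub, sub_mul, mul_sum, sum_mul,
      sum_filter]
    congr 1
    refine sum_congr rfl fun t _ => ?_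
    by_cases c : wr t = 0 <;> simp [c]
    ring
  · refine sum_congr rfl fun μ k => ?_
    obtain ⟨k1, k2⟩ := mem_filter.1 k
    rw [sum_eq_single μ (fun ν _ c => by
      rw [KXF, if_neg fun e => k2 e.1, if_neg c.symm, mul_zero, zero_mul])
      fun c => absurd (mem_erase.2 ⟨fun e => k2 (wr_zero e), k1⟩) c, KXF,
      if_neg fun e => k2 e.1, if_pos rfl]
    ring

theorem card_W : #(W.erase 0) ≤ n := (Fintype.card_coe _).ge.trans h.sz.card

theorem card_τ : Fintype.card τ ≤ n := by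
  refine le_trans ?_ (card_W h)
  rw [← card_univ]
  exact card_le_card_of_injOn (fun t => Finsupp.single t 1)
    (fun t _ => mem_erase.2 ⟨by simp, oneW h t⟩)
    fun t _ t' _ e => Finsupp.single_left_injective one_ne_zero e

theorem card_wx : #(WXF bl s Wt j) ≤ (n + 2) ^ (2 * s + 1) := by
  have a1 : #(WXF bl s Wt j) ≤ #(W ×ˢ full (κ × Bool) s) :=
    card_le_card_of_injOn (fun μ => (wl μ, wr μ))
      (fun μ k => mem_product.2 ⟨wl_mem h k, mem_full.2 (mem_bj.1 (mem_wx.1 k).2.2).1⟩)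
      fun μ _ ν _ e => (jn_w μ).symm.trans ((congrArg (fun p => p.1.sumElim p.2) e).trans (jn_w ν))
  have a2 : #W ≤ n + 2 := by have := card_W h; have := card_erase_add_one (zW h); omega
  have a3 : Fintype.card (κ × Bool) + 1 ≤ (n + 2) ^ 2 := by
    have := h.cd
    rw [Fintype.card_prod, Fintype.card_bool]; nlinarith
  have a4 := (card_fl (κ × Bool) s).trans (Nat.pow_le_pow_left a3 _)
  rw [← pow_mul] at a4
  rw [card_product] at a1
  rw [pow_succ']
  exact a1.trans (Nat.mul_le_mul a2 a4)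

theorem fw_le (ω : Fin l → Bool) (t : τ ⊕ κ × Bool) (u : τ) :
    |fwF bl lam ω t u| ≤ ((n + 1 : ℕ) : ℤ) := by
  rcases t with t | i
  · simp only [fwF, Sum.elim_inl, Pi.single_apply]; split_ifs <;> simp; positivity
  · simp only [fwF, Sum.elim_inr]
    split_ifs
    · exact (h.ht _ _).trans (by simp)
    · simp; positivity

theorem fw_col (ω : Fin l → Bool) (t : τ ⊕ κ × Bool) (u : τ) (z : fwF bl lam ω t u ≠ 0) :
    Sum.elim col (fun i => cl i.1) t = col u := by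
  rcases t with t | i
  · exact congrArg col (of_not_not fun c => z (Pi.single_eq_of_ne' c _))
  · simp only [fwF, Sum.elim_inr] at z
    split_ifs at z
    exacts [(h.col _ _ z).symm, absurd rfl z]

theorem lo (hb : 0 < b) (hv : ∀ j, b ≤ v j ∧ (n + 2) ^ (6 * s + 3) * v j ≤ a)
    (z : Sh.MW (WXF bl s Wt j) → ℝ) :
    b * ∑ w, z w ^ 2 ≤ qf (CXF bl s col Wt K cl lam v j).K z := by
  obtain ⟨x, rfl⟩ : ∃ x : (τ ⊕ κ × Bool →₀ ℕ) → ℝ, z = fun w => x w.1 :=
    ⟨fun μ => if k : μ ∈ (WXF bl s Wt j).erase 0 then z ⟨μ, k⟩ else 0, funext fun w => by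
      simp only [dif_pos w.2]⟩
  rw [qf_mr, bil h, sum_coe_sort _ fun μ => x μ ^ 2, xsplit h, mul_add]
  refine add_le_add ?_ (by
    rw [mul_sum]; exact sum_le_sum fun t _ => by rw [← sq]; gcongr; exact (hv _).1)
  have k1 := h.sz.lo fun w : Sh.MW W => x (w.1.sumElim 0)
  rw [qf_mr col W K fun w => x (w.sumElim 0)] at k1
  replace k1 : a * ∑ w ∈ W.erase 0, x (w.sumElim 0) ^ 2 ≤ _ :=
    (congrArg (a * ·) (sum_coe_sort _ fun w : τ →₀ ℕ => x (w.sumElim 0) ^ 2)).ge.trans k1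
  set S := ∑ w ∈ W.erase 0, x (w.sumElim 0) ^ 2
  set P : ℝ := n + 2 with hP
  have S0 : 0 ≤ S := sum_nonneg fun _ _ => sq_nonneg _
  have n0 : (0 : ℝ) ≤ n := Nat.cast_nonneg n
  have P2 : 2 ≤ P := by linarith
  have p1 : (1 : ℝ) ≤ P ^ (2 * s + 1) := one_le_pow₀ (by linarith)
  have p2 : (1 : ℝ) ≤ P ^ (4 * s + 1) := one_le_pow₀ (by linarith)
  have k2 : ∀ j, v j * P ^ (4 * s + 1) * P ^ (2 * s + 1) ≤ a / 2 := fun j => by
    have := (hv j).2
    have v0 := hb.le.trans (hv j).1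
    rw [show 6 * s + 3 = 4 * s + 1 + (2 * s + 1) + 1 by ring, pow_succ,
      pow_add] at this
    have : 0 ≤ v j * P ^ (4 * s + 1) * P ^ (2 * s + 1) := by positivity
    nlinarith
  have k3 : b ≤ a / 2 := le_trans ((hv 0).1.trans ((le_mul_of_one_le_right
    (hb.le.trans (hv 0).1) (one_le_mul_of_one_le_of_one_le p2 p1)).trans_eq (mul_assoc _ _ _).symm))
    (k2 0)
  have k4 : ∀ t ∈ (WXF bl s Wt 0).filter (wr · ≠ 0), v t.degree *
      ((∑ w ∈ W.erase 0, smat (fwF bl lam fun _ => false) w t * x (w.sumElim 0)) *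
        ∑ w ∈ W.erase 0, smat (fwF bl lam fun _ => false) w t * x (w.sumElim 0)) ≤
      a / 2 * S / P ^ (2 * s + 1) := fun t k => by
    have d := (mem_wx.1 (mem_filter.1 k).1).1
    have v0 := hb.le.trans (hv t.degree).1
    have m : ∀ w ∈ W.erase 0, (smat (fwF bl lam fun _ => false) w t : ℝ) ^ 2 ≤ P ^ (4 * s) := fun w _ => by
      have c : (Fintype.card τ : ℝ) ≤ n := by exact_mod_cast card_τ h
      have : (|smat (fwF bl lam fun _ => false) w t| : ℝ) ≤ ((n + 1) * Fintype.card τ) ^ t.degree := by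
        exact_mod_cast smat_le (fw_le h _) w t
      have e : (|smat (fwF bl lam fun _ => false) w t| : ℝ) ≤ (P * P) ^ s := this.trans
        ((pow_le_pow_left₀ (by positivity) (by gcongr <;> linarith) _).trans
          (pow_le_pow_right₀ (by nlinarith) d))
      rw [← sq_abs, show P ^ (4 * s) = ((P * P) ^ s) ^ 2 by
        rw [← sq, ← pow_mul, ← pow_mul]; congr 1; ring]
      gcongr
    have q := (sum_mul_sq_le_sq_mul_sq (W.erase 0) _ fun w => x (w.sumElim 0)).trans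
      (mul_le_mul_of_nonneg_right (sum_le_card_nsmul _ _ _ m) S0)
    have c : (#(W.erase 0) : ℝ) ≤ P := (Nat.cast_le.2 (card_W h)).trans (by linarith)
    rw [nsmul_eq_mul] at q
    rw [← sq, le_div_iff₀ (by positivity)]
    calc _ ≤ v t.degree * (P * P ^ (4 * s) * S) * P ^ (2 * s + 1) := by
          gcongr; exact q.trans (by gcongr)
      _ = v t.degree * P ^ (4 * s + 1) * P ^ (2 * s + 1) * S := by ring
      _ ≤ _ := by gcongr; exact k2 _
  have k5 := sum_le_card_nsmul _ _ _ k4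
  have c : (#((WXF bl s Wt 0).filter (wr · ≠ 0)) : ℝ) ≤ P ^ (2 * s + 1) := by
    rw [hP]; exact_mod_cast (card_filter_le _ _).trans (card_wx h)
  have a0 : 0 ≤ a / 2 * S := mul_nonneg (hb.le.trans k3) S0
  rw [nsmul_eq_mul] at k5
  replace k5 := k5.trans (mul_le_mul_of_nonneg_right c (by positivity))
  rw [mul_div_cancel₀ _ (by positivity)] at k5
  nlinarith

theorem old_ne {w : Sh.MW (WXF bl s Wt j)} (e : wr w.1 = 0) : wl w.1 ∈ W.erase 0 :=
  mem_erase.2 ⟨fun c => w.ne (by rw [← jn_zero e, c, Finsupp.sumElim_zero_zero]),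
    wl_mem h w.mem⟩

theorem sz (hb : 0 < b) (hv : ∀ j, b ≤ v j ∧ (n + 2) ^ (6 * s + 3) * v j ≤ a) :
    (CXF bl s col Wt K cl lam v j).Sz ((n + 2) ^ (6 * s + 3)) b := by
  have o := Sh.mono_sz (col := Sum.elim col fun i : κ × Bool => cl i.1) (ε := 0) (dn_wx h (j := j))
    (kb_dk (v := fun _ => 1) (a := 1) (b := 1) fun _ _ => ⟨le_rfl, le_rfl⟩) one_pos (Sh.dk_blk _)
    ((card_wx h).trans (Nat.pow_le_pow_right (by omega) (by omega : _ ≤ 6 * s + 3)))
  refine ⟨⟨o.ne, o.one, o.gr, o.mul, o.eps, pd_of_lo hb (Matrix.ext fun w w' => ?_) (lo h hb hv),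
    fun w w' k => ?_⟩, o.card, o.ht, lo h hb hv, o.gen⟩
  · change KXF bl s Wt K lam v w'.1 w.1 = KXF bl s Wt K lam v w.1 w'.1
    by_cases c : wr w.1 = 0 ∧ wr w'.1 = 0
    · rw [KXF, KXF, if_pos c, if_pos c.symm]
      congr 1
      · exact congrFun (congrFun h.sz.pd.1 ⟨_, old_ne h c.1⟩) ⟨_, old_ne h c.2⟩
      · exact sum_congr rfl fun _ _ => by rw [mul_comm (smat _ _ _ : ℝ)]
    · rw [KXF, KXF, if_neg c, if_neg fun e => c e.symm]
      by_cases e : w.1 = w'.1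
      · rw [e]
      · rw [if_neg e, if_neg (Ne.symm e)]
  · change KXF bl s Wt K lam v w.1 w'.1 ≠ 0 at k
    change w.1.mapDomain _ = w'.1.mapDomain _
    by_cases c : wr w.1 = 0 ∧ wr w'.1 = 0
    · rw [KXF, if_pos c] at k
      rw [← jn_zero c.1, ← jn_zero c.2]
      refine (col_jn _ _ _).trans (Eq.trans ?_ (col_jn _ _ _).symm)
      by_cases e : K (wl w.1) (wl w'.1) = 0
      · rw [e, zero_sub, neg_ne_zero] at k
        obtain ⟨t, -, k⟩ := exists_ne_zero_of_sum_ne_zero k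
        split_ifs at k
        · exact absurd rfl k
        · have := right_ne_zero_of_mul k
          exact (Sh.smat_col (fw_col h _) (Int.cast_ne_zero.1 (left_ne_zero_of_mul this))).trans
            (Sh.smat_col (fw_col h _) (Int.cast_ne_zero.1 (right_ne_zero_of_mul this))).symm
      · exact h.sz.blk ⟨_, old_ne h c.1⟩ ⟨_, old_ne h c.2⟩ e
    · rw [KXF, if_neg c] at k
      rw [of_not_not fun e => k (if_neg e)]

theorem push {ν ν' : τ →₀ ℕ} (k : ν ∈ W.erase 0) (k' : ν' ∈ W.erase 0) : K ν ν' =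
    kpush (fwF bl lam fun _ => false) ((WXF bl s Wt 0).erase 0) (KXF bl s Wt K lam v) ν ν' := by
  rw [kpush, bil h]
  simp [smat_old, sum_ite_eq', k, k']

end C2

open C2 in
/-- **the fat cube rings** -/
theorem cubf2 (ms : MSEC) : CUBF := fun s => ⟨6 * s + 3, by
  intro l σ τ κ _ _ _ _ bl n a b col W K cl Wt lam v h hb hv
  refine ⟨fun j => ⟨sz h hb hv, dn_wx h⟩, single_mem h,
    fun ω ν k μ z => smat_mem h (fun i c => absurd i.2 (not_lt.2 c)) k z, ?_⟩
  obtain ⟨e, S⟩ := ms σ _ τ _ _ _ col W K (fwF bl lam fun _ => false) Sum.inl (n + 1) s (dn_wx h)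
    (dnW h) (sz h hb hv (j := 0)).toOk (fun μ k => (mem_wx.1 k).1) (by omega) (fw_le h _)
    (fw_col h _) (fun ν k μ z => smat_mem h (fun _ _ => rfl) k z) (fun _ _ _ _ => rfl)
    (fun _ u _ => oneW h u)
    (fun ν c _ k => absurd (wl_mem h k) (by
      rwa [show wl (ν.mapDomain Sum.inl) = ν from
        Finsupp.ext fun t => Finsupp.mapDomain_apply Sum.inl_injective ν t]))
    fun ν k ν' k' z z' => push h (mem_erase.2 ⟨z, k⟩) (mem_erase.2 ⟨z', k'⟩)
  refine ⟨e, { S with ht := fun w x => (S.ht w x).trans (Int.ofNat_le.2 ?_) }⟩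
  have := card_τ h
  calc _ ≤ ((n + 2) * (n + 2)) ^ s := Nat.pow_le_pow_left (Nat.mul_le_mul (by omega) (by omega)) _
    _ = (n + 2) ^ (2 * s) := by rw [pow_mul, sq]
    _ ≤ _ := Nat.pow_le_pow_right (by omega) (by omega)⟩

end Crest.Agent.N49.Sw

end
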