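import Crest.Agent.N49.Sw.Box0
import Crest.Agent.N49.Tw.Cgen

/-!
# Row 49 (helper19): the box inequality on monomial rings (leaf `BOX`)
-/

set_option autoImplicit false
set_option linter.unusedSectionVars false

open Matrix MvPolynomial Finset

noncomputable section

namespace Crest.Agent.N49.Sw

open Po Tw Sd Tw.TS Tw.Sh

namespace Bx

section sm
variable {τ τ' τ0 : Type} [Fintype τ']

theorem smat_ren (φ : τ → τ' → ℤ) (f : τ0 → τ) (ν : τ' →₀ ℕ) (μ : τ0 →₀ ℕ) :
    smat φ ν (μ.mapDomain f) = smat (φ ∘ f) ν μ := by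
  rw [smat, smat, ← rename_monomial, lsub, aeval_rename]; rfl

theorem smat_zero {φ : τ → τ' → ℤ} {ν : τ' →₀ ℕ} {μ : τ →₀ ℕ} (h : smat φ ν μ ≠ 0) {a : τ}
    (z : φ a = 0) : μ a = 0 := by
  by_contra k
  refine h ?_
  rw [smat, lsub, aeval_monomial, Finsupp.prod, prod_eq_zero (Finsupp.mem_support_iff.2 k)
    (by simp [z, k]), mul_zero, coeff_zero]

theorem smat_sg [DecidableEq τ'] (f : τ → τ') (ν : τ' →₀ ℕ) (μ : τ →₀ ℕ) :
    smat (fun a => Pi.single (f a) 1) ν μ = if μ.mapDomain f = ν then 1 else 0 := by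
  have : (lsub (fun a => Pi.single (f a) 1) : MvPolynomial τ ℤ →ₐ[ℤ] _) = rename f :=
    algHom_ext fun a => by simp [lsub, Pi.single_apply]
  rw [smat, this, rename_monomial, coeff_monomial]

end sm

section hs
variable {σ τ τ0 : Type} [DecidableEq σ] [DecidableEq τ] [DecidableEq τ0] [Fintype τ0] {U : TS σ}
  {col : τ → σ} {W W' : Finset (τ →₀ ℕ)} {K K' : Kn τ} {π : τ ≃ τ}
  {h : ∀ μ ∈ W, Finsupp.domCongr π μ ∈ W'}

theorem hs_pb (c : (MR col W K).Ch (MR col W' K') (me π h)) (S : Sh σ τ0) {φ : τ → τ0 → ℤ}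
    (k : ∀ (μ : MW W') ν, smat φ ν μ.1 ≠ 0 → μ ∈ Set.range (me π h))
    (y : U.Cw (MR col W' K') → ℤ) : hs U S (φ ∘ π) (U.pb _ c y) = hs U S φ y := by
  funext p'
  refine sum_of_injOn (U.ce c) (ce_inj c).injOn (fun p hp => ?_) (fun p hp n => ?_) fun p _ => ?_
  · exact mem_coe.2 (mem_filter.2 ⟨mem_univ _, (mem_filter.1 hp).2⟩)
  · refine mul_eq_zero_of_left (of_not_not fun z => ?_) _
    obtain ⟨w, e⟩ := k p.1.2 _ z
    obtain ⟨x, -, rfl⟩ := ce_surj c p e
    exact n ⟨x, mem_coe.2 (mem_filter.2 ⟨mem_univ _, (mem_filter.1 hp).2⟩), rfl⟩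
  · refine congrArg (· * _) ((smat_ren φ π _ _).symm.trans (congrArg _ ?_))
    exact (Finsupp.equivMapDomain_eq_mapDomain π _).symm

omit [DecidableEq τ0] [Fintype τ0] in
theorem md_of [Fintype τ] (a : τ) {y y' : U.Cw (MR col W K) → ℤ}
    (e : ∀ c : U.Cw (MR col W K), (c.1.2 : MW W).1 a = 0 → y c = y' c) :
    Md U (MR col W K) (Pi.single a 1) y y' := by
  refine ⟨fun F => ∑ p : U.Cw (MR col W K) with p.1.1 = F,
    monomial ((p.1.2 : MW W).1 - Finsupp.single a 1) (y p - y' p), fun p => ?_⟩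
  have x : (∑ b, (Pi.single a 1 : τ → ℤ) b • X b : MvPolynomial τ ℤ) = X a := by
    simp [Pi.single_apply]
  rw [x, mul_sum, sum_congr rfl (g := fun p : U.Cw (MR col W K) =>
    monomial (p.1.2 : MW W).1 (y p - y' p)) fun p _ => ?_, coeff_sum, sum_eq_single p]
  · exact ((coeff_monomial _ _ _).trans (if_pos rfl)).symm
  · intro b hb n
    exact (coeff_monomial _ _ _).trans (if_neg fun z =>
      n (Subtype.ext (Prod.ext (mem_filter.1 hb).2 (Subtype.ext z))))
  · exact fun k => (k (mem_filter.2 ⟨mem_univ _, rfl⟩)).elim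
  · by_cases k : (p.1.2 : MW W).1 a = 0
    · simp [e p k]
    · rw [X, monomial_mul, one_mul, add_tsub_cancel_of_le
        (Finsupp.single_le_iff.2 (Nat.pos_of_ne_zero k))]

end hs

section cube
variable {l : ℕ}

/-- the vertices after `j` steps -/
def Om (l j : ℕ) : Finset (Fin l → Bool) := univ.filter fun ω => ∀ i : Fin l, j ≤ i.1 → ω i = false

theorem mem_Om {j : ℕ} {ω : Fin l → Bool} : ω ∈ Om l j ↔ ∀ i : Fin l, j ≤ i.1 → ω i = false := by
  simp [Om]

theorem Om_zero : Om l 0 = {fun _ => false} := by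
  ext ω; simp [mem_Om, funext_iff]

theorem Om_top : Om l l = univ := eq_univ_of_forall fun _ => mem_Om.2 fun i h => absurd i.2 (by omega)

theorem prod_Om (j : Fin l) (t : (Fin l → Bool) → ℂ) : ∏ ω ∈ Om l (j + 1), t ω =
    (∏ ω ∈ Om l j, t ω) * ∏ ω ∈ Om l j, t (Function.update ω j true) := by
  have n : ∀ i : Fin l, j.1 + 1 ≤ i.1 → i ≠ j := fun i h e => by rw [e] at h; omega
  have n' : ∀ i : Fin l, j.1 ≤ i.1 → i ≠ j → j.1 + 1 ≤ i.1 := fun i h e => by
    have := Fin.val_ne_of_ne e; omega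
  rw [← prod_filter_mul_prod_filter_not _ fun ω : Fin l → Bool => ω j = false]
  congr 1
  · refine prod_congr (Finset.ext fun ω => ?_) fun _ _ => rfl
    rw [mem_filter, mem_Om, mem_Om]
    refine ⟨fun ⟨a, b⟩ i hi => ?_, fun a => ⟨fun i hi => a i (by omega), a j le_rfl⟩⟩
    by_cases e : i = j
    · rwa [e]
    · exact a i (n' i hi e)
  · refine (prod_nbij' (fun ω : Fin l → Bool => Function.update ω j true)
      (fun ω : Fin l → Bool => Function.update ω j false)
      (fun ω a => ?_) (fun ω a => ?_) (fun ω a => ?_) (fun ω a => ?_) fun _ _ => rfl).symm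
    · refine mem_filter.2 ⟨mem_Om.2 fun i hi => ?_, by simp⟩
      rw [Function.update_of_ne (n i hi)]; exact mem_Om.1 a i (by omega)
    · refine mem_Om.2 fun i hi => ?_
      by_cases e : i = j
      · simp [e]
      · rw [Function.update_of_ne e]; exact mem_Om.1 (mem_filter.1 a).1 i (n' i hi e)
    · simp [mem_Om.1 a j le_rfl]
    · simpa using (mem_filter.1 a).2

theorem cj_mul (ω : Fin l → Bool) (a b : ℂ) : cj ω (a * b) = cj ω a * cj ω b := by
  unfold cj; split_ifs <;> simp

theorem norm_cj (ω : Fin l → Bool) (a : ℂ) : ‖cj ω a‖ = ‖a‖ := by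
  unfold cj; split_ifs <;> simp

theorem cj_zero (a : ℂ) : cj (fun _ : Fin l => false) a = a := by simp [cj]

theorem cj_up {ω : Fin l → Bool} {j : Fin l} (h : ω j = false) (a : ℂ) :
    cj (Function.update ω j true) a = (starRingEnd ℂ) (cj ω a) := by
  have : (univ.filter fun i => Function.update ω j true i = true) =
      insert j (univ.filter fun i => ω i = true) := by
    ext i; by_cases e : i = j <;> simp [e]
  unfold cj
  rw [this, card_insert_of_notMem (by simp [h])]
  simp only [Nat.even_add_one]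
  split_ifs <;> simp

theorem norm_pr {ι : Type} (s : Finset ι) {t : ι → ℂ} (h : ∀ i, ‖t i‖ ≤ 1) : ‖∏ i ∈ s, t i‖ ≤ 1 := by
  rw [norm_prod]; exact prod_le_one (fun _ _ => norm_nonneg _) fun i _ => h i

variable {σ τ : Type} [DecidableEq τ] [Fintype τ] {s n : ℕ} {a : ℝ} {col : τ → σ}
  {W : Finset (τ →₀ ℕ)} {K : Kn τ} {cl : Fin l → σ} {B : Finset (Fin l →₀ ℕ)}
  {lam : Fin l → τ → ℤ} {v : ℕ → ℝ}

theorem fw_sw {ω : Fin l → Bool} {j : Fin l} (h : ω j = false) :
    fw lam (Function.update ω j true) ∘ sc τ (Cc.sw j) = fw lam ω := by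
  funext x
  obtain a | ⟨i, b⟩ := x
  · rfl
  · change (if (Cc.sw j (i, b)).2 = Function.update ω j true (Cc.sw j (i, b)).1
      then lam (Cc.sw j (i, b)).1 else 0) = if b = ω i then lam i else 0
    rw [Cc.sw_fst]
    refine if_congr ?_ rfl rfl
    by_cases e : i = j
    · subst e; cases b <;> simp [Cc.sw, h]
    · rw [Cc.sw, Equiv.swap_apply_of_ne_of_ne (by simp [e]) (by simp [e]), Function.update_of_ne e]

theorem fw_col (h : Cb s n a col W K cl B lam v) (ω : Fin l → Bool) (x : τ ⊕ Fin l × Bool) (t : τ)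
    (z : fw lam ω x t ≠ 0) : Sum.elim col (fun i : Fin l × Bool => cl i.1) x = col t := by
  obtain x | x := x
  · have : t = x := by_contra fun e => z (Pi.single_eq_of_ne e _)
    rw [this]; rfl
  · refine (h.col x.1 t fun e => z ?_).symm
    change (if _ then lam x.1 else 0) t = 0
    split_ifs
    exacts [e, rfl]

/-- the old words -/
def io (h : Cb s n a col W K cl B lam v) (j : ℕ) (w : MW W) : MW (WX s W B j) :=
  ⟨w.1.mapDomain .inl, mem_erase.2 ⟨fun e => w.ne (Finsupp.mapDomain_injective Sum.inl_injective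
    (e.trans Finsupp.mapDomain_zero.symm)), by
    have r : wr (w.1.mapDomain (.inl : τ → τ ⊕ Fin l × Bool)) = 0 :=
      Finsupp.ext fun _ => Finsupp.mapDomain_of_notMem_range _ _ (by simp)
    have q : wl (w.1.mapDomain (.inl : τ → τ ⊕ Fin l × Bool)) = w.1 :=
      Finsupp.ext fun _ => Finsupp.mapDomain_apply Sum.inl_injective _ _
    rw [mem_WX, r, q, degree_col, Finsupp.mapDomain_zero]
    exact ⟨h.dg _ w.mem, w.mem, Cc.zero_Bj _ _ _, h.zB⟩⟩⟩

theorem pu_il (h : Cb s n a col W K cl B lam v) (j : ℕ) :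
    (MR col W K).pu (CX s col W K cl B lam v j) (smm col W 0 K _ il) = (rename (io h j)).toRingHom := by
  refine congrArg AlgHom.toRingHom (algHom_ext fun w : MW W => ?_)
  refine (aeval_X _ _).trans ?_
  change ∑ b : MW (WX s W B j), smat il b.1 w.1 • (X b : MvPolynomial _ ℝ) = rename (io h j) (X w)
  rw [rename_X, sum_eq_single (io h j w)]
  · rw [show smat il (io h j w).1 w.1 = 1 from (smat_sg _ _ _).trans (if_pos rfl), one_smul]
  · intro b _ e
    rw [show smat il b.1 w.1 = 0 from (smat_sg _ _ _).trans (if_neg fun z => e (Subtype.ext z.symm)),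
      zero_smul]
  · simp

variable [DecidableEq σ] {U : TS σ} {Ψ : U.Twd (MR col W K)}

theorem ts_il (h : Cb s n a col W K cl B lam v) (j : ℕ) (F : U.C) :
    ts U (CX s col W K cl B lam v j) il Ψ F = map (rename (io h j)).toRingHom (Ψ F) :=
  congrArg (fun f => MvPolynomial.map f (Ψ F)) (pu_il h j)

theorem kill_ts (h : Cb s n a col W K cl B lam v) {j j' : ℕ} {ρ : Fin l × Bool ≃ Fin l × Bool}
    {k : ∀ μ ∈ WX s W B j, Finsupp.domCongr (sc τ ρ) μ ∈ WX s W B j'}
    (i : Function.Injective (me _ k)) (F : U.C) :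
    map (killCompl i).toRingHom (ts U (CX s col W K cl B lam v j') il Ψ F) =
      ts U (CX s col W K cl B lam v j) il Ψ F := by
  rw [ts_il h, ts_il h]
  refine (MvPolynomial.map_map _ _ _).trans (congrArg (fun f => MvPolynomial.map f (Ψ F)) ?_)
  refine congrArg AlgHom.toRingHom (show (killCompl i).comp (rename (io h j')) = rename (io h j) from
    algHom_ext fun w => ?_)
  have e : io h j' w = me _ k (io h j w) := Subtype.ext (Finsupp.ext (by
    rintro (x | x)
    · rfl
    · exact (Finsupp.mapDomain_of_notMem_range _ _ (by simp)).trans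
        (Finsupp.mapDomain_of_notMem_range _ _ (by simp)).symm))
  rw [AlgHom.comp_apply, rename_X, rename_X, e, kill_X]

theorem tp_ts (h : Cb s n a col W K cl B lam v) : U.tp (CX s col W K cl B lam v 0) (MR col W K)
    (smm _ _ 0 _ _ (fw lam fun _ => false)) (ts U (CX s col W K cl B lam v 0) il Ψ) = Ψ := by
  funext F
  refine (congrArg (MvPolynomial.map _) (ts_il h 0 F)).trans ((MvPolynomial.map_map _ _ _).trans ?_)
  refine (congrArg (fun f => MvPolynomial.map f (Ψ F)) ?_).trans (map_id _)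
  refine congrArg AlgHom.toRingHom (show (hA ℝ (S := CX s col W K cl B lam v 0) (MR col W K)
    (smm _ _ 0 _ _ (fw lam fun _ => false))).comp (rename (io h 0)) = AlgHom.id ℝ _ from
    algHom_ext fun w : MW W => ?_)
  refine ((congrArg _ (rename_X _ _)).trans (aeval_X _ _)).trans ?_
  change ∑ b : MW W, smat (fw lam fun _ => false) b.1 (w.1.mapDomain .inl) •
    (X b : MvPolynomial _ ℝ) = X w
  have e : ∀ b : MW W, smat (fw lam fun _ => false) b.1 (w.1.mapDomain .inl) =
      if w = b then 1 else 0 := fun b => (smat_ren _ _ _ _).trans ((smat_sg id _ _).trans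
        (if_congr (by rw [Finsupp.mapDomain_id, Subtype.ext_iff]) rfl rfl))
  simp [e]

end cube

end Bx

open Bx

theorem box (hC : CUB) (hS : SBC) : BOX := fun s l => by
  obtain ⟨c, hC⟩ := hC s l
  refine ⟨c, fun σ τ _ _ _ U st M n N a b η δ col W K cl B lam v Ψ g f h b0 hv hN hU ha h0 h8 hM hP
    hg hf hI d0 hδ => ?_⟩
  obtain ⟨c1, -, c3, e, c4⟩ := hC σ τ n a b col W K cl B lam v h b0 hv
  have z : ∀ j, (CX s col W K cl B lam v j).Sz N b := fun j => (c1 j).1.mono hN le_rfl
  have ad : ∀ j, U.Adm (CX s col W K cl B lam v j) st (ts U _ il Ψ) := fun j =>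
    ha.tp fun _ _ k => smat_degree k
  refine ⟨ad l, ?_⟩
  let gk : ℕ → (U.Cw (MR col W K) → ℤ) → ℂ := fun k y => g y * ∏ i : Fin l with k ≤ i.1, f i y
  have gn : ∀ k y, ‖gk k y‖ ≤ 1 := fun k y => (norm_mul_le _ _).trans
    (mul_le_one₀ (hg y) (norm_nonneg _) (norm_pr _ fun i => hf i y))
  let G : ∀ j : ℕ, ℕ → (U.Cw (CX s col W K cl B lam v j) → ℤ) → ℂ := fun j k y =>
    ∏ ω ∈ Om l j, cj ω (gk k (hs U _ (fw lam ω) y))
  have Gn : ∀ j k y, ‖G j k y‖ ≤ 1 := fun j k y => norm_pr _ fun ω => (norm_cj _ _).trans_le (gn _ _)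
  have step : ∀ j : Fin l, ‖(U.tw (CX s col W K cl B lam v j) (ts U _ il Ψ)).Ec (G j j)‖ ^ 2 ≤
      2 * ‖(U.tw (CX s col W K cl B lam v (j + 1)) (ts U _ il Ψ)).Ec (G (j + 1) (j + 1))‖ := fun j => by
    have cc := cn j (K := K) (lam := lam) (v := v) (col := col) (cl := cl) (c1 j).2
    have := lcf cc (F := fun y => ∏ ω ∈ Om l j, cj ω (f j (hs U _ (fw lam ω) y))) (g := G j (j + 1))
      hU (z j).toOk (z _).toOk (ad j) (ad _) (kill_ts h _) (kill_ts h _) h0 h8
      (hM _ _ _ (ad j) (z j)) (hM _ _ _ (ad _) (z _))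
      (hM _ _ _ ((ad j).tp (Mh.hm_sub cc.idl).dg) (Cc.sz_sub (z j) cc.idl))
      (fun y => norm_pr _ fun ω => (norm_cj _ _).trans_le (hf _ _))
      (fun y y' k => prod_congr rfl fun ω hω => congrArg _ ?_) (Gn _ _)
    · refine (congrArg (‖·‖ ^ 2) (congrArg _ (_root_.funext fun y => ?_))).trans_le
        (this.trans_eq (congrArg (2 * ‖·‖) (congrArg _ (_root_.funext fun y => ?_))))
      · refine Eq.trans (prod_congr rfl fun ω _ => ?_) prod_mul_distrib
        rw [← cj_mul]
        refine congrArg _ ?_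
        have : (univ.filter fun i : Fin l => j.1 ≤ i.1) =
            insert j (univ.filter fun i : Fin l => j.1 + 1 ≤ i.1) := by
          ext i; simp only [mem_filter, mem_univ, true_and, mem_insert, Fin.ext_iff]; omega
        simp only [gk, this]
        rw [prod_insert (by simp)]; ring
      · refine Eq.trans ?_ (prod_Om j _).symm
        refine congrArg₂ _ (prod_congr rfl fun ω hω => congrArg (fun x => cj ω (gk _ x)) ?_)
          ((map_prod _ _ _).trans (prod_congr rfl fun ω hω => ?_))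
        · refine Eq.trans ?_ (hs_pb cc.c1 (MR col W K) (φ := fw lam ω) (fun μ ν k => r1 j μ
            (smat_zero k (if_neg (by simp [mem_Om.1 hω j le_rfl])))) y)
          exact congrArg (fun φ => hs U (MR col W K) φ (U.pb _ cc.c1 y))
            (funext (by rintro (x | x) <;> rfl))
        · have o := mem_Om.1 hω j le_rfl
          rw [cj_up o]
          refine congrArg (fun x => (starRingEnd ℂ) (cj ω (gk _ x))) ?_
          refine Eq.trans ?_ (hs_pb cc.c2 (MR col W K) (φ := fw lam (Function.update ω j true))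
            (fun μ ν k => r2 j μ (smat_zero k (if_neg (by simp)))) y)
          exact congrArg (fun φ => hs U (MR col W K) φ (U.pb _ cc.c2 y)) (fw_sw o).symm
    · have o := mem_Om.1 hω
      refine (hS σ _ τ U.C U id _ (WX s W B j) (KX s W K B lam v) col W K (fw lam ω)
        (fw_col h ω)).2.1 (Pi.single (.inr (j, false)) 1) (f j) (fun ν hν μ k => ?_) ?_ y y'
        (md_of _ k)
      · obtain ⟨a1, a2, a3, a4⟩ := mem_WX.1 (c3 ω ν hν μ k)
        obtain ⟨b1, b2, -⟩ := Cc.mem_Bj.1 a3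
        exact mem_WX.2 ⟨a1, a2, Cc.mem_Bj.2 ⟨b1, b2, fun i hi =>
          smat_zero k (a := .inr (i, true)) (if_neg (by simp [o i hi]))⟩, a4⟩
      · refine (congrArg (fun x => Inv U _ x (f j)) (funext fun t => ?_)).mpr (hI j)
        rw [sum_eq_single (.inr (j, false)) (fun x _ k => by rw [Pi.single_eq_of_ne k, zero_mul])
          (by simp), Pi.single_eq_same, one_mul]
        exact congrFun (if_pos (o j le_rfl).symm) t
  have base : δ ≤ ‖(U.tw (CX s col W K cl B lam v 0) (ts U _ il Ψ)).Ec (G 0 0)‖ := by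
    obtain ⟨J, _, _, ψ, N', Q, cJ, sp⟩ := lsec _ _ _ _ _ N _ e ⟨c4.ok, c4.hm, c4.K, c4.sec,
      fun w x => (c4.ht w x).trans (by exact_mod_cast hN), c4.gen⟩
      ((Nat.one_le_pow _ _ (by omega)).trans hN)
    have p := hP _ _ J _ _ _ _ ψ N' Q cJ (ad 0) (z 0) sp
    rw [tp_ts h] at p
    have q := p.Ec (tw_tri hU.cl (ad 0) (z 0).toOk) (tw_tri hU.cl ha h.sz.toOk) (gn 0)
    have e1 : gk 0 = fun y => g y * ∏ i, f i y := funext fun y => by simp [gk]
    have e2 : G 0 0 = fun y => gk 0 (hs U _ (fw lam fun _ => false) y) := funext fun y => by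
      simp only [G, Om_zero, prod_singleton, cj_zero]
    replace hδ := hδ.trans_eq (congrArg (fun x => ‖(U.tw _ Ψ).Ec x‖) e1.symm)
    rw [e2]
    have := norm_sub_norm_le ((U.tw _ Ψ).Ec (gk 0)) ((U.tw (CX s col W K cl B lam v 0)
      (ts U _ il Ψ)).Ec fun y => gk 0 (hs U _ (fw lam fun _ => false) y))
    rw [norm_sub_rev] at this
    replace this := sub_le_comm.1 (this.trans q)
    exact le_trans (by linarith) this
  have all : ∀ j ≤ l, (δ / 2) ^ 2 ^ j ≤
      ‖(U.tw (CX s col W K cl B lam v j) (ts U _ il Ψ)).Ec (G j j)‖ / 2 := fun j => by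
    induction j with
    | zero => intro _; simpa using div_le_div_of_nonneg_right base zero_le_two
    | succ j ih =>
      intro hj
      have := step ⟨j, hj⟩
      have i := pow_le_pow_left₀ (by positivity) (ih (by omega)) 2
      rw [pow_succ, pow_mul]
      rw [div_pow _ _ 2] at i
      change _ ≤ 2 * ‖(U.tw (CX s col W K cl B lam v (j + 1)) (ts U _ il Ψ)).Ec (G (j + 1) (j + 1))‖
        at this
      linarith
  refine (all l le_rfl).trans ((half_le_self (norm_nonneg _)).trans_eq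
    (congrArg (‖·‖) (congrArg _ (_root_.funext fun y => ?_))))
  simp only [G, Om_top, gk]
  refine prod_congr rfl fun ω _ => congrArg _ ?_
  rw [filter_false_of_mem fun i _ => not_le.2 i.2, prod_empty, mul_one]

end Crest.Agent.N49.Sw

end
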