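import Crest.Agent.N49.Sw.Defs

/-!
# Row 49 (helper10): wide brackets have a constant normaliser
-/

set_option autoImplicit false

open Matrix MvPolynomial Finset

noncomputable section

namespace Crest.Agent.N49.Sw

open Po Tw Sd

namespace Wn

/-- the one-dimensional weight -/
def g1 (v t : ℝ) (n : ℤ) : ℝ := Real.exp (-Real.pi * ((n - t) ^ 2 / v))

theorem g1_pos (v t : ℝ) (n : ℤ) : 0 < g1 v t n := Real.exp_pos _

theorem one_dim {v : ℝ} {k : ℕ} (h : (k + 1 : ℝ) ≤ v) (t : ℝ) :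
    Summable (g1 v t) ∧ |∑' n, g1 v t n - √v| ≤ 1 / 4 ^ k * √v := by
  have k0 : (0 : ℝ) ≤ k := Nat.cast_nonneg k
  have v0 : 0 < v := by linarith
  have hM : (diagonal fun _ : Unit => v⁻¹).PosDef := PosDef.diagonal fun _ => inv_pos.2 v0
  have iv : (diagonal fun _ : Unit => v⁻¹)⁻¹ = diagonal fun _ => v :=
    inv_eq_left_inv (by rw [diagonal_mul_diagonal, mul_inv_cancel₀ v0.ne', diagonal_one])
  have e : ∀ n : Unit → ℤ, gs (diagonal fun _ : Unit => v⁻¹) (zc n - fun _ => t) =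
      g1 v t (Equiv.funUnique Unit ℤ n) := fun n => by
    simp only [gs, qf, g1, dotProduct, mulVec_diagonal, Fintype.sum_unique, zc, Pi.sub_apply,
      Equiv.funUnique_apply]
    congr 1
    rw [div_eq_mul_inv]
    ring
  have d : dt (diagonal fun _ : Unit => v⁻¹) = √v := by simp [dt]
  have b : 2 * bz Unit v ≤ 1 / 4 ^ k := by
    have a1 : (4 : ℝ) ≤ Real.exp (3 / 2) := by
      rw [show (3 / 2 : ℝ) = 1 + 1 / 2 by norm_num, Real.exp_add]
      nlinarith [Real.exp_one_gt_d9, Real.add_one_le_exp (1 / 2)]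
    have a2 : (4 : ℝ) ^ (k + 1) ≤ Real.exp (Real.pi * v / 2) := by
      refine (pow_le_pow_left₀ (by norm_num) a1 _).trans ?_
      rw [← Real.exp_nat_mul, Real.exp_le_exp]
      push_cast
      nlinarith [Real.pi_gt_three]
    have a3 : √2 ≤ 2 := Real.sqrt_le_iff.2 ⟨by norm_num, by norm_num⟩
    rw [bz, Fintype.card_unit, pow_one, Real.exp_neg]
    calc _ ≤ 2 * (2 * ((4 : ℝ) ^ (k + 1))⁻¹) := by gcongr
      _ = _ := by rw [pow_succ]; field_simp; norm_num
  have b' : (1 : ℝ) / 4 ^ k ≤ 1 := div_le_one_of_le₀ (one_le_pow₀ (by norm_num)) (by positivity)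
  refine ⟨(Equiv.funUnique Unit ℤ).summable_iff.1 ((summable_gs hM _).congr e), ?_⟩
  have := smooth_short hM (R := v) (fun m hm => ?_) (by linarith) fun _ => t
  · rw [th, tsum_congr e, (Equiv.funUnique Unit ℤ).tsum_eq, d] at this
    exact this.trans (mul_le_mul_of_nonneg_right b (Real.sqrt_nonneg _))
  · have m0 : m () ≠ 0 := fun z => hm (funext fun _ => z)
    have : (1 : ℝ) ≤ (m () : ℝ) ^ 2 := by
      exact_mod_cast (one_le_sq_iff_one_le_abs _).2 (Int.one_le_abs m0)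
    simp only [iv, qf, dotProduct, mulVec_diagonal, Fintype.sum_unique, zc]
    nlinarith

/-- summing out a factor with an almost constant normaliser -/
theorem split {X Y : Type} {f : X → ℝ} {h : X → Y → ℝ} {c η : ℝ} (f0 : ∀ x, 0 ≤ f x)
    (h0 : ∀ x y, 0 ≤ h x y) (sf : Summable f) (sh : ∀ x, Summable (h x))
    (b : ∀ x, |∑' y, h x y - c| ≤ η * c) : (Summable fun p : X × Y => f p.1 * h p.1 p.2) ∧
    ∀ g : X → ℂ, (∀ x, ‖g x‖ ≤ 1) → ‖∑' p : X × Y, ((f p.1 * h p.1 p.2 : ℝ) : ℂ) * g p.1 -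
      c * ∑' x, (f x : ℂ) * g x‖ ≤ η * c * ∑' x, f x := by
  have s2 : Summable fun x => f x * ∑' y, h x y :=
    (sf.mul_right (c + η * c)).of_nonneg_of_le
      (fun x => mul_nonneg (f0 x) (tsum_nonneg (h0 x))) fun x =>
        mul_le_mul_of_nonneg_left (by linarith [(abs_le.1 (b x)).2]) (f0 x)
  have s : Summable fun p : X × Y => f p.1 * h p.1 p.2 :=
    (summable_prod_of_nonneg fun p => mul_nonneg (f0 _) (h0 _ _)).2
      ⟨fun x => (sh x).mul_left (f x), s2.congr fun x => tsum_mul_left.symm⟩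
  refine ⟨s, fun g hg => ?_⟩
  have n : ∀ {Z : Type} {u : Z → ℝ} (G : Z → ℂ), (∀ z, 0 ≤ u z) → Summable u → (∀ z, ‖G z‖ ≤ 1) →
      Summable fun z => (u z : ℂ) * G z := fun G u0 su hG => su.of_norm_bounded fun z => by
    rw [norm_mul, Complex.norm_real, Real.norm_of_nonneg (u0 z)]
    exact mul_le_of_le_one_right (u0 z) (hG z)
  have s3 := n (fun p : X × Y => g p.1) (fun p => mul_nonneg (f0 _) (h0 _ _)) s fun p => hg _
  have e : ∀ x, ∑' y, ((f x * h x y : ℝ) : ℂ) * g x = ((f x * ∑' y, h x y : ℝ) : ℂ) * g x :=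
    fun x => by rw [tsum_mul_right, ← Complex.ofReal_tsum, tsum_mul_left]
  rw [s3.tsum_prod, tsum_congr e, ← tsum_mul_left, ← (n g (fun x => mul_nonneg (f0 x)
    (tsum_nonneg (h0 x))) s2 hg).tsum_sub ((n g f0 sf hg).mul_left _), ← tsum_mul_left]
  refine tsum_of_norm_bounded (sf.mul_left _).hasSum fun x => ?_
  rw [← mul_assoc, ← sub_mul, norm_mul, ← Complex.ofReal_mul, ← Complex.ofReal_sub,
    Complex.norm_real, mul_comm c, ← mul_sub, norm_mul, Real.norm_of_nonneg (f0 x), mul_comm (η * c)]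
  exact (mul_le_of_le_one_right (by have := f0 x; positivity) (hg x)).trans
    (mul_le_mul_of_nonneg_left (b x) (f0 x))

/-- triangular systems of centres -/
def Tr {N : Type} (rk : N → ℕ) (θ : N → (N → ℤ) → ℝ) : Prop :=
  ∀ a k k', (∀ b, rk b < rk a → k b = k' b) → θ a k = θ a k'

theorem tri0 {ε : ℝ} (e0 : 0 ≤ ε) (n : ℕ) : ∀ (N : Type) [Fintype N] (rk : N → ℕ)
    (θ : N → (N → ℤ) → ℝ) (v : N → ℝ), Fintype.card N = n → Tr rk θ →
    (∀ a t, Summable (g1 (v a) t) ∧ |∑' n, g1 (v a) t n - √(v a)| ≤ ε * √(v a)) →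
    (Summable fun k : N → ℤ => ∏ a, g1 (v a) (θ a k) (k a)) ∧
    |∑' k : N → ℤ, ∏ a, g1 (v a) (θ a k) (k a) - ∏ a, √(v a)| ≤ ((1 + ε) ^ n - 1) * ∏ a, √(v a) := by
  classical
  induction n with
  | zero =>
    intro N _ rk θ v c _ _
    have := Fintype.card_eq_zero_iff.1 c
    exact ⟨.of_finite, by simp⟩
  | succ n ih =>
    intro N _ rk θ v c t h
    have : Nonempty N := Fintype.card_pos_iff.1 (by omega)
    obtain ⟨a0, -, ha⟩ := exists_max_image univ rk univ_nonempty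
    let E : (({a // a ≠ a0} → ℤ) × ℤ) ≃ (N → ℤ) :=
      (Equiv.prodComm _ _).trans (Equiv.funSplitAt a0 ℤ).symm
    have E1 : ∀ p, E p a0 = p.2 := fun p => by simp [E]
    have E2 : ∀ p (a : {a // a ≠ a0}), E p a = p.1 a := fun p a => by simp [E, a.2]
    have t0 : ∀ a x y, θ a (E (x, y)) = θ a (E (x, 0)) := fun a x y => t a _ _ fun b hb =>
      have : b ≠ a0 := fun z => absurd (ha a (mem_univ a)) (by rw [← z]; omega)
      (E2 _ ⟨b, this⟩).trans (E2 (x, 0) ⟨b, this⟩).symm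
    obtain ⟨s1, b1⟩ := ih {a // a ≠ a0} (fun a => rk a) (fun a x => θ a (E (x, 0))) (fun a => v a)
      (by rw [Fintype.card_subtype_compl, c]; simp)
      (fun a k k' e => t a _ _ fun b hb => by
        by_cases z : b = a0
        · rw [z, E1, E1]
        · exact (E2 _ ⟨b, z⟩).trans ((e ⟨b, z⟩ hb).trans (E2 (k', 0) ⟨b, z⟩).symm))
      fun a => h a
    obtain ⟨s2, b2⟩ := split (h := fun x => g1 (v a0) (θ a0 (E (x, 0))))
      (fun x => prod_nonneg fun a _ => (g1_pos _ _ _).le) (fun _ _ => (g1_pos _ _ _).le) s1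
      (fun x => (h a0 _).1) fun x => (h a0 _).2
    have e : ∀ p, (∏ a : {a // a ≠ a0}, g1 (v a) (θ a (E (p.1, 0))) (p.1 a)) *
        g1 (v a0) (θ a0 (E (p.1, 0))) p.2 = ∏ a, g1 (v a) (θ a (E p)) (E p a) := fun p => by
      rw [Fintype.prod_eq_mul_prod_subtype_ne _ a0, mul_comm, E1, t0 a0 p.1 p.2]
      exact congrArg _ (prod_congr rfl fun a _ => by rw [E2, t0 a p.1 p.2])
    refine ⟨E.summable_iff.1 (s2.congr e), ?_⟩
    have b3 := b2 1 fun _ => norm_one.le
    simp only [Pi.one_apply, mul_one] at b3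
    rw [← Complex.ofReal_tsum, ← Complex.ofReal_tsum, ← Complex.ofReal_mul, ← Complex.ofReal_sub,
      Complex.norm_real, Real.norm_eq_abs, tsum_congr e,
      E.tsum_eq fun k => ∏ a, g1 (v a) (θ a k) (k a)] at b3
    rw [Fintype.prod_eq_mul_prod_subtype_ne (fun a => √(v a)) a0]
    have q := Real.sqrt_nonneg (v a0)
    generalize √(v a0) = c0 at *
    generalize ∏ a : {a // a ≠ a0}, √(v a) = P at *
    generalize ∑' k : N → ℤ, ∏ a, g1 (v a) (θ a k) (k a) = Z at *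
    generalize ∑' k : {a // a ≠ a0} → ℤ, ∏ a : {a // a ≠ a0},
      g1 (v a) (θ a (E (k, 0))) (k a) = Z' at *
    have b4 := mul_le_mul_of_nonneg_left b1 q
    have b5 := mul_le_mul_of_nonneg_left (abs_le.1 b1).2 (mul_nonneg e0 q)
    calc _ = |(Z - c0 * Z') + c0 * (Z' - P)| := by ring_nf
      _ ≤ ε * c0 * Z' + c0 * |Z' - P| := (abs_add_le _ _).trans
        (add_le_add b3 (by rw [abs_mul, abs_of_nonneg q]))
      _ ≤ _ := by rw [pow_succ]; nlinarith

/-- **triangular sums of wide Gaussians** -/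
theorem tri {N : Type} [Fintype N] {rk : N → ℕ} {θ : N → (N → ℤ) → ℝ} {v : N → ℝ} {c m : ℕ}
    (hc : Fintype.card N ≤ c) (t : Tr rk θ) (h : ∀ a, (c + m + 1 : ℝ) ≤ v a) :
    (Summable fun k : N → ℤ => ∏ a, g1 (v a) (θ a k) (k a)) ∧
    |∑' k : N → ℤ, ∏ a, g1 (v a) (θ a k) (k a) - ∏ a, √(v a)| ≤ 1 / 2 ^ m * ∏ a, √(v a) := by
  obtain ⟨s, b⟩ := tri0 (ε := 1 / 4 ^ (c + m)) (by positivity) _ N rk θ v rfl t fun a =>
    one_dim (by push_cast; exact h a)
  refine ⟨s, b.trans (mul_le_mul_of_nonneg_right ?_ (prod_nonneg fun _ _ => Real.sqrt_nonneg _))⟩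
  have a1 : (2 * c : ℝ) ≤ 4 ^ c := by
    have : 2 * c ≤ 4 ^ c := by
      rw [show 4 = 2 ^ 2 from rfl, ← pow_mul]; exact Nat.lt_two_pow_self.le
    exact_mod_cast this
  have a2 : (2 : ℝ) ^ m ≤ 4 ^ m := pow_le_pow_left₀ zero_le_two (by norm_num) m
  have a3 : 2 * (c * (1 / 4 ^ (c + m) : ℝ)) ≤ 1 / 2 ^ m := by
    rw [pow_add, ← mul_assoc, mul_one_div, div_le_div_iff₀ (by positivity) (by positivity), one_mul]
    gcongr
  have a4 : (1 : ℝ) / 2 ^ m ≤ 1 := div_le_one_of_le₀ (one_le_pow₀ one_le_two) (by positivity)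
  have a5 : (0 : ℝ) ≤ c * (1 / 4 ^ (c + m)) := by positivity
  have a6 := Real.abs_exp_sub_one_le (x := c * (1 / 4 ^ (c + m))) (by rw [abs_of_nonneg a5]; linarith)
  rw [abs_of_nonneg a5] at a6
  refine le_trans ?_ (((le_abs_self _).trans a6).trans a3)
  rw [Real.exp_nat_mul, sub_le_sub_iff_right]
  refine (pow_le_pow_right₀ (le_add_of_nonneg_right (by positivity)) hc).trans
    (pow_le_pow_left₀ (by positivity) ?_ _)
  rw [add_comm]
  exact Real.add_one_le_exp _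

theorem tr_of {C Λ : Type} {B : Bk C Λ} (h : B.Tri) (y : C → ℝ) :
    Tr B.rk fun a k => eval (Sum.elim y fun a => (k a : ℝ)) (B.Θ a) := fun a _ _ e =>
  eval_congr fun w hw => by
    cases w with
    | inl c => rfl
    | inr b => exact congrArg Int.cast (e b (h a b hw))

end Wn

open Wn

theorem wn : WN := fun _ _ _ _ _ y t h => tri le_rfl (tr_of t y) h

theorem ws : WS := by
  classical
  intro C Λ Λ0 B B0 j v m y g t t0 hj e h hg
  let E : ((B0.N → ℤ) × ({a // a ∉ Set.range j} → ℤ)) ≃ (B.N → ℤ) :=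
    ((Equiv.prodCongrLeft fun _ => Equiv.arrowCongr (Equiv.ofInjective j hj) (Equiv.refl ℤ)).trans
      (Equiv.piEquivPiSubtypeProd (· ∈ Set.range j) fun _ => ℤ).symm)
  have E1 : ∀ p a, E p (j a) = p.1 a := fun p a => by
    simp [E, Equiv.piEquivPiSubtypeProd, Equiv.ofInjective_symm_apply]
  have E2 : ∀ p (a : {a // a ∉ Set.range j}), E p a = p.2 a := fun p a => dif_neg a.2
  have P : ∀ F : B.N → ℝ, ∏ a, F a = (∏ a, F (j a)) * ∏ a : {a // a ∉ Set.range j}, F a := fun F => by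
    rw [← Fintype.prod_subtype_mul_prod_subtype (· ∈ Set.range j)]
    exact congrArg (· * _) (@Fintype.prod_equiv _ _ _ _ (Subtype.fintype _) _
      (Equiv.ofInjective j hj) _ _ fun _ => rfl).symm
  obtain ⟨s0, b0⟩ := tri (Fintype.card_le_of_injective j hj) (tr_of t0 y) fun a => h (j a)
  have k : ∀ x : B0.N → ℤ, _ := fun x => tri (N := {a // a ∉ Set.range j}) (rk := fun a => B.rk a)
    (θ := fun a z => eval (Sum.elim y fun b => (E (x, z) b : ℝ)) (B.Θ a)) (v := fun a => v a)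
    (Fintype.card_subtype_le _) (fun a z z' q => tr_of t y a _ _ fun b hb => by
      by_cases r : b ∈ Set.range j
      · obtain ⟨b, rfl⟩ := r
        rw [E1, E1]
      · exact (E2 _ ⟨b, r⟩).trans ((q ⟨b, r⟩ hb).trans (E2 (x, z') ⟨b, r⟩).symm)) fun a => h a
  have b := (split (fun x => prod_nonneg fun a _ => (g1_pos _ _ _).le)
    (fun x z => prod_nonneg fun a _ => (g1_pos _ _ _).le) s0 (fun x => (k x).1)
    fun x => (k x).2).2 g hg
  have q : ∀ p : (B0.N → ℤ) × ({a // a ∉ Set.range j} → ℤ), (((∏ a, g1 (v (j a))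
      (eval (Sum.elim y fun a => (p.1 a : ℝ)) (B0.Θ a)) (p.1 a)) * ∏ a : {a // a ∉ Set.range j},
        g1 (v a) (eval (Sum.elim y fun b => (E (p.1, p.2) b : ℝ)) (B.Θ a)) (p.2 a) : ℝ) : ℂ) *
        g p.1 = (bw B v y (E p) : ℂ) * g (E p ∘ j) := fun p => by
    rw [show E p ∘ j = p.1 from funext (E1 p), bw, P]
    refine congrArg (fun x : ℝ => (x : ℂ) * _) (congrArg₂ (· * ·) (prod_congr rfl fun a _ => ?_)
      (prod_congr rfl fun a _ => by rw [E2]; rfl))
    rw [e, eval_rename, E1]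
    refine congrArg (fun u => g1 _ (eval u _) _) (funext fun w => ?_)
    cases w with
    | inl c => rfl
    | inr b => exact congrArg Int.cast (E1 p b).symm
  rw [tsum_congr q, E.tsum_eq fun k => (bw B v y k : ℂ) * g (k ∘ j)] at b
  have v0 : ∀ a, 0 < √(v a) := fun a => Real.sqrt_pos.2 (lt_of_lt_of_le (by positivity) (h a))
  have p0 : 0 < ∏ a, √(v (j a)) := prod_pos fun a _ => v0 _
  have p1 : 0 < ∏ a : {a // a ∉ Set.range j}, √(v a) := prod_pos fun a _ => v0 _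
  have a4 : (1 : ℝ) / 2 ^ m ≤ 1 := div_le_one_of_le₀ (one_le_pow₀ one_le_two) (by positivity)
  rw [P fun a => √(v a)]
  generalize ∏ a, √(v (j a)) = c0 at *
  generalize ∏ a : {a // a ∉ Set.range j}, √(v a) = c1 at *
  have z : ∀ Z Z0 : ℂ, Z / (c0 * c1 : ℝ) - Z0 / c0 = (Z - c1 * Z0) / (c0 * c1 : ℝ) := fun Z Z0 => by
    have := Complex.ofReal_ne_zero.2 p0.ne'
    have := Complex.ofReal_ne_zero.2 p1.ne'
    push_cast
    field_simp
  rw [z, norm_div, Complex.norm_real, Real.norm_of_nonneg (mul_pos p0 p1).le,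
    div_le_iff₀ (mul_pos p0 p1)]
  refine b.trans ?_
  have := (abs_le.1 b0).2
  calc _ ≤ 1 / 2 ^ m * c1 * (2 * c0) := by gcongr; nlinarith
    _ = _ := by ring

end Crest.Agent.N49.Sw

end
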