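import Crest.Agent.N49.Sw.Df2
import Crest.Agent.N49.Sw.Wn
import Crest.Agent.N49.Tw.Api
import Crest.Agent.N49.Tw.ConM

/-!
# Row 49 (helper64): from the merged colours to the relabelled brackets
-/

set_option autoImplicit false

open Matrix MvPolynomial Finset

noncomputable section

namespace Crest.Agent.N49.Sw

open Po Tw Sd

namespace Tf

/-- a ratio of two sums with an almost constant inner normaliser -/
theorem one {X Y : Type} {f : X → ℝ} {h : X → Y → ℝ} {c η : ℝ} (g : X → Y → ℂ) (f0 : ∀ x, 0 ≤ f x)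
    (h0 : ∀ x y, 0 ≤ h x y) (sf : Summable f) (sh : ∀ x, Summable (h x)) (c0 : 0 < c)
    (b : ∀ x, |∑' y, h x y - c| ≤ η * c) (hg : ∀ x y, ‖g x y‖ ≤ 1) :
    (Summable fun x => (f x : ℂ) * ((∑' y, (h x y : ℂ) * g x y) / (c : ℝ))) ∧
    |‖∑' x, (f x : ℂ) * ((∑' y, (h x y : ℂ) * g x y) / (c : ℝ))‖ -
      ‖(∑' p : X × Y, ((f p.1 * h p.1 p.2 : ℝ) : ℂ) * g p.1 p.2) /
        (∑' p : X × Y, f p.1 * h p.1 p.2 : ℝ)‖ * ∑' x, f x| ≤ η * ∑' x, f x := by
  obtain ⟨s, b1⟩ := Wn.split f0 h0 sf sh b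
  have p0 : ∀ p : X × Y, 0 ≤ f p.1 * h p.1 p.2 := fun p => mul_nonneg (f0 _) (h0 _ _)
  have nb : ∀ p : X × Y, ‖((f p.1 * h p.1 p.2 : ℝ) : ℂ) * g p.1 p.2‖ ≤ f p.1 * h p.1 p.2 := fun p => by
    rw [norm_mul, Complex.norm_real, Real.norm_of_nonneg (p0 p)]
    exact mul_le_of_le_one_right (p0 p) (hg _ _)
  have s3 : Summable fun p : X × Y => ((f p.1 * h p.1 p.2 : ℝ) : ℂ) * g p.1 p.2 :=
    s.of_norm_bounded nb
  have e : ∀ x, (f x : ℂ) * ((∑' y, (h x y : ℂ) * g x y) / (c : ℝ)) =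
      (∑' y, ((f x * h x y : ℝ) : ℂ) * g x y) / (c : ℝ) := fun x => by
    rw [← mul_div_assoc, ← tsum_mul_left]
    exact congrArg (· / _) (tsum_congr fun y => by push_cast; ring)
  have b2 := b1 1 fun _ => norm_one.le
  simp only [Pi.one_apply, mul_one] at b2
  rw [← Complex.ofReal_tsum, ← Complex.ofReal_tsum, ← Complex.ofReal_mul, ← Complex.ofReal_sub,
    Complex.norm_real, Real.norm_eq_abs] at b2
  refine ⟨(s3.prod.div_const _).congr fun x => (e x).symm, ?_⟩
  have b3 := tsum_of_norm_bounded s.hasSum nb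
  rw [tsum_congr e, tsum_div_const, ← s3.tsum_prod, norm_div, norm_div, Complex.norm_real,
    Complex.norm_real, Real.norm_of_nonneg c0.le, Real.norm_of_nonneg (tsum_nonneg p0)]
  have z0 : 0 ≤ ∑' p : X × Y, f p.1 * h p.1 p.2 := tsum_nonneg p0
  have n0 := norm_nonneg (∑' p : X × Y, ((f p.1 * h p.1 p.2 : ℝ) : ℂ) * g p.1 p.2)
  generalize ‖∑' p : X × Y, ((f p.1 * h p.1 p.2 : ℝ) : ℂ) * g p.1 p.2‖ = N at *
  generalize ∑' p : X × Y, f p.1 * h p.1 p.2 = Z at *
  generalize ∑' x, f x = F at *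
  have r1 : N / Z ≤ 1 := div_le_one_of_le₀ b3 z0
  have r0 : 0 ≤ N / Z := div_nonneg n0 z0
  have r2 : N = N / Z * Z := by
    rcases z0.eq_or_lt with z | z
    · rw [← z, mul_zero]; exact le_antisymm (z ▸ b3) n0
    · rw [div_mul_cancel₀ _ z.ne']
  generalize N / Z = r at *
  have : N / c - r * F = r * (Z - c * F) / c := by rw [r2]; field_simp
  rw [this, abs_div, abs_of_pos c0, div_le_iff₀ c0, abs_mul, abs_of_nonneg r0]
  exact (mul_le_of_le_one_left (abs_nonneg _) r1).trans (b2.trans_eq (by ring))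

/-- comparison of two such ratios -/
theorem two {X Y Y' : Type} {f : X → ℝ} {h : X → Y → ℝ} {h' : X → Y' → ℝ} {c c' η : ℝ}
    (g : X → Y → ℂ) (g' : X → Y' → ℂ) (f0 : ∀ x, 0 ≤ f x) (h0 : ∀ x y, 0 ≤ h x y)
    (h0' : ∀ x y, 0 ≤ h' x y) (sf : Summable f) (F0 : 0 < ∑' x, f x) (sh : ∀ x, Summable (h x))
    (sh' : ∀ x, Summable (h' x)) (c0 : 0 < c) (c0' : 0 < c') (b : ∀ x, |∑' y, h x y - c| ≤ η * c)
    (b' : ∀ x, |∑' y, h' x y - c'| ≤ η * c') (hg : ∀ x y, ‖g x y‖ ≤ 1) (hg' : ∀ x y, ‖g' x y‖ ≤ 1)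
    (d : ∀ x, ‖(∑' y, (h' x y : ℂ) * g' x y) / (c' : ℝ) -
      (∑' y, (h x y : ℂ) * g x y) / (c : ℝ)‖ ≤ 2 * η) :
    ‖(∑' p : X × Y, ((f p.1 * h p.1 p.2 : ℝ) : ℂ) * g p.1 p.2) /
        (∑' p : X × Y, f p.1 * h p.1 p.2 : ℝ)‖ ≤
      ‖(∑' p : X × Y', ((f p.1 * h' p.1 p.2 : ℝ) : ℂ) * g' p.1 p.2) /
        (∑' p : X × Y', f p.1 * h' p.1 p.2 : ℝ)‖ + 4 * η := by
  obtain ⟨s1, b1⟩ := one g f0 h0 sf sh c0 b hg
  obtain ⟨s2, b2⟩ := one g' f0 h0' sf sh' c0' b' hg'
  have b3 := tsum_of_norm_bounded (sf.mul_right (2 * η)).hasSum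
    (f := fun x => (f x : ℂ) * ((∑' y, (h' x y : ℂ) * g' x y) / (c' : ℝ)) -
      (f x : ℂ) * ((∑' y, (h x y : ℂ) * g x y) / (c : ℝ))) fun x => by
    rw [← mul_sub, norm_mul, Complex.norm_real, Real.norm_of_nonneg (f0 x)]
    exact mul_le_mul_of_nonneg_left (d x) (f0 x)
  rw [s2.tsum_sub s1, tsum_mul_right, norm_sub_rev] at b3
  have b4 := (norm_sub_norm_le _ _).trans b3
  refine le_of_mul_le_mul_right ?_ F0
  linarith [(abs_le.1 b1).1, (abs_le.1 b2).2]

section vb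
variable {C σ τ : Type} [DecidableEq σ] [DecidableEq τ] (B : Bk (VV C σ) σ) (col : τ → σ)
  (W : Finset (τ →₀ ℕ))

/-- the value of a bracket at a word -/
def vb {R : Type} [Zero R] (k : (sp B col W).N → R) (a : B.N) (μ : τ →₀ ℕ) : R :=
  if h : μ ∈ W.erase 0 ∧ μ.mapDomain col = B.wd a then k ⟨(a, ⟨μ, h.1⟩), h.2⟩ else 0

/-- a configuration on the universal variables from its two parts -/
def zz (y : VV C τ → ℝ) (k : (sp B col W).N → ℝ) (v : VV (C ⊕ B.N) τ) : ℝ :=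
  v.1.elim (fun F => y (F, v.2)) fun a => vb B col W k a v.2

theorem sp_Θ (x : (sp B col W).N) : (sp B col W).Θ x =
    aeval (Sum.elim (fun v => X (.inl (v.1, sw col x.1.2.1 v.2))) fun a =>
      vb B col W (fun z => X (.inr z)) a (sw col x.1.2.1 (B.wd a))) (B.Θ x.1.1) := rfl

theorem map_vb {R R' : Type} [Zero R] [Zero R'] (φ : R → R') (h : φ 0 = 0)
    (k : (sp B col W).N → R) (a : B.N) (μ : τ →₀ ℕ) :
    φ (vb B col W k a μ) = vb B col W (fun z => φ (k z)) a μ := by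
  unfold vb
  split_ifs
  exacts [rfl, h]

theorem card_sp : Fintype.card (sp B col W).N ≤ Fintype.card B.N * #W := by
  refine (Fintype.card_subtype_le _).trans ?_
  rw [Fintype.card_prod, Fintype.card_coe]
  exact Nat.mul_le_mul_left _ card_erase_le

end vb

section ec
variable {σ τ : Type} [Fintype σ] [DecidableEq σ] [DecidableEq τ] (s : ℕ) (T : TS Unit)
  (B : Bk (VV T.C σ) σ) (w : ℝ) (col : τ → σ) (W : Finset (τ →₀ ℕ)) (K : Kn τ)

theorem zc_res (y : (cE s T B w).Cw (MR col W K) → ℤ) :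
    res s T B w col W K (zc y) = zc (res s T B w col W K y) :=
  funext fun _ => (Int.cast_sum _ _).symm

theorem ex_eq (y : (cE s T B w).Cw (MR col W K) → ℝ) :
    ex (cE s T B w) (MR col W K) (fm s T B w) y =
      zz B col W (ex T _ id (res s T B w col W K y)) (nw s T B w col W K y) := by
  funext ⟨c, μ⟩
  cases c with
  | inl F =>
    change _ = ∑ p : T.Cw (MR (fun _ => ()) W K) with p.1.1 = F ∧ p.1.2.1 = μ,
      res s T B w col W K y p
    by_cases h : ∃ p : T.Cw (MR (fun _ => ()) W K), p.1.1 = F ∧ p.1.2.1 = μ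
    · obtain ⟨p, rfl, rfl⟩ := h
      refine Eq.symm (sum_eq_single_of_mem p (mem_filter.2 (And.intro (mem_univ _)
        (And.intro rfl rfl))) fun q hq n => ?_)
      exact absurd (Subtype.ext (Prod.ext (mem_filter.1 hq).2.1
        (Subtype.ext (mem_filter.1 hq).2.2))) n
    · refine Eq.trans (sum_eq_zero fun q hq => absurd ?_ h)
        (sum_eq_zero fun q hq => (h ⟨q, (mem_filter.1 hq).2⟩).elim).symm
      obtain ⟨⟨c, ν⟩, e⟩ := q
      obtain ⟨e1, e2⟩ := (mem_filter.1 hq).2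
      cases c with
      | inr a => cases e1
      | inl p =>
        refine ⟨⟨(p.1.1, ν), ?_⟩, Sum.inl.inj e1, e2⟩
        have e' : ν.1.mapDomain col = p.1.2.1 := e
        exact (Finsupp.mapDomain_comp (f := col) (g := fun _ => ())).trans
          ((congrArg _ e').trans p.2)
  | inr a =>
    change _ = vb B col W _ a μ
    unfold vb
    have k : ∀ q : (cE s T B w).Cw (MR col W K), fm s T B w q.1.1 = .inr a → q.1.1 = .inr a := by
      rintro ⟨⟨c | c, ν⟩, e⟩ h
      · cases h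
      · exact congrArg Sum.inr (Sum.inr.inj h)
    split_ifs with h
    · refine sum_eq_single_of_mem (⟨(.inr a, ⟨μ, h.1⟩), h.2⟩ : (cE s T B w).Cw (MR col W K))
        (mem_filter.2 ⟨mem_univ _, rfl, rfl⟩) fun q hq n => ?_
      exact absurd (Subtype.ext (Prod.ext (k q (mem_filter.1 hq).2.1)
        (Subtype.ext (mem_filter.1 hq).2.2))) n
    · refine sum_eq_zero fun q hq => absurd ?_ h
      obtain ⟨e1, e2⟩ := (mem_filter.1 hq).2
      have e3 : q.1.2.1 = μ := e2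
      exact e3 ▸ ⟨q.1.2.2, q.2.trans (congrArg (cE s T B w).deg (k q e1))⟩

omit [Fintype σ] in
theorem gs_KN {C : Type} (B : Bk (VV C σ) σ) {κ : ℝ} (h : w * κ ≠ 0) (u : (sp B col W).N → ℝ) :
    gs (KN B w col W (dk fun _ => κ))⁻¹ u =
      ∏ x, Real.exp (-Real.pi * (u x ^ 2 / (w * κ))) := by
  have e : KN B w col W (dk fun _ => κ) = diagonal fun _ => w * κ := by
    ext x x'
    rw [diagonal_apply]
    by_cases z : x = x'
    · subst z
      simp [KN, dk]
    · rw [if_neg z]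
      by_cases z1 : x.1.1 = x'.1.1
      · have : x.1.2.1 ≠ x'.1.2.1 := fun k => z (Subtype.ext (Prod.ext z1 (Subtype.ext k)))
        exact (if_pos z1).trans (mul_eq_zero_of_right _ (if_neg this))
      · exact if_neg z1
  have iv : (diagonal fun _ : (sp B col W).N => w * κ)⁻¹ = diagonal fun _ => (w * κ)⁻¹ :=
    inv_eq_left_inv (by rw [diagonal_mul_diagonal, inv_mul_cancel₀ h, diagonal_one])
  rw [e, iv, ← Real.exp_sum, gs, qf, dotProduct, ← neg_mul, mul_sum]
  refine congrArg _ (sum_congr rfl fun x _ => ?_)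
  rw [mulVec_diagonal, div_eq_mul_inv]
  ring

theorem wt_tw0 {σ τ : Type} [DecidableEq σ] (U : TS σ) (S : Sh σ τ) (y : U.Cw S → ℤ) :
    (U.sh S).wt y = (U.tw S (U.tw0 S)).wt y :=
  have : (U.tw S (U.tw0 S)).Φ = (U.sh S).Φ :=
    funext fun p => congrArg (S.cf _ p.1.2) (TS.eval₂_tw0 _ _)
  congrArg (fun Φ => ((U.sh S).setΦ Φ).wt y) this.symm

variable {s T B w col W}

theorem bi_eq (hA : COLA) (hW : COLW) {M : ℕ} {st : T.C → ℕ} {κ : ℝ} (hT : Tb T st M s)
    (hB : Bo B) (hd : ∀ a, (B.wd a).degree ≤ s) (w0 : 0 < w) (k0 : 0 < κ) (dn : Dn W)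
    (o : (MR col W (dk fun _ => κ)).Ok) (o0 : (MR (fun _ => ()) W (dk fun _ => κ)).Ok)
    (Q : MvPolynomial (VV (T.C ⊕ B.N) τ) ℝ) :
    Bo (sp B col W) ∧ bi (cE s T B w) (MR col W (dk fun _ => κ)) (fm s T B w) Q =
      ‖(∑' p : (T.Cw (MR (fun _ => ()) W (dk fun _ => κ)) → ℤ) × ((sp B col W).N → ℤ),
        (((T.tw _ (T.tw0 _)).wt p.1 * bw (sp B col W) (fun _ => w * κ) (ex T _ id (zc p.1)) p.2 :
          ℝ) : ℂ) * ee (eval (zz B col W (ex T _ id (zc p.1)) (zc p.2)) Q)) /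
      (∑' p : (T.Cw (MR (fun _ => ()) W (dk fun _ => κ)) → ℤ) × ((sp B col W).N → ℤ),
        (T.tw _ (T.tw0 _)).wt p.1 * bw (sp B col W) (fun _ => w * κ) (ex T _ id (zc p.1)) p.2 :
          ℝ)‖ := by
  obtain ⟨-, h2, -, h4, -, h6, h7, -⟩ := hW σ τ s M T st B w col W _ (T.tw0 _) hT hB hd w0 dn o
    (hT.stg.adm o0)
  refine ⟨h2, congrArg norm ?_⟩
  have e0 := ((hA σ s M T st B w hT hB hd w0).2.2 τ col W (dk fun _ => κ)).2
  rw [e0] at h6 h7
  let E := Equiv.ofBijective _ h4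
  have e1 : ∀ y, ((cE s T B w).sh (MR col W (dk fun _ => κ))).wt y =
      (T.tw _ (T.tw0 _)).wt (E y).1 * bw (sp B col W) (fun _ => w * κ)
        (ex T _ id (zc (E y).1)) (E y).2 := fun y => by
    rw [wt_tw0, h7, gs_KN _ _ _ _ (mul_pos w0 k0).ne']
    refine congrArg _ (prod_congr rfl fun x _ => ?_)
    rw [h6]
    exact congrArg (fun z => Real.exp (-Real.pi * ((_ - eval (Sum.elim (ex T _ id z) _) _) ^ 2 / _)))
      (zc_res s T B w col W _ y)
  refine congrArg₂ (· / ·) ?_ (congrArg _ ?_)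
  · refine Eq.trans (tsum_congr fun y => ?_) (E.tsum_eq _)
    refine congrArg₂ (fun (a : ℝ) z => (a : ℂ) * ee (eval z Q)) (e1 y)
      ((ex_eq s T B w col W _ (zc y)).trans ?_)
    exact congrArg (fun z => zz B col W (ex T _ id z) _) (zc_res s T B w col W _ y)
  · exact (tsum_congr e1).trans (E.tsum_eq fun p => (T.tw _ (T.tw0 _)).wt p.1 *
      bw (sp B col W) (fun _ => w * κ) (ex T _ id (zc p.1)) p.2)

end ec

theorem alg_congr {V A : Type} [CommSemiring A] [Algebra ℝ A] {f g : MvPolynomial V ℝ →ₐ[ℝ] A}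
    {P : MvPolynomial V ℝ} (h : ∀ v ∈ P.vars, f (X v) = g (X v)) : f P = g P :=
  hom_congr_vars (f₁ := f.toRingHom) (f₂ := g.toRingHom)
    (RingHom.ext fun r => (f.commutes r).trans (g.commutes r).symm) (fun v hv _ => h v hv) rfl

theorem aev {V A : Type} [CommSemiring A] [Algebra ℝ A] {f g : V → A}
    {P : MvPolynomial V ℝ} (h : ∀ v ∈ P.vars, f v = g v) : aeval f P = aeval g P :=
  alg_congr fun v hv => (aeval_X _ _).trans ((h v hv).trans (aeval_X _ _).symm)

theorem sw_eq {σ : Type} [DecidableEq σ] (π : Equiv.Perm σ) (c : σ → σ) {ω ν ν' : σ →₀ ℕ}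
    (h1 : ∀ u, ω u ≤ 1) (h2 : ν ≤ ω) (h3 : ∀ u, ω u ≠ 0 → ν' (c (π u)) = ν u) :
    sw c (ω.mapDomain π) ν' = ν.mapDomain π := by
  ext u
  obtain ⟨u, rfl⟩ := π.surjective u
  rw [sw, Finsupp.filter_apply, Finsupp.mapDomain_apply π.injective,
    Finsupp.mapDomain_apply π.injective]
  have a := h1 u
  have b : ν u ≤ ω u := h2 u
  by_cases z : ω u = 0
  · split_ifs <;> omega
  · rw [h3 u z]
    split_ifs <;> omega

section cmb
variable {C σ : Type} [Fintype σ] [DecidableEq σ] {B : Bk (VV C σ) σ} {E : Finset σ} {x t : σ}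
  {π1 π2 : GE E} {W : Finset (σ →₀ ℕ)}

/-- the data of the transposition -/
structure Dt (B : Bk (VV C σ) σ) (x t : σ) (π1 π2 : GE E) : Prop where
  bo : Bo B
  z : ∀ a, B.wd a x = 0
  ne : t ≠ x
  e1 : π1.1 = 1
  e2 : π2.1 = Equiv.swap t x

/-- the relabelling attached to a word -/
def fp (x : σ) (π1 π2 : GE E) (μ : σ →₀ ℕ) : GE E := if μ x = 0 then π1 else π2

theorem fp_or (μ : σ →₀ ℕ) : fp x π1 π2 μ = π1 ∨ fp x π1 π2 μ = π2 := by
  unfold fp
  split_ifs
  exacts [.inl rfl, .inr rfl]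

theorem sy_wd (π : GE E) (a : B.N) : (sy B E).wd (syn B E π a) = (B.wd a).mapDomain π.1 :=
  Finsupp.mapDomain_congr fun _ h => if_neg (Finsupp.mem_support_iff.1 h)

variable (D : Dt B x t π1 π2)
include D

theorem Dt.col {π : GE E} (h : π = π1 ∨ π = π2) {u : σ} (hu : u ≠ x) :
    Function.update id x t (π.1 u) = u := by
  rcases h with rfl | rfl
  · rw [D.e1]
    exact Function.update_of_ne hu _ _
  · rw [D.e2]
    by_cases z : u = t
    · rw [z, Equiv.swap_apply_left, Function.update_self]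
    · rw [Equiv.swap_apply_of_ne_of_ne z hu]
      exact Function.update_of_ne hu _ _

theorem Dt.nx {a : B.N} {u : σ} (h : B.wd a u ≠ 0) : u ≠ x := fun e => h (e ▸ D.z a)

theorem Dt.md {π : GE E} (h : π = π1 ∨ π = π2) (a : B.N) :
    ((B.wd a).mapDomain π.1).mapDomain (Function.update id x t) = B.wd a := by
  rw [← Finsupp.mapDomain_comp]
  exact (Finsupp.mapDomain_congr (g := id) fun u hu =>
    D.col h (D.nx (Finsupp.mem_support_iff.1 hu))).trans Finsupp.mapDomain_id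

theorem Dt.inv {μ : σ →₀ ℕ} {a : B.N} (h : μ.mapDomain (Function.update id x t) = B.wd a) :
    (B.wd a).mapDomain (fp x π1 π2 μ).1 = μ := by
  rw [← h, ← Finsupp.mapDomain_comp]
  refine (Finsupp.mapDomain_congr (g := id) fun u hu => ?_).trans Finsupp.mapDomain_id
  have u0 := Finsupp.mem_support_iff.1 hu
  unfold fp
  split_ifs with z
  · have : u ≠ x := fun e => u0 (e ▸ z)
    simp [D.e1, this]
  · have k : μ t = 0 := by
      by_contra k
      have b := D.bo.sq a t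
      have : Finsupp.single t (μ t) + Finsupp.single x (μ x) ≤ μ := fun v => by
        by_cases v1 : t = v
        · subst v1
          simp [D.ne]
        · by_cases v2 : x = v
          · subst v2
            simp [D.ne.symm]
          · simp [v1, v2]
      have c := Finsupp.mapDomain_mono (f := Function.update id x t) this t
      rw [h, Finsupp.mapDomain_add, Finsupp.mapDomain_single, Finsupp.mapDomain_single,
        Function.update_self, Function.update_of_ne D.ne] at c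
      simp at c
      omega
    by_cases e : u = x
    · simp [D.e2, e]
    · have : u ≠ t := fun e => u0 (e ▸ k)
      simp [D.e2, e, Equiv.swap_apply_of_ne_of_ne this e]

theorem Dt.syn {π : GE E} (h : π = π1 ∨ π = π2) (a : B.N) :
    syn B E (fp x π1 π2 ((B.wd a).mapDomain π.1)) a = syn B E π a := by
  unfold fp
  rcases h with rfl | rfl
  · rw [if_pos]
    rw [D.e1, Equiv.Perm.coe_one, Finsupp.mapDomain_id]
    exact D.z a
  · split_ifs with z
    · refine Subtype.ext (Prod.ext rfl (funext fun u => ?_))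
      rw [D.e2, Finsupp.mapDomain_equiv_apply, Equiv.symm_swap, Equiv.swap_apply_right] at z
      change (if _ then _ else _) = if _ then _ else _
      split_ifs with k
      · rfl
      · rw [D.e1, D.e2, Equiv.swap_apply_of_ne_of_ne (fun e => k (by rw [e]; exact z)) (D.nx k)]
        rfl
    · rfl

/-- the embedding of the brackets -/
def Dt.j (z : (sp B (Function.update id x t) W).N) : (sp (sy B E) id W).N :=
  ⟨(Sw.syn B E (fp x π1 π2 z.1.2.1) z.1.1, z.1.2),
    Finsupp.mapDomain_id.trans ((sy_wd _ _).trans (D.inv z.2)).symm⟩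

theorem Dt.j_inj : Function.Injective (D.j (W := W)) := fun _ _ h =>
  Subtype.ext (Prod.ext (congrArg (fun z => z.1.1.1.1) h) (congrArg (fun z => z.1.2) h))

theorem Dt.vb_eq {R : Type} [Zero R] {π : GE E} (h : π = π1 ∨ π = π2) (a : B.N)
    (k : (sp (sy B E) id W).N → R) :
    vb B (Function.update id x t) W (fun z => k (D.j z)) a ((B.wd a).mapDomain π.1) =
      vb (sy B E) id W k (Sw.syn B E π a) ((B.wd a).mapDomain π.1) := by
  unfold vb
  by_cases m : (B.wd a).mapDomain π.1 ∈ W.erase 0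
  · rw [dif_pos ⟨m, D.md h a⟩, dif_pos ⟨m, Finsupp.mapDomain_id.trans (sy_wd _ _).symm⟩]
    exact congrArg k (Subtype.ext (Prod.ext (D.syn h a) rfl))
  · rw [dif_neg fun k => m k.1, dif_neg fun k => m k.1]

omit D in
theorem sy_Θ (h : B.Ok Prod.snd) (π : GE E) (a : B.N) : (sy B E).Θ (Sw.syn B E π a) =
    aeval (Sum.elim (fun v => X (.inl (v.1, v.2.mapDomain π.1))) fun b => X (.inr (Sw.syn B E π b)))
      (B.Θ a) := by
  have ae := @aev (VV C σ ⊕ B.N) (MvPolynomial (VV C σ ⊕ (sy B E).N) ℝ) _ _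
  refine ae (P := B.Θ a) fun v hv => ?_
  have l := wt_le (h.hom a) hv
  have s3 : ∀ ν ≤ B.wd a, ∀ u, ν u ≠ 0 → rs B π.1 a u = π.1 u := fun ν l u hu =>
    if_neg fun k : B.wd a u = 0 => hu (Nat.le_zero.1 ((l u).trans k.le))
  cases v with
  | inl v =>
    exact congrArg (fun ν => X (Sum.inl (v.1, ν)))
      (Finsupp.mapDomain_congr fun u hu => s3 _ l u (Finsupp.mem_support_iff.1 hu))
  | inr b =>
    have r : rs B (rs B π.1 a) b = rs B π.1 b := funext fun u => by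
      change (if _ then _ else _) = if _ then _ else _
      split_ifs with k
      exacts [rfl, s3 _ l u k]
    have q : ∃ π' ∈ GE E, rs B (rs B π.1 a) b = rs B π' b := ⟨π.1, π.2, r⟩
    exact (dif_pos q).trans (congrArg (fun z : (sy B E).N => X (Sum.inr z))
      (Subtype.ext (Prod.ext rfl r)))

theorem Dt.Θ0 {π : GE E} (h : π = π1 ∨ π = π2) (a : B.N) {μ : σ →₀ ℕ}
    (i : (B.wd a).mapDomain π.1 = μ) :
    aeval (Sum.elim (fun v : VV C σ => X (.inl (v.1, sw id μ v.2))) fun b =>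
      vb (sy B E) id W (fun z => (X (.inr z) : MvPolynomial (VV C σ ⊕ _) ℝ)) b
        (sw id μ ((sy B E).wd b))) ((sy B E).Θ (Sw.syn B E π a)) =
    rename (Sum.map id D.j) (aeval (Sum.elim
      (fun v : VV C σ => X (.inl (v.1, sw (Function.update id x t) μ v.2))) fun b =>
      vb B _ W (fun z => (X (.inr z) : MvPolynomial (VV C σ ⊕ _) ℝ)) b
        (sw (Function.update id x t) μ (B.wd b))) (B.Θ a)) := by
  subst i
  have s1 : ∀ ν ≤ B.wd a, sw (Function.update id x t) ((B.wd a).mapDomain π.1) ν =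
      ν.mapDomain π.1 := fun ν l => sw_eq _ _ (D.bo.sq a) l fun u hu => by rw [D.col h (D.nx hu)]
  have s2 : ∀ ν ≤ B.wd a, sw id ((B.wd a).mapDomain π.1) (ν.mapDomain π.1) = ν.mapDomain π.1 :=
    fun ν l => sw_eq _ _ (D.bo.sq a) l fun u _ => Finsupp.mapDomain_apply π.1.injective _ _
  rw [sy_Θ D.bo.ok, ← AlgHom.comp_apply, ← AlgHom.comp_apply]
  refine alg_congr fun v hv => ?_
  have l := wt_le (D.bo.ok.hom a) hv
  rw [AlgHom.comp_apply, AlgHom.comp_apply, aeval_X, aeval_X]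
  cases v with
  | inl v =>
    rw [Sum.elim_inl, Sum.elim_inl, aeval_X, rename_X, Sum.elim_inl, s1 v.2 l, s2 v.2 l]
    rfl
  | inr b =>
    rw [Sum.elim_inr, Sum.elim_inr, aeval_X, Sum.elim_inr, sy_wd, s2 (B.wd b) l, s1 (B.wd b) l,
      ← D.vb_eq h,
      map_vb _ _ _ _ (map_zero _)]
    exact congrArg (vb _ _ _ · _ _) (funext fun z => (rename_X (Sum.map id D.j) (.inr z)).symm)

theorem Dt.Θ (z : (sp B (Function.update id x t) W).N) : (sp (sy B E) id W).Θ (D.j z) =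
    rename (Sum.map id D.j) ((sp B (Function.update id x t) W).Θ z) :=
  D.Θ0 (fp_or _) z.1.1 (D.inv z.2)

theorem Dt.ev {π : GE E} (h : π = π1 ∨ π = π2) (y : VV C σ → ℝ) (k : (sp (sy B E) id W).N → ℝ)
    (P : MvPolynomial (VV C σ ⊕ B.N) ℝ) :
    eval (zz B (Function.update id x t) W y fun z => k (D.j z)) (rlb π.1 (up B P)) =
      eval (zz (sy B E) id W y k) (ug B E π P) := by
  rw [rlb, up, ug, eval_rename, eval_rename, eval_rename]
  refine congrArg (eval · P) (funext fun v => ?_)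
  cases v with
  | inl v => rfl
  | inr a => exact D.vb_eq h a k

end cmb

end Tf

open Tf in
/-- **TRF** -/
theorem trf (hA : COLA) (hW : COLW) (hP : PERM) : TRF := by
  intro σ _ _ s M m T st B w κ E x t π1 π2 P hT hB hd hx _ _ tx e1 e2 k0 hw _
  have D : Dt B x t π1 π2 := ⟨hB, hx, tx, e1, e2⟩
  have wk : 0 < w * κ := lt_of_lt_of_le (by positivity) hw
  have w0 : 0 < w := pos_of_mul_pos_left wk k0.le
  obtain ⟨⟨b1, b2, -⟩, -⟩ := hP σ s M T st B w κ E hT hB hd w0 k0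
  have dn : Dn (W0 s E) := fun μ h ν l => mem_filter.2
    ⟨dn_sqf μ (mem_filter.1 h).1 ν l, (Finsupp.support_mono l).trans (mem_filter.1 h).2⟩
  have o : ∀ {σ' : Type} (col : σ → σ'), (MR col (W0 s E) (dk fun _ => κ)).Ok := fun col => by
    refine Sh.mono_ok dn ?_ (Sh.dk_blk _)
    have : (MR col (W0 s E) (dk fun _ => κ)).K = diagonal fun _ => κ := by
      ext w w'
      exact if_congr Subtype.ext_iff.symm rfl rfl
    rw [this]
    exact PosDef.diagonal fun _ => k0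
  obtain ⟨c1, q1⟩ := bi_eq hA hW hT hB hd w0 k0 dn (o (Function.update id x t)) (o _)
    (up B P - rlb (Equiv.swap t x) (up B P))
  obtain ⟨c2, q2⟩ := bi_eq hA hW hT b1 b2 w0 k0 dn (o id) (o _) (ug B E π1 P - ug B E π2 P)
  have tr := TS.tw_tri hT.stg.cl (hT.stg.adm (o _)) (o fun _ => ())
  have n2 : (Fintype.card (sp (sy B E) id (W0 s E)).N + m + 1 : ℝ) ≤ w * κ := by
    refine le_trans ?_ hw
    have := card_sp (sy B E) id (W0 s E)
    gcongr
    exact_mod_cast this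
  have n1 : (Fintype.card (sp B (Function.update id x t) (W0 s E)).N + m + 1 : ℝ) ≤ w * κ := by
    refine le_trans ?_ n2
    have := Fintype.card_le_of_injective _ (D.j_inj (W := W0 s E))
    gcongr
  have p0 : ∀ {N : Type} [Fintype N], 0 < ∏ _a : N, √(w * κ) :=
    prod_pos fun _ _ => Real.sqrt_pos.2 wk
  have v1 := fun y => wn _ _ (sp B (Function.update id x t) (W0 s E)) _ m y c1.ok.tri fun _ => n1
  have v2 := fun y => wn _ _ (sp (sy B E) id (W0 s E)) _ m y c2.ok.tri fun _ => n2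
  have u : up B P = rlb π1.1 (up B P) := by
    rw [e1, rlb]
    exact (rename_id_apply _).symm.trans (congrArg (rename · _)
      (funext fun v => Prod.ext rfl Finsupp.mapDomain_id.symm))
  have d : ∀ y : VV T.C σ → ℝ, ‖(∑' k, (bw (sp (sy B E) id (W0 s E)) (fun _ => w * κ) y k : ℂ) *
      ee (eval (zz (sy B E) id (W0 s E) y (zc k)) (ug B E π1 P - ug B E π2 P))) /
        (∏ _a : (sp (sy B E) id (W0 s E)).N, √(w * κ) : ℝ) -
      (∑' k, (bw (sp B (Function.update id x t) (W0 s E)) (fun _ => w * κ) y k : ℂ) *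
        ee (eval (zz B _ _ y (zc k)) (up B P - rlb (Equiv.swap t x) (up B P)))) /
        (∏ _a : (sp B (Function.update id x t) (W0 s E)).N, √(w * κ) : ℝ)‖ ≤ 2 * (1 / 2 ^ m) := by
    intro y
    have := ws _ _ _ _ _ D.j (fun _ => w * κ) m y
      (fun k => ee (eval (zz B _ _ y (zc k)) (up B P - rlb (Equiv.swap t x) (up B P))))
      c2.ok.tri c1.ok.tri D.j_inj D.Θ (fun _ => n2) fun _ => (norm_ee _).le
    rw [mul_one_div]
    refine le_of_eq_of_le (congrArg (fun z => ‖z / _ - _‖) (tsum_congr fun k => ?_)) this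
    rw [map_sub, map_sub, ← D.ev (.inl rfl), ← D.ev (.inr rfl), ← u, e2]
    rfl
  have b1 : ∀ y k, 0 ≤ bw (sp B (Function.update id x t) (W0 s E)) (fun _ => w * κ) y k :=
    fun _ _ => prod_nonneg fun _ _ => (Real.exp_pos _).le
  have b2 : ∀ y k, 0 ≤ bw (sp (sy B E) id (W0 s E)) (fun _ => w * κ) y k :=
    fun _ _ => prod_nonneg fun _ _ => (Real.exp_pos _).le
  have t2 := fun (X : Type) (f : X → ℝ) (Y : X → VV T.C σ → ℝ) f0 sf F0 => two (f := f)
    (h := fun y => bw (sp B (Function.update id x t) (W0 s E)) (fun _ => w * κ) (Y y))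
    (h' := fun y => bw (sp (sy B E) id (W0 s E)) (fun _ => w * κ) (Y y))
    (c := ∏ _a : (sp B (Function.update id x t) (W0 s E)).N, √(w * κ))
    (c' := ∏ _a : (sp (sy B E) id (W0 s E)).N, √(w * κ)) (η := 1 / 2 ^ m)
    (fun y k => ee (eval (zz B _ _ (Y y) (zc k)) (up B P - rlb (Equiv.swap t x) (up B P))))
    (fun y k => ee (eval (zz (sy B E) _ _ (Y y) (zc k)) (ug B E π1 P - ug B E π2 P)))
    f0 (fun y => b1 (Y y)) (fun y => b2 (Y y)) sf F0 (fun y => (v1 (Y y)).1) (fun y => (v2 (Y y)).1)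
    p0 p0 (fun y => (v1 (Y y)).2) (fun y => (v2 (Y y)).2) (fun _ _ => (norm_ee _).le)
    (fun _ _ => (norm_ee _).le) fun y => d (Y y)
  have t3 := t2 (T.Cw (MR (fun _ => ()) (W0 s E) (dk fun _ => κ)) → ℤ)
    (T.tw (MR (fun _ => ()) (W0 s E) (dk fun _ => κ)) (T.tw0 _)).wt (fun y => ex T _ id (zc y))
    (fun y => (TS.wt_pos (T.tw _ (T.tw0 _)) y).le) tr.summable tr.Z_pos
  refine q1.trans_le (t3.trans (add_le_add q2.ge ?_))
  rw [mul_one_div]
  gcongr
  norm_num

end Crest.Agent.N49.Sw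

end
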