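import Crest.Agent.N49.Sw.Df3
import Crest.Agent.N49.Sw.Trf
import Crest.Agent.N49.Sw.Perm
import Crest.Agent.N49.Sw.Msec
import Crest.Agent.N49.Sw.Sbc
import Crest.Agent.N49.Sw.Cola
import Crest.Agent.N49.Sw.Colw
import Crest.Agent.N49.Sw.Box
import Crest.Agent.N49.Tw.Cc2

/-!
# Row 49 (helper81): all the relabellings, all the squarefree words (`ENL`)
-/

set_option autoImplicit false

open Matrix MvPolynomial Finset

noncomputable section

namespace Crest.Agent.N49.Sw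

open Po Tw Sd

namespace Enl

open Tf

theorem ev_congr {V : Type} {f g : V → ℝ} {P : MvPolynomial V ℝ} (h : ∀ v ∈ P.vars, f v = g v) :
    eval f P = eval g P :=
  hom_congr_vars (f₁ := eval f) (f₂ := eval g) (RingHom.ext fun r => by simp)
    (fun v hv _ => by simpa using h v hv) rfl

theorem Ec_tw0 {σ τ : Type} [DecidableEq σ] (U : TS σ) (S : Sh σ τ) (g : (U.Cw S → ℤ) → ℂ) :
    (U.sh S).Ec g = (U.tw S (U.tw0 S)).Ec g :=
  congrArg₂ (· / ·) (tsum_congr fun y => congrArg (fun a : ℝ => (a : ℂ) * g y) (wt_tw0 U S y))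
    (congrArg _ (tsum_congr (wt_tw0 U S)))

theorem ok_dk {σ τ : Type} [DecidableEq τ] (col : τ → σ) {W : Finset (τ →₀ ℕ)} (dn : Dn W) {κ : ℝ}
    (k0 : 0 < κ) : (MR col W (dk fun _ => κ)).Ok := by
  refine Sh.mono_ok dn ?_ (Sh.dk_blk _)
  have : (MR col W (dk fun _ => κ)).K = diagonal fun _ => κ := by
    ext w w'
    exact if_congr Subtype.ext_iff.symm rfl rfl
  rw [this]
  exact PosDef.diagonal fun _ => k0

section sub
variable {C σ τ : Type} [DecidableEq σ] [DecidableEq τ] {B0 B : Bk (VV C σ) σ} {j : B0.N → B.N}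
  (hj : ∀ a, B.wd (j a) = B0.wd a) (col : τ → σ) (W : Finset (τ →₀ ℕ))

/-- a subsystem on the words -/
def jw (z : (sp B0 col W).N) : (sp B col W).N := ⟨(j z.1.1, z.1.2), z.2.trans (hj _).symm⟩

theorem jw_inj (i : Function.Injective j) : Function.Injective (jw hj col W) := fun _ _ h =>
  Subtype.ext (Prod.ext (i (congrArg (fun z => z.1.1) h)) (congrArg (fun z => z.1.2) h))

theorem vb_jw {R : Type} [Zero R] (k : (sp B col W).N → R) (a : B0.N) (μ : τ →₀ ℕ) :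
    vb B0 col W (fun z => k (jw hj col W z)) a μ = vb B col W k (j a) μ := by
  unfold vb
  by_cases m : μ ∈ W.erase 0 ∧ μ.mapDomain col = B0.wd a
  · rw [dif_pos m, dif_pos ⟨m.1, m.2.trans (hj a).symm⟩]
    rfl
  · rw [dif_neg m, dif_neg fun k => m ⟨k.1, k.2.trans (hj a)⟩]

theorem Θ_jw (e : ∀ a, B.Θ (j a) = rename (Sum.map id j) (B0.Θ a)) (z : (sp B0 col W).N) :
    (sp B col W).Θ (jw hj col W z) = rename (Sum.map id (jw hj col W)) ((sp B0 col W).Θ z) := by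
  rw [sp_Θ, sp_Θ]
  refine (congrArg _ (e z.1.1)).trans ((aeval_rename _ _ _).trans ?_)
  rw [← AlgHom.comp_apply, comp_aeval]
  refine congrArg (fun f => aeval f (B0.Θ z.1.1)) (funext fun v => ?_)
  cases v with
  | inl v => exact (rename_X (Sum.map id (jw hj col W)) (.inl _)).symm
  | inr a =>
    refine Eq.trans ?_ (map_vb B0 col W (rename (Sum.map id (jw hj col W))) (map_zero _)
      (fun z => (X (.inr z) : MvPolynomial (VV C τ ⊕ _) ℝ)) a (sw col z.1.2.1 (B0.wd a))).symm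
    refine Eq.trans ?_ (congrArg (vb B0 col W · a _)
      (funext fun z => (rename_X (Sum.map id (jw hj col W)) (.inr z)).symm))
    exact (congrArg (fun μ => vb B col W _ (j a) (sw col z.1.2.1 μ)) (hj a)).trans
      (vb_jw hj col W (fun z => (X (Sum.inr z) : MvPolynomial (VV C τ ⊕ _) ℝ)) a _).symm

theorem ev_jw (y : VV C τ → ℝ) (k : (sp B col W).N → ℝ) (Q : MvPolynomial (VV (C ⊕ B0.N) τ) ℝ) :
    eval (zz B col W y k) (rename (Prod.map (Sum.map id j) id) Q) =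
      eval (zz B0 col W y fun z => k (jw hj col W z)) Q := by
  rw [eval_rename]
  refine congrArg (eval · Q) (funext ?_)
  rintro ⟨c | a, μ⟩
  · rfl
  · exact (vb_jw hj col W k a μ).symm

end sub

/-- more wide brackets do not change the bias -/
theorem bi_sub {σ τ : Type} [Fintype σ] [DecidableEq σ] [DecidableEq τ] {s M m : ℕ} {T : TS Unit}
    {st : T.C → ℕ} {B0 B : Bk (VV T.C σ) σ} {j : B0.N → B.N} {w κ : ℝ} (col : τ → σ)
    {W : Finset (τ →₀ ℕ)} (hT : Tb T st M s) (b0 : Bo B0) (b : Bo B)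
    (hd : ∀ a, (B.wd a).degree ≤ s) (i : Function.Injective j) (hj : ∀ a, B.wd (j a) = B0.wd a)
    (e : ∀ a, B.Θ (j a) = rename (Sum.map id j) (B0.Θ a)) (dn : Dn W) (k0 : 0 < κ)
    (hw : (Fintype.card B.N * #W + m + 1 : ℝ) ≤ w * κ) (Q : MvPolynomial (VV (T.C ⊕ B0.N) τ) ℝ) :
    bi (cE s T B0 w) (MR col W (dk fun _ => κ)) (fm s T B0 w) Q ≤
      bi (cE s T B w) (MR col W (dk fun _ => κ)) (fm s T B w)
        (rename (Prod.map (Sum.map id j) id) Q) + 4 / 2 ^ m := by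
  have wk : 0 < w * κ := lt_of_lt_of_le (by positivity) hw
  have w0 : 0 < w := pos_of_mul_pos_left wk k0.le
  obtain ⟨c1, q1⟩ := bi_eq cola colw hT b0 (fun a => hj a ▸ hd (j a)) w0 k0 dn (ok_dk col dn k0)
    (ok_dk _ dn k0) Q
  obtain ⟨c2, q2⟩ := bi_eq cola colw hT b hd w0 k0 dn (ok_dk col dn k0) (ok_dk _ dn k0)
    (rename (Prod.map (Sum.map id j) id) Q)
  have o := ok_dk (fun _ : τ => ()) dn k0
  have tr := TS.tw_tri hT.stg.cl (hT.stg.adm o) o
  have n2 : (Fintype.card (sp B col W).N + m + 1 : ℝ) ≤ w * κ := by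
    refine le_trans ?_ hw
    have := card_sp B col W
    gcongr
    exact_mod_cast this
  have n1 : (Fintype.card (sp B0 col W).N + m + 1 : ℝ) ≤ w * κ := by
    refine le_trans ?_ n2
    have := Fintype.card_le_of_injective _ (jw_inj hj col W i)
    gcongr
  have p0 : ∀ {N : Type} [Fintype N], 0 < ∏ _a : N, √(w * κ) :=
    prod_pos fun _ _ => Real.sqrt_pos.2 wk
  have v1 := fun y => wn _ _ (sp B0 col W) _ m y c1.ok.tri fun _ => n1
  have v2 := fun y => wn _ _ (sp B col W) _ m y c2.ok.tri fun _ => n2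
  have d : ∀ y : VV T.C τ → ℝ, ‖(∑' k, (bw (sp B col W) (fun _ => w * κ) y k : ℂ) *
      ee (eval (zz B col W y (zc k)) (rename (Prod.map (Sum.map id j) id) Q))) /
        (∏ _a : (sp B col W).N, √(w * κ) : ℝ) -
      (∑' k, (bw (sp B0 col W) (fun _ => w * κ) y k : ℂ) * ee (eval (zz B0 col W y (zc k)) Q)) /
        (∏ _a : (sp B0 col W).N, √(w * κ) : ℝ)‖ ≤ 2 * (1 / 2 ^ m) := by
    intro y
    have := ws _ _ _ _ _ (jw hj col W) (fun _ => w * κ) m y
      (fun k => ee (eval (zz B0 col W y (zc k)) Q)) c2.ok.tri c1.ok.tri (jw_inj hj col W i)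
      (Θ_jw hj col W e) (fun _ => n2) fun _ => (norm_ee _).le
    rw [mul_one_div]
    refine le_of_eq_of_le (congrArg (fun z => ‖z / _ - _‖) (tsum_congr fun k => ?_)) this
    rw [ev_jw hj]
    rfl
  have b1 : ∀ y k, 0 ≤ bw (sp B0 col W) (fun _ => w * κ) y k :=
    fun _ _ => prod_nonneg fun _ _ => (Real.exp_pos _).le
  have b2 : ∀ y k, 0 ≤ bw (sp B col W) (fun _ => w * κ) y k :=
    fun _ _ => prod_nonneg fun _ _ => (Real.exp_pos _).le
  have t2 := fun (X : Type) (f : X → ℝ) (Y : X → VV T.C τ → ℝ) f0 sf F0 => two (f := f)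
    (h := fun y => bw (sp B0 col W) (fun _ => w * κ) (Y y))
    (h' := fun y => bw (sp B col W) (fun _ => w * κ) (Y y))
    (c := ∏ _a : (sp B0 col W).N, √(w * κ)) (c' := ∏ _a : (sp B col W).N, √(w * κ))
    (η := 1 / 2 ^ m) (fun y k => ee (eval (zz B0 col W (Y y) (zc k)) Q))
    (fun y k => ee (eval (zz B col W (Y y) (zc k)) (rename (Prod.map (Sum.map id j) id) Q)))
    f0 (fun y => b1 (Y y)) (fun y => b2 (Y y)) sf F0 (fun y => (v1 (Y y)).1) (fun y => (v2 (Y y)).1)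
    p0 p0 (fun y => (v1 (Y y)).2) (fun y => (v2 (Y y)).2) (fun _ _ => (norm_ee _).le)
    (fun _ _ => (norm_ee _).le) fun y => d (Y y)
  have t3 := t2 (T.Cw (MR (fun _ => ()) W (dk fun _ => κ)) → ℤ)
    (T.tw (MR (fun _ => ()) W (dk fun _ => κ)) (T.tw0 _)).wt (fun y => ex T _ id (zc y))
    (fun y => (TS.wt_pos (T.tw _ (T.tw0 _)) y).le) tr.summable tr.Z_pos
  exact q1.trans_le (t3.trans (add_le_add q2.ge (mul_one_div _ _).le))

section kill
variable {σ : Type} [Fintype σ] [DecidableEq σ] (E : Finset σ)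

/-- kill the letters outside `E` -/
def kl (a : σ) : σ → ℤ := if a ∈ E then Pi.single a 1 else 0

omit [Fintype σ] in
theorem kl_ne {a b : σ} (h : kl E a b ≠ 0) : a ∈ E ∧ a = b := by
  unfold kl at h
  split_ifs at h with k
  · exact ⟨k, by_contra fun n => h (Pi.single_eq_of_ne (Ne.symm n) _)⟩
  · exact absurd rfl h

theorem smat_kl (ν μ : σ →₀ ℕ) : smat (kl E) ν μ = if μ.support ⊆ E ∧ μ = ν then 1 else 0 := by
  by_cases h : μ.support ⊆ E
  · have : smat (kl E) ν μ = smat (fun a => Pi.single (id a) 1) ν μ := by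
      rw [smat, smat, lsub, lsub, aeval_monomial, aeval_monomial]
      refine congrArg (fun P => coeff ν (_ * P)) (Finsupp.prod_congr fun a ha => ?_)
      rw [kl, if_pos (h ha)]
      rfl
    rw [this, Bx.smat_sg, Finsupp.mapDomain_id]
    exact if_congr (and_iff_right h).symm rfl rfl
  · rw [if_neg fun k => h k.1]
    by_contra z
    exact h fun a ha => by_contra fun n =>
      Finsupp.mem_support_iff.1 ha (Bx.smat_zero z (if_neg n))

variable {E} {s : ℕ}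

theorem mem_W0 {μ : σ →₀ ℕ} : μ ∈ W0 s E ↔ μ ∈ sqf σ s ∧ μ.support ⊆ E := mem_filter

theorem dn_W0 : Dn (W0 s E) := fun μ h ν l => mem_W0.2
  ⟨dn_sqf μ (mem_W0.1 h).1 ν l, (Finsupp.support_mono l).trans (mem_W0.1 h).2⟩

theorem sum_kl {W : Finset (σ →₀ ℕ)} {ν : σ →₀ ℕ} (h : ν ∈ W) (k : ν.support ⊆ E)
    (f : (σ →₀ ℕ) → ℝ) : ∑ μ ∈ W, (smat (kl E) ν μ : ℝ) * f μ = f ν := by
  rw [sum_eq_single_of_mem ν h fun μ _ n => by rw [smat_kl, if_neg fun k => n k.2]; simp,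
    smat_kl, if_pos ⟨k, rfl⟩]
  simp

theorem sbv_kl {C : Type} {W : Finset (σ →₀ ℕ)} {ν : σ →₀ ℕ} (h : ν ∈ W) (k : ν.support ⊆ E)
    (z : VV C σ → ℝ) (c : C) : sbv (kl E) W z (c, ν) = z (c, ν) := sum_kl h k fun μ => z (c, μ)

theorem sec_kl (s1 : 1 ≤ s) {κ : ℝ} (k0 : 0 < κ) : ∃ e, (MR id (sqf σ s) (dk fun _ => κ)).Sec
    (MR id (W0 s E) (dk fun _ => κ)) ((1 * (Fintype.card σ + 1)) ^ s)
    (Sh.smm id (sqf σ s) 0 (dk fun _ => κ) _ (kl E)) e := by
  have sg : ∀ b, b ∈ E → Finsupp.single b 1 ∈ W0 s E := fun b h => mem_W0.2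
    ⟨mem_sqf.2 ⟨by simpa using s1, fun a => by rw [Finsupp.single_apply]; split_ifs <;> omega⟩,
      Finsupp.support_single_subset.trans (singleton_subset_iff.2 h)⟩
  refine msec σ σ σ id (sqf σ s) _ id (W0 s E) _ (kl E) id 1 s dn_sqf dn_W0 (ok_dk _ dn_sqf k0)
    (fun μ h => (mem_sqf.1 h).1) le_rfl (fun a b => ?_) (fun a b h => (kl_ne E h).2)
    (fun ν hν μ h => ?_) (fun ν hν b h => if_pos ((mem_W0.1 hν).2 h))
    (fun a b h => sg b ((kl_ne E h).2 ▸ (kl_ne E h).1)) (fun ν n h k => absurd ?_ n)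
    fun ν hν ν' hν' n n' => ?_
  · unfold kl
    split_ifs
    · rw [Pi.single_apply]; split_ifs <;> simp
    · simp
  · rw [smat_kl] at h
    exact (of_not_not fun k => h (if_neg k) : _ ∧ μ = ν).2 ▸ (mem_W0.1 hν).1
  · rw [Finsupp.mapDomain_id] at k
    exact mem_W0.2 ⟨k, fun b hb => (mem_W0.1 (h b hb)).2 (by simp)⟩
  · have a := mem_W0.1 hν
    have a' := mem_W0.1 hν'
    refine Eq.symm ((sum_congr rfl fun μ _ => ?_).trans
      (sum_kl (mem_erase.2 ⟨n, a.1⟩) a.2 fun μ => dk (fun _ => κ) μ ν'))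
    rw [← sum_kl (mem_erase.2 ⟨n', a'.1⟩) a'.2 (dk (fun _ => κ) μ), mul_sum]
    exact sum_congr rfl fun _ _ => by ring

omit [Fintype σ] in
theorem ex_zero {C : Type} [DecidableEq C] (U : TS σ) (fm : U.C → C) {W : Finset (σ →₀ ℕ)}
    {K : Kn σ} (y : U.Cw (MR id W K) → ℝ) (c : C) {ν : σ →₀ ℕ} (h : ν ∉ W) :
    ex U (MR id W K) fm y (c, ν) = 0 :=
  sum_eq_zero fun p hp => absurd ((show p.1.2.1 = ν from (mem_filter.1 hp).2.2) ▸
    Sh.MW.mem p.1.2) h

theorem ev_kl {C : Type} [DecidableEq C] (U : TS σ) (fm : U.C → C) (K K' : Kn σ)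
    (Q : MvPolynomial (VV C σ) ℝ) (hQ : ∀ v ∈ Q.vars, v.2.support ⊆ E)
    (y : U.Cw (MR id (sqf σ s) K) → ℤ) :
    eval (ex U (MR id (W0 s E) K') fm (zc (hs U (MR id (W0 s E) K') (kl E) y))) Q =
      eval (ex U (MR id (sqf σ s) K) fm (zc y)) Q := by
  refine ev_congr ?_
  rintro ⟨c, ν⟩ hv
  by_cases h : ν ∈ W0 s E
  · have a := Sb.ex_hs (U := U) (col := id) (col' := id) (W := sqf σ s) (W' := W0 s E) (K := K)
      (K' := K') (φ := kl E) fm (fun a b h => (kl_ne E h).2) y c h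
    rw [sbv_kl (mem_W0.1 h).1 (hQ _ hv)] at a
    exact a
  · exact (ex_zero U fm _ c h).trans (ex_zero U fm _ c fun k => h (mem_W0.2 ⟨k, hQ _ hv⟩)).symm

omit [Fintype σ] in
theorem push_bi {τ τ' C : Type} [DecidableEq τ] [DecidableEq τ'] [DecidableEq C] {U : TS σ}
    {st : U.C → ℕ} {M n : ℕ} {a η : ℝ} {S : Sh σ τ} {S' : Sh σ τ'} {φ : Matrix S'.W S.W ℤ}
    {e : S'.W → S.W} (fm : U.C → C) (hU : U.Stg st M) (n1 : 1 ≤ n) (c : S.Sec S' n φ e)
    (z : S.Sz n a) (hp : U.HP st n a η) (Q : MvPolynomial (VV C τ) ℝ)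
    (Q' : MvPolynomial (VV C τ') ℝ) (h : ∀ y : U.Cw S → ℤ,
      eval (ex U S' fm (zc (U.hm S S' φ y))) Q' = eval (ex U S fm (zc y)) Q) :
    bi U S' fm Q' ≤ bi U S fm Q + 2 * η := by
  obtain ⟨J, _, _, ψ, N, R, cj, sp⟩ := lsec _ _ _ _ _ n _ e c n1
  have p := hp _ _ J _ _ _ _ ψ N R cj (hU.adm z.toOk) z sp
  rw [TS.tp_tw0 c.hm.mass] at p
  have q := p.Ec (TS.tw_tri hU.cl (hU.adm z.toOk) z.toOk) (TS.tw_tri hU.cl (hU.adm c.ok) c.ok)
    (B := 1) (g := fun y => ee (eval (ex U S' fm (zc y)) Q')) fun y => (norm_ee _).le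
  rw [one_mul, norm_sub_rev] at q
  have r := (norm_sub_norm_le _ _).trans q
  exact (congrArg norm (Ec_tw0 _ _ _)).trans_le ((sub_le_iff_le_add'.1 r).trans (add_le_add
    (congrArg norm ((congrArg _ (_root_.funext fun y => congrArg ee (h y))).trans
      (Ec_tw0 _ _ _).symm)).le (by linarith [p.nonneg])))

/-- the letters outside `E` do not matter -/
theorem bi_kl {C : Type} [DecidableEq C] {U : TS σ} {st : U.C → ℕ} {M n : ℕ} {κ a η : ℝ}
    (fm : U.C → C) (hU : U.Stg st M) (s1 : 1 ≤ s) (k0 : 0 < κ) (hn : (Fintype.card σ + 1) ^ s ≤ n)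
    (z : (MR id (sqf σ s) (dk fun _ => κ)).Sz n a) (hp : U.HP st n a η)
    (Q : MvPolynomial (VV C σ) ℝ) (hQ : ∀ v ∈ Q.vars, v.2.support ⊆ E) :
    bi U (MR id (W0 s E) (dk fun _ => κ)) fm Q ≤
      bi U (MR id (sqf σ s) (dk fun _ => κ)) fm Q + 2 * η := by
  obtain ⟨e, c⟩ := sec_kl (E := E) s1 k0
  rw [one_mul] at c
  exact push_bi fm hU ((Nat.one_le_pow _ _ (by omega)).trans hn) (Cc.sec_mono c hn) z hp Q Q
    (ev_kl U fm _ _ Q hQ)

end kill

section sy
variable {C σ : Type} [Fintype σ] [DecidableEq σ] (B : Bk (VV C σ) σ) (E : Finset σ)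

/-- the relabellings of `E` among all the relabellings -/
def jn (x : (sy B E).N) : (sy B univ).N :=
  ⟨x.1, x.2.imp fun _ h => ⟨Pe.mem_GE.2 fun t k => absurd (mem_univ t) k, h.2⟩⟩

theorem jn_inj : Function.Injective (jn B E) := fun _ _ h => Subtype.ext (congrArg (·.1) h)

theorem Θ_jn (h : B.Ok Prod.snd) (x : (sy B E).N) :
    (sy B univ).Θ (jn B E x) = rename (Sum.map id (jn B E)) ((sy B E).Θ x) := by
  obtain ⟨π, a, rfl⟩ := Pe.syn_sur x
  rw [Pe.Θ_syn h, rename_rename]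
  exact (Pe.Θ_syn h (gi E π) a).trans (congrArg (rename · _) (funext (by rintro (v | b) <;> rfl)))

theorem ug_jn (π : GE E) (P : MvPolynomial (VV C σ ⊕ B.N) ℝ) :
    rename (Prod.map (Sum.map id (jn B E)) id) (ug B E π P) = ug B univ (gi E π) P := by
  rw [ug, rename_rename]
  exact congrArg (rename · _) (funext (by rintro (v | b) <;> rfl))

theorem vars_ug (π : GE E) {P : MvPolynomial (VV C σ ⊕ B.N) ℝ}
    (hP : P.IsWeightedHomogeneous (B.wg Prod.snd) (wE E)) :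
    ∀ v ∈ (ug B univ (gi E π) P).vars, v.2.support ⊆ E := fun v hv => by
  obtain ⟨u, hu, rfl⟩ := mem_vars_rename _ _ hv
  have l : (B.wg Prod.snd u).support ⊆ E := (Finsupp.support_mono (wt_le hP hu)).trans
    (Finsupp.support_finsetSum.trans fun t ht => by
      obtain ⟨b, hb, k⟩ := mem_biUnion.1 ht
      exact mem_singleton.1 (Finsupp.support_single_subset k) ▸ hb)
  have k : ((B.wg Prod.snd u).mapDomain π.1).support ⊆ E := fun t i => by
    obtain ⟨t, j, rfl⟩ := mem_image.1 (Finsupp.mapDomain_support i)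
    exact Pe.mem_E π (l j)
  cases u <;> exact k

end sy

end Enl

open Enl in
/-- **ENL** -/
theorem enl : ENL := by
  classical
  intro σ _ _ s M m n T st B w κ a η E π1 π2 P hT hB hd k0 s1 hn z hp hw hP
  have wk : 0 < w * κ := lt_of_lt_of_le (by positivity) hw
  have w0 : 0 < w := pos_of_mul_pos_left wk k0.le
  obtain ⟨⟨b1, b2, -⟩, -⟩ := perm σ s M T st B w κ univ hT hB hd w0 k0
  have q1 := bi_sub (m := m) id hT (Pe.bo_sy (E := E) hB) b1 b2 (jn_inj B E) (fun _ => rfl)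
    (Θ_jn B E hB.ok) (dn_W0 (s := s) (E := E)) k0 (le_trans (by
      gcongr
      exact filter_subset _ _) hw) (ug B E π1 P - ug B E π2 P)
  rw [map_sub, ug_jn, ug_jn] at q1
  have q2 := bi_kl (E := E) (fm s T _ w) (cola σ s M T st _ w hT b1 b2 w0).1.2 s1 k0 hn z hp
    (ug B univ (gi E π1) P - ug B univ (gi E π2) P) fun v hv =>
      (mem_union.1 (vars_sub_subset _ hv)).elim (vars_ug B E π1 hP v) (vars_ug B E π2 hP v)
  have : (4 : ℝ) / 2 ^ m ≤ 16 / 2 ^ m := by gcongr; norm_num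
  linarith

end Crest.Agent.N49.Sw

end
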