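import Crest.Agent.N49.Sw.Df3
import Crest.Agent.N49.Sw.Diag

/-!
# Row 49 (helper88): the leaf `DGU`
-/

set_option autoImplicit false

open Matrix MvPolynomial Finset

noncomputable section

namespace Crest.Agent.N49.Sw

open Po Tw Sd Dg

namespace Du
variable {σ : Type} [Fintype σ] [DecidableEq σ]

theorem card_Fn (w : σ →₀ ℕ) {s : ℕ} (h : w.degree ≤ s) : #(Fn w) ≤ (Fintype.card σ + 1) ^ s := by
  have e : Fn w = Fintype.piFinset fun t => if t ∈ w.support then univ else {t} := by
    ext f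
    simp only [mem_Fn, Fintype.mem_piFinset, Finsupp.mem_support_iff]
    refine forall_congr' fun t => ?_
    by_cases a : w t = 0 <;> simp [a]
  have c : #w.support ≤ s := by
    refine le_trans ?_ h
    rw [card_eq_sum_ones, Finsupp.degree_apply]
    exact sum_le_sum fun t ht => Nat.one_le_iff_ne_zero.2 (Finsupp.mem_support_iff.1 ht)
  rw [e, Fintype.card_piFinset]
  simp only [apply_ite Finset.card, card_univ, card_singleton]
  rw [Fintype.prod_ite_mem, prod_const]
  exact (Nat.pow_le_pow_left (Nat.le_succ _) _).trans (Nat.pow_le_pow_right (Nat.succ_pos _) c)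

theorem card_sy {C : Type} (B : Bk (VV C σ) σ) (E : Finset σ) {s : ℕ}
    (h : ∀ a, (B.wd a).degree ≤ s) :
    Fintype.card (sy B E).N ≤ Fintype.card B.N * (Fintype.card σ + 1) ^ s := by
  classical
  have i : Fintype.card (sy B E).N ≤ #(univ.sigma fun a : B.N => Fn (B.wd a)) := by
    refine card_le_card_of_injOn (fun x => ⟨x.1.1, x.1.2⟩) (fun x _ => ?_) fun x _ y _ e => ?_
    · obtain ⟨π, -, e⟩ := x.2
      refine mem_coe.2 (mem_sigma.2 ⟨mem_univ _, ?_⟩)
      show x.1.2 ∈ Fn (B.wd x.1.1)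
      rw [e]; exact mem_Fn.2 fun t ht => if_pos ht
    · exact Subtype.ext (Prod.ext (congrArg Sigma.fst e) (congrArg (fun p : (_ : B.N) × (σ → σ) => p.2) e))
  rw [card_sigma] at i
  exact i.trans ((sum_le_card_nsmul _ _ _ fun a _ => card_Fn _ (h a)).trans (by simp))
end Du

theorem dgu : DGU := by
  refine ⟨fun C σ _ _ B s h => Du.card_sy B univ h, fun σ _ _ T B E z P _ _ h1 h2 hP _ => ?_⟩
  have sq : ∀ t, wE E t ≤ 1 := fun t => by rw [wE_apply]; split_ifs <;> simp
  have sp : (wE E).support ⊆ E := fun t ht => by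
    by_contra n; simp [wE_apply, n] at ht
  rw [main B univ z h1 h2 sq sq hP]
  refine sum_bij (fun π _ => π.1) (fun π _ => mem_filter.2 ⟨mem_Fn.2 fun t ht =>
    (mem_filter.1 π.2).2 t fun n => by simp [wE_apply, n] at ht, ?_⟩)
    (fun π _ π' _ e => Subtype.ext (Equiv.ext (congrFun e))) (fun f hf => ?_) fun π _ => ?_
  · rw [wE, Finsupp.mapDomain_finsetSum]
    simp only [Finsupp.mapDomain_single]
    exact Equiv.Perm.sum_comp π.1 E (fun t => Finsupp.single t 1) fun t ht =>
      by_contra fun n => ht ((mem_filter.1 π.2).2 t n)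
  · obtain ⟨a, b⟩ := mem_filter.1 hf
    obtain ⟨π, hπ, e⟩ := ext_perm sp a (b.symm ▸ sq) (b.symm ▸ sp)
    refine ⟨⟨π, hπ⟩, mem_univ _, funext fun t => ?_⟩
    by_cases n : wE E t = 0
    · exact ((mem_filter.1 hπ).2 t fun k => by simp [wE_apply, k] at n).trans
        (mem_Fn.1 a t n).symm
    · exact e t n
  · rw [ug, eval_rename]
    refine congrArg (eval · P) (funext fun v => ?_)
    cases v with
    | inl v => rfl
    | inr a =>
      simp only [ev, Sum.elim_inr]
      rw [dif_pos (⟨π.1, (gi E π).2, rfl⟩ : ∃ π' ∈ GE univ, rs B π.1 a = rs B π' a)]; rfl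

end Crest.Agent.N49.Sw

end
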