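import Crest.Agent.N49.Sw.Df2

/-!
# Row 49 (helper21): star transpositions generate, relations add up
-/

set_option autoImplicit false

open Matrix Finset

noncomputable section

namespace Crest.Agent.N49.Sw

open Po Tw Sd

namespace Sr

variable {τ : Type} {V : TS τ} {p : V.C → Prop} [DecidablePred p] {y : V.C → ℝ}

theorem rx_zero : Rx V p y 0 fun _ => 0 := ⟨0, fun _ _ => rfl, fun ξ _ => by simp⟩

theorem rx_cg {b b' : ℝ} {G G' : (V.C → ℝ) → ℝ} (h : Rx V p y b G) (e : b ≤ b')
    (e' : ∀ ξ, G' ξ = G ξ) : Rx V p y b' G' :=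
  let ⟨I, a, c⟩ := h
  ⟨I, a, fun ξ d => e' ξ ▸ (c ξ d).trans (mul_le_mul_of_nonneg_right e (Real.sqrt_nonneg _))⟩

theorem rx_add {b b' : ℝ} {G G' : (V.C → ℝ) → ℝ} (h : Rx V p y b G) (h' : Rx V p y b' G') :
    Rx V p y (b + b') fun ξ => G ξ + G' ξ := by
  obtain ⟨I, a, c⟩ := h
  obtain ⟨I', a', c'⟩ := h'
  refine ⟨I + I', fun c d => by simp [a c d, a' c d], fun ξ d => ?_⟩
  have := abs_add_le (G ξ - ∑ c, I c * ξ c) (G' ξ - ∑ c, I' c * ξ c)
  simp only [Pi.add_apply, Int.cast_add, add_mul, sum_add_distrib]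
  rw [show G ξ + G' ξ - (∑ c, I c * ξ c + ∑ c, I' c * ξ c) =
    G ξ - ∑ c, I c * ξ c + (G' ξ - ∑ c, I' c * ξ c) by ring]
  linarith [c ξ d, c' ξ d]

theorem rx_sum {ι : Type} (S : Finset ι) {b : ℝ} {G : ι → (V.C → ℝ) → ℝ}
    (h : ∀ i ∈ S, Rx V p y b (G i)) : Rx V p y (#S * b) fun ξ => ∑ i ∈ S, G i ξ := by
  classical
  induction S using Finset.induction_on with
  | empty => exact rx_cg rx_zero (by simp) (by simp)
  | insert i S hi ih =>
    exact rx_cg (rx_add (h i (mem_insert_self _ _)) (ih fun j hj => h j (mem_insert_of_mem hj)))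
      (by rw [card_insert_of_notMem hi]; push_cast; linarith) fun ξ => sum_insert hi

variable {σ : Type} [Fintype σ] [DecidableEq σ] {E : Finset σ}

theorem mem_GE {π : Equiv.Perm σ} : π ∈ GE E ↔ ∀ t, t ∉ E → π t = t := by simp [GE]

theorem card_GE : Fintype.card (GE E) = (#E).factorial := by
  rw [← Fintype.card_coe E, ← Fintype.card_perm]
  exact Fintype.card_congr ((Equiv.Perm.subtypeEquivSubtypePerm (· ∈ E)).trans
    (Equiv.subtypeEquivRight fun _ => mem_GE.symm)).symm

/-- multiply by a transposition -/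
def ms (π : GE E) {a c : σ} (ha : a ∈ E) (hc : c ∈ E) : GE E :=
  ⟨π.1 * Equiv.swap a c, mem_GE.2 fun t ht => by
    rw [Equiv.Perm.mul_apply, Equiv.swap_apply_of_ne_of_ne (ne_of_mem_of_not_mem ha ht).symm
      (ne_of_mem_of_not_mem hc ht).symm, mem_GE.1 π.2 t ht]⟩

end Sr

open Sr

theorem star : STAR := by
  intro σ τ _ _ E x V p _ y b G π0 hx b0 H
  have s1 : ∀ π π' : GE E, ∀ t ∈ E, π'.1 = π.1 * Equiv.swap t x →
      Rx V p y b fun ξ => G π ξ - G π' ξ := fun π π' t ht e => by
    by_cases h : t = x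
    · obtain rfl : π' = π := Subtype.ext (by rw [e, h, Equiv.swap_self]; rfl)
      exact rx_cg rx_zero b0 (by simp)
    · exact H π π' t ht h e
  have s3 : ∀ (π : GE E) {a c : σ} (ha : a ∈ E) (hc : c ∈ E), a ≠ c →
      Rx V p y (3 * b) fun ξ => G (ms π ha hc) ξ - G π ξ := fun π a c ha hc ne => by
    by_cases h : c = x
    · exact rx_cg (s1 (ms π ha hc) π a ha (by simp [ms, h, mul_assoc])) (by linarith) fun _ => rfl
    by_cases h' : a = x
    · exact rx_cg (s1 (ms π ha hc) π c hc (by simp [ms, h', mul_assoc, Equiv.swap_comm x c]))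
        (by linarith) fun _ => rfl
    refine rx_cg (rx_add (rx_add (s1 (ms π ha hc) (ms (ms π ha hc) ha hx) a ha rfl)
      (s1 (ms (ms π ha hc) ha hx) (ms (ms (ms π ha hc) ha hx) hc hx) c hc rfl))
      (s1 (ms (ms (ms π ha hc) ha hx) hc hx) π a ha ?_)) (by linarith) fun _ => by ring
    have := Equiv.swap_mul_swap_mul_swap h ne.symm
    rw [Equiv.swap_comm x a] at this
    simp only [ms, mul_assoc] at this ⊢
    rw [this, Equiv.swap_mul_self, mul_one]
  have k : ∀ n (π : GE E), #{t | π.1 t ≠ π0.1 t} ≤ n →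
      Rx V p y (3 * n * b) fun ξ => G π0 ξ - G π ξ := fun n => by
    induction n with
    | zero =>
      intro π h
      obtain rfl : π = π0 := Subtype.ext (Equiv.ext fun t => by
        simpa using filter_eq_empty_iff.1 (card_eq_zero.1 (Nat.le_zero.1 h)) (mem_univ t))
      exact rx_cg rx_zero (by simp) (by simp)
    | succ n ih =>
      intro π h
      by_cases e : ∀ t, π.1 t = π0.1 t
      · obtain rfl : π = π0 := Subtype.ext (Equiv.ext e)
        exact rx_cg rx_zero (by positivity) (by simp)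
      obtain ⟨a, ne⟩ := not_forall.1 e
      have ha : a ∈ E := by
        by_contra h; exact ne (by rw [mem_GE.1 π.2 a h, mem_GE.1 π0.2 a h])
      obtain ⟨c, hc⟩ := π.1.surjective (π0.1 a)
      have ac : a ≠ c := fun e => ne (by rw [← hc, e])
      have hE : c ∈ E := by
        by_contra h
        exact ac (π0.1.injective (by rw [← hc, mem_GE.1 π.2 c h, mem_GE.1 π0.2 c h]))
      refine rx_cg (rx_add (ih (ms π ha hE) (Nat.le_of_lt_succ (lt_of_lt_of_le
        (card_lt_card ⟨fun t ht => ?_, fun k => ?_⟩) h))) (s3 π ha hE ac))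
        (by push_cast; linarith) fun _ => by ring
      · replace ht : π.1 (Equiv.swap a c t) ≠ π0.1 t := (mem_filter.1 ht).2
        refine mem_filter.2 ⟨mem_univ _, ?_⟩
        by_cases h1 : t = a
        · rwa [h1]
        by_cases h2 : t = c
        · rw [h2, hc]; exact fun e => ac (π0.1.injective e)
        · rwa [Equiv.swap_apply_of_ne_of_ne h1 h2] at ht
      · have : π.1 (Equiv.swap a c a) ≠ π0.1 a := (mem_filter.1 (@k a (by simpa using ne))).2
        exact this (by rw [Equiv.swap_apply_left, hc])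
  refine rx_cg (rx_sum univ fun π _ => k #E π (card_le_card fun t ht => ?_)) ?_ fun ξ => ?_
  · by_contra h
    exact (mem_filter.1 ht).2 (by rw [mem_GE.1 π.2 t h, mem_GE.1 π0.2 t h])
  · rw [card_univ, card_GE]; linarith
  · rw [sum_sub_distrib, sum_const, card_univ, card_GE, nsmul_eq_mul]

end Crest.Agent.N49.Sw

end
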