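import Crest.Agent.N49.Sw.Df2
import Crest.Agent.N49.Tw.Api

/-!
# Row 49 (helper5): polynomials of a configuration on a monomial ring, squarefree words
-/

set_option autoImplicit false
set_option linter.unusedSectionVars false

open Matrix MvPolynomial Finset

noncomputable section

namespace Crest.Agent.N49.Sw

open Po Tw Sd

namespace Cw

variable {R : Type} [CommRing R] [Algebra ℝ R]

theorem hom_aeval {V V' M M' : Type} [AddCommMonoid M] [AddCommMonoid M'] {w : V → M}
    {w' : V' → M'} (L : M →+ M') {g : V → MvPolynomial V' R} {P : MvPolynomial V ℝ} {n : M}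
    (h : P.IsWeightedHomogeneous w n) (k : ∀ v ∈ P.vars, (g v).IsWeightedHomogeneous w' (L (w v))) :
    (aeval g P).IsWeightedHomogeneous w' (L n) := by
  rw [P.as_sum, map_sum]
  refine IsWeightedHomogeneous.sum _ _ _ fun m hm => ?_
  rw [aeval_monomial, MvPolynomial.algebraMap_apply, ← zero_add (L n), ← h (mem_support_iff.1 hm),
    Finsupp.weight_apply, Finsupp.sum, map_sum]
  refine (isWeightedHomogeneous_C _ _).mul (IsWeightedHomogeneous.prod _ _ _ fun v hv => ?_)
  rw [map_nsmul]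
  exact (k v ((mem_vars_iff_mem_support v).2 ⟨m, hm, hv⟩)).pow _

theorem aeval_congr {V S : Type} [CommRing S] [Algebra ℝ S] {P : MvPolynomial V ℝ} {x x' : V → S}
    (h : ∀ v ∈ P.vars, x v = x' v) : aeval x P = aeval x' P :=
  eval₂Hom_congr' rfl (fun v hv _ => h v hv) rfl

theorem vX {V : Type} {i j : V} (h : j ∈ (X i : MvPolynomial V ℝ).vars) : j = i := by
  simpa using h

theorem v0 {V : Type} {j : V} : j ∉ (0 : MvPolynomial V ℝ).vars := by simp

theorem det_uni {N : Type} [Fintype N] [DecidableEq N] (rk : N → ℕ) {D : Matrix N N ℝ}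
    (h : ∀ x x', rk x ≤ rk x' → D x x' = if x = x' then 1 else 0) : D.det = 1 := by
  have t : Dᵀ.BlockTriangular rk := fun i j k =>
    (h j i k.le).trans (if_neg fun e => k.ne (congrArg rk e))
  rw [← det_transpose, t.det]
  refine prod_eq_one fun a _ => (congrArg det (Matrix.ext fun i j => ?_)).trans det_one
  exact (h j.1 i.1 (j.2.trans i.2.symm).le).trans
    ((if_congr (Subtype.ext_iff.symm.trans eq_comm) rfl rfl).trans (one_apply).symm)

theorem gs_eqv {A B : Type} [Fintype A] [Fintype B] [DecidableEq A] [DecidableEq B] (e : A ≃ B)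
    (K : Matrix B B ℝ) (x : B → ℝ) : gs (K.submatrix e e)⁻¹ (x ∘ e) = gs K⁻¹ x := by
  rw [gs, gs, inv_submatrix_equiv, qf, submatrix_mulVec_equiv, comp_equiv_dotProduct_comp_equiv]
  simp only [Function.comp_assoc, Equiv.self_comp_symm, Function.comp_id, qf]

theorem gs_blk {A B : Type} [Fintype A] [Fintype B] [DecidableEq A] [DecidableEq B]
    {K : Matrix A A ℝ} {L : Matrix B B ℝ} (h : K.PosDef) (h' : L.PosDef) (x : A ⊕ B → ℝ) :
    gs (fromBlocks K 0 0 L)⁻¹ x = gs K⁻¹ (x ∘ .inl) * gs L⁻¹ (x ∘ .inr) := by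
  rw [inv_eq_right_inv (B := fromBlocks K⁻¹ 0 0 L⁻¹) (by
    rw [fromBlocks_multiply, mul_nonsing_inv _ h.det_pos.ne'.isUnit,
      mul_nonsing_inv _ h'.det_pos.ne'.isUnit]; simp), gs, gs, gs, ← Real.exp_add]
  congr 1
  simp only [qf, dotProduct, fromBlocks_mulVec, Fintype.sum_sum_type, zero_mulVec, add_zero,
    zero_add, Sum.elim_inl, Sum.elim_inr, Function.comp_apply]
  ring

theorem zc_eq {σ : Type} (T : TS σ) : T.Zc = √T.K.det / |T.A.det| := by
  rw [TS.Zc, dt_inv, dt, inv_inv, TS.D, det_mul, det_mul, det_transpose,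
    det_nonsing_inv, Ring.inverse_eq_inv', mul_comm, ← mul_assoc, ← sq, Real.sqrt_mul (sq_nonneg _),
    Real.sqrt_sq_eq_abs, abs_inv, div_eq_inv_mul]

section sq
variable {σ τ : Type} [DecidableEq σ] [DecidableEq τ] {col : τ → σ} {μ : τ →₀ ℕ}

/-- the colours of the letters -/
abbrev cw (col : τ → σ) : τ → σ →₀ ℕ := fun t => Finsupp.single (col t) 1

theorem le_col (μ : τ →₀ ℕ) (t : τ) : μ t ≤ μ.mapDomain col (col t) := by
  simpa using Finsupp.mapDomain_mono (f := col) (Finsupp.single_le_iff.2 (le_refl (μ t))) (col t)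

variable (h : ∀ c, μ.mapDomain col c ≤ 1)
include h

theorem inj_on : Set.InjOn col μ.support := fun t k t' k' e => of_not_not fun n => by
  have a : Finsupp.single t 1 + Finsupp.single t' 1 ≤ μ := fun u => by
    have := Finsupp.mem_support_iff.1 k
    have := Finsupp.mem_support_iff.1 k'
    simp only [Finsupp.add_apply, Finsupp.single_apply]
    split_ifs with a b <;> subst_vars <;> first | omega | exact absurd rfl n
  have := (Finsupp.mapDomain_mono (f := col) a (col t)).trans (h _)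
  simp [Finsupp.mapDomain_add, e] at this

theorem sw_apply {ν : σ →₀ ℕ} (k : ν ≤ μ.mapDomain col) (t : τ) :
    sw col μ ν t = if μ t = 0 then 0 else ν (col t) := by
  have a := (le_col (col := col) μ t).trans (h _)
  have b := (k (col t)).trans (h _)
  rw [sw, Finsupp.filter_apply]
  split_ifs <;> omega

theorem sw_uq {μ' : τ →₀ ℕ} (k : μ'.support ⊆ μ.support) (k' : μ'.mapDomain col ≤ μ.mapDomain col) :
    μ' = sw col μ (μ'.mapDomain col) := Finsupp.ext fun t => by
  rw [sw_apply h k']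
  split_ifs with c
  · exact of_not_not fun n => Finsupp.mem_support_iff.1 (k (Finsupp.mem_support_iff.2 n)) c
  · exact (Finsupp.mapDomain_apply' _ _ k (inj_on h) (Finsupp.mem_support_iff.2 c)).symm

theorem sw_col {ν : σ →₀ ℕ} (k : ν ≤ μ.mapDomain col) : (sw col μ ν).mapDomain col = ν := by
  have s : (sw col μ ν).support ⊆ μ.support := filter_subset _ _
  ext c
  by_cases e : c ∈ μ.support.image col
  · obtain ⟨t, m, rfl⟩ := mem_image.1 e
    rw [Finsupp.mapDomain_apply' _ _ s (inj_on h) m, sw_apply h k,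
      if_neg (Finsupp.mem_support_iff.1 m)]
  · rw [Finsupp.notMem_support_iff.1 fun m => e (image_subset_image s (Finsupp.mapDomain_support m))]
    exact (Nat.le_zero.1 (Finsupp.notMem_support_iff.1 (fun m => e (Finsupp.mapDomain_support m)) ▸
      k c)).symm

theorem sw_self : sw col μ (μ.mapDomain col) = μ := (sw_uq h Subset.rfl le_rfl).symm

omit h in
/-- the linear form of `sw` -/
def sl (col : τ → σ) (μ : τ →₀ ℕ) : (σ →₀ ℕ) →+ τ →₀ ℕ :=
  ∑ t ∈ μ.support, (Finsupp.singleAddHom t).comp (Finsupp.applyAddHom (col t))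

theorem sl_eq {ν : σ →₀ ℕ} (k : ν ≤ μ.mapDomain col) : sl col μ ν = sw col μ ν := by
  ext t
  rw [sw_apply h k]
  simp [sl, AddMonoidHom.finsetSum_apply, Finsupp.finsetSum_apply, Finsupp.single_apply]

theorem chi_hom {Q : MvPolynomial τ R} {ν : σ →₀ ℕ} (k : ν ≤ μ.mapDomain col)
    (q : Q.IsWeightedHomogeneous (cw col) ν) :
    aeval (fun t => if μ t = 0 then (0 : R) else 1) Q = coeff (sw col μ ν) Q := by
  rw [aeval_def, eval₂_eq, sum_eq_single (sw col μ ν) (fun m hm n => ?_)
    fun m => by rw [notMem_support_iff.1 m, map_zero, zero_mul]]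
  · rw [prod_eq_one fun t m => by
      rw [if_neg (Finsupp.mem_support_iff.1 (filter_subset _ _ m)), one_pow], mul_one]; rfl
  · have e : m.mapDomain col = ν := (weight_col col m).symm.trans (q (mem_support_iff.1 hm))
    obtain ⟨t, a, b⟩ := not_subset.1 fun s => n (e ▸ sw_uq h s (e ▸ k))
    rw [prod_eq_zero a (by
      rw [if_pos (Finsupp.notMem_support_iff.1 b), zero_pow (Finsupp.mem_support_iff.1 a)]), mul_zero]

/-- **the coefficient of a squarefree word** -/
theorem sqf_coeff {V : Type} {w : V → σ →₀ ℕ} {P : MvPolynomial V ℝ} {Y : V → MvPolynomial τ R}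
    (p : P.IsWeightedHomogeneous w (μ.mapDomain col))
    (k : ∀ v ∈ P.vars, (Y v).IsWeightedHomogeneous (cw col) (w v)) :
    coeff μ (aeval Y P) = aeval (fun v => coeff (sw col μ (w v)) (Y v)) P := by
  have := chi_hom h le_rfl (hom_aeval (AddMonoidHom.id _) p k)
  rw [sw_self h] at this
  rw [← this]
  exact (comp_aeval_apply Y ((aeval _).restrictScalars ℝ) P).trans
    (aeval_congr fun v m => chi_hom h (wt_le p m) (k v m))

end sq

section sp
variable {C σ τ : Type} [DecidableEq σ] [DecidableEq τ] {B : Bk (VV C σ) σ} {col : τ → σ}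
  {W : Finset (τ →₀ ℕ)}

theorem bo_sp (h : Bo B) : Bo (sp B col W) := by
  have q : ∀ x : (sp B col W).N, ∀ c, x.1.2.1.mapDomain col c ≤ 1 := fun x c => x.2 ▸ h.sq _ c
  refine ⟨⟨fun x => x.1.2.ne, fun x => ?_, fun x c m => ?_, fun x x' m => ?_⟩,
    fun x t => (le_col _ t).trans (q x _)⟩
  · have e : sl col x.1.2.1 (B.wd x.1.1) = (sp B col W).wd x := by
      rw [sl_eq (q x) x.2.ge, ← x.2]; exact sw_self (q x)
    rw [← e]
    refine hom_aeval _ (h.ok.hom _) fun v m => ?_
    rw [sl_eq (q x) ((wt_le (h.ok.hom _) m).trans x.2.ge)]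
    rcases v with v | a
    · exact isWeightedHomogeneous_X _ _ _
    · simp only [Sum.elim_inr]
      split_ifs
      exacts [isWeightedHomogeneous_X _ _ _, isWeightedHomogeneous_zero _ _ _]
  · obtain ⟨v | a, m1, m2⟩ := mem_vars_bind₁ _ _ m
    · intro z
      rw [Sum.inl.inj (vX m2)] at z
      have := sw_col (q x) ((wt_le (h.ok.hom _) m1).trans x.2.ge)
      rw [show sw col x.1.2.1 (B.wg Prod.snd (.inl v)) = 0 from z, Finsupp.mapDomain_zero] at this
      exact h.ok.live _ _ m1 this.symm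
    · simp only [Sum.elim_inr] at m2
      split_ifs at m2
      exacts [absurd (vX m2) Sum.inl_ne_inr, absurd m2 v0]
  · obtain ⟨v | a, m1, m2⟩ := mem_vars_bind₁ _ _ m
    · exact absurd (vX m2) Sum.inr_ne_inl
    · simp only [Sum.elim_inr] at m2
      split_ifs at m2
      · rw [Sum.inr.inj (vX m2)]; exact h.ok.tri _ _ m1
      · exact absurd m2 v0

theorem kn_pd {w : ℝ} {K : Kn τ} (hw : 0 < w) (o : (MR col W K).Ok) : (KN B w col W K).PosDef := by
  have := ((PosDef.one (n := B.N) (R := ℝ)).smul hw).kronecker o.pd |>.submatrix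
    (e := (Subtype.val : (sp B col W).N → _)) Subtype.val_injective
  refine (Matrix.ext fun x x' => ?_ : _ = KN B w col W K) ▸ this
  change w * (if x.1.1 = x'.1.1 then 1 else 0) * K x.1.2.1 x'.1.2.1 = if _ then _ else _
  split_ifs <;> simp

theorem ok0 {K : Kn τ} (d : Dn W) (o : (MR col W K).Ok) : (MR (fun _ => ()) W K).Ok :=
  have a := Sh.mono_ok (col := fun _ => ()) (ε := 0) d
    ((kb_dk (v := fun _ => 1) (a := 1) (b := 1) fun _ _ => ⟨le_rfl, le_rfl⟩).pd' one_pos) (Sh.dk_blk _)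
  ⟨a.ne, a.one, a.gr, a.mul, a.eps, o.pd, fun w w' k => unit_ext ((degree_col _ _).trans
    (((degree_col col _).symm.trans (congrArg Finsupp.degree (o.blk w w' k))).trans
      ((degree_col col _).trans (degree_col _ _).symm)))⟩

end sp

section py
variable {σ τ : Type} [DecidableEq σ] [DecidableEq τ] (V : TS σ) (col : τ → σ)
  (W : Finset (τ →₀ ℕ)) (K : Kn τ)

/-- the polynomial of a family -/
def Py (y : V.Cw (MR col W K) → R) (c : V.C) : MvPolynomial τ R :=
  ∑ q : V.Cw (MR col W K) with q.1.1 = c, monomial q.1.2.1 (y q)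

omit [DecidableEq σ] in
variable (R) in
/-- the coefficients of a twist as polynomials in the letters -/
def ρ : MvPolynomial (Sh.MW W) ℝ →+* MvPolynomial τ R :=
  (Sh.rz W R).toRingHom.comp (MvPolynomial.map (algebraMap ℝ R))

/-- the grading by the colours -/
def γ : MvPolynomial τ R →ₐ[R] MvPolynomial σ (MvPolynomial τ R) :=
  aeval fun t => MvPolynomial.C (X t) * X (col t)

variable {V col W K}

theorem rz_Yw (y : V.Cw (MR col W K) → R) (c : V.C) : Sh.rz W R (V.Yw _ y c) = Py V col W K y c := by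
  refine (map_sum (Sh.rz W R) _ _).trans (sum_congr rfl fun q _ => ?_)
  refine (congrArg (Sh.rz W R) C_mul_X_eq_monomial).trans ((Sh.rz_mon _ _).trans ?_)
  rw [Finsupp.weight_single, one_smul]

theorem tw_co (Ψ : V.Twd (MR col W K)) (y : V.Cw (MR col W K) → R) (p : V.Cw (MR col W K)) :
    aeval y ((V.tw _ Ψ).Φ p) = coeff p.1.2.1 (eval₂Hom (ρ R W) (Py V col W K y) (Ψ p.1.1)) := by
  refine (TS.tw_aeval y p).trans ((Sh.cf_rz _ _).trans (congrArg (coeff p.1.2.1) ?_))
  rw [← funext (rz_Yw y)]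
  exact eval₂_comp_left (Sh.rz W R).toRingHom _ _ _

theorem sh_co (h : V.Ok) (y : V.Cw (MR col W K) → R) (p : V.Cw (MR col W K)) :
    aeval y ((V.sh _).Φ p) = coeff p.1.2.1 (aeval (Py V col W K y) (V.Φ p.1.1)) := by
  refine (TS.sh_aeval y p).trans ((Sh.cf_rz _ _).trans (congrArg (coeff p.1.2.1) ?_))
  rw [← funext (rz_Yw y), h.hz _ 1, TS.hz_one]
  exact comp_aeval_apply _ ((Sh.rz W R).restrictScalars ℝ) _

theorem ev_map {C : Type} (Y : C → MvPolynomial τ R) (P : MvPolynomial C ℝ) :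
    eval₂Hom (ρ R W) Y (map MvPolynomial.C P) = aeval Y P := by
  rw [coe_eval₂Hom, eval₂_map, aeval_def]
  congr 1
  ext1 a
  simp [ρ, MvPolynomial.algebraMap_apply]

theorem ev_sub {C C' : Type} (Y : C → MvPolynomial τ R)
    (g : C' → MvPolynomial C (MvPolynomial (Sh.MW W) ℝ)) (Q : MvPolynomial C' _) :
    eval₂Hom (ρ R W) Y (eval₂ MvPolynomial.C g Q) =
      eval₂Hom (ρ R W) (fun c => eval₂Hom (ρ R W) Y (g c)) Q := eval₂Hom_bind₁ _ _ _ _

theorem py_hom (y : V.Cw (MR col W K) → R) (c : V.C) :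
    (Py V col W K y c).IsWeightedHomogeneous (cw col) (V.deg c) :=
  IsWeightedHomogeneous.sum _ _ _ fun q m => isWeightedHomogeneous_monomial _ _ _
    ((weight_col col _).trans (q.2.trans (congrArg _ (mem_filter.1 m).2)))

theorem py_co (y : V.Cw (MR col W K) → R) (c : V.C) (μ : τ →₀ ℕ) : coeff μ (Py V col W K y c) =
    if h : μ ∈ W.erase 0 ∧ μ.mapDomain col = V.deg c then y ⟨(c, ⟨μ, h.1⟩), h.2⟩ else 0 := by
  rw [Py, coeff_sum]
  split_ifs with h
  · rw [sum_eq_single_of_mem (⟨(c, ⟨μ, h.1⟩), h.2⟩ : V.Cw (MR col W K)) (by simp) fun q m n => ?_,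
      coeff_monomial, if_pos rfl]
    rw [coeff_monomial, if_neg fun e => n (Subtype.ext (Prod.ext (mem_filter.1 m).2 (Subtype.ext e)))]
  · refine sum_eq_zero fun q m => ?_
    rw [coeff_monomial, if_neg (c := q.1.2.1 = μ) fun e =>
      h ⟨e ▸ q.1.2.2, e ▸ (mem_filter.1 m).2 ▸ q.2⟩]

theorem γ_mon (μ : τ →₀ ℕ) (r : R) :
    γ col (monomial μ r) = monomial (μ.mapDomain col) (monomial μ r) := by
  rw [γ, aeval_monomial, monomial_eq, monomial_eq, Finsupp.prod_mapDomain_index
    (fun _ => pow_zero _) fun _ _ _ => pow_add _ _ _, map_mul, map_finsuppProd, mul_assoc,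
    ← Finsupp.prod_mul]
  simp only [mul_pow, map_pow]
  rfl

theorem γ_co (μ : τ →₀ ℕ) (P : MvPolynomial τ R) :
    coeff μ (coeff (μ.mapDomain col) (γ col P)) = coeff μ P := by
  induction P using MvPolynomial.induction_on' with
  | add p q a b => rw [map_add, coeff_add, coeff_add, coeff_add, a, b]
  | monomial m a =>
    rw [γ_mon, coeff_monomial]
    split_ifs with e
    · rfl
    · rw [coeff_monomial, if_neg fun k => e (by rw [k]), coeff_zero]

theorem γ_py (y : V.Cw (MR col W K) → R) (c : V.C) :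
    γ col (Py V col W K y c) = monomial (V.deg c) (Py V col W K y c) := by
  rw [Py, map_sum, map_sum]
  exact sum_congr rfl fun q m => by
    rw [γ_mon, show q.1.2.1.mapDomain col = _ from q.2, (mem_filter.1 m).2]

end py

end Cw

end Crest.Agent.N49.Sw

end
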