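import Crest.Agent.N49.Sw.Df2
import Crest.Agent.N49.Sw.Wn

/-!
# Row 49 (helper50): the bracket functions of a closed subsystem become coordinates
-/

set_option autoImplicit false

open Matrix MvPolynomial Finset

noncomputable section

namespace Crest.Agent.N49.Sw

open Po Tw Sd

namespace Ib

theorem gs_diag {N : Type} [Fintype N] [DecidableEq N] {v : N → ℝ} (hv : ∀ a, 0 < v a)
    (x : N → ℝ) : gs (diagonal v)⁻¹ x = ∏ a, Real.exp (-Real.pi * (x a ^ 2 / v a)) := by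
  have iv : (diagonal v)⁻¹ = diagonal fun a => (v a)⁻¹ :=
    inv_eq_left_inv (by
      rw [diagonal_mul_diagonal, ← diagonal_one]
      exact congrArg _ (funext fun a => inv_mul_cancel₀ (hv a).ne'))
  rw [iv, gs, qf, ← Real.exp_sum, dotProduct, mul_sum, ← sum_neg_distrib]
  refine congrArg _ (sum_congr rfl fun a _ => ?_)
  rw [mulVec_diagonal, div_eq_mul_inv]; ring

theorem sw_eq {σ : Type} [DecidableEq σ] {col : σ → σ} {w μ : σ →₀ ℕ} (h1 : ∀ t, w t ≤ 1)
    (h2 : ∀ t, w t ≠ 0 → col t = t) (h : μ ≤ w) : sw col w μ = μ := by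
  ext t
  have a := h t
  have b := h1 t
  rw [sw, Finsupp.filter_apply]
  by_cases c : w t = 0
  · rw [c, ite_self]; omega
  · rw [h2 t c]; split_ifs <;> omega

theorem md_eq {σ : Type} {col : σ → σ} {w : σ →₀ ℕ} (h2 : ∀ t, w t ≠ 0 → col t = t) :
    w.mapDomain col = w :=
  (Finsupp.mapDomain_congr (g := id) fun t ht => h2 t (Finsupp.mem_support_iff.1 ht)).trans
    Finsupp.mapDomain_id

/-- the abstract estimate -/
theorem core {X Y Z : Type} [Nonempty X] [Nonempty Y] (e : Z ≃ X × Y) {f : X → ℝ} {h : X → Y → ℝ}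
    {u : Z → ℝ} {P p ε : ℝ} {G : X → ℂ} {c : X → ℝ} {i : X → Y → ℂ} {F : Z → ℂ}
    (f0 : ∀ x, 0 < f x) (h0 : ∀ x y, 0 < h x y) (hu : ∀ z, u z = f (e z).1 * h (e z).1 (e z).2)
    (hF : ∀ z, F z = G (e z).1 * c (e z).1 * i (e z).1 (e z).2) (P0 : 0 < P) (p0 : 0 ≤ p)
    (ε0 : 0 ≤ ε) (ε1 : ε ≤ 1) (sh : ∀ x, Summable (h x)) (b : ∀ x, |∑' y, h x y - P| ≤ ε * P)
    (hG : ∀ x, ‖G x‖ ≤ 1) (c0 : ∀ x, 0 ≤ c x ∧ c x ≤ 1) (hi : ∀ x y, ‖i x y‖ ≤ 1)
    (b' : ∀ x, ‖c x * ((∑' y, (h x y : ℂ) * i x y) / P) - p‖ ≤ 2 * ε) :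
    p * ‖(∑' x, (f x : ℂ) * G x) / (∑' x, f x : ℝ)‖ / 2 - 2 * ε ≤
      ‖(∑' z, (u z : ℂ) * F z) / (∑' z, u z : ℝ)‖ := by
  by_cases sf : Summable f
  swap
  · rw [tsum_eq_zero_of_not_summable sf, Complex.ofReal_zero, div_zero, norm_zero, mul_zero]
    linarith [norm_nonneg ((∑' z, (u z : ℂ) * F z) / (∑' z, u z : ℝ))]
  obtain ⟨s, b1⟩ := Wn.split (fun x => (f0 x).le) (fun x y => (h0 x y).le) sf sh b
  have b2 := b1 1 fun _ => norm_one.le
  simp only [Pi.one_apply, mul_one] at b2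
  rw [← Complex.ofReal_tsum, ← Complex.ofReal_tsum, ← Complex.ofReal_mul, ← Complex.ofReal_sub,
    Complex.norm_real, Real.norm_eq_abs] at b2
  have Z0 : 0 < ∑' x, f x := sf.tsum_pos (fun x => (f0 x).le) (Classical.arbitrary X) (f0 _)
  have U0 : 0 < ∑' q : X × Y, f q.1 * h q.1 q.2 := s.tsum_pos
    (fun q => (mul_pos (f0 _) (h0 _ _)).le) (Classical.arbitrary _) (mul_pos (f0 _) (h0 _ _))
  have n : ∀ {Z : Type} {u : Z → ℝ} (G : Z → ℂ) (a : ℝ), (∀ z, 0 ≤ u z) → Summable u →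
      (∀ z, ‖G z‖ ≤ a) → Summable fun z => (u z : ℂ) * G z := fun G a u0 su hG =>
    (su.mul_right a).of_norm_bounded fun z => by
      rw [norm_mul, Complex.norm_real, Real.norm_of_nonneg (u0 z)]
      exact mul_le_mul_of_nonneg_left (hG z) (u0 z)
  have cn : ∀ x, ‖(c x : ℂ)‖ ≤ 1 := fun x => by
    rw [Complex.norm_real, Real.norm_of_nonneg (c0 x).1]; exact (c0 x).2
  have s3 := n (fun q : X × Y => G q.1 * c q.1 * i q.1 q.2) 1
    (fun q => (mul_pos (f0 _) (h0 _ _)).le) s fun q => by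
      rw [norm_mul, norm_mul]
      exact mul_le_one₀ (mul_le_one₀ (hG _) (norm_nonneg _) (cn _)) (norm_nonneg _) (hi _ _)
  have Pc : (P : ℂ) ≠ 0 := Complex.ofReal_ne_zero.2 P0.ne'
  set d : X → ℂ := fun x => G x * (c x * ((∑' y, (h x y : ℂ) * i x y) / P) - p) with hd
  have db : ∀ x, ‖d x‖ ≤ 2 * ε := fun x => by
    rw [hd, norm_mul]
    exact (mul_le_of_le_one_left (norm_nonneg _) (hG x)).trans (b' x)
  have q : ∀ x, ∑' y, ((f x * h x y : ℝ) : ℂ) * (G x * c x * i x y) =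
      P * (p * (f x * G x) + f x * d x) := fun x => by
    rw [show P * (p * (f x * G x) + f x * d x) = f x * G x * c x * ∑' y, (h x y : ℂ) * i x y by
      rw [hd]; field_simp; ring, ← tsum_mul_left]
    exact tsum_congr fun y => by push_cast; ring
  have s4 := n G 1 (fun x => (f0 x).le) sf hG
  have s5 := n d _ (fun x => (f0 x).le) sf db
  have t5 : ‖∑' x, (f x : ℂ) * d x‖ ≤ (∑' x, f x) * (2 * ε) := by
    rw [← tsum_mul_right]
    refine tsum_of_norm_bounded (sf.mul_right _).hasSum fun x => ?_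
    rw [norm_mul, Complex.norm_real, Real.norm_of_nonneg (f0 x).le]
    exact mul_le_mul_of_nonneg_left (db x) (f0 x).le
  rw [tsum_congr hu, e.tsum_eq fun q => f q.1 * h q.1 q.2,
    tsum_congr fun z => show (u z : ℂ) * F z = _ by rw [hu, hF],
    e.tsum_eq fun q => ((f q.1 * h q.1 q.2 : ℝ) : ℂ) * (G q.1 * c q.1 * i q.1 q.2), s3.tsum_prod,
    tsum_congr q, tsum_mul_left, (s4.mul_left _).tsum_add s5, tsum_mul_left, norm_div, norm_div,
    norm_mul, Complex.norm_real, Complex.norm_real, Complex.norm_real, Real.norm_of_nonneg Z0.le,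
    Real.norm_of_nonneg U0.le, Real.norm_of_nonneg P0.le]
  have t6 := norm_sub_le (p * ∑' x, (f x : ℂ) * G x + ∑' x, (f x : ℂ) * d x) (∑' x, (f x : ℂ) * d x)
  rw [add_sub_cancel_right, norm_mul, Complex.norm_real, Real.norm_of_nonneg p0] at t6
  have t7 := norm_nonneg (p * ∑' x, (f x : ℂ) * G x + ∑' x, (f x : ℂ) * d x)
  generalize ‖p * ∑' x, (f x : ℂ) * G x + ∑' x, (f x : ℂ) * d x‖ = A at *
  generalize ‖∑' x, (f x : ℂ) * G x‖ = A0 at *
  generalize ‖∑' x, (f x : ℂ) * d x‖ = A1 at *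
  generalize ∑' q : X × Y, f q.1 * h q.1 q.2 = U at *
  generalize ∑' x, f x = V at *
  have t8 : U ≤ 2 * (P * V) := by
    have := (abs_le.1 b2).2
    nlinarith [mul_pos P0 Z0]
  calc _ ≤ A / V / 2 := by
        have : p * (A0 / V) ≤ A / V + 2 * ε := by
          rw [← mul_div_assoc, div_le_iff₀ Z0, add_mul, div_mul_cancel₀ _ Z0.ne']; linarith
        linarith
    _ = P * A / (2 * (P * V)) := by field_simp
    _ ≤ _ := div_le_div_of_nonneg_left (by positivity) U0 t8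

end Ib

open Ib in
theorem inb (hC : COLW) : INB := by
  classical
  intro σ _ _ s M m g T st B B0 j w col W κ Ψ G tb bo bo0 hs w0 dn adm hj hjw hW hκ hG
  have n0 : ∀ μ ∈ W, (1 : ℝ) ≤ w * κ μ := fun μ h =>
    le_trans (le_add_of_nonneg_left (by positivity)) (hκ μ h).1
  have ok : (MR col W (dk κ)).Ok := Sh.mono_ok dn (by
    have : (MR col W (dk κ)).K = diagonal fun μ : {μ // μ ∈ W.erase 0} => κ μ.1 :=
      Matrix.ext fun (a b : {μ // μ ∈ W.erase 0}) =>
        if_congr (Subtype.ext_iff (a1 := a) (a2 := b)).symm rfl rfl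
    rw [this]
    exact PosDef.diagonal fun μ => (mul_pos_iff_of_pos_left w0).1
      (zero_lt_one.trans_le (n0 _ (mem_of_mem_erase μ.2)))) (Sh.dk_blk _)
  obtain ⟨-, bs, -, bij, -, hu, hw, -⟩ := hC σ σ s M T st B w col W _ Ψ tb bo hs w0 dn ok adm
  let v : (sp B col W).N → ℝ := fun x => w * κ x.1.2.1
  have hK : KN B w col W (dk κ) = diagonal v := by
    ext x x'
    by_cases c : x = x'
    · subst c; simp [KN, dk, v]
    · rw [diagonal_apply_ne _ c, KN, of_apply]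
      split_ifs with c1
      · rw [dk, if_neg fun c2 => c (Subtype.ext (Prod.ext c1 (Subtype.ext c2))), mul_zero]
      · rfl
  have cd : (Fintype.card (sp B col W).N : ℝ) ≤ Fintype.card B.N * #W := by
    have : Fintype.card (sp B col W).N ≤ Fintype.card B.N * #W :=
      (Fintype.card_subtype_le _).trans (by
        rw [Fintype.card_prod, Fintype.card_coe]
        exact Nat.mul_le_mul_left _ card_erase_le)
    exact_mod_cast this
  have hv : ∀ x, (Fintype.card (sp B col W).N + m + 1 : ℝ) ≤ v x := fun x =>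
    le_trans (by linarith) (hκ _ (mem_of_mem_erase x.1.2.2)).1
  have v1 : ∀ x, 1 ≤ v x := fun x => n0 _ (mem_of_mem_erase x.1.2.2)
  have v0 : ∀ x, 0 < v x := fun x => zero_lt_one.trans_le (v1 x)
  have mem : ∀ a, B0.wd a ∈ W.erase 0 := fun a => mem_erase.2 ⟨bo0.ok.ne a, (hW a).1⟩
  let j' : B0.N → (sp B col W).N := fun a =>
    ⟨(j a, ⟨B0.wd a, mem a⟩), (md_eq (hW a).2).trans (hjw a).1.symm⟩
  have hj' : Function.Injective j' := fun a b c => hj (congrArg (fun x => x.1.1) c)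
  have hΘ : ∀ a, (sp B col W).Θ (j' a) = rename (Sum.map id j') (B0.Θ a) := fun a => by
    change aeval (S₁ := MvPolynomial (VV T.C σ ⊕ (sp B col W).N) ℝ) _ (B.Θ (j a)) = _
    rw [(hjw a).2, aeval_rename, rename_eq_aeval]
    refine eval₂Hom_congr' rfl (fun x hx _ => ?_) rfl
    have k := sw_eq (bo0.sq a) (hW a).2 (wt_le (bo0.ok.hom a) hx)
    cases x with
    | inl x => exact congrArg (fun μ => X (Sum.inl (x.1, μ))) k
    | inr b =>
      have k' : sw col (B0.wd a) (B.wd (j b)) = B0.wd b := by rw [(hjw b).1]; exact k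
      refine (dif_pos ⟨k'.symm ▸ mem b, by rw [k']; exact (j' b).2⟩).trans ?_
      exact congrArg (fun x => X (Sum.inr x)) (Subtype.ext (Prod.ext rfl (Subtype.ext k')))
  let β : (VV T.C σ → ℝ) → ℝ := fun z => bw B0 (v ∘ j') z (B0.om z)
  have β0 : ∀ z, 1 / 3 ^ Fintype.card B0.N ≤ β z := fun z => by
    rw [← _root_.one_div_pow, ← card_univ, ← prod_const]
    refine prod_le_prod (fun _ _ => by norm_num) fun a _ => ?_
    have h1 : ((B0.om z a : ℝ) - eval (Sum.elim z fun a => (B0.om z a : ℝ)) (B0.Θ a)) ^ 2 ≤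
        (1 / 2) ^ 2 := by
      rw [← sq_abs, abs_sub_comm]
      exact pow_le_pow_left₀ (abs_nonneg _) (bo0.ok.tri.abs_le z a) 2
    have h2 := (div_le_self (sq_nonneg _) (v1 (j' a))).trans h1
    have h3 : Real.exp (-1) ≤ Real.exp (-Real.pi * (((B0.om z a : ℝ) -
        eval (Sum.elim z fun a => (B0.om z a : ℝ)) (B0.Θ a)) ^ 2 / v (j' a))) :=
      Real.exp_le_exp.2 (by nlinarith [Real.pi_le_four, Real.pi_pos])
    refine le_trans ?_ h3
    rw [Real.exp_neg, one_div]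
    exact inv_anti₀ (Real.exp_pos 1) (by linarith [Real.exp_one_lt_d9])
  have q0 : (0 : ℝ) < 1 / 3 ^ Fintype.card B0.N := by positivity
  have βp : ∀ z, 0 < β z := fun z => q0.trans_le (β0 z)
  have c0 : ∀ z, 0 ≤ 1 / 3 ^ Fintype.card B0.N / β z ∧ 1 / 3 ^ Fintype.card B0.N / β z ≤ 1 :=
    fun z => ⟨div_nonneg q0.le (βp z).le, (div_le_one (βp z)).2 (β0 z)⟩
  refine ⟨fun z => 1 / 3 ^ Fintype.card B0.N / β z, c0, fun z z' e => ?_, ?_⟩
  · refine congrArg _ (prod_congr rfl fun a _ => ?_)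
    have e' : ∀ c : VV T.C σ, c.2 ≠ 0 → c.2 ≤ B0.wd a → z c = z' c := fun c _ k => e c.1 c.2 a k
    rw [bo0.ok.om_congr e' a le_rfl]
    exact congrArg (fun t => Real.exp (-Real.pi * ((B0.om z' a - t) ^ 2 / _)))
      (bo0.ok.ev_congr e' (bo0.ok.hom a) (bo0.ok.live a))
  have rz : ∀ y : (cE s T B w).Cw (MR col W (dk κ)) → ℤ,
      res s T B w col W _ (zc y) = zc (res s T B w col W _ y) := fun y => by
    funext p; simp [res, ex, zc]
  have ez : ∀ (y : (cE s T B w).Cw (MR col W (dk κ)) → ℤ) a,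
      ex _ _ (fm s T B w) y (.inr (j a), B0.wd a) = nw s T B w col W _ y (j' a) := fun y a => by
    refine sum_eq_single_of_mem _ (mem_filter.2 ⟨mem_univ _, rfl, rfl⟩) fun p hp c => ?_
    obtain ⟨⟨x | x, μ⟩, k⟩ := p
    · exact absurd (mem_filter.1 hp).2.1 Sum.inl_ne_inr
    · obtain ⟨k1, k2⟩ := (mem_filter.1 hp).2
      exact absurd (Subtype.ext (Prod.ext (congrArg Sum.inr (Sum.inr_injective k1))
        (Subtype.ext k2))) c
  have r0 : ∀ x, 0 < √(v x) := fun x => Real.sqrt_pos.2 (v0 x)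
  have p0 : 0 < ∏ a, √(v (j' a)) := prod_pos fun a _ => r0 _
  have p1 : ∏ a, √(v (j' a)) ≤ (2 ^ g) ^ Fintype.card B0.N := by
    rw [← card_univ, ← prod_const]
    refine prod_le_prod (fun a _ => (r0 _).le) fun a _ => Real.sqrt_le_iff.2 ⟨by positivity, ?_⟩
    rw [← pow_mul, mul_comm g, pow_mul]
    norm_num
    exact (hκ _ (hW a).1).2
  have key := core (Equiv.ofBijective _ bij) (f := (T.tw _ Ψ).wt)
    (h := fun y0 => bw (sp B col W) v (ex T _ id (zc y0)))
    (u := ((cE s T B w).tw _ (cT s T B w col W (dk κ) Ψ)).wt) (P := ∏ x, √(v x))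
    (p := 1 / 3 ^ Fintype.card B0.N / ∏ a, √(v (j' a))) (ε := 1 / 2 ^ m) (G := G)
    (c := fun y0 => 1 / 3 ^ Fintype.card B0.N / β (ex T _ id (zc y0)))
    (i := fun y0 k => if k ∘ j' = B0.om (ex T _ id (zc y0)) then 1 else 0)
    (F := fun y => G (res s T B w col W _ y) *
      ((1 / 3 ^ Fintype.card B0.N / β (ex T _ id (zc (res s T B w col W _ y))) : ℝ) : ℂ) *
        if ∀ a, ex _ _ (fm s T B w) y (.inr (j a), B0.wd a) =
          B0.om (ex T _ id (zc (res s T B w col W _ y))) a then 1 else 0)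
    (fun _ => Real.exp_pos _) (fun _ _ => prod_pos fun _ _ => Real.exp_pos _)
    (fun y => by
      rw [hw, hK, gs_diag v0]
      refine congrArg _ (prod_congr rfl fun x _ => ?_)
      have k := hu (zc y) x
      rw [rz] at k
      exact congrArg (fun t => Real.exp (-Real.pi * (t ^ 2 / v x))) k)
    (fun y => by
      refine congrArg _ (if_congr ?_ rfl rfl)
      simp only [ez]
      exact funext_iff.symm)
    (prod_pos fun x _ => r0 x) (by positivity) (by positivity)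
    (div_le_one_of_le₀ (one_le_pow₀ one_le_two) (by positivity))
    (fun y0 => (wn _ _ _ v m _ bs.ok.tri hv).1) (fun y0 => (wn _ _ _ v m _ bs.ok.tri hv).2) hG
    (fun y0 => c0 _) (fun y0 k => by split_ifs <;> simp)
    (fun y0 => by
      have h1 := ws _ _ _ (sp B col W) B0 j' v m (ex T _ id (zc y0))
        (fun k => if k = B0.om (ex T _ id (zc y0)) then 1 else 0) bs.ok.tri bo0.ok.tri hj' hΘ hv
        fun k => by split_ifs <;> simp
      rw [tsum_eq_single (f := fun k => (bw B0 (v ∘ j') (ex T _ id (zc y0)) k : ℂ) *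
        if k = B0.om (ex T _ id (zc y0)) then 1 else 0) (B0.om (ex T _ id (zc y0)))
        fun k hk => by rw [if_neg hk, mul_zero], if_pos rfl, mul_one] at h1
      have h2 : ((1 / 3 ^ Fintype.card B0.N / ∏ a, √(v (j' a)) : ℝ) : ℂ) =
          (1 / 3 ^ Fintype.card B0.N / β (ex T _ id (zc y0)) : ℝ) *
            ((β (ex T _ id (zc y0)) : ℂ) / (∏ a, √(v (j' a)) : ℝ)) := by
        rw [← Complex.ofReal_div, ← Complex.ofReal_mul, div_mul_div_cancel₀ (βp _).ne']
      rw [h2, ← mul_sub, norm_mul, Complex.norm_real, Real.norm_of_nonneg (c0 _).1, mul_one_div]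
      exact (mul_le_of_le_one_left (norm_nonneg _) (c0 _).2).trans h1)
  refine le_trans ?_ key
  rw [mul_one_div]
  refine sub_le_sub_right ?_ _
  have n1 := norm_nonneg ((T.tw _ Ψ).Ec G)
  calc _ = 1 / 3 ^ Fintype.card B0.N / (2 ^ g) ^ Fintype.card B0.N * ‖(T.tw _ Ψ).Ec G‖ / 2 := by
        rw [mul_pow]; field_simp
    _ ≤ 1 / 3 ^ Fintype.card B0.N / (∏ a, √(v (j' a))) * ‖(T.tw _ Ψ).Ec G‖ / 2 := by gcongr
    _ = _ := rfl

end Crest.Agent.N49.Sw

end
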