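import Crest.Agent.N49.Sw.Df3
import Crest.Agent.N49.Sw.Cwk
import Crest.Agent.N49.Sw.Inb
import Crest.Agent.N49.Tn.Fub

/-!
# Row 49 (helper50): the law of the tower with wide pending families
-/

set_option autoImplicit false

open Matrix MvPolynomial Finset

noncomputable section

namespace Crest.Agent.N49.Sw.Xl

open Po Tw Sd

variable {τ : Type} [DecidableEq τ]

theorem sv_congr {C : Type} {Q : MvPolynomial C ℝ} {μ : τ →₀ ℕ} {z z' : VV C τ → ℝ}
    (h : ∀ F ∈ Q.vars, ∀ ν ≤ μ, z (F, ν) = z' (F, ν)) : sv Q μ z = sv Q μ z' :=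
  congrArg (coeff μ) (Cw.aeval_congr fun F hF => sum_congr rfl fun ν hν => by
    rw [h F hF ν (mem_Iic.1 hν)])

theorem cg_aeval {C : Type} {μ : τ →₀ ℕ} {Y Y' : C → MvPolynomial τ ℝ}
    (h : ∀ F, ∀ ν ≤ μ, coeff ν (Y F) = coeff ν (Y' F)) (Q : MvPolynomial C ℝ) :
    ∀ ν ≤ μ, coeff ν (aeval Y Q) = coeff ν (aeval Y' Q) := by
  induction Q using MvPolynomial.induction_on with
  | C a => intro ν _; simp
  | add p q hp hq => intro ν hν; simp only [map_add, coeff_add, hp ν hν, hq ν hν]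
  | mul_X p F hp =>
    intro ν hν
    rw [map_mul, map_mul, aeval_X, aeval_X, coeff_mul, coeff_mul]
    refine sum_congr rfl fun x hx => ?_
    rw [HasAntidiagonal.mem_antidiagonal] at hx
    rw [hp _ (le_self_add.trans (hx.le.trans hν)), h _ _ (le_add_self.trans (hx.le.trans hν))]

theorem sv_eq {C : Type} (Q : MvPolynomial C ℝ) {μ : τ →₀ ℕ} {z : VV C τ → ℝ}
    {Y : C → MvPolynomial τ ℝ} (h : ∀ F, ∀ ν ≤ μ, coeff ν (Y F) = z (F, ν)) :
    sv Q μ z = coeff μ (aeval Y Q) :=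
  cg_aeval (fun F ν hν => by rw [h F ν hν]; simp [coeff_sum, coeff_monomial, hν]) Q μ le_rfl

theorem py_ex {σ : Type} [DecidableEq σ] (V : TS σ) {col : τ → σ} {W : Finset (τ →₀ ℕ)} {K : Kn τ}
    (y : V.Cw (MR col W K) → ℝ) (c : V.C) (μ : τ →₀ ℕ) :
    coeff μ (Cw.Py V col W K y c) = ex V _ id y (c, μ) := by
  rw [Cw.Py, coeff_sum, ex, ← filter_filter, sum_filter (fun q : V.Cw (MR col W K) => _ = μ)]
  exact sum_congr rfl fun q _ => coeff_monomial _ _ _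

theorem ex_eq {σ R : Type} [DecidableEq σ] [AddCommMonoid R] (V : TS σ) {col : τ → σ}
    {W : Finset (τ →₀ ℕ)} {K : Kn τ} (y : V.Cw (MR col W K) → R) (q : V.Cw (MR col W K)) :
    ex V _ id y (q.1.1, q.1.2.1) = y q :=
  sum_eq_single_of_mem q (mem_filter.2 ⟨mem_univ _, rfl, rfl⟩) fun _ hb n =>
    (n (Subtype.ext (Prod.ext (mem_filter.1 hb).2.1 (Subtype.ext (mem_filter.1 hb).2.2)))).elim

theorem ok_dk {σ : Type} {col : τ → σ} {W : Finset (τ →₀ ℕ)} {κ : (τ →₀ ℕ) → ℝ} (dn : Dn W)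
    (h : ∀ μ ∈ W, 0 < κ μ) : (MR col W (dk κ)).Ok := Sh.mono_ok dn (by
  have : (MR col W (dk κ)).K = diagonal fun μ : {μ // μ ∈ W.erase 0} => κ μ.1 :=
    Matrix.ext fun (a b : {μ // μ ∈ W.erase 0}) =>
      if_congr (Subtype.ext_iff (a1 := a) (a2 := b)).symm rfl rfl
  rw [this]
  exact PosDef.diagonal fun μ => h _ (mem_of_mem_erase μ.2)) (Sh.dk_blk _)

variable (T : TS Unit) (P : Bk T.C Unit) (w : ℝ) (W : Finset (τ →₀ ℕ)) (K : Kn τ)

/-- the pending coordinates -/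
abbrev PN : Type := {x : P.N × Sh.MW W // x.2.1.mapDomain (fun _ => ()) = P.wd x.1}

/-- **the coordinates of the wide tower** -/
def eqv : T.Cw (MR (fun _ => ()) W K) ⊕ PN T P W ≃ (xw T P w).Cw (MR (fun _ => ()) W K) where
  toFun := Sum.elim (fun p => ⟨(.inl p.1.1, p.1.2), p.2⟩) fun x => ⟨(.inr x.1.1, x.1.2), x.2⟩
  invFun q := match q with
    | ⟨(.inl c, μ), e⟩ => .inl ⟨(c, μ), e⟩
    | ⟨(.inr a, μ), e⟩ => .inr ⟨(a, μ), e⟩
  left_inv := by rintro (p | x) <;> rfl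
  right_inv := by rintro ⟨⟨p | a, μ⟩, e⟩ <;> rfl

/-- the pending part of a configuration -/
def pn {R : Type} (y : (xw T P w).Cw (MR (fun _ => ()) W K) → R) (x : PN T P W) : R :=
  y ⟨(.inr x.1.1, x.1.2), x.2⟩

/-- **configurations are pairs** `(pj y, pn y)` -/
def E (R : Type) : ((xw T P w).Cw (MR (fun _ => ()) W K) → R) ≃
    (T.Cw (MR (fun _ => ()) W K) → R) × (PN T P W → R) where
  toFun y := (pj T P w W K y, pn T P w W K y)
  invFun x := smg (eqv T P w W K) x.1 x.2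
  left_inv y := smg_self _ y
  right_inv _ := rfl

/-- pending words as a table -/
def kx (k : PN T P W → ℤ) (a : P.N) (ν : τ →₀ ℕ) : ℤ :=
  if h : ν ∈ W.erase 0 ∧ ν.mapDomain (fun _ => ()) = P.wd a then k ⟨(a, ⟨ν, h.1⟩), h.2⟩ else 0

/-- the centres of the pending words -/
def th (y : T.Cw (MR (fun _ => ()) W K) → ℤ) (x : PN T P W) (k : PN T P W → ℤ) : ℝ :=
  sv (P.Θ x.1.1) x.1.2.1 (zP T P (ex T _ id (zc y)) (kx T P W k))

/-- the variances of the pending words -/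
def vr (κ : (τ →₀ ℕ) → ℝ) (x : PN T P W) : ℝ := w * κ x.1.2.1

/-- the weight of the pending words -/
def pw (κ : (τ →₀ ℕ) → ℝ) (y : T.Cw (MR (fun _ => ()) W (dk κ)) → ℤ) (k : PN T P W → ℤ) : ℝ :=
  ∏ x, Wn.g1 (vr T P w W κ x) (th T P W _ y x k) (k x)

variable {T P w W K}

omit [DecidableEq τ] in
theorem md_iff {ν : τ →₀ ℕ} {d : Unit →₀ ℕ} : ν.mapDomain (fun _ => ()) = d ↔ ν.degree = d.degree :=
  ⟨fun e => by rw [← e, degree_col], fun e => unit_ext ((degree_col _ _).trans e)⟩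

theorem kx_eq (k : PN T P W → ℤ) (x : PN T P W) : kx T P W k x.1.1 x.1.2.1 = k x :=
  dif_pos ⟨x.1.2.2, x.2⟩

theorem card_le : Fintype.card (PN T P W) ≤ Fintype.card P.N * #W :=
  (Fintype.card_subtype_le _).trans (by
    rw [Fintype.card_prod, Fintype.card_coe]
    exact Nat.mul_le_mul_left _ card_erase_le)

theorem py_inl (y : (xw T P w).Cw (MR (fun _ => ()) W K) → ℝ) (c : T.C) :
    Cw.Py (xw T P w) _ W K y (.inl c) = Cw.Py T _ W K (pj T P w W K y) c :=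
  MvPolynomial.ext _ _ fun μ => (Cw.py_co y (.inl c) μ).trans (Cw.py_co (pj T P w W K y) c μ).symm

/-- the old words are seen through `pj` -/
theorem ex_inl (y : (xw T P w).Cw (MR (fun _ => ()) W K) → ℝ) (c : T.C) (ν : τ →₀ ℕ) :
    ex (xw T P w) _ id y (.inl c, ν) = ex T _ id (pj T P w W K y) (c, ν) :=
  (py_ex _ y _ ν).symm.trans ((congrArg (coeff ν) (py_inl y c)).trans (py_ex _ _ _ ν))

/-- all the words -/
theorem ex_zP (y : (xw T P w).Cw (MR (fun _ => ()) W K) → ℤ) :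
    ex (xw T P w) _ id (zc y) =
      zP T P (ex T _ id (zc (pj T P w W K y))) (kx T P W (pn T P w W K y)) := by
  funext ⟨F, ν⟩
  cases F with
  | inl c => exact ex_inl _ c ν
  | inr a =>
    refine (py_ex _ _ _ ν).symm.trans ((Cw.py_co _ _ ν).trans ?_)
    change dite (ν ∈ W.erase 0 ∧ ν.mapDomain (fun _ => ()) = P.wd a) _ _ =
      if ν.degree = (P.wd a).degree then ((kx T P W (pn T P w W K y) a ν : ℤ) : ℝ) else 0
    unfold kx
    by_cases h : ν ∈ W.erase 0 ∧ ν.mapDomain (fun _ => ()) = P.wd a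
    · rw [dif_pos h, dif_pos h, if_pos (md_iff.1 h.2)]; rfl
    · rw [dif_neg h, dif_neg h, Int.cast_zero, ite_self]

/-- the errors of the old words -/
theorem u_old (Ψ : T.Twd (MR (fun _ => ()) W K)) (y : (xw T P w).Cw (MR (fun _ => ()) W K) → ℝ)
    (p : T.Cw (MR (fun _ => ()) W K)) :
    ((xw T P w).tw _ (xT T P w W K Ψ)).u y (eqv T P w W K (.inl p)) =
      (T.tw _ Ψ).u (pj T P w W K y) p := by
  refine (Cw.tw_co (xT T P w W K Ψ) y _).trans (Eq.trans ?_ (Cw.tw_co Ψ _ p).symm)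
  refine congrArg (coeff p.1.2.1) ((eval₂Hom_rename _ _ _ _).trans ?_)
  exact congrArg (fun Y => eval₂Hom _ Y (Ψ p.1.1)) (funext (py_inl y))

/-- the errors of the pending words -/
theorem u_new (Ψ : T.Twd (MR (fun _ => ()) W K)) (y : (xw T P w).Cw (MR (fun _ => ()) W K) → ℝ)
    (x : PN T P W) : ((xw T P w).tw _ (xT T P w W K Ψ)).u y (eqv T P w W K (.inr x)) =
      pn T P w W K y x - sv (P.Θ x.1.1) x.1.2.1 (ex (xw T P w) _ id y) := by
  refine (Cw.tw_co (xT T P w W K Ψ) y _).trans ?_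
  refine (congrArg (coeff x.1.2.1) ((Cw.ev_map _ _).trans (map_sub _ _ _))).trans ?_
  refine (coeff_sub _ _ _ _).trans (congrArg₂ (· - ·) ?_
    (sv_eq _ fun F ν _ => py_ex (xw T P w) y F ν).symm)
  exact (congrArg (coeff _) (aeval_X _ _)).trans ((py_ex _ _ _ _).trans
    (ex_eq (xw T P w) y (eqv T P w W K (.inr x))))

variable {κ : (τ →₀ ℕ) → ℝ}

/-- the covariance -/
theorem K_eqv (Ψ' : (xw T P w).Twd (MR (fun _ => ()) W (dk κ)))
    (Ψ : T.Twd (MR (fun _ => ()) W (dk κ))) (a a') :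
    ((xw T P w).tw _ Ψ').K (eqv T P w W _ a) (eqv T P w W _ a') =
      fromBlocks (T.tw _ Ψ).K 0 0 (diagonal (vr T P w W κ)) a a' := by
  rw [TS.tw_K, TS.tw_K]
  rcases a with p | x <;> rcases a' with p' | x'
  · rfl
  · exact zero_mul _
  · exact zero_mul _
  · change (w • (1 : Matrix P.N P.N ℝ)) x.1.1 x'.1.1 * dk κ x.1.2.1 x'.1.2.1 =
      diagonal (vr T P w W κ) x x'
    rw [Matrix.smul_apply, one_apply, dk]
    by_cases c : x = x'
    · subst c; simp [vr]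
    · rw [diagonal_apply_ne _ c]
      split_ifs with c1 c2
      · exact absurd (Subtype.ext (Prod.ext c1 (Subtype.ext c2))) c
      all_goals simp

/-- **the weight of the wide tower** -/
theorem wt_eq (t : T.K.PosDef) (dn : Dn W) (hw : 0 < w) (hκ : ∀ μ ∈ W, 0 < κ μ)
    (Ψ : T.Twd (MR (fun _ => ()) W (dk κ))) (y : (xw T P w).Cw (MR (fun _ => ()) W (dk κ)) → ℤ) :
    ((xw T P w).tw _ (xT T P w W _ Ψ)).wt y =
      (T.tw _ Ψ).wt (pj T P w W _ y) * pw T P w W κ (pj T P w W _ y) (pn T P w W _ y) := by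
  have v0 : ∀ x, 0 < vr T P w W κ x := fun x => mul_pos hw (hκ _ (mem_of_mem_erase x.1.2.2))
  have d0 : (T.tw _ Ψ).K.det ≠ 0 :=
    (TS.kw_posDef (S := MR (fun _ => ()) W (dk κ)) t (ok_dk dn hκ).pd).det_pos.ne'
  have q := qf_blocks (inv_blocks (K_eqv (xT T P w W _ Ψ) Ψ) d0 (PosDef.diagonal v0).det_pos.ne')
    (((xw T P w).tw _ (xT T P w W _ Ψ)).u (zc y))
  have e := Ib.gs_diag v0 fun x =>
    ((xw T P w).tw _ (xT T P w W _ Ψ)).u (zc y) (eqv T P w W _ (.inr x))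
  have e' : pw T P w W κ (pj T P w W _ y) (pn T P w W _ y) = _ :=
    Eq.trans (prod_congr rfl fun x _ => congrArg (fun t => Real.exp (-Real.pi * (t ^ 2 / _)))
      ((u_new Ψ (zc y) x).trans (congrArg (fun z => _ - sv _ _ z) (ex_zP y))).symm) e.symm
  rw [e']
  unfold TS.wt gs
  rw [← Real.exp_add]
  refine congrArg Real.exp ((congrArg (fun x => -(Real.pi * x)) q).trans ?_)
  rw [mul_add, neg_add]
  exact congrArg (fun u => -(Real.pi * qf _ u) + _) (funext (u_old Ψ (zc y)))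

theorem pw_pos (y : T.Cw (MR (fun _ => ()) W (dk κ)) → ℤ) (k : PN T P W → ℤ) :
    0 < pw T P w W κ y k := prod_pos fun _ _ => Wn.g1_pos _ _ _

/-- the centre at `x` sees the words below and of lower rank -/
theorem th_congr (h : P.Tri) (y : T.Cw (MR (fun _ => ()) W K) → ℤ) (x : PN T P W)
    {k k' : PN T P W → ℤ} (e : ∀ b : PN T P W, P.rk b.1.1 < P.rk x.1.1 → b.1.2.1 ≤ x.1.2.1 →
      k b = k' b) : th T P W K y x k = th T P W K y x k' :=
  sv_congr fun F hF ν hν => by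
    cases F with
    | inl c => rfl
    | inr b =>
      refine if_congr Iff.rfl (congrArg Int.cast ?_) rfl
      exact dite_congr rfl (fun c => e ⟨(b, ⟨ν, c.1⟩), c.2⟩ (h _ _ hF) hν) fun _ => rfl

theorem tr (h : P.Tri) (y : T.Cw (MR (fun _ => ()) W K) → ℤ) :
    Wn.Tr (fun x : PN T P W => P.rk x.1.1) (th T P W K y) := fun x _ _ e =>
  th_congr h y x fun b k _ => e b k

/-- **the normaliser of the pending words** -/
theorem nrm (h : P.Tri) {m : ℕ} (hκ : ∀ μ ∈ W, (Fintype.card P.N * #W + m + 1 : ℝ) ≤ w * κ μ)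
    (y : T.Cw (MR (fun _ => ()) W (dk κ)) → ℤ) : Summable (pw T P w W κ y) ∧
    |∑' k, pw T P w W κ y k - ∏ x, √(vr T P w W κ x)| ≤ 1 / 2 ^ m * ∏ x, √(vr T P w W κ x) :=
  Wn.tri card_le (tr h y) fun x => by
    push_cast; exact hκ _ (mem_of_mem_erase x.1.2.2)

end Crest.Agent.N49.Sw.Xl

end
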