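import Crest.Agent.N49.Sw.Altg
import Crest.Agent.N49.Sw.Fat

/-!
# Row 49 (helper67): alternating sums over the fat cube
-/

set_option autoImplicit false

open Matrix MvPolynomial Finset

noncomputable section

namespace Crest.Agent.N49.Sw

open Po Tw Sd Alt

theorem altf : ALTF := fun τ τ0 κ C _ _ _ _ l bl e φ lam W z w G he hl hG hw => by
  classical
  let bk : τ0 → Option (Fin l) := Function.extend e some fun _ => none
  have b1 : ∀ i, bk (e i) = some i := fun i => he.extend_apply _ _ i
  have b2 : ∀ b, (¬ ∃ j, e j = b) → bk b = none := fun b k => Function.extend_apply' _ _ _ k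
  have z1 : ∀ a b, (¬ ∃ j, e j = b) → lam a b = 0 :=
    fun a b n => by_contra fun f => n ⟨_, (hl _ _ f).symm⟩
  have z0 : ∀ a j, bl a ≠ j → lam a (e j) = 0 :=
    fun a j n => by_contra fun f => n (he (hl _ _ f)).symm
  have x : ∀ i (ν : τ0 →₀ ℕ),
      Finsupp.weight (fun b => if bk b = some i then 1 else 0) ν = ν (e i) := fun i ν => by
    rw [Finsupp.weight_apply, Finsupp.sum_fintype _ _ (by simp), sum_eq_single (e i)]
    · simp [b1]
    · intro b _ n
      rw [if_neg, smul_zero]
      intro k
      by_cases q : ∃ j, e j = b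
      · obtain ⟨j, rfl⟩ := q
        rw [b1] at k
        exact n (congrArg e (Option.some.inj k))
      · rw [b2 b q] at k; cases k
    · simp
  have := alt_gen bk (Sum.elim φ 0) (fun _ β => Sum.elim φ fun j : κ × Bool =>
    if j.2 = β then lam j.1 else 0) W z (G := G) fun i m hm => by
      have := congrArg (· (e i)) (hG hm)
      simp only [x]
      rw [← hw i, ← this, Finsupp.weight_apply, Finsupp.weight_apply, Finsupp.sum, Finsupp.sum,
        Finsupp.finsetSum_apply]
      simp
  refine Eq.trans (sum_congr rfl fun ω _ => congrArg (HMul.hMul _) ?_) (this.trans ?_) <;>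
    refine congrArg (fun φ => eval (sbv φ W z) G) (funext₂ fun a b => ?_) <;>
    by_cases k : ∃ j, e j = b
  · obtain ⟨j, rfl⟩ := k
    rw [b1]
    rcases a with a | ⟨i, β⟩
    · rfl
    · by_cases n : bl i = j
      · subst n; rfl
      · simp only [Sum.elim_inr, Option.elim_some, apply_ite (fun f : τ0 → ℤ => f (e j)),
          z0 i j n, Pi.zero_apply, ite_self]
  · rw [b2 b k]
    rcases a with a | ⟨i, β⟩
    · rfl
    · by_cases k' : β = ω (bl i) <;> simp [k', z1 i b k]
  · obtain ⟨j, rfl⟩ := k
    rw [b1]
    rcases a with a | ⟨i, β⟩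
    · simp
    · cases β <;> simp
  · rw [b2 b k]
    rcases a with a | ⟨i, β⟩
    · simp [k]
    · cases β <;> simp [z1 i b k]

end Crest.Agent.N49.Sw

end
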