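import Crest.Agent.N49.Sw.Defs
import Crest.Agent.N49.Tw.Ap2
import Crest.Agent.N49.Tw.Exp
import Crest.Agent.N49.Po.Pi

/-!
# Row 49 (helper72): the law on a product of monomial rings
-/

set_option autoImplicit false
set_option linter.unusedSectionVars false

open Matrix MvPolynomial Finset

noncomputable section

namespace Crest.Agent.N49.Sw

open Po Tw Sd

namespace Pd

section gen
variable {ι : Type} [Fintype ι] [DecidableEq ι] {C : ι → Type} [∀ i, Fintype (C i)]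
  [∀ i, DecidableEq (C i)] {D : Type} [Fintype D] [DecidableEq D] (e : (Σ i, C i) ≃ D)

theorem qf_bd (N : ∀ i, Matrix (C i) (C i) ℝ) (x : D → ℝ) :
    qf ((blockDiagonal' N).submatrix e.symm e.symm) x = ∑ i, qf (N i) fun q => x (e ⟨i, q⟩) := by
  simp only [qf, dotProduct, mulVec, submatrix_apply]
  rw [← e.sum_comp, Fintype.sum_sigma]
  refine sum_congr rfl fun i _ => sum_congr rfl fun p _ => congrArg _ ?_
  rw [← e.sum_comp, Fintype.sum_sigma, sum_eq_single i]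
  · simp
  · intro j _ h
    simp [blockDiagonal'_apply_ne _ _ _ h.symm]
  · simp

theorem inv_bd (N : ∀ i, Matrix (C i) (C i) ℝ) (h : ∀ i, (N i).det ≠ 0) :
    ((blockDiagonal' N).submatrix e.symm e.symm)⁻¹ =
      (blockDiagonal' fun i => (N i)⁻¹).submatrix e.symm e.symm := by
  refine inv_eq_right_inv ?_
  rw [submatrix_mul_equiv, ← blockDiagonal'_mul,
    show (fun i => N i * (N i)⁻¹) = 1 from funext fun i => mul_nonsing_inv _ (h i).isUnit,
    blockDiagonal'_one, submatrix_one_equiv]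

end gen

/-- **Fubini for block diagonal structures** -/
theorem Ec_pi {ι σ σ' : Type} [Fintype ι] [DecidableEq ι] (T : TS σ) (Ts : ι → TS σ')
    (e : (Σ i, (Ts i).C) ≃ T.C)
    (hK : ∀ s s', T.K (e s) (e s') = blockDiagonal' (fun i => (Ts i).K) s s')
    (hu : ∀ (y : T.C → ℤ) i p, T.u (zc y) (e ⟨i, p⟩) = (Ts i).u (zc fun q => y (e ⟨i, q⟩)) p)
    (ht : ∀ i, (Ts i).Tri) (g : ∀ i, ((Ts i).C → ℤ) → ℂ) (hg : ∀ i y, ‖g i y‖ ≤ 1) :
    T.Ec (fun y => ∏ i, g i fun q => y (e ⟨i, q⟩)) = ∏ i, (Ts i).Ec (g i) := by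
  have k : T.K = (blockDiagonal' fun i => (Ts i).K).submatrix e.symm e.symm := by
    ext c c'
    rw [submatrix_apply, ← hK, e.apply_symm_apply, e.apply_symm_apply]
  have w : ∀ y, T.wt y = ∏ i, (Ts i).wt fun q => y (e ⟨i, q⟩) := fun y => by
    rw [TS.wt, k, inv_bd e _ fun i => (ht i).pd.det_pos.ne', gs, qf_bd, mul_sum, ← sum_neg_distrib,
      Real.exp_sum]
    exact prod_congr rfl fun i _ => congrArg (gs _) (funext (hu y i))
  let E : (T.C → ℤ) ≃ ∀ i, (Ts i).C → ℤ :=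
    (e.symm.arrowCongr (Equiv.refl ℤ)).trans (Equiv.piCurry fun i (_ : (Ts i).C) => ℤ)
  have z : T.Z = ∏ i, (Ts i).Z :=
    ((tsum_congr w).trans (E.tsum_eq fun n => ∏ i, (Ts i).wt (n i))).trans
      (tsum_pi_prod fun i => (ht i).summable)
  have s : T.Sc (fun y => ∏ i, g i fun q => y (e ⟨i, q⟩)) = ∏ i, (Ts i).Sc (g i) :=
    ((tsum_congr fun y => by rw [w, Complex.ofReal_prod, ← prod_mul_distrib]; rfl).trans
      (E.tsum_eq fun n => ∏ i, (((Ts i).wt (n i) : ℂ) * g i (n i)))).trans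
      (tsum_pi_prod fun i => (ht i).smc ⟨1, hg i⟩)
  rw [TS.Ec, s, z, Complex.ofReal_prod, ← prod_div_distrib]
  rfl

variable {ι τ : Type} [Fintype ι] [DecidableEq ι] [DecidableEq τ] [Fintype τ]
  {W : ι → Finset (τ →₀ ℕ)}

theorem inj (i : ι) : Function.Injective fun a : τ => (i, a) := fun _ _ h => congrArg Prod.snd h

theorem md_snd (i : ι) (μ : τ →₀ ℕ) : (μ.mapDomain (i, ·)).mapDomain Prod.snd = μ := by
  rw [← Finsupp.mapDomain_comp]; exact Finsupp.mapDomain_id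

theorem md_eq {i j : ι} {μ ν : τ →₀ ℕ} (h0 : μ ≠ 0) (h : μ.mapDomain (i, ·) = ν.mapDomain (j, ·)) :
    i = j ∧ μ = ν := by
  refine ⟨?_, by rw [← md_snd i μ, h, md_snd]⟩
  obtain ⟨a, ha⟩ := Finsupp.ne_iff.1 h0
  by_contra n
  refine ha ((Finsupp.mapDomain_apply (inj i) μ a).symm.trans ?_)
  rw [h]
  exact Finsupp.mapDomain_of_notMem_range _ _ fun ⟨b, k⟩ => n (congrArg Prod.fst k).symm

theorem mem_WP {μ : ι × τ →₀ ℕ} : μ ∈ WP W ↔ ∃ i, ∃ ν ∈ W i, ν.mapDomain (i, ·) = μ := by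
  simp [WP]

theorem dn_WP (h : ∀ i, Dn (W i)) : Dn (WP W) := fun μ hμ ν k => by
  obtain ⟨i, μ, m, rfl⟩ := mem_WP.1 hμ
  refine mem_WP.2 ⟨i, ν.comapDomain (i, ·) (inj i).injOn, h i μ m _ fun a => ?_,
    Finsupp.mapDomain_comapDomain _ (inj i) _ fun x hx => ?_⟩
  · exact (k (i, a)).trans_eq (Finsupp.mapDomain_apply (inj i) μ a)
  · by_contra n
    exact Finsupp.mem_support_iff.1 hx
      (Nat.le_zero.1 ((k x).trans_eq (Finsupp.mapDomain_of_notMem_range _ _ n)))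

/-- the words of a factor -/
def em (i : ι) (w : Sh.MW (W i)) : Sh.MW (WP W) :=
  ⟨w.1.mapDomain (i, ·), mem_erase.2 ⟨fun h => w.ne (by rw [← md_snd i w.1, h]; simp),
    mem_WP.2 ⟨i, w.1, w.mem, rfl⟩⟩⟩

theorem em_surj (w : Sh.MW (WP W)) : ∃ i v, em i v = w := by
  obtain ⟨i, ν, m, k⟩ := mem_WP.1 w.mem
  exact ⟨i, ⟨ν, mem_erase.2 ⟨fun h => w.ne (by rw [← k, h]; simp), m⟩⟩, Subtype.ext k⟩

theorem lsub_pr (i j : ι) (μ : τ →₀ ℕ) : lsub (R := ℤ) (pr i) (monomial (μ.mapDomain (j, ·)) 1) =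
    if j = i then monomial μ 1 else if μ = 0 then 1 else 0 := by
  rw [← rename_monomial, lsub, aeval_rename]
  split_ifs with h h0
  · subst h
    have : ((fun a : ι × τ => ∑ a', pr j a a' • (X a' : MvPolynomial τ ℤ)) ∘ fun a => (j, a)) = X :=
      funext fun a => by simp [pr, Pi.single_apply]
    rw [this, aeval_X_left_apply]
  · subst h0; simp
  · obtain ⟨a, ha⟩ := Finsupp.ne_iff.1 h0
    rw [aeval_monomial, map_one, one_mul]
    exact prod_eq_zero (Finsupp.mem_support_iff.2 ha) (by simp [pr, h]; exact ha)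

theorem smat_pr (i j : ι) (ν : τ →₀ ℕ) {μ : τ →₀ ℕ} (h0 : μ ≠ 0) :
    smat (pr i) ν (μ.mapDomain (j, ·)) = if j = i ∧ μ = ν then 1 else 0 := by
  rw [smat, lsub_pr]
  by_cases h : j = i <;> simp [h, h0, coeff_monomial]

theorem smat_wd (i : ι) (ν : τ →₀ ℕ) (μ : ι × τ →₀ ℕ) (z : smat (pr i) ν μ ≠ 0) :
    μ = ν.mapDomain (i, ·) := by
  by_cases h : ∀ x ∈ μ.support, x ∈ Set.range fun a : τ => (i, a)
  · obtain ⟨μ, rfl⟩ : ∃ μ' : τ →₀ ℕ, μ'.mapDomain (i, ·) = μ :=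
      ⟨_, Finsupp.mapDomain_comapDomain _ (inj i) _ h⟩
    rw [smat, lsub_pr, if_pos rfl, coeff_monomial] at z
    rw [(ite_ne_right_iff.1 z).1]
  · push Not at h
    obtain ⟨x, hx, n⟩ := h
    have : x.1 ≠ i := fun k => n ⟨x.2, Prod.ext k.symm rfl⟩
    rw [smat, lsub, aeval_monomial, map_one, one_mul, Finsupp.prod,
      prod_eq_zero hx (by simp [pr, this]; exact Finsupp.mem_support_iff.1 hx)] at z
    exact absurd rfl z

variable {σ : Type} [DecidableEq σ] (U : TS σ) (col : τ → σ) (K : ι → Kn τ) (K' : Kn (ι × τ))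

theorem cd_em (i : ι) (w : Sh.MW (W i)) :
    (MR (col ∘ Prod.snd) (WP W) K').cd (em i w) = (MR col (W i) (K i)).cd w := by
  change (w.1.mapDomain (i, ·)).mapDomain (col ∘ Prod.snd) = w.1.mapDomain col
  rw [Finsupp.mapDomain_comp, md_snd]

/-- the coordinates of a factor -/
def ec (s : Σ i, U.Cw (MR col (W i) (K i))) : U.Cw (MR (col ∘ Prod.snd) (WP W) K') :=
  ⟨(s.2.1.1, em s.1 s.2.1.2), (cd_em col K K' _ _).trans s.2.2⟩

theorem ec_bij : Function.Bijective (ec (W := W) U col K K') := by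
  constructor
  · rintro ⟨i, ⟨c, w⟩, h⟩ ⟨j, ⟨c', w'⟩, h'⟩ k
    have k1 : c = c' := congrArg (·.1.1) k
    obtain ⟨rfl, k2⟩ := md_eq (Sh.MW.ne w) (congrArg (·.1.2.1) k)
    obtain rfl : w = w' := Subtype.ext k2
    subst k1
    rfl
  · rintro ⟨⟨c, w⟩, h⟩
    obtain ⟨i, v, rfl⟩ := em_surj w
    exact ⟨⟨i, (c, v), (cd_em col K K' i v).symm.trans h⟩, rfl⟩

theorem sum_pr {R : Type} [CommRing R] (i : ι) (y : U.Cw (MR (col ∘ Prod.snd) (WP W) K') → R)
    (p : U.Cw (MR col (W i) (K i))) :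
    ∑ p' : U.Cw (MR (col ∘ Prod.snd) (WP W) K') with p'.1.1 = p.1.1,
      (smat (pr i) p.1.2.1 p'.1.2.1 : R) * y p' = y (ec U col K K' ⟨i, p⟩) := by
  refine (sum_eq_single_of_mem (M := R) (ec U col K K' ⟨i, p⟩) ?_ ?_).trans ?_
  · exact mem_filter.2 ⟨mem_univ _, rfl⟩
  · intro p' m n
    have : smat (pr i) p.1.2.1 p'.1.2.1 = 0 := by
      by_contra z
      exact n (Subtype.ext (Prod.ext (mem_filter.1 m).2 (Subtype.ext (smat_wd _ _ _ z))))
    exact (congrArg (fun k : ℤ => (k : R) * y p') this).trans (by simp)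
  · have : smat (pr i) p.1.2.1 (p.1.2.1.mapDomain (i, ·)) = 1 :=
      (smat_pr _ _ _ (Sh.MW.ne p.1.2)).trans (if_pos ⟨rfl, rfl⟩)
    exact (congrArg (fun k : ℤ => (k : R) * y (ec U col K K' ⟨i, p⟩)) this).trans (by simp)

end Pd

open Pd in
/-- **PROD** -/
theorem prod : PROD := by
  intro σ τ ι _ _ _ _ _ U st M col W u V g hU hS hW hu hV hg
  let K : ι → Kn τ := fun i => dk fun μ => u i μ.degree
  have pd : ∀ {τ : Type} [DecidableEq τ] (col : τ → σ) (W : Finset (τ →₀ ℕ)) (v : (τ →₀ ℕ) → ℝ),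
      (∀ w : Sh.MW W, 0 < v w.1) → (MR col W (dk v)).K.PosDef := fun col W v h => by
    have : (MR col W (dk v)).K = diagonal fun w => v w.1 := by
      ext w w'
      exact if_congr Subtype.ext_iff.symm rfl rfl
    rw [this]
    exact PosDef.diagonal h
  have o : (MR (col ∘ Prod.snd) (WP W) (dk V)).Ok := Sh.mono_ok (dn_WP hW) (pd _ _ _ fun w => by
    obtain ⟨i, v, rfl⟩ := em_surj w
    exact (hu i _).trans_eq (hV i v.1 v.mem v.ne).symm) (Sh.dk_blk V)
  have oi : ∀ i, (MR col (W i) (K i)).Ok := fun i =>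
    Sh.mono_ok (hW i) (pd _ _ _ fun w => hu i _) (Sh.dk_blk _)
  have hm : ∀ i, (MR (col ∘ Prod.snd) (WP W) (dk V)).Hm (MR col (W i) (K i))
      (Sh.smm _ _ 0 (dk V) _ (pr i)) := fun i => Sh.hm_mono (hW i)
    ⟨fun a a' z => by
      by_cases h : a.1 = i
      · have : a' = a.2 := by
          by_contra n
          simp [pr, h, n] at z
        rw [this]; rfl
      · simp [pr, h] at z,
    fun ν m μ z => mem_WP.2 ⟨i, ν, m, (smat_wd i ν μ z).symm⟩, fun a => by simp⟩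
  have e1 : ∀ i y, hs U (MR col (W i) (K i)) (pr i) y =
      fun p => y (ec U col K (dk V) ⟨i, p⟩) := fun i y => funext fun p =>
    sum_pr U col K (dk V) i y p
  refine Eq.trans ?_ (Ec_pi (U.sh (MR (col ∘ Prod.snd) (WP W) (dk V)))
    (fun i => U.sh (MR col (W i) (K i))) (Equiv.ofBijective _ (ec_bij U col K (dk V))) ?_ ?_
    (fun i => TS.sh_tri hS.cl (oi i)) g hg)
  · exact congrArg _ (funext fun y => prod_congr rfl fun i _ => congrArg _ (e1 i y))
  · rintro ⟨i, p⟩ ⟨j, p'⟩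
    change U.K p.1.1 p'.1.1 * dk V (p.1.2.1.mapDomain (i, ·)) (p'.1.2.1.mapDomain (j, ·)) = _
    by_cases h : i = j
    · subst h
      rw [blockDiagonal'_apply_eq]
      refine congrArg _ (if_congr ⟨fun k => (md_eq (Sh.MW.ne _) k).2, fun k => by rw [k]⟩ ?_ rfl)
      exact hV i _ (Sh.MW.mem _) (Sh.MW.ne _)
    · rw [blockDiagonal'_apply_ne _ _ _ h]
      exact mul_eq_zero_of_right _ (if_neg fun k => h (md_eq (Sh.MW.ne _) k).1)
  · intro y i p
    have := (congrFun (TS.sh_u_hm (T := U) (hm i) o (oi i) y) p).trans (TS.hmM_mulVec _ _ p)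
    exact (sum_pr U col K (dk V) i _ p).symm.trans (this.symm.trans
      (congrArg (fun z => (U.sh (MR col (W i) (K i))).u (zc z) p) (e1 i y)))

end Crest.Agent.N49.Sw

end
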