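import Crest.Agent.N49.Sw.Defs
import Crest.Agent.N49.Br.Lin

/-!
# Row 49 (helper88): a biased linear form on a centred lattice Gaussian is almost integral
-/

set_option autoImplicit false
set_option linter.unusedSectionVars false

open Matrix Finset

noncomputable section

namespace Crest.Agent.N49.Sw

open Po Tw

theorem fib : FIB := by
  intro τ V χ m h a b
  let f : (V.C → ℝ) →+ V.C → ℝ := AddMonoidHom.mk' V.u a
  have c : Continuous f := continuous_pi fun c => MvPolynomial.continuous_eval _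
  set L : Matrix V.C V.C ℝ := LinearMap.toMatrix' (f.toRealLinearMap c).toLinearMap with hL
  have e : ∀ ξ, V.u ξ = L *ᵥ ξ := fun ξ => by rw [hL, ← toLin'_apply, toLin'_toMatrix']; rfl
  have d : L.det = V.A.det := by
    refine Eq.trans (congrArg det (Matrix.ext fun p p' => ?_)) (Br.Li.det_lin h)
    rw [of_apply, e, e, zc_zero, mulVec_zero, Pi.zero_apply, sub_zero,
      show zc (Pi.single p' 1) = Pi.single p' 1 from funext fun c => by
        simp [zc, Pi.single_apply], mulVec_single_one, col_apply]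
  have p := Po.posDef_conj h.pd.inv
    (mulVec_injective_iff_isUnit.2 ((isUnit_iff_isUnit_det _).2 (d ▸ h.unit)))
  set M := Lᵀ * V.K⁻¹ * L with hM
  have q : ∀ ξ, qf V.K⁻¹ (V.u ξ) = qf M ξ := fun ξ => by rw [e, hM, qf_conj]
  have w : ∀ y, V.wt y = gs M (zc y - 0) := fun y => by rw [TS.wt, gs, q, gs, sub_zero]
  have z : V.Z = th M 0 := tsum_congr w
  have s : V.Sc (fun y => ee (χ ⬝ᵥ zc y)) = thc M 0 χ := tsum_congr fun y => by rw [w]
  rw [TS.Ec, norm_div, Complex.norm_real, Real.norm_of_nonneg h.Z_pos.le, z, s,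
    le_div_iff₀ (th_pos p 0)] at b
  have k : bz V.C (Fintype.card V.C + (m + 1)) < 1 / 2 ^ m := by
    refine (bz_le le_rfl (by positivity)).trans_lt ?_
    rw [Real.exp_neg, one_div, Real.exp_add, ← mul_one (m : ℝ), Real.exp_nat_mul]
    have : 2 < Real.exp 1 := by linarith [Real.add_one_lt_exp one_ne_zero]
    refine inv_strictAnti₀ (by positivity) ?_
    nlinarith [pow_le_pow_left₀ zero_le_two this.le m, pow_pos (two_pos (α := ℝ)) m]
  obtain ⟨I, hI⟩ := exists_dual p ((mul_lt_mul_of_pos_right k (th_pos p 0)).trans_le b)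
  refine ⟨I, fun ξ => ?_⟩
  have t := dot_sq_le p.inv (zc I - χ) (M *ᵥ ξ)
  have u : M⁻¹ *ᵥ M *ᵥ ξ = ξ := by
    rw [mulVec_mulVec, nonsing_inv_mul _ p.det_pos.ne'.isUnit, one_mulVec]
  rw [show qf M⁻¹ (M *ᵥ ξ) = qf M ξ by rw [qf, u, dotProduct_comm]; rfl, u] at t
  have n := qf_nonneg p ξ
  rw [q, abs_sub_comm, show ∑ c, (I c : ℝ) * ξ c - χ ⬝ᵥ ξ = (zc I - χ) ⬝ᵥ ξ from
    (sub_dotProduct _ _ _).symm]
  refine abs_le_of_sq_le_sq' ?_ (by positivity) |> abs_le.2
  rw [mul_pow, Real.sq_sqrt n]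
  refine t.trans (mul_le_mul_of_nonneg_right (hI.le.trans ?_) n)
  nlinarith [Nat.cast_nonneg (α := ℝ) (Fintype.card V.C), Nat.cast_nonneg (α := ℝ) m]

end Crest.Agent.N49.Sw

end
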