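import Crest.Agent.N49.Sw.Defs
import Crest.Agent.N49.Tw.Dbl

/-!
# Row 49 (helper57): several linear forms on independent fibres
-/

set_option autoImplicit false

open Matrix MvPolynomial Finset

noncomputable section

namespace Crest.Agent.N49.Sw

open Po Tw Sd Db

namespace Fs

/-- integrate one block -/
theorem blk {σ : Type} {T : TS σ} {r : T.C → Prop} [DecidablePred r] (h : T.Tri) (hl : T.Low r)
    (hs : T.Sep r) {a f : (T.C → ℤ) → ℂ} {k : (T.C → ℤ) → ℝ} {δ : ℝ} (h0 : 0 ≤ δ)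
    (ha : ∀ y y', (∀ c, r c → y c = y' c) → a y = a y')
    (hk : ∀ y y', (∀ c, r c → y c = y' c) → k y = k y') (ak : ∀ y, ‖a y‖ ≤ k y) (k1 : ∀ y, k y ≤ 1)
    (f1 : ∀ y, ‖f y‖ ≤ 1) (b : ∀ y, a y ≠ 0 →
      ‖(T.cut (fun c => ¬ r c) y).Ec fun z => f (glue (fun c => ¬ r c) z y)‖ ≤ δ) :
    ‖T.Ec fun y => a y * f y‖ ≤ δ * T.E k := by
  have k0 : ∀ y, 0 ≤ k y := fun y => (norm_nonneg _).trans (ak y)
  have s1 := h.hasSum_Sc (p := r) (g := fun y => a y * f y) (B := 1) fun y => by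
    rw [norm_mul]; exact mul_le_one₀ ((ak y).trans (k1 y)) (norm_nonneg _) (f1 y)
  have s2 := (h.hasSum_S (p := r) (g := k) (B := 1) fun y => abs_le.2 ⟨by linarith [k0 y], k1 y⟩).mul_left δ
  have e : ∀ (x : {c // r c} → ℤ) z c, r c → mg r x z c = mg r x 0 c := fun x z c hc => by
    simp [mg, hc]
  have key : ‖T.Sc fun y => a y * f y‖ ≤ δ * T.S k := by
    refine s1.norm_le_of_bounded s2 fun x => ?_
    have t := h.cut_not hl (mg r x 0)
    have e1 : T.fib r (fun y => a y * f y) x = a (mg r x 0) *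
        (T.cut (fun c => ¬ r c) (mg r x 0)).Sc fun z => f (mg r x z) :=
      (h.fib_sep hl hs _ x).trans ((congrArg (T.cut (fun c => ¬ r c) (mg r x 0)).Sc (funext fun z =>
        congrArg (· * f (mg r x z)) (ha _ _ (e x z)))).trans
          ((T.cut (fun c => ¬ r c) (mg r x 0)).Sc_mul _ fun z => f (mg r x z)))
    have e2 : T.fibR r k x = (T.cut (fun c => ¬ r c) (mg r x 0)).Z * k (mg r x 0) :=
      (h.fibR_sep hl hs _ x).trans ((congrArg (T.cut (fun c => ¬ r c) (mg r x 0)).S (funext fun z =>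
        hk _ _ (e x z))).trans ((T.cut (fun c => ¬ r c) (mg r x 0)).S_const _))
    rw [e1, e2]
    rw [norm_mul, norm_mul, Complex.norm_real,
      Real.norm_of_nonneg ((T.cut r 0).wt_pos x).le, mul_left_comm δ]
    refine mul_le_mul_of_nonneg_left ?_ ((T.cut r 0).wt_pos x).le
    by_cases z : a (mg r x 0) = 0
    · rw [z, norm_zero, zero_mul]; exact mul_nonneg h0 (mul_nonneg t.Z_pos.le (k0 _))
    have : ‖(T.cut (fun c => ¬ r c) (mg r x 0)).Ec fun z => f (mg r x z)‖ ≤ δ :=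
      le_of_eq_of_le (congrArg (fun g => ‖TS.Ec _ g‖) (funext fun z =>
        congrArg f (glue_mg r x x z 0).1.symm)) (b _ z)
    rw [TS.Ec, norm_div, Complex.norm_real, Real.norm_of_nonneg t.Z_pos.le, div_le_iff₀ t.Z_pos] at this
    nlinarith [mul_le_mul (ak (mg r x 0)) this (norm_nonneg _) (k0 _)]
  rw [TS.Ec, TS.E, norm_div, Complex.norm_real, Real.norm_of_nonneg h.Z_pos.le, ← mul_div_assoc]
  exact div_le_div_of_nonneg_right key h.Z_pos.le

/-- (copied from `Sd.Fx`) -/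
theorem lin_of {C : Type} [Fintype C] [DecidableEq C] (p : C → Prop) [DecidablePred p]
    [Fintype {c // p c}] (b : C → ℝ) {P : MvPolynomial C ℝ}
    (h : ∀ m ∈ P.support, Finsupp.weight (fun c => if p c then 1 else 0) m = 1) :
    ∃ L : {c // p c} → ℝ, ∀ y, eval (glue p y b) P = L ⬝ᵥ y := by
  classical
  have k : ∀ m ∈ P.support, ∃ L : {c // p c} → ℝ, ∀ y,
      ∏ c ∈ m.support, glue p y b c ^ m c = L ⬝ᵥ y := fun m hm => by
    have w := h m hm
    rw [Finsupp.weight_apply, Finsupp.sum] at w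
    obtain ⟨c, hc, n⟩ := exists_ne_zero_of_sum_ne_zero (w.trans_ne one_ne_zero)
    have pc : p c := by by_contra a; simp [a] at n
    rw [← add_sum_erase _ _ hc, if_pos pc, smul_eq_mul, mul_one] at w
    have m0 := Finsupp.mem_support_iff.1 hc
    have m1 : m c = 1 := by omega
    have z : ∀ c' ∈ m.support.erase c, ¬ p c' := fun c' h' a => by
      have := sum_eq_zero_iff.1 (show ∑ x ∈ m.support.erase c, m x • (if p x then 1 else 0) = 0 by
        omega) c' h'
      rw [if_pos a, smul_eq_mul, mul_one] at this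
      exact Finsupp.mem_support_iff.1 (mem_of_mem_erase h') this
    refine ⟨Pi.single ⟨c, pc⟩ (∏ c' ∈ m.support.erase c, b c' ^ m c'), fun y => ?_⟩
    rw [single_dotProduct, ← mul_prod_erase _ _ hc, m1, pow_one, mul_comm, glue_pos _ _ pc]
    exact congrArg (· * _) (prod_congr rfl fun c' h' => by rw [glue_neg _ _ (z c' h')])
  choose! L hL using k
  refine ⟨∑ m ∈ P.support, coeff m P • L m, fun y => ?_⟩
  rw [eval_eq, sum_dotProduct]
  exact sum_congr rfl fun m hm => by rw [hL m hm, smul_dotProduct, smul_eq_mul]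

theorem cut_lin {σ : Type} (U : TS σ) (p : U.C → Prop) [DecidablePred p] (b : U.C → ℤ)
    (h : ∀ c, p c → ∀ m ∈ (U.Φ c).support, Finsupp.weight (fun c => if p c then 1 else 0) m = 1) :
    ∃ L : Matrix (U.cut p b).C (U.cut p b).C ℝ, ∀ y, (U.cut p b).u y = L *ᵥ y := by
  have k : ∀ c : (U.cut p b).C, ∃ L : (U.cut p b).C → ℝ, ∀ y, (U.cut p b).u y c = L ⬝ᵥ y :=
    fun c => by
      obtain ⟨L, hL⟩ := @lin_of _ _ _ p _ (U.cut p b).fin (zc b) _ (h c.1 c.2)
      exact ⟨L, fun y => (U.u_cut p b y c).trans (hL y)⟩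
  choose L hL using k
  exact ⟨Matrix.of L, fun y => funext fun c => hL c y⟩

theorem var0 {C τ : Type} {dg : C → τ →₀ ℕ} {P : MvPolynomial C ℝ} {a : τ}
    (h : ∀ μ ∈ P.support, Finsupp.weight dg μ a = 0) {c : C} (hc : c ∈ P.vars) : dg c a = 0 := by
  classical
  obtain ⟨m, hm, k⟩ := (mem_vars_iff_mem_support c).1 hc
  have := Finsupp.le_weight_of_ne_zero (w := dg) (fun _ => zero_le) (Finsupp.mem_support_iff.1 k) a
  rw [h m hm] at this
  exact Nat.le_zero.1 this

theorem wt1 {C τ : Type} {dg : C → τ →₀ ℕ} {a : τ} (h : ∀ c, dg c a ≤ 1)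
    [DecidablePred fun c => dg c a ≠ 0] (μ : C →₀ ℕ) :
    Finsupp.weight (fun c => if dg c a ≠ 0 then 1 else 0) μ = Finsupp.weight dg μ a := by
  rw [Finsupp.weight_apply, Finsupp.weight_apply, Finsupp.sum, Finsupp.sum, Finsupp.finsetSum_apply]
  refine sum_congr rfl fun c _ => ?_
  have := h c
  rw [Finsupp.smul_apply]
  congr 1
  split_ifs <;> omega

theorem rx_congr {τ : Type} {V : TS τ} {p r : V.C → Prop} [DecidablePred p] {y y' : V.C → ℝ} {B : ℝ}
    {G : MvPolynomial V.C ℝ} (hG : ∀ c ∈ G.vars, p c ∨ r c)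
    (hΦ : ∀ c, p c → ∀ c' ∈ (V.Φ c).vars, p c' ∨ r c') (e : ∀ c, r c → y c = y' c)
    (h : Rx V p y B fun ξ => eval ξ G) : Rx V p y' B fun ξ => eval ξ G := by
  obtain ⟨I, h1, h2⟩ := h
  refine ⟨I, h1, fun ξ hξ => ?_⟩
  have a : ∀ c, p c ∨ r c → (if p c then ξ c else y c) = ξ c := fun c k => by
    split_ifs with b
    exacts [rfl, (e c (k.resolve_left b)).trans (hξ c b).symm]
  have := h2 (fun c => if p c then ξ c else y c) fun c b => if_neg b
  beta_reduce at this ⊢
  rw [eval_congr fun c k => a c (hG c k), sum_congr rfl fun c _ => (show (I c : ℝ) * _ = I c * ξ c by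
    by_cases b : p c <;> simp [b, h1 c])] at this
  convert this using 4
  exact funext fun c => (eval_congr fun c' k => a c' (hΦ _ c.2 c' k)).symm

theorem rx_of (hF : FIB) {τ : Type} {V : TS τ} {p : V.C → Prop} [DecidablePred p] (h : V.Tri)
    (hl : V.Low fun c => ¬ p c) {G : MvPolynomial V.C ℝ} {m : ℕ} {y : V.C → ℤ}
    (hΦ : ∀ c, p c → ∀ m ∈ (V.Φ c).support, Finsupp.weight (fun c => if p c then 1 else 0) m = 1)
    (hG : ∀ m ∈ G.support, Finsupp.weight (fun c => if p c then 1 else 0) m = 1)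
    (b : 1 / 2 ^ m ≤ ‖(V.cut p y).Ec fun z => ee (eval (zc (glue p z y)) G)‖) :
    Rx V p (zc y) (Fintype.card V.C + m + 2) fun ξ => eval ξ G := by
  obtain ⟨L, hL⟩ := cut_lin V p y hΦ
  obtain ⟨χ, hχ⟩ := @lin_of _ _ _ p _ (V.cut p y).fin (zc y) _ hG
  replace b : 1 / 2 ^ m ≤ ‖(V.cut p y).Ec fun z => ee (χ ⬝ᵥ zc z)‖ :=
    b.trans_eq (congrArg (fun g => ‖TS.Ec _ g‖) (funext fun z => congrArg ee
      ((congrArg (fun w => eval w G) (zc_glue z y)).trans (hχ _))))
  obtain ⟨I, hI⟩ := hF τ (V.cut p y) χ m (h.cut_hi hl y) (fun a b => by rw [hL, hL, hL, mulVec_add]) b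
  refine ⟨glue p I 0, fun c k => glue_neg _ _ k, fun ξ hξ => ?_⟩
  have e : glue p (fun c => ξ c.1) (zc y) = ξ := funext fun c => by
    by_cases k : p c
    exacts [glue_pos _ _ k, (glue_neg _ _ k).trans (hξ c k).symm]
  have := hI fun c => ξ c.1
  erw [← hχ, e] at this
  have e2 : ∑ c, ((glue p I 0 c : ℤ) : ℝ) * ξ c = ∑ c : (V.cut p y).C, (I c : ℝ) * ξ c.1 := by
    rw [← Fintype.sum_subtype_add_sum_subtype p]
    rw [sum_eq_zero (s := univ) (f := fun c : {c // ¬ p c} => ((glue p I 0 c.1 : ℤ) : ℝ) * ξ c.1)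
      fun c _ => by erw [glue_neg _ _ c.2]; simp, add_zero]
    exact sum_congr rfl fun c _ => by erw [glue_val]
  have e3 : (V.cut p y).u (fun c => ξ c.1) = fun c => V.u ξ c.1 := funext fun c =>
    (V.u_cut p y _ c).trans (congrArg (fun w => V.u w c.1) e)
  rw [e2]
  rw [e3] at this
  refine this.trans (mul_le_mul_of_nonneg_right ?_ (Real.sqrt_nonneg _))
  have : Fintype.card (V.cut p y).C ≤ Fintype.card V.C := Fintype.card_subtype_le p
  have : (Fintype.card (V.cut p y).C : ℝ) ≤ Fintype.card V.C := by exact_mod_cast this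
  linarith

end Fs

theorem fibs (hF : FIB) : FIBS := by
  intro τ ι _ V x m Φ G dec o h1 h2 h3 h4 h5 h6 h7
  classical
  obtain rfl : dec = fun i c => instDecidableNot := Subsingleton.elim _ _
  have t := o.toTri
  have hw : ∀ c a, ∀ μ ∈ (V.Φ c).support, Finsupp.weight V.deg μ a = V.deg c a := fun c a μ k => by
    rw [o.hom c (mem_support_iff.1 k)]
  have lo : ∀ i, V.Low fun c => V.deg c (x i) = 0 := fun i c hc c' k =>
    Fs.var0 (fun μ a => (hw c _ μ a).trans hc) k
  have or : ∀ i c, (∀ j, j ≠ i → V.deg c (x j) = 0) → V.deg c (x i) ≠ 0 ∨ ∀ j, V.deg c (x j) = 0 :=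
    fun i c k => or_iff_not_imp_left.2 fun a j => by
      by_cases e : j = i
      exacts [e ▸ not_not.1 a, k j e]
  let gd : ι → (V.C → ℤ) → Prop := fun i y => Rx V (fun c => V.deg c (x i) ≠ 0) (zc y)
    (Fintype.card V.C + m + 3) fun ξ => eval ξ (G i)
  have gc : ∀ i y y', (∀ c, (∀ i, V.deg c (x i) = 0) → y c = y' c) → gd i y → gd i y' :=
    fun i y y' e => Fs.rx_congr (r := fun c => ∀ i, V.deg c (x i) = 0)
      (fun c k => or i c fun j a => Fs.var0 (fun μ b => (h4 i μ b).2 j a) k)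
      (fun c k c' k' => or i c' fun j a => lo j c (by_contra fun b => a (h2 c j i b k)) c' k')
      fun c k => congrArg Int.cast (e c k)
  let n := Fintype.equivFin ι
  let S : ι → Set (V.C → ℤ) := fun i => {y | ¬ gd i y ∧ ∀ j, n j < n i → gd j y}
  have Sc : ∀ i y y', (∀ c, (∀ i, V.deg c (x i) = 0) → y c = y' c) → y ∈ S i → y' ∈ S i :=
    fun i y y' e k => ⟨fun a => k.1 (gc i _ _ (fun c b => (e c b).symm) a), fun j a =>
      gc j _ _ e (k.2 j a)⟩
  have ic : ∀ i y y', (∀ c, V.deg c (x i) = 0 → y c = y' c) →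
      (S i).indicator (1 : (V.C → ℤ) → ℝ) y = (S i).indicator 1 y' := fun i y y' e => by
    have : y ∈ S i ↔ y' ∈ S i := ⟨Sc i _ _ fun c k => e c (k i), Sc i _ _ fun c k => (e c (k i)).symm⟩
    simp only [Set.indicator, this, Pi.one_apply]
  set A := {y | Φ y ≠ 0 ∧ ∀ i, gd i y} with hA
  let F : (V.C → ℤ) → ℂ := fun y => Φ y * ∏ i, ee (eval (zc y) (G i))
  have F1 : ∀ y, ‖F y‖ ≤ 1 := fun y => by simpa [F, norm_ee] using h5 y
  have one : ∀ y, (∀ i, gd i y) ∧ (∀ i, y ∉ S i) ∨ ∃ i, ¬ gd i y ∧ ∀ j, y ∈ S j ↔ j = i := fun y => by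
    by_cases a : ∀ i, gd i y
    · exact .inl ⟨a, fun i k => k.1 (a i)⟩
    · obtain ⟨i, hi, k⟩ := exists_min_image {i | ¬ gd i y} n (by simpa [Finset.Nonempty] using a)
      simp only [mem_filter, mem_univ, true_and] at hi k
      refine .inr ⟨i, hi, fun j => ⟨fun b => n.injective (le_antisymm ?_ (k j b.1)), ?_⟩⟩
      · exact not_lt.1 fun c => hi (b.2 i c)
      · rintro rfl
        exact ⟨hi, fun j c => by_contra fun b => not_le.2 c (k j b)⟩
  have dec : F = fun y => ((A.indicator (1 : (V.C → ℤ) → ℝ) y : ℝ) : ℂ) * F y +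
      ∑ i, (((S i).indicator (1 : (V.C → ℤ) → ℝ) y : ℝ) : ℂ) * F y := funext fun y => by
    rcases one y with ⟨a, b⟩ | ⟨i, a, b⟩
    · by_cases z : Φ y = 0
      · simp [F, z]
      · simp [Set.indicator, b, hA, a, z]
    · have : y ∉ A := fun k => a (k.2 i)
      simp [Set.indicator, b, this, apply_ite Complex.ofReal]
  have sm : ∀ y, ∑ i, (S i).indicator (1 : (V.C → ℤ) → ℝ) y ≤ 1 := fun y => by
    rcases one y with ⟨-, b⟩ | ⟨i, -, b⟩ <;> simp [Set.indicator, b]
  have bb : ∀ s : Set (V.C → ℤ), Bb fun y => ((s.indicator (1 : (V.C → ℤ) → ℝ) y : ℝ) : ℂ) * F y := fun s =>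
    (Bb.ind s).ofReal.mul (.of F1)
  have st : ∀ i, ‖V.Ec fun y => (((S i).indicator (1 : (V.C → ℤ) → ℝ) y : ℝ) : ℂ) * F y‖ ≤
      1 / 2 ^ (m + 1) * V.E ((S i).indicator 1) := fun i => by
    have := Fs.blk (r := fun c => V.deg c (x i) = 0) t (lo i)
      (fun c c' a b => by_contra fun k => b ((h3 c c' i k).symm.trans a))
      (a := fun y => (((S i).indicator (1 : (V.C → ℤ) → ℝ) y : ℝ) : ℂ) *
        (Φ y * ∏ j ∈ univ.erase i, ee (eval (zc y) (G j))))
      (f := fun y => ee (eval (zc y) (G i))) (k := (S i).indicator 1) (δ := 1 / 2 ^ (m + 1))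
      (by positivity) (fun y y' e => ?_) (ic i) (fun y => ?_) (ind_le _) (fun y => (norm_ee _).le)
      fun y a => ?_
    · convert this using 3
      funext y
      simp only [F]
      rw [← mul_prod_erase _ _ (mem_univ i)]
      ring
    · rw [ic i y y' e, h6 y y' fun c k => e c (k i)]
      congr 2
      exact prod_congr rfl fun j hj => congrArg ee (eval_congr fun c k => congrArg Int.cast
        (e c (Fs.var0 (fun μ b => (h4 j μ b).2 i (ne_of_mem_erase hj).symm) k)))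
    · simp only [norm_mul, norm_prod, norm_ee, prod_const_one, mul_one, Complex.norm_real,
        Real.norm_of_nonneg (ind_nonneg _ _)]
      exact mul_le_of_le_one_right (ind_nonneg _ _) (h5 y)
    · have s : y ∈ S i := by_contra fun k => a (by simp [k])
      refine le_of_not_ge fun k => s.1 ?_
      have := Fs.rx_of hF (p := fun c => V.deg c (x i) ≠ 0) t
        (fun c a c' b => not_not.2 (lo i c (not_not.1 a) c' b))
        (fun c a μ b => by have := h1 c i; rw [Fs.wt1 (h1 · i), hw c _ μ b]; omega)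
        (fun μ b => by rw [Fs.wt1 (h1 · i), (h4 i μ b).1]) k
      convert this using 1
      push_cast
      ring
  have e1 : ‖V.Ec F‖ ≤ V.P A + 1 / 2 ^ (m + 1) := by
    rw [dec, t.Ec_add (bb A) (Bb.sum _ fun i _ => bb (S i)), t.Ec_sum _ fun i _ => bb (S i)]
    refine (norm_add_le _ _).trans (add_le_add (t.norm_Ec_le (Bb.ind A) fun y => ?_)
      ((norm_sum_le _ _).trans ((sum_le_sum fun i _ => st i).trans ?_)))
    · rw [norm_mul, Complex.norm_real, Real.norm_of_nonneg (ind_nonneg _ _)]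
      exact mul_le_of_le_one_right (ind_nonneg _ _) (F1 y)
    · rw [← mul_sum, ← t.E_sum _ fun i _ => Bb.ind (S i)]
      exact mul_le_of_le_one_right (by positivity) (t.E_le (Bb.sum _ fun i _ => Bb.ind (S i)) sm)
  have : (1 : ℝ) / 2 ^ m = 1 / 2 ^ (m + 1) + 1 / 2 ^ (m + 1) := by rw [pow_succ]; field_simp; norm_num
  linarith

end Crest.Agent.N49.Sw

end
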