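import Crest.Agent.N49.Sw.Coln
import Crest.Agent.N49.Sw.Df3

/-!
# Row 49 (helper19): the leaf `COLN`
-/

set_option autoImplicit false

namespace Crest.Agent.N49.Sw

theorem colN (ha : COLA) (hc : COLW) : COLN := fun s M C' => by
  obtain ⟨C, c, h⟩ := coln ha hc s M C'
  exact ⟨C, c, fun σ _ _ T st B w a η n h1 h2 h3 h4 h5 h6 h7 h8 h9 h10 h11 h12 =>
    (h σ T st B w a η n h1 h2 h3 h4 h5 h6 h7 h8 h9 h10 h11 h12).1⟩

end Crest.Agent.N49.Sw
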