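import Crest.Agent.N49.Sw.Box
import Crest.Agent.N49.Sw.Fat

/-!
# Row 49 (helper19): the fat box inequality (leaf `BOXF`)
-/

set_option autoImplicit false
set_option linter.unusedSectionVars false

open Matrix MvPolynomial Finset

noncomputable section

namespace Crest.Agent.N49.Sw

open Po Tw Sd Tw.TS Tw.Sh Bx

namespace Bf

section cube
variable {σ τ κ : Type} [DecidableEq τ] [Fintype τ] [Fintype κ] [DecidableEq κ] {l s : ℕ}
  {bl : κ → Fin l} {Wt : Finset (τ ⊕ κ →₀ ℕ)}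

theorem mem_BjF {j : ℕ} {β : κ × Bool →₀ ℕ} : β ∈ BjF bl s j ↔ β.degree ≤ s ∧
    (∀ a a', bl a = bl a' → β (a, false) = 0 ∨ β (a', true) = 0) ∧
      ∀ a, j ≤ (bl a).1 → β (a, true) = 0 := by rw [BjF, mem_filter, Cc.mem_fl]

theorem mem_WXF {j : ℕ} {μ : τ ⊕ κ × Bool →₀ ℕ} : μ ∈ WXF bl s Wt j ↔ μ.degree ≤ s ∧
    μ.mapDomain (Sum.map id Prod.fst) ∈ Wt ∧ wr μ ∈ BjF bl s j := by
  rw [WXF, mem_filter, Cc.mem_fl]

variable (bl) in
/-- exchange the two clones of all the letters of the block `j` -/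
def sb (j : Fin l) : κ × Bool ≃ κ × Bool :=
  Function.Involutive.toPerm (fun a => (a.1, if bl a.1 = j then !a.2 else a.2)) fun a => by
    by_cases e : bl a.1 = j <;> simp [e]

theorem dc_sb (j : Fin l) (β : κ × Bool →₀ ℕ) (a : κ) (b : Bool) :
    Finsupp.domCongr (sb bl j) β (a, b) = β (a, if bl a = j then !b else b) := rfl

theorem sc_mem {j j' : ℕ} {ρ : κ × Bool ≃ κ × Bool} (hρ : ∀ a, (ρ a).1 = a.1)
    {μ : τ ⊕ κ × Bool →₀ ℕ} (h : μ ∈ WXF bl s Wt j) (k : Finsupp.domCongr ρ (wr μ) ∈ BjF bl s j') :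
    Finsupp.domCongr (sc τ ρ) μ ∈ WXF bl s Wt j' := by
  obtain ⟨a, b, -⟩ := mem_WXF.1 h
  refine mem_WXF.2 ⟨by rwa [Cc.deg_dc], ?_, by rwa [wr_sc]⟩
  rwa [Cc.map_dc (by
    rintro (x | x)
    · rfl
    · exact congrArg Sum.inr (hρ x))]

variable (j : Fin l)

theorem w1 : ∀ μ ∈ WXF bl s Wt j, Finsupp.domCongr (sc τ (Equiv.refl _)) μ ∈ WXF bl s Wt (j + 1) :=
  fun _ h => sc_mem (fun _ => rfl) h (by
    obtain ⟨a, b, c⟩ := mem_BjF.1 (mem_WXF.1 h).2.2
    rw [Cc.dc_rf]
    exact mem_BjF.2 ⟨a, b, fun i hi => c i (by omega)⟩)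

theorem w2 : ∀ μ ∈ WXF bl s Wt j, Finsupp.domCongr (sc τ (sb bl j)) μ ∈ WXF bl s Wt (j + 1) :=
  fun _ h => sc_mem (fun _ => rfl) h (by
    obtain ⟨a, b, c⟩ := mem_BjF.1 (mem_WXF.1 h).2.2
    refine mem_BjF.2 ⟨by rwa [Cc.deg_dc], fun i i' e => ?_, fun i hi => ?_⟩
    · rw [dc_sb, dc_sb, ← e]; split_ifs with k
      · exact .inl (c i (by rw [k]))
      · exact b i i' e
    · rw [dc_sb, if_neg (by rintro rfl; omega)]; exact c i (by omega))

theorem tr0 (x : MW (WXF bl s Wt j)) {a : κ} (e : bl a = j) : x.1 (.inr (a, true)) = 0 :=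
  (mem_BjF.1 (mem_WXF.1 x.mem).2.2).2.2 a (by rw [e])

theorem r1 (y : MW (WXF bl s Wt (j + 1))) (k : ∀ a, bl a = j → y.1 (.inr (a, true)) = 0) :
    y ∈ Set.range (me _ (w1 j)) := by
  refine mem_me y (sc_mem (ρ := Equiv.refl _) (fun _ => rfl) y.mem ?_)
  obtain ⟨a, b, c⟩ := mem_BjF.1 (mem_WXF.1 y.mem).2.2
  rw [Cc.dc_rf]
  exact mem_BjF.2 ⟨a, b, fun i hi => by
    by_cases e : bl i = j
    · exact k i e
    · exact c i (by have := Fin.val_ne_of_ne e; omega)⟩

theorem r2 (y : MW (WXF bl s Wt (j + 1))) (k : ∀ a, bl a = j → y.1 (.inr (a, false)) = 0) :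
    y ∈ Set.range (me _ (w2 j)) := by
  refine mem_me y (sc_mem (ρ := sb bl j) (fun _ => rfl) y.mem ?_)
  obtain ⟨a, b, c⟩ := mem_BjF.1 (mem_WXF.1 y.mem).2.2
  refine mem_BjF.2 ⟨by rwa [Cc.deg_dc], fun i i' e => ?_, fun i hi => ?_⟩
  · rw [dc_sb, dc_sb, ← e]; split_ifs with z
    · exact .inr (k i' (e ▸ z))
    · exact b i i' e
  · rw [dc_sb]; split_ifs with e
    · exact k i e
    · exact c i (by have := Fin.val_ne_of_ne e; omega)

theorem ne12 (x x' : MW (WXF bl s Wt j)) (e : me _ (w1 j) x = me _ (w2 j) x') (a : κ)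
    (k : bl a = j) : x'.1 (.inr (a, false)) = 0 := by
  have z := DFunLike.congr_fun (congrArg (fun z => wr z.1) e) (a, true)
  have := (dc_sb (bl := bl) j (wr x'.1) a true).trans (by rw [if_pos k])
  exact this.symm.trans (z.symm.trans (tr0 j x k))

variable {K : Kn τ} {lam : κ → τ → ℤ} {v : ℕ → ℝ}

theorem k_sc (ρ : κ × Bool ≃ κ × Bool) (μ ν : τ ⊕ κ × Bool →₀ ℕ) :
    KXF bl s Wt K lam v (Finsupp.domCongr (sc τ ρ) μ) (Finsupp.domCongr (sc τ ρ) ν) =
      KXF bl s Wt K lam v μ ν :=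
  if_congr (and_congr ((Eq.congr_left (wr_sc ρ μ)).trans (AddEquiv.map_eq_zero_iff _))
    ((Eq.congr_left (wr_sc ρ ν)).trans (AddEquiv.map_eq_zero_iff _))) (by rw [wl_sc, wl_sc])
    (if_congr (Finsupp.domCongr _).injective.eq_iff (congrArg v (Cc.deg_dc _)) rfl)

theorem cn {col : τ → σ} {cl : κ → σ} (d : Dn (WXF bl s Wt j)) :
    (CXF bl s col Wt K cl lam v j).Cn (CXF bl s col Wt K cl lam v (j + 1))
      (fun x : MW (WXF bl s Wt j) => ∀ a, bl a = j → x.1 (.inr (a, false)) = 0)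
      (me _ (w1 j)) (me _ (w2 j)) where
  c1 := ch_me (by rintro (a | a) <;> rfl) d
  c2 := ch_me (by rintro (a | a) <;> rfl) d
  eq (x : MW (WXF bl s Wt j)) k := Subtype.ext (Finsupp.ext (by
    rintro (a | ⟨i, b⟩)
    · rfl
    · change x.1 (.inr (i, b)) = x.1 (.inr (i, if bl i = j then !b else b))
      split_ifs with e
      · cases b <;> simp [k i e, tr0 j x e]
      · rfl))
  ne := ne12 j
  all y := (em (∀ a, bl a = j → (y : MW _).1 (.inr (a, true)) = 0)).imp (r1 j y) fun n =>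
    r2 j y fun a e => of_not_not fun z => n fun a' e' =>
      ((mem_BjF.1 (mem_WXF.1 (MW.mem y)).2.2).2.1 a a' (e.trans e'.symm)).resolve_left z
  idl (x : MW (WXF bl s Wt j)) (m : MW (WXF bl s Wt j) →₀ ℕ) k z y hy a e := by
    have := Cc.le_weight Subtype.val hy (.inr (a, false))
    rw [mono_r_ne z, k a e] at this
    exact Nat.le_zero.1 this
  sep x x' k k' := (if_neg fun a => k' fun i _ => DFunLike.congr_fun a.2 (i, false)).trans
    (if_neg fun a : x.1 = x'.1 => k' (a ▸ k))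
  k1 x x' := k_sc _ x.1 x'.1
  k2 x x' := k_sc _ x.1 x'.1
  k3 x x' k k' := (if_neg fun a => k fun i _ => DFunLike.congr_fun a.1 (i, false)).trans
    (if_neg fun a => k' (ne12 j x x' (Subtype.ext a)))

theorem fw_sw {ω : Fin l → Bool} {j : Fin l} (h : ω j = false) :
    fwF bl lam (Function.update ω j true) ∘ sc τ (sb bl j) = fwF bl lam ω := by
  funext x
  obtain a | ⟨i, b⟩ := x
  · rfl
  · change (if (if bl i = j then !b else b) = Function.update ω j true (bl i)
      then lam i else 0) = if b = ω (bl i) then lam i else 0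
    refine if_congr ?_ rfl rfl
    by_cases e : bl i = j
    · cases b <;> simp [e, h]
    · rw [if_neg e, Function.update_of_ne e]

variable {n : ℕ} {a : ℝ} {col : τ → σ} {W : Finset (τ →₀ ℕ)} {cl : κ → σ}

/-- the old words -/
def io (h : CbF bl s n a col W K cl Wt lam) (j : ℕ) (w : MW W) : MW (WXF bl s Wt j) :=
  ⟨w.1.mapDomain .inl, mem_erase.2 ⟨fun e => w.ne (Finsupp.mapDomain_injective Sum.inl_injective
    (e.trans Finsupp.mapDomain_zero.symm)), by
    have r : wr (w.1.mapDomain (.inl : τ → τ ⊕ κ × Bool)) = 0 :=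
      Finsupp.ext fun _ => Finsupp.mapDomain_of_notMem_range _ _ (by simp)
    rw [mem_WXF, r, degree_col, ← Finsupp.mapDomain_comp]
    exact ⟨h.dg _ w.mem, (h.old _).1 w.mem, mem_BjF.2 (by simp)⟩⟩⟩

theorem pu_il (h : CbF bl s n a col W K cl Wt lam) (j : ℕ) :
    (MR col W K).pu (CXF bl s col Wt K cl lam v j) (smm col W 0 K _ il) =
      (rename (io h j)).toRingHom := by
  refine congrArg AlgHom.toRingHom (algHom_ext fun w : MW W => ?_)
  refine (aeval_X _ _).trans ?_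
  change ∑ b : MW (WXF bl s Wt j), smat il b.1 w.1 • (X b : MvPolynomial _ ℝ) = rename (io h j) (X w)
  rw [rename_X, sum_eq_single (io h j w)]
  · rw [show smat il (io h j w).1 w.1 = 1 from (smat_sg _ _ _).trans (if_pos rfl), one_smul]
  · intro b _ e
    rw [show smat il b.1 w.1 = 0 from (smat_sg _ _ _).trans (if_neg fun z => e (Subtype.ext z.symm)),
      zero_smul]
  · simp

variable [DecidableEq σ] {U : TS σ} {Ψ : U.Twd (MR col W K)}

theorem ts_il (h : CbF bl s n a col W K cl Wt lam) (j : ℕ) (F : U.C) :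
    ts U (CXF bl s col Wt K cl lam v j) il Ψ F = map (rename (io h j)).toRingHom (Ψ F) :=
  congrArg (fun f => MvPolynomial.map f (Ψ F)) (pu_il h j)

theorem kill_ts (h : CbF bl s n a col W K cl Wt lam) {j j' : ℕ} {ρ : κ × Bool ≃ κ × Bool}
    {k : ∀ μ ∈ WXF bl s Wt j, Finsupp.domCongr (sc τ ρ) μ ∈ WXF bl s Wt j'}
    (i : Function.Injective (me _ k)) (F : U.C) :
    map (killCompl i).toRingHom (ts U (CXF bl s col Wt K cl lam v j') il Ψ F) =
      ts U (CXF bl s col Wt K cl lam v j) il Ψ F := by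
  rw [ts_il h, ts_il h]
  refine (MvPolynomial.map_map _ _ _).trans (congrArg (fun f => MvPolynomial.map f (Ψ F)) ?_)
  refine congrArg AlgHom.toRingHom (show (killCompl i).comp (rename (io h j')) = rename (io h j) from
    algHom_ext fun w => ?_)
  have e : io h j' w = me _ k (io h j w) := Subtype.ext (Finsupp.ext (by
    rintro (x | x)
    · rfl
    · exact (Finsupp.mapDomain_of_notMem_range _ _ (by simp)).trans
        (Finsupp.mapDomain_of_notMem_range _ _ (by simp)).symm))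
  rw [AlgHom.comp_apply, rename_X, rename_X, e, kill_X]

theorem tp_ts (h : CbF bl s n a col W K cl Wt lam) :
    U.tp (CXF bl s col Wt K cl lam v 0) (MR col W K) (smm _ _ 0 _ _ (fwF bl lam fun _ => false))
      (ts U (CXF bl s col Wt K cl lam v 0) il Ψ) = Ψ := by
  funext F
  refine (congrArg (MvPolynomial.map _) (ts_il h 0 F)).trans ((MvPolynomial.map_map _ _ _).trans ?_)
  refine (congrArg (fun f => MvPolynomial.map f (Ψ F)) ?_).trans (map_id _)
  refine congrArg AlgHom.toRingHom (show (hA ℝ (S := CXF bl s col Wt K cl lam v 0) (MR col W K)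
    (smm _ _ 0 _ _ (fwF bl lam fun _ => false))).comp (rename (io h 0)) = AlgHom.id ℝ _ from
    algHom_ext fun w : MW W => ?_)
  refine ((congrArg _ (rename_X _ _)).trans (aeval_X _ _)).trans ?_
  change ∑ b : MW W, smat (fwF bl lam fun _ => false) b.1 (w.1.mapDomain .inl) •
    (X b : MvPolynomial _ ℝ) = X w
  have e : ∀ b : MW W, smat (fwF bl lam fun _ => false) b.1 (w.1.mapDomain .inl) =
      if w = b then 1 else 0 := fun b => (smat_ren _ _ _ _).trans ((smat_sg id _ _).trans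
        (if_congr (by rw [Finsupp.mapDomain_id, Subtype.ext_iff]) rfl rfl))
  simp [e]

end cube

end Bf

theorem boxf (hC : CUBF) : BOXF := fun s => by
  obtain ⟨c, hC⟩ := hC s
  refine ⟨c, fun l σ τ κ _ _ _ _ _ bl U st M n N a b η δ col W K cl Wt lam v Ψ g h b0 hv hN hU ha h0
    h8 hM hP hg d0 hδ => ?_⟩
  obtain ⟨c1, -, -, e, c4⟩ := hC l σ τ κ bl n a b col W K cl Wt lam v h b0 hv
  have z : ∀ j, (CXF bl s col Wt K cl lam v j).Sz N b := fun j => (c1 j).1.mono hN le_rfl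
  have ad : ∀ j, U.Adm (CXF bl s col Wt K cl lam v j) st (ts U _ il Ψ) := fun j =>
    ha.tp fun _ _ k => smat_degree k
  refine ⟨ad l, ?_⟩
  let G : ∀ j : ℕ, (U.Cw (CXF bl s col Wt K cl lam v j) → ℤ) → ℂ := fun j y =>
    ∏ ω ∈ Om l j, cj ω (g (hs U _ (fwF bl lam ω) y))
  have Gn : ∀ j y, ‖G j y‖ ≤ 1 := fun j y => norm_pr _ fun ω => (norm_cj _ _).trans_le (hg _)
  have step : ∀ j : Fin l, ‖(U.tw (CXF bl s col Wt K cl lam v j) (ts U _ il Ψ)).Ec (G j)‖ ^ 2 ≤
      2 * ‖(U.tw (CXF bl s col Wt K cl lam v (j + 1)) (ts U _ il Ψ)).Ec (G (j + 1))‖ := fun j => by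
    have cc := Bf.cn j (K := K) (lam := lam) (v := v) (col := col) (cl := cl) (c1 j).2
    have := lcf cc (F := fun _ => 1) (g := G j)
      hU (z j).toOk (z _).toOk (ad j) (ad _) (Bf.kill_ts h _) (Bf.kill_ts h _) h0 h8
      (hM _ _ _ (ad j) (z j)) (hM _ _ _ (ad _) (z _))
      (hM _ _ _ ((ad j).tp (Mh.hm_sub cc.idl).dg) (Cc.sz_sub (z j) cc.idl))
      (fun _ => norm_one.le) (fun _ _ _ => rfl) (Gn _)
    refine (congrArg (‖·‖ ^ 2) (congrArg _ (_root_.funext fun y => (one_mul _).symm))).trans_le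
      (this.trans_eq (congrArg (2 * ‖·‖) (congrArg _ (_root_.funext fun y => ?_))))
    refine Eq.trans ?_ (prod_Om j _).symm
    refine congrArg₂ _ (prod_congr rfl fun ω hω => congrArg (fun x => cj ω (g x)) ?_)
      ((map_prod _ _ _).trans (prod_congr rfl fun ω hω => ?_))
    · refine Eq.trans ?_ (hs_pb cc.c1 (MR col W K) (φ := fwF bl lam ω) (fun μ ν k => Bf.r1 j μ
        fun i hi => smat_zero k (if_neg (by simp [hi, mem_Om.1 hω j le_rfl]))) y)
      exact congrArg (fun φ => hs U (MR col W K) φ (U.pb _ cc.c1 y))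
        (funext (by rintro (x | x) <;> rfl))
    · have o := mem_Om.1 hω j le_rfl
      rw [cj_up o]
      refine congrArg (fun x => (starRingEnd ℂ) (cj ω (g x))) ?_
      refine Eq.trans ?_ (hs_pb cc.c2 (MR col W K) (φ := fwF bl lam (Function.update ω j true))
        (fun μ ν k => Bf.r2 j μ fun i hi => smat_zero k (if_neg (by simp [hi]))) y)
      exact congrArg (fun φ => hs U (MR col W K) φ (U.pb _ cc.c2 y)) (Bf.fw_sw o).symm
  have base : δ ≤ ‖(U.tw (CXF bl s col Wt K cl lam v 0) (ts U _ il Ψ)).Ec (G 0)‖ := by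
    obtain ⟨J, _, _, ψ, N', Q, cJ, sp⟩ := lsec _ _ _ _ _ N _ e ⟨c4.ok, c4.hm, c4.K, c4.sec,
      fun w x => (c4.ht w x).trans (by exact_mod_cast hN), c4.gen⟩
      ((Nat.one_le_pow _ _ (by omega)).trans hN)
    have p := hP _ _ J _ _ _ _ ψ N' Q cJ (ad 0) (z 0) sp
    rw [Bf.tp_ts h] at p
    have q := p.Ec (tw_tri hU.cl (ad 0) (z 0).toOk) (tw_tri hU.cl ha h.sz.toOk) hg
    have e2 : G 0 = fun y => g (hs U _ (fwF bl lam fun _ => false) y) := funext fun y => by
      simp only [G, Om_zero, prod_singleton, cj_zero]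
    rw [e2]
    have := norm_sub_norm_le ((U.tw _ Ψ).Ec g) ((U.tw (CXF bl s col Wt K cl lam v 0)
      (ts U _ il Ψ)).Ec fun y => g (hs U _ (fwF bl lam fun _ => false) y))
    rw [norm_sub_rev] at this
    replace this := sub_le_comm.1 (this.trans q)
    exact le_trans (by linarith) this
  have all : ∀ j ≤ l, (δ / 2) ^ 2 ^ j ≤
      ‖(U.tw (CXF bl s col Wt K cl lam v j) (ts U _ il Ψ)).Ec (G j)‖ / 2 := fun j => by
    induction j with
    | zero => intro _; simpa using div_le_div_of_nonneg_right base zero_le_two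
    | succ j ih =>
      intro hj
      have := step ⟨j, hj⟩
      have i := pow_le_pow_left₀ (by positivity) (ih (by omega)) 2
      rw [pow_succ, pow_mul]
      rw [div_pow _ _ 2] at i
      change _ ≤ 2 * ‖(U.tw (CXF bl s col Wt K cl lam v (j + 1)) (ts U _ il Ψ)).Ec (G (j + 1))‖
        at this
      linarith
  refine (all l le_rfl).trans ((half_le_self (norm_nonneg _)).trans_eq
    (congrArg (‖·‖) (congrArg _ (_root_.funext fun y => ?_))))
  simp only [G, Om_top]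

end Crest.Agent.N49.Sw

end
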