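import Crest.Agent.N49.Sw.Defs

/-!
# Row 49 (helper55): symmetrisation, the coloured tower (FROZEN definitions and leaves)
-/

set_option autoImplicit false

open Matrix MvPolynomial Finset

noncomputable section

namespace Crest.Agent.N49.Sw

open Po Tw Sd

/-- squarefree typed systems on the universal variables -/
structure Bo {C σ : Type} (B : Bk (VV C σ) σ) : Prop where
  ok : B.Ok Prod.snd
  sq : ∀ a t, B.wd a t ≤ 1

section col
variable (σ : Type) [Fintype σ] [DecidableEq σ] (s : ℕ)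

/-- the free ring on the colours -/
abbrev FS : Sh Unit σ := MR (fun _ => ()) (full σ s) (dk fun _ => 1)

variable {σ} (T : TS Unit) (B : Bk (VV T.C σ) σ) (w : ℝ)

/-- a universal variable as a coordinate -/
def vp (v : VV T.C σ) : MvPolynomial (T.Cw (FS σ s) ⊕ B.N) ℝ :=
  ∑ p : T.Cw (FS σ s) with p.1.1 = v.1 ∧ p.1.2.1 = v.2, X (.inl p)

/-- **the coloured tower**: coloured parts of the families of `T`, brackets of variance `w` -/
def cE : TS σ where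
  C := T.Cw (FS σ s) ⊕ B.N
  deg := Sum.elim (fun p => p.1.2.1) B.wd
  Φ := Sum.elim (fun p => rename .inl ((T.sh (FS σ s)).Φ p)) fun a =>
    X (.inr a) - aeval (Sum.elim (vp s T B) fun a => X (.inr a)) (B.Θ a)
  K := fromBlocks (T.sh (FS σ s)).K 0 0 (w • 1)

/-- the names of the families -/
def fm : (cE s T B w).C → T.C ⊕ B.N := Sum.map (fun p => p.1.1) id

/-- the stages -/
def cst (st : T.C → ℕ) (M : ℕ) : (cE s T B w).C → ℕ :=
  Sum.elim (fun p => st p.1.1) fun a => M * (s + 1) ^ (B.wd a).degree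

variable {τ : Type} [DecidableEq τ] (col : τ → σ) (W : Finset (τ →₀ ℕ)) (K : Kn τ)

/-- the coloured twist -/
def cT (Ψ : T.Twd (MR (fun _ => ()) W K)) : (cE s T B w).Twd (MR col W K) := fun c =>
  map MvPolynomial.C ((cE s T B w).Φ c) + Sum.elim (fun p => eval₂ MvPolynomial.C
    (fun G => ∑ q : T.Cw (FS σ s) with q.1.1 = G, X (Sum.inl q : (cE s T B w).C))
    (Ψ p.1.1 - map MvPolynomial.C (T.Φ p.1.1))) (fun _ => 0) c

/-- the old part of a configuration -/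
def res {R : Type} [AddCommMonoid R] (y : (cE s T B w).Cw (MR col W K) → R) :
    T.Cw (MR (fun _ => ()) W K) → R := fun p => ex _ _ (fm s T B w) y (.inl p.1.1, p.1.2.1)

end col

section sys
variable {C σ τ : Type} [DecidableEq σ] [DecidableEq τ] (B : Bk (VV C σ) σ)

/-- the sub-word with the colours of `μ` -/
def sw (col : τ → σ) (w : τ →₀ ℕ) (μ : σ →₀ ℕ) : τ →₀ ℕ := w.filter fun t => μ (col t) ≠ 0

/-- the brackets on the words of a ring -/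
def sp (col : τ → σ) (W : Finset (τ →₀ ℕ)) : Bk (VV C τ) τ where
  N := {x : B.N × Sh.MW W // x.2.1.mapDomain col = B.wd x.1}
  wd x := x.1.2.1
  rk x := B.rk x.1.1
  Θ x := aeval (Sum.elim (fun v => X (.inl (v.1, sw col x.1.2.1 v.2))) fun a =>
    if h : sw col x.1.2.1 (B.wd a) ∈ W.erase 0 ∧ (sw col x.1.2.1 (B.wd a)).mapDomain col = B.wd a
    then X (.inr ⟨(a, ⟨_, h.1⟩), h.2⟩) else 0) (B.Θ x.1.1)

/-- constant offsets -/
def sft {C' : Type} (B : Bk C' σ) (o : B.N → ℝ) : Bk C' σ :=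
  { B with Θ := fun a => B.Θ a - MvPolynomial.C (o a) }

/-- a form on the universal variables with named brackets -/
def up (P : MvPolynomial (VV C σ ⊕ B.N) ℝ) : MvPolynomial (VV (C ⊕ B.N) σ) ℝ :=
  rename (Sum.elim (fun v => (.inl v.1, v.2)) fun a => (.inr a, B.wd a)) P

/-- relabel the letters -/
def rlb {C : Type} (π : σ → σ) (P : MvPolynomial (VV C σ) ℝ) : MvPolynomial (VV C σ) ℝ :=
  rename (fun v => (v.1, v.2.mapDomain π)) P

/-- a map restricted to the word of a bracket -/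
def rs (f : σ → σ) (a : B.N) : σ → σ := fun t => if B.wd a t = 0 then t else f t

variable [Fintype σ]

/-- the permutations of `E` -/
def GE (E : Finset σ) : Finset (Equiv.Perm σ) := univ.filter fun π => ∀ t, t ∉ E → π t = t

open Classical in
/-- **the relabelled brackets** -/
def sy (E : Finset σ) : Bk (VV C σ) σ where
  N := {x : B.N × (σ → σ) // ∃ π ∈ GE E, x.2 = rs B π x.1}
  wd x := (B.wd x.1.1).mapDomain x.1.2
  rk x := B.rk x.1.1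
  Θ x := aeval (Sum.elim (fun v => X (.inl (v.1, v.2.mapDomain x.1.2))) fun a =>
    if h : ∃ π ∈ GE E, rs B x.1.2 a = rs B π a then X (.inr ⟨(a, rs B x.1.2 a), h⟩) else 0)
    (B.Θ x.1.1)

/-- the bracket `a` relabelled by `π` -/
def syn (E : Finset σ) (π : GE E) (a : B.N) : (sy B E).N := ⟨(a, rs B π.1 a), π.1, π.2, rfl⟩

/-- the form relabelled by `π` -/
def ug (E : Finset σ) (π : GE E) (P : MvPolynomial (VV C σ ⊕ B.N) ℝ) :
    MvPolynomial (VV (C ⊕ (sy B E).N) σ) ℝ := rename (Sum.elim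
  (fun v => (.inl v.1, v.2.mapDomain π.1)) fun a => (.inr (syn B E π a), (B.wd a).mapDomain π.1)) P

/-- the sums over the relabellings -/
def br (E : Finset σ) (z : VV (C ⊕ (sy B E).N) τ → ℝ) : VV (C ⊕ B.N) τ → ℝ := fun v =>
  v.1.elim (fun F => z (.inl F, v.2)) fun a => ∑ x : (sy B E).N with x.1.1 = a, z (.inr x, v.2)

/-- the squarefree words in the letters `E` -/
def W0 (s : ℕ) (E : Finset σ) : Finset (σ →₀ ℕ) := (sqf σ s).filter fun μ => μ.support ⊆ E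

/-- the word of a set -/
def wE (E : Finset σ) : σ →₀ ℕ := ∑ t ∈ E, Finsupp.single t 1

end sys

/-- the symbol of a point polynomial at the word `w` -/
def sv {C τ : Type} [DecidableEq τ] (P : MvPolynomial C ℝ) (w : τ →₀ ℕ) (z : VV C τ → ℝ) : ℝ :=
  coeff w (aeval (fun F => ∑ μ ∈ Iic w, (monomial μ (z (F, μ)) : MvPolynomial τ ℝ)) P)

section bar
variable {σ : Type} (T : TS Unit) (B : Bk (VV T.C σ) σ)

/-- the diagonal of a form -/
def dgl (P : MvPolynomial (VV T.C σ ⊕ B.N) ℝ) : MvPolynomial (T.C ⊕ B.N) ℝ :=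
  aeval (Sum.elim (fun v => if v.2.degree = T.lev v.1 then
    (v.2.degree.factorial : ℝ) • X (.inl v.1) else 0) fun a => X (.inr a)) P

/-- **the point tower with the diagonal brackets** -/
def bar (w : ℝ) : TS Unit where
  C := T.C ⊕ B.N
  deg := Sum.elim T.deg fun a => Finsupp.single () (B.wd a).degree
  Φ := Sum.elim (fun c => rename .inl (T.Φ c)) fun a => X (.inr a) - dgl T B (B.Θ a)
  K := fromBlocks T.K 0 0 (w • 1)

/-- its stages -/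
def bst (s : ℕ) (w : ℝ) (st : T.C → ℕ) (M : ℕ) : (bar T B w).C → ℕ :=
  Sum.elim st fun a => M * (s + 1) ^ (B.wd a).degree

end bar

/-- the bias of a form -/
def bi {σ τ C : Type} [DecidableEq σ] [DecidableEq τ] [DecidableEq C] (U : TS σ) (S : Sh σ τ)
    (f : U.C → C) (P : MvPolynomial (VV C τ) ℝ) : ℝ :=
  ‖(U.sh S).Ec fun y => ee (eval (ex U S f (zc y)) P)‖

/-- the base tower -/
structure Tb (T : TS Unit) (st : T.C → ℕ) (M s : ℕ) : Prop where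
  ok : T.Ok
  stg : T.Stg st M
  lev : ∀ c, T.lev c ≤ s
  one : 1 ≤ M

/-- leaf: the coloured tower and the diagonal tower are staged; coloured twists -/
def COLA : Prop := ∀ (σ : Type) [Fintype σ] [DecidableEq σ] (s M : ℕ) (T : TS Unit)
  (st : T.C → ℕ) (B : Bk (VV T.C σ) σ) (w : ℝ), Tb T st M s → Bo B →
  (∀ a, (B.wd a).degree ≤ s) → 0 < w →
  ((cE s T B w).Ok ∧ (cE s T B w).Stg (cst s T B w st M) (M * (s + 1) ^ s)) ∧
  Tb (bar T B w) (bst T B s w st M) (M * (s + 1) ^ s) s ∧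
  ∀ (τ : Type) [DecidableEq τ] (col : τ → σ) (W : Finset (τ →₀ ℕ)) (K : Kn τ),
    (∀ Ψ, T.Adm _ st Ψ → (cE s T B w).Adm _ (cst s T B w st M) (cT s T B w col W K Ψ)) ∧
    cT s T B w col W K (T.tw0 _) = (cE s T B w).tw0 _

/-- leaf: wide brackets keep the regularity -/
def COLS : Prop := ∀ s M C' k : ℕ, ∃ C c : ℕ, ∀ (σ : Type) [Fintype σ] [DecidableEq σ]
  (T : TS Unit) (st : T.C → ℕ) (B : Bk (VV T.C σ) σ) (w a η : ℝ) (n : ℕ), Tb T st M s → Bo B →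
  (∀ a, (B.wd a).degree ≤ s) → Fintype.card σ ≤ k → Fintype.card B.N ≤ n → 1 ≤ n →
  0 < a → a ≤ 1 → 0 < η → η ≤ 1 →
  T.RgS st M C n (a / (n + 2) ^ c) ((η * a / (n + 2) ^ c) ^ (n + 2) ^ c) →
  (n + 2) ^ c * (1 + Real.log η⁻¹ + Real.log a⁻¹) ≤ w * a →
  (cE s T B w).RgS (cst s T B w st M) (M * (s + 1) ^ s) C' n a η ∧
    (bar T B w).RgS (bst T B s w st M) (M * (s + 1) ^ s) C' n a η

/-- the brackets of a configuration -/
def nw {σ τ : Type} [Fintype σ] [DecidableEq σ] [DecidableEq τ] (s : ℕ) (T : TS Unit)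
    (B : Bk (VV T.C σ) σ) (w : ℝ) (col : τ → σ) (W : Finset (τ →₀ ℕ)) (K : Kn τ) {R : Type}
    (y : (cE s T B w).Cw (MR col W K) → R) (x : (sp B col W).N) : R :=
  y ⟨(.inr x.1.1, x.1.2), x.2⟩

/-- the covariance of the brackets -/
def KN {C σ τ : Type} [DecidableEq σ] [DecidableEq τ] (B : Bk (VV C σ) σ) (w : ℝ) (col : τ → σ)
    (W : Finset (τ →₀ ℕ)) (K : Kn τ) : Matrix (sp B col W).N (sp B col W).N ℝ :=
  Matrix.of fun x x' => if x.1.1 = x'.1.1 then w * K x.1.2.1 x'.1.2.1 else 0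

/-- leaf: the law of the coloured tower is the old law times the weight of the brackets -/
def COLW : Prop := ∀ (σ τ : Type) [Fintype σ] [DecidableEq σ] [DecidableEq τ] (s M : ℕ)
  (T : TS Unit) (st : T.C → ℕ) (B : Bk (VV T.C σ) σ) (w : ℝ) (col : τ → σ)
  (W : Finset (τ →₀ ℕ)) (K : Kn τ) (Ψ : T.Twd (MR (fun _ => ()) W K)), Tb T st M s → Bo B →
  (∀ a, (B.wd a).degree ≤ s) → 0 < w → Dn W → (MR col W K).Ok → T.Adm _ st Ψ →
  (MR (fun _ => ()) W K).Ok ∧ Bo (sp B col W) ∧ (KN B w col W K).PosDef ∧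
  (Function.Bijective fun y : (cE s T B w).Cw (MR col W K) → ℤ =>
    (res s T B w col W K y, nw s T B w col W K y)) ∧
  (∀ (y : (cE s T B w).Cw (MR col W K) → ℝ) (p : T.Cw (FS σ s)) (μ : Sh.MW W) h h',
    ((cE s T B w).tw _ (cT s T B w col W K Ψ)).u y ⟨(.inl p, μ), h⟩ =
      (T.tw _ Ψ).u (res s T B w col W K y) ⟨(p.1.1, μ), h'⟩) ∧
  (∀ (y : (cE s T B w).Cw (MR col W K) → ℝ) (x : (sp B col W).N),
    ((cE s T B w).tw _ (cT s T B w col W K Ψ)).u y ⟨(.inr x.1.1, x.1.2), x.2⟩ =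
      nw s T B w col W K y x - eval (Sum.elim (ex T _ id (res s T B w col W K y))
        (nw s T B w col W K y)) ((sp B col W).Θ x)) ∧
  (∀ y : (cE s T B w).Cw (MR col W K) → ℤ, ((cE s T B w).tw _ (cT s T B w col W K Ψ)).wt y =
    (T.tw _ Ψ).wt (res s T B w col W K y) * gs (KN B w col W K)⁻¹ fun x =>
      ((cE s T B w).tw _ (cT s T B w col W K Ψ)).u (zc y) ⟨(.inr x.1.1, x.1.2), x.2⟩) ∧
  ((cE s T B w).tw _ (cT s T B w col W K Ψ)).Zc = (T.tw _ Ψ).Zc * √(KN B w col W K).det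

open Classical in
/-- leaf: the bracket functions of the subsystem `B0` become coordinates -/
def INB : Prop := ∀ (σ : Type) [Fintype σ] [DecidableEq σ] (s M m g : ℕ) (T : TS Unit)
  (st : T.C → ℕ) (B B0 : Bk (VV T.C σ) σ) (j : B0.N → B.N) (w : ℝ) (col : σ → σ)
  (W : Finset (σ →₀ ℕ)) (κ : (σ →₀ ℕ) → ℝ) (Ψ : T.Twd (MR (fun _ => ()) W (dk κ)))
  (G : (T.Cw (MR (fun _ => ()) W (dk κ)) → ℤ) → ℂ), Tb T st M s → Bo B → Bo B0 →
  (∀ a, (B.wd a).degree ≤ s) → 0 < w → Dn W → T.Adm _ st Ψ → Function.Injective j →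
  (∀ a, B.wd (j a) = B0.wd a ∧ B.Θ (j a) = rename (Sum.map id j) (B0.Θ a)) →
  (∀ a, B0.wd a ∈ W ∧ ∀ t, B0.wd a t ≠ 0 → col t = t) →
  (∀ μ ∈ W, (Fintype.card B.N * #W + m + 1 : ℝ) ≤ w * κ μ ∧ w * κ μ ≤ 4 ^ g) → (∀ y, ‖G y‖ ≤ 1) →
  ∃ c : (VV T.C σ → ℝ) → ℝ, (∀ z, 0 ≤ c z ∧ c z ≤ 1) ∧
    (∀ z z', (∀ F μ a, μ ≤ B0.wd a → z (F, μ) = z' (F, μ)) → c z = c z') ∧
    ‖(T.tw _ Ψ).Ec G‖ / (2 * (3 * 2 ^ g) ^ Fintype.card B0.N) - 2 / 2 ^ m ≤
      ‖((cE s T B w).tw _ (cT s T B w col W (dk κ) Ψ)).Ec fun y =>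
        G (res s T B w col W _ y) * c (ex T _ id (zc (res s T B w col W _ y))) *
        if ∀ a, ex _ _ (fm s T B w) y (.inr (j a), B0.wd a) =
          B0.om (ex T _ id (zc (res s T B w col W _ y))) a then 1 else 0‖

/-- leaf: the brackets become functions again -/
def OUT : Prop := ∀ (σ τ : Type) [Fintype σ] [DecidableEq σ] [DecidableEq τ] (s M n m g r : ℕ)
  (T : TS Unit) (st : T.C → ℕ) (B : Bk (VV T.C σ) σ) (w a η : ℝ) (col : τ → σ)
  (W : Finset (τ →₀ ℕ)) (K : Kn τ) (A : Set ((cE s T B w).Cw (MR col W K) → ℤ)), Tb T st M s →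
  Bo B → (∀ a, (B.wd a).degree ≤ s) → Dn W → (MR col W K).Sz n a → (∀ μ ∈ W, K μ μ ≤ 1) → 0 < a →
  1 ≤ w * a → w ≤ 4 ^ g → 0 ≤ η → η ≤ 1 / 8 → T.HM st n a η →
  (cE s T B w).HM (cst s T B w st M) n a η →
  Fintype.card ((cE s T B w).Cw (MR col W K)) ≤ 2 ^ g → 1 / 2 ^ m ≤ ((cE s T B w).sh _).P A →
  ∃ o : (sp B col W).N → ℝ, (∀ x, |o x| ≤ 2 ^ (2 * g + m + 4)) ∧
    1 / 2 ^ (m + 3 + (2 * g + m + r + 8) * Fintype.card (sp B col W).N) ≤
    (T.sh (MR (fun _ => ()) W K)).P {y0 | ∃ y ∈ A, res s T B w col W K y = y0 ∧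
      nw s T B w col W K y = (sft (sp B col W) o).om (ex T _ id (zc y0)) ∧
      ∀ x, |(sft (sp B col W) o).ev (ex T _ id (zc y0)) ((sft (sp B col W) o).Θ x) -
        nw s T B w col W K y x| ≤ 1 / 2 ^ (r + 2)}

/-- leaf: from the merged colours `x = t` to the relabelled brackets -/
def TRF : Prop := ∀ (σ : Type) [Fintype σ] [DecidableEq σ] (s M m : ℕ) (T : TS Unit)
  (st : T.C → ℕ) (B : Bk (VV T.C σ) σ) (w κ : ℝ) (E : Finset σ) (x t : σ) (π1 π2 : GE E)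
  (P : MvPolynomial (VV T.C σ ⊕ B.N) ℝ), Tb T st M s → Bo B → (∀ a, (B.wd a).degree ≤ s) →
  (∀ a, B.wd a x = 0) → x ∈ E → t ∈ E → t ≠ x → π1.1 = 1 → π2.1 = Equiv.swap t x → 0 < κ →
  (Fintype.card (sy B E).N * #(W0 s E) + m + 1 : ℝ) ≤ w * κ →
  P.IsWeightedHomogeneous (B.wg Prod.snd) (wE E) →
  bi (cE s T B w) (MR (Function.update id x t) (W0 s E) (dk fun _ => κ)) (fm s T B w)
      (up B P - rlb (Equiv.swap t x) (up B P)) ≤
    bi (cE s T (sy B E) w) (MR id (W0 s E) (dk fun _ => κ)) (fm s T _ w)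
      (ug B E π1 P - ug B E π2 P) + 8 / 2 ^ m

/-- leaf: the relabelled system; its symbol law is symmetric -/
def PERM : Prop := ∀ (σ : Type) [Fintype σ] [DecidableEq σ] (s M : ℕ) (T : TS Unit)
  (st : T.C → ℕ) (B : Bk (VV T.C σ) σ) (w κ : ℝ) (E : Finset σ), Tb T st M s → Bo B →
  (∀ a, (B.wd a).degree ≤ s) → 0 < w → 0 < κ →
  (Bo (sy B E) ∧ (∀ a, ((sy B E).wd a).degree ≤ s) ∧
    Fintype.card (sy B E).N ≤ Fintype.card B.N * (#E).factorial ∧ ∀ π : GE E, π.1 = 1 →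
      Function.Injective (syn B E π) ∧ ∀ a, (sy B E).wd (syn B E π a) = B.wd a ∧
        (sy B E).Θ (syn B E π a) = rename (Sum.map id (syn B E π)) (B.Θ a)) ∧
  (∀ (π : GE E) (P : MvPolynomial (VV T.C σ ⊕ B.N) ℝ),
    P.IsWeightedHomogeneous (B.wg Prod.snd) (wE E) →
    (ug B E π P).IsWeightedHomogeneous Prod.snd (wE E)) ∧
  ∀ (π π1 π2 π1' π2' : GE E) (P : MvPolynomial (VV T.C σ ⊕ B.N) ℝ), π1'.1 = π.1 * π1.1 →
    π2'.1 = π.1 * π2.1 →
    bi (cE s T (sy B E) w) (MR id (W0 s E) (dk fun _ => κ)) (fm s T _ w)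
        (ug B E π1' P - ug B E π2' P) =
      bi (cE s T (sy B E) w) (MR id (W0 s E) (dk fun _ => κ)) (fm s T _ w)
        (ug B E π1 P - ug B E π2 P)

/-- leaf: star transpositions generate; relations add up -/
def STAR : Prop := ∀ (σ τ : Type) [Fintype σ] [DecidableEq σ] (E : Finset σ) (x : σ) (V : TS τ)
  (p : V.C → Prop) [DecidablePred p] (y : V.C → ℝ) (b : ℝ) (G : GE E → (V.C → ℝ) → ℝ) (π0 : GE E),
  x ∈ E → 0 ≤ b → (∀ π π' : GE E, ∀ t ∈ E, t ≠ x → π'.1 = π.1 * Equiv.swap t x →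
    Rx V p y b fun ξ => G π ξ - G π' ξ) →
  Rx V p y (3 * #E * (#E).factorial * b) fun ξ => (#E).factorial * G π0 ξ - ∑ π, G π ξ

/-- leaf: the diagonal identity; symbols are the errors on the symbol rings -/
def DIAG : Prop :=
  (∀ (σ : Type) [Fintype σ] [DecidableEq σ] (T : TS Unit) (B : Bk (VV T.C σ) σ) (E : Finset σ)
    (z : VV (T.C ⊕ (sy B E).N) σ → ℝ), Bo B → (∀ F, T.lev F ≠ 0) →
    (∀ F μ, z (.inl F, μ) ≠ 0 → μ.degree = T.lev F) → (∀ x μ, z (.inr x, μ) ≠ 0 → μ = (sy B E).wd x) →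
    (∀ P : MvPolynomial (VV T.C σ ⊕ B.N) ℝ, P.IsWeightedHomogeneous (B.wg Prod.snd) (wE E) →
      (∀ v, Sum.inl v ∈ P.vars → v.2 ≠ 0) →
      ∑ π : GE E, eval z (ug B E π P) = sv (dgl T B P) (wE E) (br B E z)) ∧
    ∀ (a : B.N) (μ : σ →₀ ℕ), (B.wd a).support ⊆ E → μ.support ⊆ E → (∀ t, μ t ≤ 1) →
      μ.degree = (B.wd a).degree →
      ∑ x : (sy B E).N with x.1.1 = a ∧ (sy B E).wd x = μ, eval z (up (sy B E) ((sy B E).Θ x)) =
        sv (dgl T B (B.Θ a)) μ (br B E z)) ∧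
  (∀ (τ : Type) [DecidableEq τ] (T : TS Unit) (W : Finset (τ →₀ ℕ)) (K : Kn τ)
    (ξ : T.Cw (MR (fun _ => ()) W K) → ℝ) (p : T.Cw (MR (fun _ => ()) W K)), T.Ok → Dn W →
    (T.sh _).u ξ p = sv (T.Φ p.1.1) p.1.2.1 (ex T _ id ξ)) ∧
  ∀ (C σ τ : Type) [DecidableEq σ] [DecidableEq τ] (col : τ → σ) (P : MvPolynomial C ℝ)
    (μ : τ →₀ ℕ) (z : VV C τ → ℝ), (∀ t, μ.mapDomain col t ≤ 1) →
    sv P μ z = sv P (μ.mapDomain col) fun v => z (v.1, sw col μ v.2)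

/-- leaf: descent of a relation to the fibre of the diagonal tower -/
def DESC : Prop := ∀ (σ τ : Type) [Fintype σ] [DecidableEq σ] [DecidableEq τ] (s M : ℕ)
  (T : TS Unit) (st : T.C → ℕ) (B : Bk (VV T.C σ) σ) (w b κ0 : ℝ) (E : Finset σ) (col : τ → σ)
  (W : Finset (τ →₀ ℕ)) (κ : (τ →₀ ℕ) → ℝ) (x : τ)
  (y : (cE s T (sy B E) w).Cw (MR col W (dk κ)) → ℝ)
  (y' : (bar T B w).Cw (MR (fun _ => ()) W (dk κ)) → ℝ)
  (G : ((cE s T (sy B E) w).Cw (MR col W (dk κ)) → ℝ) → ℝ)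
  (G' : ((bar T B w).Cw (MR (fun _ => ()) W (dk κ)) → ℝ) → ℝ), Tb T st M s → Bo B →
  (∀ a, (B.wd a).degree ≤ s) → 0 < w → Dn W →
  (∀ μ ∈ W, (∀ t, μ.mapDomain col t ≤ 1) ∧ (μ.mapDomain col).support ⊆ E ∧ κ0 ≤ κ μ) → 0 < κ0 →
  0 ≤ b → 4 * b ^ 2 < w * κ0 →
  (∀ p, p.1.2.1 x = 0 → y' p = br B E (ex _ _ (fm s T _ w) y) (p.1.1, p.1.2.1)) →
  (∀ ξ ξ', (∀ p, p.1.2.1 x = 0 → ξ p = y p) → (∀ p, p.1.2.1 x = 0 → ξ' p = y' p) →
    (∀ p, (∀ a, p.1.1 = .inr a → (B.wd a).support ⊆ E) →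
      ξ' p = br B E (ex _ _ (fm s T _ w) ξ) (p.1.1, p.1.2.1)) → G ξ = G' ξ') →
  Rx ((cE s T (sy B E) w).sh (MR col W (dk κ))) (fun p => p.1.2.1 x ≠ 0) y b G →
  Rx ((bar T B w).sh (MR (fun _ => ()) W (dk κ))) (fun p => p.1.2.1 x ≠ 0) y' b G'

/-- leaf: the product law for diagonal kernels -/
def PRD : Prop := ∀ (σ τ ι : Type) [DecidableEq σ] [DecidableEq τ] [Fintype τ] [Fintype ι]
  [DecidableEq ι] (U : TS σ) (st : U.C → ℕ) (M : ℕ) (col : τ → σ) (W : ι → Finset (τ →₀ ℕ))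
  (u : ι → (τ →₀ ℕ) → ℝ) (V : (ι × τ →₀ ℕ) → ℝ)
  (g : ∀ i, (U.Cw (MR col (W i) (dk (u i))) → ℤ) → ℂ),
  U.Ok → U.Stg st M → (∀ i, Dn (W i)) → (∀ i j, 0 < u i j) →
  (∀ i, ∀ μ ∈ W i, μ ≠ 0 → V (μ.mapDomain (i, ·)) = u i μ) → (∀ i y, ‖g i y‖ ≤ 1) →
  (U.sh (MR (col ∘ Prod.snd) (WP W) (dk V))).Ec (fun y => ∏ i, g i (hs U _ (pr i) y)) =
    ∏ i, (U.sh (MR col (W i) (dk (u i)))).Ec (g i)

end Crest.Agent.N49.Sw

end
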