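import Crest.Agent.N49.Sw.Cols0
import Crest.Agent.N49.Sw.Df2

/-!
# Row 49 (helper91): wide brackets keep the regularity
-/

set_option autoImplicit false
set_option linter.unusedSectionVars false

open Matrix MvPolynomial Finset

noncomputable section

namespace Crest.Agent.N49.Sw

open Po Tw Sd TS Nold

namespace Cq

theorem qf_zc {a b : Type} [Fintype a] [Fintype b] {f : a → b} (hf : Function.Injective f)
    (M : Matrix b b ℝ) {k : b → ℤ} (hk : ∀ i, k i ≠ 0 → ∃ j, f j = i) :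
    qf (M.submatrix f f) (zc fun j => k (f j)) = qf M (zc k) :=
  (qf_inj hf M (x := zc k) fun c z => hk c fun y => z (by simp [zc, y])).symm

section
variable {σ σ' τ : Type} [DecidableEq σ] [DecidableEq σ'] {T : TS σ'} {U : TS σ} {st : T.C → ℕ}
  {su : U.C → ℕ} {M M' : ℕ}

theorem tw0_Φ (T : TS σ) (S : Sh σ τ) : (T.tw S (T.tw0 S)).Φ = (T.sh S).Φ :=
  funext fun p => congrArg (S.cf _ p.1.2) (eval₂_tw0 _ _)

theorem tw0_u (T : TS σ) (S : Sh σ τ) (y : T.Cw S → ℝ) (p : T.Cw S) :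
    (T.tw S (T.tw0 S)).u y p = (T.sh S).u y p := congrArg (eval y) (congrFun (tw0_Φ T S) p)

theorem sh_tri (h : T.Stg st M) {S : Sh σ' τ} (o : S.Ok) :
    ((T.sh S).stg fun p => st p.1.1).Tri :=
  (congrArg (fun Φ => (((T.sh S).setΦ Φ).stg fun p => st p.1.1).Tri) (tw0_Φ T S)).mp
    (lw_tri h (h.adm o) o)

theorem sbS_eq (hT : T.Stg st M) (hU : U.Stg su M') {l t : ℕ} {col : Fin l → σ}
    {col0 : Fin l → σ'} {κ : ℕ → ℝ} (hκ : ∀ j, 0 < κ j)
    (ι : T.Cw (Sh.sym col0 κ) → U.Cw (Sh.sym col κ)) (hi : Function.Injective ι)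
    (lv : ∀ p, st p.1.1 = su (ι p).1.1) (hu : ∀ (y : U.Cw (Sh.sym col κ) → ℝ) p,
      (T.sh (Sh.sym col0 κ)).u (fun q => y (ι q)) p = (U.sh (Sh.sym col κ)).u y (ι p))
    (hK : ∀ p p', (T.sh (Sh.sym col0 κ)).K p p' = (U.sh (Sh.sym col κ)).K (ι p) (ι p'))
    (rg : ∀ q, su q.1.1 ≤ t → ∃ p, ι p = q) {k : U.C → ℤ} {k' : T.C → ℤ}
    (hk : ∀ c, k c ≠ 0 → su c = t) (hk' : ∀ p, (if (Sh.sym col κ).dg (ι p).1.2 = l then
      k (ι p).1.1 else 0) = if (Sh.sym col0 κ).dg p.1.2 = l then k' p.1.1 else 0) :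
    U.sbS su t col κ k = T.sbS st t col0 κ k' := by
  have m := mor_inj (sh_tri hU (Sh.sym_ok (c := col) fun j _ => hκ j))
    (sh_tri hT (Sh.sym_ok (c := col0) fun j _ => hκ j)) ι 1
    (fun p => (Finsupp.degree_single _ _).trans ((lv p).trans (Finsupp.degree_single _ _).symm))
    (fun y p => (hu (zc y) p).trans (one_mul _).symm) fun p p' => (hK p p').trans (by
      rw [one_pow, one_mul]; rfl)
  refine (bias_inj m hi t (fun q z => rg q ((stg_lev q).symm.trans_lt z).le) fun q z => ?_).trans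
    (congrArg _ (funext hk'))
  have e := hk q.1.1 fun a => z (by rw [a, ite_self])
  exact ⟨((stg_lev q).trans e).le, rg q e.le⟩
end

section
variable {σ σ' C0 V : Type} [Fintype C0] [DecidableEq C0] (B : Bk V σ)

/-- towers with brackets on top -/
def gU (deg : C0 ⊕ B.N → σ' →₀ ℕ) (Φ : C0 ⊕ B.N → MvPolynomial (C0 ⊕ B.N) ℝ)
    (K : Matrix C0 C0 ℝ) (w : ℝ) : TS σ' := ⟨C0 ⊕ B.N, deg, Φ, fromBlocks K 0 0 (w • 1)⟩

theorem new_gen {deg : C0 ⊕ B.N → σ' →₀ ℕ} {Φ : C0 ⊕ B.N → MvPolynomial (C0 ⊕ B.N) ℝ}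
    {K : Matrix C0 C0 ℝ} {w : ℝ} (hw : 0 ≤ w) {su : C0 ⊕ B.N → ℕ} {M n : ℕ}
    (g : V → MvPolynomial C0 ℝ) (hΦ : ∀ a, Φ (.inr a) = X (.inr a) -
      aeval (Sum.elim (fun v => rename .inl (g v)) fun a => X (.inr a)) (B.Θ a)) (tri : B.Tri)
    (hs : ∀ c, su (.inl c) ≤ M) (hn : Fintype.card B.N ≤ n) (h : ((gU B deg Φ K w).stg su).Tri)
    (t : ℕ) (ht : M < t) : ((gU B deg Φ K w).stg su).R t ≤ n ∧ ∀ k : C0 ⊕ B.N → ℤ, k ≠ 0 →
      (∀ c, k c ≠ 0 → su c = t) → w ≤ qf ((gU B deg Φ K w).stg su).D (zc k) := by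
  have nw : ∀ c, ((gU B deg Φ K w).stg su).lev c = t → ∃ a, Sum.inr a = c := by
    rintro (c | a) e
    · exact absurd ((stg_lev (T := gU B deg Φ K w) (st := su) _).symm.trans e) (by
        have := hs c; omega)
    · exact ⟨a, rfl⟩
  have co : ∀ a a', ¬ B.rk a' < B.rk a →
      coeff (Finsupp.single (.inr a') 1) (Φ (.inr a)) = if a = a' then 1 else 0 := fun a a' n => by
    rw [hΦ, coeff_sub, coeff_X]
    refine (sub_eq_self.2 (not_not.1 fun z => n ?_)).trans (if_congr ⟨fun x => Sum.inr_injective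
      (Finsupp.single_left_injective one_ne_zero x), fun x => by rw [x]⟩ rfl rfl)
    have := (mem_vars_iff_mem_support (Sum.inr a')).2 ⟨_, mem_support_iff.2 z, by simp⟩
    rw [aeval_eq_bind₁] at this
    obtain ⟨v | b, h1, h2⟩ := mem_vars_bind₁ _ _ this
    · obtain ⟨_, -, e⟩ := mem_vars_rename _ _ h2
      cases e
    · rw [Sum.elim_inr, vars_X, mem_singleton] at h2
      cases h2
      exact tri a a' h1
  refine ⟨le_trans ?_ hn, fun k k0 hk => new_q h hw (Sum.elim (fun _ => 0) B.rk) (fun c c' e => ?_)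
    (fun c e => ?_) (fun c c' e z => ?_) k0 fun c z => (stg_lev c).trans (hk c z)⟩
  · rw [← card_univ, ← card_image_of_injective _ (Sum.inr_injective (α := C0))]
    refine card_le_card fun c hc => ?_
    obtain ⟨a, rfl⟩ := nw c (mem_filter.1 hc).2
    exact mem_image_of_mem _ (mem_univ _)
  · obtain ⟨a, rfl⟩ := nw c e
    change fromBlocks K 0 0 (w • 1) (.inr a) c' = if (Sum.inr a : C0 ⊕ B.N) = c' then w else 0
    rcases c' with c' | c' <;> simp [one_apply]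
  · obtain ⟨a, rfl⟩ := nw c e
    exact (stg_A (T := gU B deg Φ K w) _ _).trans ((if_pos rfl).trans
      ((co a a (lt_irrefl _)).trans (if_pos rfl)))
  · obtain ⟨a, rfl⟩ := nw c e
    obtain ⟨a', rfl⟩ := nw c' ((not_not.1 fun n => z (blk_A _ _ _ n)).symm.trans e)
    by_cases q : a = a'
    · exact .inl (congrArg _ q)
    · exact .inr (not_not.1 fun y => z ((stg_A (T := gU B deg Φ K w) _ _).trans
        (ite_eq_right_iff.2 fun _ => (co a a' y).trans (if_neg q))))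
end

variable {σ : Type} [Fintype σ] [DecidableEq σ] {s M n N : ℕ} {T : TS Unit} {st : T.C → ℕ}
  {B : Bk (VV T.C σ) σ} {w : ℝ}

theorem lt_st (h : Tb T st M s) (o : Bo B) (hs : ∀ a, (B.wd a).degree ≤ s) (a : B.N) :
    M < M * (s + 1) ^ (B.wd a).degree := by
  have a1 : (B.wd a).degree ≠ 0 := fun e => o.ok.ne a ((Finsupp.degree_eq_zero_iff _).1 e)
  have a2 := hs a
  have a3 : s + 1 ≤ (s + 1) ^ (B.wd a).degree := Nat.le_self_pow a1 _
  have := h.one
  nlinarith [Nat.pos_of_ne_zero a1]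

theorem ex_bar (h : Tb T st M s) (o : Bo B) (hs : ∀ a, (B.wd a).degree ≤ s) (hw : 0 < w) {M' : ℕ}
    (hb : Tb (bar T B w) (bst T B s w st M) M' s) (hN : 1 ≤ N) (hn : Fintype.card B.N ≤ n) :
    Ex T (bar T B w) st (bst T B s w st M) M N n w := by
  have rg : ∀ c, bst T B s w st M c ≤ M → ∃ c', Sum.inl c' = c := by
    rintro (c | a) e
    · exact ⟨c, rfl⟩
    · exact absurd e (not_le.2 (lt_st h o hs a))
  have m := mor_inj hb.stg.tri h.stg.tri Sum.inl 1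
    (fun c => (stg_lev c).trans (stg_lev (T := bar T B w) (st := bst T B s w st M) (.inl c)).symm)
    (fun y c => (eval_rename Sum.inl (zc y) (T.Φ c)).symm.trans (one_mul _).symm) fun c c' => by
      rw [one_pow, one_mul]; rfl
  refine ⟨h.stg.tri, hb.stg.tri, fun t ht => ?_, fun t ht κ R τ hκ sy l col k k0 hk hR => ?_,
    new_gen B hw.le (fun v => if v.2.degree = T.lev v.1 then
      (v.2.degree.factorial : ℝ) • X v.1 else 0) (fun a => ?_) o.ok.tri
      (fun c => (h.stg.le c).1) hn hb.stg.tri⟩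
  · have := old_ct m fun c e => rg c (((stg_lev c).symm.trans e).trans_le ht)
    exact ⟨this.1.trans (le_self_pow₀ (one_le_ct h.stg.tri t) (by omega)),
      this.2.trans (Nat.le_mul_of_pos_right _ hN)⟩
  · have kr := fun c z => rg c ((hk c z).1.trans_le ht)
    let ι : T.Cw (Sh.sym col κ) → (bar T B w).Cw (Sh.sym col κ) :=
      fun p => ⟨(.inl p.1.1, p.1.2), p.2⟩
    have hi : Function.Injective ι := fun _ _ e => Subtype.ext (Prod.ext
      (Sum.inl_injective (congrArg (·.1.1) e)) (congrArg (·.1.2) e))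
    have r1 : ∀ q : (bar T B w).Cw (Sh.sym col κ), (∃ c, Sum.inl c = q.1.1) → ∃ p, ι p = q := by
      rintro ⟨⟨_, x⟩, e⟩ ⟨c, rfl⟩
      exact ⟨⟨(c, x), e⟩, rfl⟩
    refine (sbS_eq h.stg hb.stg hκ ι hi (fun _ => rfl) (fun y p => ?_) (fun _ _ => rfl)
      (fun q e => r1 q (rg _ (e.trans ht))) (fun c z => (hk c z).1)
      (k' := fun c => k (.inl c)) fun _ => rfl).trans_le (sy l col _ (fun z => k0 (funext fun c =>
        not_not.1 fun y => ?_)) (fun c z => hk (.inl c) z) (le_trans (le_of_eq ?_) hR))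
    · refine (sh_u _ _).trans (Eq.trans ?_ (sh_u _ _).symm)
      rw [h.ok.hz _ 1, hb.ok.hz _ 1, hz_one, hz_one]
      refine congrArg _ (Eq.trans ?_ (aeval_rename _ _ _).symm)
      refine congrArg (aeval · (T.Φ p.1.1)) (funext fun F => ?_)
      refine (sum_filter _ _).trans (Eq.trans ?_ (sum_filter _ _).symm)
      refine Fintype.sum_of_injective ι hi _ _ (fun q e => if_neg fun z => e (r1 q ⟨F, z.symm⟩))
        fun q => if_congr ⟨congrArg _, fun z => Sum.inl_injective z⟩ rfl rfl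
    · obtain ⟨c, rfl⟩ := kr c y
      exact y (congrFun z c)
    · exact (congrArg (qf · _) (mor_D m)).trans (qf_zc Sum.inl_injective _ kr)
  · refine congrArg (fun f => (X (Sum.inr a) - aeval (Sum.elim f fun a => X (Sum.inr a)) (B.Θ a) :
      MvPolynomial (_ ⊕ B.N) ℝ)) (funext fun v => ?_)
    split_ifs <;> simp

theorem fs_K : (FS σ s).K = 1 := Matrix.ext fun a b => by
  rw [one_apply]
  exact if_congr Subtype.ext_iff.symm rfl rfl

theorem fs_ok : (FS σ s).Ok := Sh.mono_ok dn_full (fs_K (σ := σ) ▸ PosDef.one) (Sh.dk_blk _)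

variable (B w) in
/-- the coloured part -/
def io (h : ∀ c, T.lev c ≤ s) {l : ℕ} (col : Fin l → σ) (κ : ℕ → ℝ)
    (p : T.Cw (Sh.sym (fun _ : Fin l => ()) κ)) : (cE s T B w).Cw (Sh.sym col κ) :=
  ⟨(.inl ⟨(p.1.1, ⟨p.1.2.1.mapDomain col, mem_erase.2 ⟨fun e => Sh.MW.ne p.1.2
    ((Finsupp.degree_eq_zero_iff _).1 (by rw [← degree_col col, e, map_zero])), mem_full.2
      (((degree_col _ _).trans (lev_cw p).symm).trans_le (h _))⟩⟩), unit_ext
        ((degree_col _ _).trans ((degree_col _ _).trans (lev_cw p).symm))⟩, p.1.2), rfl⟩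

section
variable (hl : ∀ c, T.lev c ≤ s) {l : ℕ} {col : Fin l → σ} {κ : ℕ → ℝ}

theorem io_inj : Function.Injective (io B w hl col κ) := fun _ _ e => Subtype.ext (Prod.ext
  (Sum.inl_injective (congrArg (fun q : (cE s T B w).Cw (Sh.sym col κ) => fm s T B w q.1.1) e))
  (congrArg (·.1.2) e))

theorem io_rg (q : (cE s T B w).Cw (Sh.sym col κ)) (e : ∃ c, Sum.inl c = q.1.1) :
    ∃ p, io B w hl col κ p = q := by
  obtain ⟨⟨_, x⟩, e'⟩ := q
  obtain ⟨c, rfl⟩ := e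
  exact ⟨⟨(c.1.1, x), unit_ext ((degree_col _ _).trans ((degree_col col _).symm.trans
    ((congrArg Finsupp.degree e').trans (lev_cw c).symm)))⟩, Subtype.ext (Prod.ext (congrArg Sum.inl
      (Subtype.ext (Prod.ext rfl (Subtype.ext e')))) rfl)⟩

theorem res_io (y : (cE s T B w).Cw (Sh.sym col κ) → ℝ) :
    res s T B w col (sqf (Fin l) l) (dk fun μ => κ μ.degree) y = fun q => y (io B w hl col κ q) :=
  funext fun q => sum_eq_single_of_mem (io B w hl col κ q) (mem_filter.2 ⟨mem_univ _, rfl, rfl⟩)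
    fun x hx e => absurd (by
      obtain ⟨a1, a2⟩ := (mem_filter.1 hx).2
      obtain ⟨x, rfl⟩ := io_rg hl x (by
        rcases b : x.1.1 with c | c
        · exact ⟨c, rfl⟩
        · rw [b] at a1; cases a1)
      exact congrArg _ (Subtype.ext (Prod.ext (Sum.inl_injective a1) (Subtype.ext a2)))) e

theorem io_K (p p' : T.Cw (Sh.sym (fun _ : Fin l => ()) κ)) : (T.sh _).K p p' =
    ((cE s T B w).sh (Sh.sym col κ)).K (io B w hl col κ p) (io B w hl col κ p') := by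
  change T.K p.1.1 p'.1.1 * dk (fun μ => κ μ.degree) p.1.2.1 p'.1.2.1 = T.K p.1.1 p'.1.1 *
    dk (fun _ => 1) (p.1.2.1.mapDomain col) (p'.1.2.1.mapDomain col) *
      dk (fun μ => κ μ.degree) p.1.2.1 p'.1.2.1
  by_cases e : p.1.2.1 = p'.1.2.1
  · simp [dk, e]
  · simp [dk, e]
end

theorem io_u (ha : COLA) (hc : COLW) (h : Tb T st M s) (o : Bo B)
    (hs : ∀ a, (B.wd a).degree ≤ s) (hw : 0 < w) {l : ℕ} {col : Fin l → σ} {κ : ℕ → ℝ}
    (hκ : ∀ j, 0 < κ j) (y : (cE s T B w).Cw (Sh.sym col κ) → ℝ)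
    (p : T.Cw (Sh.sym (fun _ : Fin l => ()) κ)) : (T.sh _).u (fun q => y (io B w h.lev col κ q)) p =
      ((cE s T B w).sh (Sh.sym col κ)).u y (io B w h.lev col κ p) := by
  have o0 : (Sh.sym (fun _ : Fin l => ()) κ).Ok := Sh.sym_ok fun j _ => hκ j
  have a := (hc σ _ s M T st B w col (sqf (Fin l) l) (dk fun μ => κ μ.degree) _ h o hs hw dn_sqf
    (Sh.sym_ok fun j _ => hκ j) (h.stg.adm o0)).2.2.2.2.1 y _ p.1.2 (io B w h.lev col κ p).2 p.2
  rw [((ha σ s M T st B w h o hs hw).2.2 _ col _ _).2, res_io h.lev] at a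
  exact (tw0_u T _ _ p).symm.trans (a.symm.trans (tw0_u _ _ y _))

theorem mor_cE (h : Tb T st M s) (hb : ((cE s T B w).stg (cst s T B w st M)).Tri) :
    ((cE s T B w).stg (cst s T B w st M)).Mor (T.lw (FS σ s) st (T.tw0 _)) (· ∘ Sum.inl)
      (pm ℤ Sum.inl) ((1 : ℝ) • pm ℝ Sum.inl) :=
  mor_inj hb (lw_tri h.stg (h.stg.adm fs_ok) fs_ok) Sum.inl 1
    (fun c => (lw_lev c).trans (stg_lev (T := cE s T B w) (st := cst s T B w st M) (.inl c)).symm)
    (fun y c => (tw0_u T (FS σ s) (zc (y ∘ Sum.inl)) c).trans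
      ((eval_rename Sum.inl (zc y) ((T.sh (FS σ s)).Φ c)).symm.trans (one_mul _).symm))
    fun c c' => by rw [one_pow, one_mul]; rfl

theorem cE_rg (h : Tb T st M s) (o : Bo B) (hs : ∀ a, (B.wd a).degree ≤ s) (c : (cE s T B w).C)
    (e : cst s T B w st M c ≤ M) : ∃ c', Sum.inl c' = c := by
  rcases c with c | a
  · exact ⟨c, rfl⟩
  · exact absurd e (not_le.2 (lt_st h o hs a))

theorem sy_cE (ha : COLA) (hc : COLW) (h : Tb T st M s) (o : Bo B)
    (hs : ∀ a, (B.wd a).degree ≤ s) (hw : 0 < w) {t : ℕ} (ht : t ≤ M) {κ : ℕ → ℝ} {R τ : ℝ}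
    (hκ : ∀ j, 0 < κ j) (sy : T.SymS st t κ R τ) :
    (cE s T B w).SymS (cst s T B w st M) t κ R τ := fun l col k k0 hk hR => by
  have hb := (ha σ s M T st B w h o hs hw).1.2
  have kr := fun c z => cE_rg h o hs c ((hk c z).1.trans_le ht)
  obtain ⟨c0, z0⟩ := Function.ne_iff.1 k0
  obtain ⟨p0, rfl⟩ := kr c0 z0
  have w0 : p0.1.2.1 = ∑ i, Finsupp.single (col i) 1 := (hk _ z0).2
  have dl : ∀ p : T.Cw (FS σ s), k (.inl p) ≠ 0 → p.1.2 = p0.1.2 ∧ T.lev p.1.1 = l :=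
    fun p z => ⟨Subtype.ext ((hk _ z).2.trans w0.symm),
      (lev_cw p).trans (lev_of_col (T := cE s T B w) (hk _ z).2)⟩
  have d0 : p0.1.2.1.degree = l := (lev_cw p0).symm.trans (dl p0 z0).2
  obtain ⟨j, j1, j2⟩ : ∃ j : {F // T.lev F = l} → T.Cw (FS σ s), (∀ F, (j F).1.1 = F.1) ∧
      ∀ F, (j F).1.2 = p0.1.2 := ⟨fun F => ⟨(F.1, p0.1.2),
    unit_ext ((degree_col _ _).trans (d0.trans F.2.symm))⟩, fun _ => rfl, fun _ => rfl⟩
  have ji : Function.Injective j := fun a b e => Subtype.ext (by rw [← j1, e, j1])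
  have jr : ∀ p, k (.inl p) ≠ 0 → ∃ F, j F = p := fun p z =>
    ⟨⟨p.1.1, (dl p z).2⟩, Subtype.ext (Prod.ext (j1 _) ((j2 _).trans (dl p z).1.symm))⟩
  obtain ⟨k', kj, kl⟩ : ∃ k' : T.C → ℤ, (∀ F, k' F.1 = k (.inl (j F))) ∧
      ∀ F, k' F ≠ 0 → T.lev F = l := ⟨glue (fun F => T.lev F = l) (fun F => k (.inl (j F))) 0,
    fun F => glue_val _ _ F, fun F z => not_not.1 fun y => z (glue_neg _ _ y)⟩
  refine (sbS_eq h.stg hb hκ (io B w h.lev col κ) (io_inj _) (fun _ => rfl)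
    (io_u ha hc h o hs hw hκ) (io_K _) (fun q e => io_rg _ q (cE_rg h o hs _ (e.trans ht)))
    (fun c z => (hk c z).1) (k' := k') fun p => ?_).trans_le (sy l _ k' (fun z => ?_)
      (fun F z => ?_) (le_trans (le_of_eq ?_) hR))
  · refine if_ctx_congr Iff.rfl (fun e => ?_) fun _ => rfl
    obtain ⟨x, x1, -, x3⟩ := sym_top col κ ((dl p0 z0).2 ▸ h.ok.lev_pos _)
    refine Eq.trans ?_ (kj ⟨p.1.1, (lev_cw p).trans e⟩).symm
    exact congrArg (fun q => k (.inl q)) (Subtype.ext (Prod.ext (j1 ⟨p.1.1, _⟩).symm (Eq.trans (Subtype.ext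
      ((congrArg (Sh.sym col κ).cd (x3 p.1.2 e)).trans (x1.trans w0.symm))) (j2 _).symm)))
  · obtain ⟨F, e⟩ := jr p0 z0
    exact z0 (e ▸ (kj F).symm.trans (congrFun z F.1))
  · refine ⟨(congrArg st (j1 ⟨F, kl F z⟩)).symm.trans
      (hk _ ((kj ⟨F, kl F z⟩).symm.trans_ne z)).1, unit_ext ((kl F z).trans ?_)⟩
    rw [map_sum]; simp
  · refine Eq.trans ?_ (qf_zc Sum.inl_injective _ kr)
    refine Eq.trans ?_ (congrArg (qf · _) ((lw_D h.stg (h.stg.adm fs_ok) fs_ok).symm.trans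
      (mor_D (mor_cE h hb.tri))))
    refine (qf_zc (Subtype.val_injective (p := fun F => T.lev F = l)) _ fun F z =>
      ⟨⟨F, kl F z⟩, rfl⟩).symm.trans (Eq.trans ?_ (qf_zc ji _ jr))
    refine congrArg₂ qf (Matrix.ext fun a b => ?_) (funext fun F => congrArg Int.cast (kj F))
    change _ = (T.stg st).D (j a).1.1 (j b).1.1 * (FS σ s).K (j a).1.2 (j b).1.2
    rw [j1, j1, j2, j2, fs_K, one_apply_eq, mul_one]; rfl

theorem ex_cE (ha : COLA) (hc : COLW) (h : Tb T st M s) (o : Bo B)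
    (hs : ∀ a, (B.wd a).degree ≤ s) (hw : 0 < w) (hN : (s + 1) ^ Fintype.card σ ≤ N)
    (hn : Fintype.card B.N ≤ n) : Ex T (cE s T B w) st (cst s T B w st M) M N n w := by
  have hb := (ha σ s M T st B w h o hs hw).1.2
  have ad := h.stg.adm (fs_ok (σ := σ) (s := s))
  have cw : Fintype.card (FS σ s).W ≤ N :=
    (Fintype.card_coe _).trans_le (card_erase_le.trans (card_full.trans hN))
  refine ⟨h.stg.tri, hb.tri, fun t ht => ?_, fun t ht κ R τ => sy_cE ha hc h o hs hw ht,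
    new_gen B hw.le (fun v => ∑ p : T.Cw (FS σ s) with p.1.1 = v.1 ∧ p.1.2.1 = v.2, X p)
      (fun a => ?_) o.ok.tri (fun c => (h.stg.le c.1.1).1) hn hb.tri⟩
  · have a := old_ct (mor_cE h hb.tri) fun c e =>
      cE_rg h o hs c (((stg_lev c).symm.trans e).trans_le ht)
    have b := lw_ct h.stg ad fs_ok one_pos le_rfl (fun x => by
      rw [fs_K]; simp [qf, dotProduct, sq]) t
    rw [Real.sqrt_one, inv_one, one_pow, one_mul] at b
    exact ⟨a.1.trans (b.trans (pow_le_pow_right₀ (one_le_ct h.stg.tri t) cw)),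
      a.2.trans ((lw_R t).trans (Nat.mul_le_mul_left _ cw))⟩
  · refine congrArg (fun f => (X (Sum.inr a) - aeval (Sum.elim f fun a => X (Sum.inr a)) (B.Θ a) :
      MvPolynomial (_ ⊕ B.N) ℝ)) (funext fun v => ?_)
    simp [vp]

end Cq

theorem cols (ha : COLA) (hc : COLW) : COLS := fun s M C' k => by
  obtain ⟨C, c, r⟩ := Cq.rg_ext M (M * (s + 1) ^ s) C' ((s + 1) ^ k)
    (Nat.le_mul_of_pos_right _ (by positivity)) (Nat.one_le_pow _ _ (Nat.succ_pos _))
  refine ⟨C, c, fun σ _ _ T st B w a η n h o hs hk hn n1 a0 a1 e0 e1 g hw => ?_⟩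
  have w0 : 0 < w := (mul_pos_iff_of_pos_right a0).1 (lt_of_lt_of_le (by
    have := log_inv_nonneg e0 e1
    have := log_inv_nonneg a0 a1
    positivity) hw)
  exact ⟨r _ _ T _ st _ n w a η (Cq.ex_cE ha hc h o hs w0
      (Nat.pow_le_pow_right (Nat.succ_pos _) hk) hn) n1 a0 a1 e0 e1 g hw,
    r _ _ T _ st _ n w a η (Cq.ex_bar h o hs w0 (ha σ s M T st B w h o hs w0).2.1
      (Nat.one_le_pow _ _ (Nat.succ_pos _)) hn) n1 a0 a1 e0 e1 g hw⟩

end Crest.Agent.N49.Sw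

end
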