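import Crest.Agent.N49.Sw.Defs

/-!
# Row 49 (helper5): the cube rings are shapes
-/

set_option autoImplicit false
set_option linter.unusedSectionVars false

open Matrix MvPolynomial Finset

noncomputable section

namespace Crest.Agent.N49.Sw

open Po Tw Sd

namespace Cu

section ht
variable {τ τ' : Type} [Fintype τ'] [DecidableEq τ'] {φ : τ → τ' → ℤ}

theorem lsub_mon (μ : τ →₀ ℕ) : lsub φ (monomial μ (1 : ℤ)) =
    μ.prod fun a k => (∑ b, φ a b • X b : MvPolynomial τ' ℤ) ^ k := by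
  rw [lsub, aeval_monomial, map_one, one_mul]

theorem smat_ne {ν : τ' →₀ ℕ} {μ : τ →₀ ℕ} (z : smat φ ν μ ≠ 0) {a : τ} (h : μ a ≠ 0) :
    φ a ≠ 0 := fun e => z (by
  rw [smat, lsub_mon, Finsupp.prod, prod_eq_zero (Finsupp.mem_support_iff.2 h) (by simp [e, h]),
    coeff_zero])

theorem mul_le {h : ℕ} (hφ : ∀ a b, |φ a b| ≤ h) (μ : τ →₀ ℕ) : ∀ (p : MvPolynomial τ' ℤ) (c : ℤ),
    (∀ ν, |coeff ν p| ≤ c) → ∀ ν, |coeff ν (p * lsub φ (monomial μ 1))| ≤
      c * (h * Fintype.card τ') ^ μ.degree := by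
  induction μ using Finsupp.induction_linear with
  | zero => intro p c k ν; simpa using k ν
  | add m m' a b =>
    intro p c k ν
    have e : (monomial (m + m') 1 : MvPolynomial τ ℤ) = monomial m 1 * monomial m' 1 := by
      rw [monomial_mul, mul_one]
    rw [e, map_mul, ← mul_assoc, map_add, pow_add, ← mul_assoc]
    exact b _ _ (a p c k) ν
  | single x n =>
    rw [← X_pow_eq_monomial, map_pow, Finsupp.degree_single, lsub, aeval_X]
    induction n with
    | zero => intro p c k ν; simpa using k ν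
    | succ n ih =>
      intro p c k ν
      have c0 : 0 ≤ c := (abs_nonneg _).trans (k 0)
      rw [pow_succ, ← mul_assoc, mul_sum, coeff_sum, pow_succ, ← mul_assoc]
      refine (abs_sum_le_sum_abs _ _).trans ((sum_le_card_nsmul _ _
        (h * (c * (h * Fintype.card τ') ^ n)) fun b _ => ?_).trans (le_of_eq ?_))
      · rw [mul_smul_comm, coeff_smul, smul_eq_mul, abs_mul, coeff_mul_X']
        refine mul_le_mul (hφ x b) ?_ (abs_nonneg _) (by positivity)
        split_ifs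
        · exact ih p c k _
        · rw [abs_zero]; positivity
      · rw [card_univ, nsmul_eq_mul]; ring

theorem smat_le {h : ℕ} (hφ : ∀ a b, |φ a b| ≤ h) (ν : τ' →₀ ℕ) (μ : τ →₀ ℕ) :
    |smat φ ν μ| ≤ (h * Fintype.card τ') ^ μ.degree := by
  have := mul_le hφ μ 1 1 (fun ν => by rw [coeff_one]; split_ifs <;> simp) ν
  rwa [one_mul, one_mul] at this

end ht

section words
variable {τ L : Type}

theorem wl_jn (α : τ →₀ ℕ) (β : L →₀ ℕ) : wl (α.sumElim β) = α := Finsupp.ext fun _ => rfl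
theorem wr_jn (α : τ →₀ ℕ) (β : L →₀ ℕ) : wr (α.sumElim β) = β := Finsupp.ext fun _ => rfl
theorem wr_zero {μ : τ ⊕ L →₀ ℕ} (h : μ = 0) : wr μ = 0 := by subst h; exact Finsupp.ext fun _ => rfl
theorem wl_zero {μ : τ ⊕ L →₀ ℕ} (h : μ = 0) : wl μ = 0 := by subst h; exact Finsupp.ext fun _ => rfl
theorem jn_w (μ : τ ⊕ L →₀ ℕ) : (wl μ).sumElim (wr μ) = μ := by ext (_ | _) <;> rfl
theorem jn_zero {μ : τ ⊕ L →₀ ℕ} (h : wr μ = 0) : (wl μ).sumElim 0 = μ := h ▸ jn_w μ
theorem deg_jn (α : τ →₀ ℕ) (β : L →₀ ℕ) : (α.sumElim β).degree = α.degree + β.degree := by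
  rw [Finsupp.sumElim_eq_add, map_add, Finsupp.degree_mapDomain, Finsupp.degree_mapDomain]
theorem deg_wr (μ : τ ⊕ L →₀ ℕ) : (wr μ).degree ≤ μ.degree := by
  conv_rhs => rw [← jn_w μ, deg_jn]
  omega
theorem col_jn {σ : Type} (col : τ → σ) (c : L → σ) (α : τ →₀ ℕ) :
    (α.sumElim (0 : L →₀ ℕ)).mapDomain (Sum.elim col c) = α.mapDomain col := by
  rw [Finsupp.sumElim_eq_add, Finsupp.mapDomain_zero, add_zero, ← Finsupp.mapDomain_comp]; rfl

end words

variable {σ τ : Type} [DecidableEq τ] [Fintype τ] {s l n : ℕ} {a b : ℝ} {col : τ → σ}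
  {W : Finset (τ →₀ ℕ)} {K : Kn τ} {cl : Fin l → σ} {B : Finset (Fin l →₀ ℕ)}
  {lam : Fin l → τ → ℤ} {v : ℕ → ℝ} {j : ℕ}

theorem mem_bj {β : Fin l × Bool →₀ ℕ} : β ∈ Bj l s j ↔ β.degree ≤ s ∧
    (∀ i, β (i, false) = 0 ∨ β (i, true) = 0) ∧ ∀ i : Fin l, j ≤ i.1 → β (i, true) = 0 := by
  rw [Bj, mem_filter, mem_full]

theorem mem_wx {μ : τ ⊕ Fin l × Bool →₀ ℕ} : μ ∈ WX s W B j ↔ μ.degree ≤ s ∧ wl μ ∈ W ∧
    wr μ ∈ Bj l s j ∧ (wr μ).mapDomain Prod.fst ∈ B := by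
  rw [WX, mem_filter, mem_full]

theorem lsub_fw (ω : Fin l → Bool) (α : τ →₀ ℕ) (β : Fin l × Bool →₀ ℕ) :
    lsub (fw lam ω) (monomial (α.sumElim β) (1 : ℤ)) = monomial α 1 *
      β.prod fun i k => (∑ b, fw lam ω (.inr i) b • X b : MvPolynomial τ ℤ) ^ k := by
  rw [lsub_mon, Finsupp.prod_sumElim, monomial_eq, C_1, one_mul]
  congr 1
  refine Finsupp.prod_congr fun t _ => ?_
  simp [fw, Pi.single_apply]

theorem smat_old (ω : Fin l → Bool) (ν α : τ →₀ ℕ) :
    smat (fw lam ω) ν (α.sumElim 0) = if α = ν then 1 else 0 := by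
  rw [smat, lsub_fw, Finsupp.prod_zero_index, mul_one, coeff_monomial]

variable (h : Cb s n a col W K cl B lam v)
include h

theorem dn_wx : Dn (WX s W B j) := fun μ k ν e => by
  obtain ⟨k1, k2, k3, k4⟩ := mem_wx.1 k
  obtain ⟨k5, k6, k7⟩ := mem_bj.1 k3
  have r : wr ν ≤ wr μ := fun i => e (.inr i)
  have z : ∀ i, wr μ i = 0 → wr ν i = 0 := fun i k => Nat.le_zero.1 (k ▸ r i)
  exact mem_wx.2 ⟨(degree_mono e).trans k1, h.dn _ k2 _ fun t => e (.inl t),
    mem_bj.2 ⟨(degree_mono r).trans k5, fun i => (k6 i).imp (z _) (z _), fun i k => z _ (k7 i k)⟩,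
    h.dB _ k4 _ (Finsupp.mapDomain_mono r)⟩

theorem old_mem {α : τ →₀ ℕ} (k : α ∈ W) : α.sumElim 0 ∈ WX s W B j :=
  mem_wx.2 ⟨by rw [deg_jn, map_zero]; exact h.dg _ k, by rwa [wl_jn],
    by rw [wr_jn]; exact mem_bj.2 (by simp), by rw [wr_jn, Finsupp.mapDomain_zero]; exact h.zB⟩

theorem single_mem (t : τ ⊕ Fin l × Bool) : Finsupp.single t 1 ∈ WX s W B l := by
  rcases t with t | ⟨i, β⟩
  · rw [← Finsupp.sumElim_single_zero]; exact old_mem h (h.one t)
  · rw [← Finsupp.sumElim_zero_single]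
    refine mem_wx.2 ⟨by simpa [deg_jn] using h.s1, by rw [wl_jn]; exact h.z, ?_,
      by rw [wr_jn, Finsupp.mapDomain_single]; exact h.oB i⟩
    rw [wr_jn]
    exact mem_bj.2 ⟨by simpa using h.s1, fun i' => by cases β <;> simp [Finsupp.single_apply],
      fun i' k => absurd i'.2 (not_lt.2 k)⟩

theorem smat_mem {ω : Fin l → Bool} (hω : ∀ i : Fin l, j ≤ i.1 → ω i = false) {ν : τ →₀ ℕ}
    (k : ν ∈ W) {μ : τ ⊕ Fin l × Bool →₀ ℕ} (z : smat (fw lam ω) ν μ ≠ 0) : μ ∈ WX s W B j := by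
  have d : μ.degree ≤ s := Sh.smat_degree z ▸ h.dg _ k
  have o : ∀ i, wr μ i ≠ 0 → i.2 = ω i.1 := fun i e => of_not_not fun c =>
    smat_ne z (a := .inr i) e (if_neg c)
  have e : smat (fw lam fun _ => false) ν
      ((wl μ).sumElim ((wr μ).mapDomain fun i => (i.1, false))) = smat (fw lam ω) ν μ := by
    conv_rhs => rw [← jn_w μ]
    rw [smat, smat, lsub_fw, lsub_fw, Finsupp.prod_mapDomain_index (fun _ => pow_zero _)
      fun _ _ _ => pow_add _ _ _]
    congr 2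
    refine Finsupp.prod_congr fun i m => ?_
    simp [fw, o i (Finsupp.mem_support_iff.1 m)]
  have w := h.wd ν k _ (e ▸ z)
  rw [wl_jn, wr_jn, ← Finsupp.mapDomain_comp] at w
  refine mem_wx.2 ⟨d, w.1, mem_bj.2 ⟨(deg_wr μ).trans d, fun i => ?_, fun i c => ?_⟩, w.2⟩
  · by_contra c
    push Not at c
    exact Bool.false_ne_true ((o _ c.1).trans (o _ c.2).symm)
  · exact of_not_not fun c' => Bool.false_ne_true ((o _ c').trans (hω i c)).symm

theorem xsplit (g : (τ ⊕ Fin l × Bool →₀ ℕ) → ℝ) : ∑ μ ∈ (WX s W B j).erase 0, g μ =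
    ∑ w ∈ W.erase 0, g (w.sumElim 0) + ∑ μ ∈ WX s W B j with wr μ ≠ 0, g μ := by
  rw [← sum_filter_add_sum_filter_not _ fun μ => wr μ = 0]
  congr 1
  · refine sum_nbij' wl (fun w => w.sumElim 0) (fun μ k => ?_) (fun w k => ?_)
      (fun μ k => jn_zero (mem_filter.1 k).2) (fun w _ => wl_jn _ _)
      fun μ k => by rw [jn_zero (mem_filter.1 k).2]
    · obtain ⟨k1, k2⟩ := mem_filter.1 k
      refine mem_erase.2 ⟨fun e => ne_of_mem_erase k1 ?_, (mem_wx.1 (mem_of_mem_erase k1)).2.1⟩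
      rw [← jn_zero k2, e, Finsupp.sumElim_zero_zero]
    · exact mem_filter.2 ⟨mem_erase.2 ⟨fun e => ne_of_mem_erase k ((wl_jn w 0).symm.trans
        (wl_zero e)), old_mem h (mem_of_mem_erase k)⟩, wr_jn _ _⟩
  · refine sum_congr (Finset.ext fun μ => ?_) fun _ _ => rfl
    simp only [mem_filter, mem_erase]
    exact ⟨fun k => ⟨k.1.2, k.2⟩, fun k => ⟨⟨fun e => k.2 (wr_zero e), k.1⟩, k.2⟩⟩

/-- the bilinear form of the kernel -/
theorem bil (x y : (τ ⊕ Fin l × Bool →₀ ℕ) → ℝ) :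
    ∑ μ ∈ (WX s W B j).erase 0, ∑ ν ∈ (WX s W B j).erase 0, x μ * KX s W K B lam v μ ν * y ν =
      ∑ w ∈ W.erase 0, ∑ w' ∈ W.erase 0, x (w.sumElim 0) * K w w' * y (w'.sumElim 0) -
      ∑ t ∈ WX s W B 0 with wr t ≠ 0, v t.degree *
        ((∑ w ∈ W.erase 0, smat (fw lam fun _ => false) w t * x (w.sumElim 0)) *
          ∑ w ∈ W.erase 0, smat (fw lam fun _ => false) w t * y (w.sumElim 0)) +
      ∑ t ∈ WX s W B j with wr t ≠ 0, v t.degree * (x t * y t) := by
  rw [xsplit h]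
  congr 1
  · simp only [sum_mul_sum]
    simp only [mul_sum]
    rw [sum_comm (s := filter _ _), ← sum_sub_distrib]
    refine sum_congr rfl fun w _ => ?_
    rw [xsplit h, sum_eq_zero (s := filter _ _) fun ν k => by
      have k := (mem_filter.1 k).2
      rw [KX, if_neg fun e => k e.2, if_neg (c := w.sumElim 0 = ν) fun e => k (e ▸ wr_jn _ _),
        mul_zero, zero_mul],
      add_zero, sum_comm (s := filter _ _), ← sum_sub_distrib]
    refine sum_congr rfl fun w' _ => ?_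
    rw [KX, if_pos ⟨wr_jn _ _, wr_jn _ _⟩, wl_jn, wl_jn, mul_sub, sub_mul, mul_sum, sum_mul,
      sum_filter]
    congr 1
    refine sum_congr rfl fun t _ => ?_
    by_cases c : wr t = 0 <;> simp [c]
    ring
  · refine sum_congr rfl fun μ k => ?_
    obtain ⟨k1, k2⟩ := mem_filter.1 k
    rw [sum_eq_single μ (fun ν _ c => by
      rw [KX, if_neg fun e => k2 e.1, if_neg c.symm, mul_zero, zero_mul])
      fun c => absurd (mem_erase.2 ⟨fun e => k2 (wr_zero e), k1⟩) c, KX,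
      if_neg fun e => k2 e.1, if_pos rfl]
    ring

theorem card_W : #(W.erase 0) ≤ n := (Fintype.card_coe _).ge.trans h.sz.card

theorem card_τ : Fintype.card τ ≤ n := by
  refine le_trans ?_ (card_W h)
  rw [← card_univ]
  exact card_le_card_of_injOn (fun t => Finsupp.single t 1)
    (fun t _ => mem_erase.2 ⟨by simp, h.one t⟩)
    fun t _ t' _ e => Finsupp.single_left_injective one_ne_zero e

theorem card_wx : #(WX s W B j) ≤ (n + 2) ^ (2 * l * s + 1) := by
  have a1 : #(WX s W B j) ≤ #(W ×ˢ full (Fin l × Bool) s) :=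
    card_le_card_of_injOn (fun μ => (wl μ, wr μ))
      (fun μ k => mem_product.2 ⟨(mem_wx.1 k).2.1, mem_full.2 (mem_bj.1 (mem_wx.1 k).2.2.1).1⟩)
      fun μ _ ν _ e => (jn_w μ).symm.trans ((congrArg (fun p => p.1.sumElim p.2) e).trans (jn_w ν))
  have a2 : #W ≤ n + 2 := by have := card_W h; have := card_erase_add_one h.z; omega
  have a3 : s + 1 ≤ (n + 2) ^ s :=
    Nat.lt_two_pow_self.trans_le (Nat.pow_le_pow_left (by omega) _)
  have a4 := (card_full (τ := Fin l × Bool) (s := s)).trans (Nat.pow_le_pow_left a3 _)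
  rw [← pow_mul, Fintype.card_prod, Fintype.card_fin, Fintype.card_bool] at a4
  rw [card_product] at a1
  rw [pow_succ', show 2 * l * s = s * (l * 2) by ring]
  exact a1.trans (Nat.mul_le_mul a2 a4)

theorem fw_le (ω : Fin l → Bool) (t : τ ⊕ Fin l × Bool) (u : τ) :
    |fw lam ω t u| ≤ ((n + 1 : ℕ) : ℤ) := by
  rcases t with t | i
  · simp only [fw, Sum.elim_inl, Pi.single_apply]; split_ifs <;> simp; positivity
  · simp only [fw, Sum.elim_inr]
    split_ifs
    · exact (h.ht _ _).trans (by simp)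
    · simp; positivity

theorem fw_col (ω : Fin l → Bool) (t : τ ⊕ Fin l × Bool) (u : τ) (z : fw lam ω t u ≠ 0) :
    Sum.elim col (fun i => cl i.1) t = col u := by
  rcases t with t | i
  · exact congrArg col (of_not_not fun c => z (Pi.single_eq_of_ne' c _))
  · simp only [fw, Sum.elim_inr] at z
    split_ifs at z
    exacts [(h.col _ _ z).symm, absurd rfl z]

omit h in
theorem qf_mr {σ τ : Type} [DecidableEq τ] (col : τ → σ) (W : Finset (τ →₀ ℕ)) (K : Kn τ)
    (x : (τ →₀ ℕ) → ℝ) : qf (MR col W K).K (fun w : Sh.MW W => x w.1) =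
      ∑ μ ∈ W.erase 0, ∑ ν ∈ W.erase 0, x μ * K μ ν * x ν := by
  rw [← sum_coe_sort]
  refine sum_congr rfl fun w _ => ?_
  rw [← sum_coe_sort]
  simp only [mul_assoc, ← mul_sum]
  rfl

theorem lo (hb : 0 < b) (hv : ∀ j, b ≤ v j ∧ (n + 2) ^ (2 * l * s + 4 * s + 3) * v j ≤ a)
    (z : Sh.MW (WX s W B j) → ℝ) :
    b * ∑ w, z w ^ 2 ≤ qf (CX s col W K cl B lam v j).K z := by
  obtain ⟨x, rfl⟩ : ∃ x : (τ ⊕ Fin l × Bool →₀ ℕ) → ℝ, z = fun w => x w.1 :=
    ⟨fun μ => if k : μ ∈ (WX s W B j).erase 0 then z ⟨μ, k⟩ else 0, funext fun w => by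
      simp only [dif_pos w.2]⟩
  rw [qf_mr, bil h, sum_coe_sort _ fun μ => x μ ^ 2, xsplit h, mul_add]
  refine add_le_add ?_ (by
    rw [mul_sum]; exact sum_le_sum fun t _ => by rw [← sq]; gcongr; exact (hv _).1)
  have k1 := h.sz.lo fun w : Sh.MW W => x (w.1.sumElim 0)
  rw [qf_mr col W K fun w => x (w.sumElim 0)] at k1
  replace k1 : a * ∑ w ∈ W.erase 0, x (w.sumElim 0) ^ 2 ≤ _ :=
    (congrArg (a * ·) (sum_coe_sort _ fun w : τ →₀ ℕ => x (w.sumElim 0) ^ 2)).ge.trans k1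
  set S := ∑ w ∈ W.erase 0, x (w.sumElim 0) ^ 2
  set P : ℝ := n + 2 with hP
  have S0 : 0 ≤ S := sum_nonneg fun _ _ => sq_nonneg _
  have n0 : (0 : ℝ) ≤ n := Nat.cast_nonneg n
  have P2 : 2 ≤ P := by linarith
  have p1 : (1 : ℝ) ≤ P ^ (2 * l * s + 1) := one_le_pow₀ (by linarith)
  have p2 : (1 : ℝ) ≤ P ^ (4 * s + 1) := one_le_pow₀ (by linarith)
  have k2 : ∀ j, v j * P ^ (4 * s + 1) * P ^ (2 * l * s + 1) ≤ a / 2 := fun j => by
    have := (hv j).2
    have v0 := hb.le.trans (hv j).1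
    rw [show 2 * l * s + 4 * s + 3 = 4 * s + 1 + (2 * l * s + 1) + 1 by ring, pow_succ,
      pow_add] at this
    have : 0 ≤ v j * P ^ (4 * s + 1) * P ^ (2 * l * s + 1) := by positivity
    nlinarith
  have k3 : b ≤ a / 2 := le_trans ((hv 0).1.trans ((le_mul_of_one_le_right
    (hb.le.trans (hv 0).1) (one_le_mul_of_one_le_of_one_le p2 p1)).trans_eq (mul_assoc _ _ _).symm))
    (k2 0)
  have k4 : ∀ t ∈ (WX s W B 0).filter (wr · ≠ 0), v t.degree *
      ((∑ w ∈ W.erase 0, smat (fw lam fun _ => false) w t * x (w.sumElim 0)) *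
        ∑ w ∈ W.erase 0, smat (fw lam fun _ => false) w t * x (w.sumElim 0)) ≤
      a / 2 * S / P ^ (2 * l * s + 1) := fun t k => by
    have d := (mem_wx.1 (mem_filter.1 k).1).1
    have v0 := hb.le.trans (hv t.degree).1
    have m : ∀ w ∈ W.erase 0, (smat (fw lam fun _ => false) w t : ℝ) ^ 2 ≤ P ^ (4 * s) := fun w _ => by
      have c : (Fintype.card τ : ℝ) ≤ n := by exact_mod_cast card_τ h
      have : (|smat (fw lam fun _ => false) w t| : ℝ) ≤ ((n + 1) * Fintype.card τ) ^ t.degree := by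
        exact_mod_cast smat_le (fw_le h _) w t
      have e : (|smat (fw lam fun _ => false) w t| : ℝ) ≤ (P * P) ^ s := this.trans
        ((pow_le_pow_left₀ (by positivity) (by gcongr <;> linarith) _).trans
          (pow_le_pow_right₀ (by nlinarith) d))
      rw [← sq_abs, show P ^ (4 * s) = ((P * P) ^ s) ^ 2 by
        rw [← sq, ← pow_mul, ← pow_mul]; congr 1; ring]
      gcongr
    have q := (sum_mul_sq_le_sq_mul_sq (W.erase 0) _ fun w => x (w.sumElim 0)).trans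
      (mul_le_mul_of_nonneg_right (sum_le_card_nsmul _ _ _ m) S0)
    have c : (#(W.erase 0) : ℝ) ≤ P := (Nat.cast_le.2 (card_W h)).trans (by linarith)
    rw [nsmul_eq_mul] at q
    rw [← sq, le_div_iff₀ (by positivity)]
    calc _ ≤ v t.degree * (P * P ^ (4 * s) * S) * P ^ (2 * l * s + 1) := by
          gcongr; exact q.trans (by gcongr)
      _ = v t.degree * P ^ (4 * s + 1) * P ^ (2 * l * s + 1) * S := by ring
      _ ≤ _ := by gcongr; exact k2 _
  have k5 := sum_le_card_nsmul _ _ _ k4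
  have c : (#((WX s W B 0).filter (wr · ≠ 0)) : ℝ) ≤ P ^ (2 * l * s + 1) := by
    rw [hP]; exact_mod_cast (card_filter_le _ _).trans (card_wx h)
  have a0 : 0 ≤ a / 2 * S := mul_nonneg (hb.le.trans k3) S0
  rw [nsmul_eq_mul] at k5
  replace k5 := k5.trans (mul_le_mul_of_nonneg_right c (by positivity))
  rw [mul_div_cancel₀ _ (by positivity)] at k5
  nlinarith

theorem old_ne {w : Sh.MW (WX s W B j)} (e : wr w.1 = 0) : wl w.1 ∈ W.erase 0 :=
  mem_erase.2 ⟨fun c => w.ne (by rw [← jn_zero e, c, Finsupp.sumElim_zero_zero]),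
    (mem_wx.1 w.mem).2.1⟩

theorem sz (hb : 0 < b) (hv : ∀ j, b ≤ v j ∧ (n + 2) ^ (2 * l * s + 4 * s + 3) * v j ≤ a) :
    (CX s col W K cl B lam v j).Sz ((n + 2) ^ (2 * l * s + 4 * s + 3)) b := by
  have o := Sh.mono_sz (col := Sum.elim col fun i : Fin l × Bool => cl i.1) (ε := 0) (dn_wx h (j := j))
    (kb_dk (v := fun _ => 1) (a := 1) (b := 1) fun _ _ => ⟨le_rfl, le_rfl⟩) one_pos (Sh.dk_blk _)
    ((card_wx h).trans (Nat.pow_le_pow_right (by omega) (by omega : _ ≤ 2 * l * s + 4 * s + 3)))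
  refine ⟨⟨o.ne, o.one, o.gr, o.mul, o.eps, pd_of_lo hb (Matrix.ext fun w w' => ?_) (lo h hb hv),
    fun w w' k => ?_⟩, o.card, o.ht, lo h hb hv, o.gen⟩
  · change KX s W K B lam v w'.1 w.1 = KX s W K B lam v w.1 w'.1
    by_cases c : wr w.1 = 0 ∧ wr w'.1 = 0
    · rw [KX, KX, if_pos c, if_pos c.symm]
      congr 1
      · exact congrFun (congrFun h.sz.pd.1 ⟨_, old_ne h c.1⟩) ⟨_, old_ne h c.2⟩
      · exact sum_congr rfl fun _ _ => by rw [mul_comm (smat _ _ _ : ℝ)]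
    · rw [KX, KX, if_neg c, if_neg fun e => c e.symm]
      by_cases e : w.1 = w'.1
      · rw [e]
      · rw [if_neg e, if_neg (Ne.symm e)]
  · change KX s W K B lam v w.1 w'.1 ≠ 0 at k
    change w.1.mapDomain _ = w'.1.mapDomain _
    by_cases c : wr w.1 = 0 ∧ wr w'.1 = 0
    · rw [KX, if_pos c] at k
      rw [← jn_zero c.1, ← jn_zero c.2]
      refine (col_jn _ _ _).trans (Eq.trans ?_ (col_jn _ _ _).symm)
      by_cases e : K (wl w.1) (wl w'.1) = 0
      · rw [e, zero_sub, neg_ne_zero] at k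
        obtain ⟨t, -, k⟩ := exists_ne_zero_of_sum_ne_zero k
        split_ifs at k
        · exact absurd rfl k
        · have := right_ne_zero_of_mul k
          exact (Sh.smat_col (fw_col h _) (Int.cast_ne_zero.1 (left_ne_zero_of_mul this))).trans
            (Sh.smat_col (fw_col h _) (Int.cast_ne_zero.1 (right_ne_zero_of_mul this))).symm
      · exact h.sz.blk ⟨_, old_ne h c.1⟩ ⟨_, old_ne h c.2⟩ e
    · rw [KX, if_neg c] at k
      rw [of_not_not fun e => k (if_neg e)]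

theorem push {ν ν' : τ →₀ ℕ} (k : ν ∈ W.erase 0) (k' : ν' ∈ W.erase 0) : K ν ν' =
    kpush (fw lam fun _ => false) ((WX s W B 0).erase 0) (KX s W K B lam v) ν ν' := by
  rw [kpush, bil h]
  simp [smat_old, sum_ite_eq', k, k']

end Cu

open Cu in
/-- **the cube rings** -/
theorem cub (ms : MSEC) : CUB := fun s l => ⟨2 * l * s + 4 * s + 3, by
  intro σ τ _ _ n a b col W K cl B lam v h hb hv
  refine ⟨fun j => ⟨sz h hb hv, dn_wx h⟩, single_mem h,
    fun ω ν k μ z => smat_mem h (fun i c => absurd i.2 (not_lt.2 c)) k z, ?_⟩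
  obtain ⟨e, S⟩ := ms σ _ τ _ _ _ col W K (fw lam fun _ => false) Sum.inl (n + 1) s (dn_wx h) h.dn
    (sz h hb hv (j := 0)).toOk (fun μ k => (mem_wx.1 k).1) (by omega) (fw_le h _) (fw_col h _)
    (fun ν k μ z => smat_mem h (fun _ _ => rfl) k z) (fun _ _ _ _ => rfl) (fun _ u _ => h.one u)
    (fun ν c _ k => absurd (mem_wx.1 k).2.1 (by
      rwa [show wl (ν.mapDomain Sum.inl) = ν from
        Finsupp.ext fun t => Finsupp.mapDomain_apply Sum.inl_injective ν t]))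
    fun ν k ν' k' z z' => push h (mem_erase.2 ⟨z, k⟩) (mem_erase.2 ⟨z', k'⟩)
  refine ⟨e, { S with ht := fun w x => (S.ht w x).trans (Int.ofNat_le.2 ?_) }⟩
  have := card_τ h
  calc _ ≤ ((n + 2) * (n + 2)) ^ s := Nat.pow_le_pow_left (Nat.mul_le_mul (by omega) (by omega)) _
    _ = (n + 2) ^ (2 * s) := by rw [pow_mul, sq]
    _ ≤ _ := Nat.pow_le_pow_right (by omega) (by omega)⟩

end Crest.Agent.N49.Sw

end
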