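import Crest.Agent.N49.Sw.Df2
import Crest.Agent.N49.Rf.Ext2

/-!
# Row 49 (helper16): the brackets become functions again
-/

set_option autoImplicit false

open Matrix MvPolynomial Finset

noncomputable section

namespace Crest.Agent.N49.Sw

open Po Tw Sd

namespace Ot

theorem det_ge {d : Type} [Fintype d] [DecidableEq d] {M : Matrix d d ℝ} (hM : M.IsHermitian)
    (h : ∀ x, ∑ i, x i ^ 2 ≤ qf M x) : 1 ≤ M.det := by
  rw [hM.det_eq_prod_eigenvalues]
  refine one_le_prod fun i _ => ?_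
  have a := h (hM.eigenvectorBasis i)
  have c : ∑ j, (hM.eigenvectorBasis i) j ^ 2 = 1 := by
    have := hM.eigenvectorBasis.orthonormal.1 i
    rw [EuclideanSpace.norm_eq, Real.sqrt_eq_one] at this
    simpa using this
  rw [c] at a
  exact a.trans_eq (by simpa [qf] using (hM.eigenvalues_eq i).symm)

theorem sum_ext {N α : Type} [Fintype N] [Fintype α] {j : N → α} (hj : j.Injective) (z : N → ℝ)
    (f : α → ℝ) : ∑ a, j.extend z 0 a * f a = ∑ x, z x * f (j x) :=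
  (Fintype.sum_of_injective j hj _ _ (fun a k => by
    rw [Function.extend_apply' _ _ _ k, Pi.zero_apply, zero_mul]) fun x => by
      rw [hj.extend_apply]).symm

theorem lo_sub {N α β : Type} [Fintype N] [Fintype α] [Fintype β] [DecidableEq α] {j : N → α × β}
    (hj : j.Injective) {K : Matrix β β ℝ} {a w : ℝ} (hw : 0 ≤ w) (h1 : 1 ≤ w * a)
    (h : ∀ x, a * ∑ i, x i ^ 2 ≤ qf K x) {M : Matrix N N ℝ}
    (hM : ∀ x x', M x x' = if (j x).1 = (j x').1 then w * K (j x).2 (j x').2 else 0) (z : N → ℝ) :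
    ∑ x, z x ^ 2 ≤ qf M z := by
  have e1 : ∑ x, z x ^ 2 = ∑ i, ∑ l, j.extend z 0 (i, l) ^ 2 := by
    rw [← Fintype.sum_prod_type (f := fun x => j.extend z 0 x ^ 2)]
    simp only [sq]
    rw [sum_ext hj z]
    simp only [hj.extend_apply]
  have e2 : qf M z = ∑ i, w * qf K fun l => j.extend z 0 (i, l) := by
    have k : ∀ x : α × β, ∑ x', (if x.1 = (j x').1 then w * K x.2 (j x').2 else 0) * z x' =
        w * ∑ l, K x.2 l * j.extend z 0 (x.1, l) := fun x => by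
      simp only [mul_comm _ (z _)]
      rw [← sum_ext hj z fun x' => if x.1 = x'.1 then w * K x.2 x'.2 else 0, Fintype.sum_prod_type,
        sum_comm, mul_sum]
      refine sum_congr rfl fun l _ => ?_
      simp only [mul_ite, mul_zero, sum_ite_eq, mem_univ, if_true]
      ring
    simp only [qf, dotProduct, mulVec, hM, k]
    rw [← sum_ext hj z fun x => w * ∑ l, K x.2 l * j.extend z 0 (x.1, l), Fintype.sum_prod_type]
    refine sum_congr rfl fun i _ => ?_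
    rw [mul_sum]
    exact sum_congr rfl fun l _ => by ring
  rw [e1, e2]
  refine sum_le_sum fun i _ => le_trans ?_ (mul_le_mul_of_nonneg_left (h _) hw)
  rw [← mul_assoc]
  exact le_mul_of_one_le_left (sum_nonneg fun _ _ => sq_nonneg _) h1

variable {σ σ' : Type} {V : TS σ} {V' : TS σ'}

theorem P_img (h : V.Tri) (h' : V'.Tri) (ρ : (V.C → ℤ) → V'.C → ℤ)
    (w : ∀ y, V.wt y ≤ V'.wt (ρ y)) (z : V'.Z ≤ 2 * V.Z) {A : Set (V.C → ℤ)}
    {A' : Set (V'.C → ℤ)} (i : A.InjOn ρ) (m : ∀ y ∈ A, ρ y ∈ A') : V.P A ≤ 2 * V'.P A' := by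
  have e : V.S (A.indicator 1) = ∑' y : A, V.wt y := by
    rw [tsum_subtype A V.wt]
    exact tsum_congr fun y => by by_cases k : y ∈ A <;> simp [k]
  have s' : Summable fun y => V'.wt y * A'.indicator 1 y :=
    h'.summable.of_nonneg_of_le (fun y => mul_nonneg (V'.wt_pos y).le (ind_nonneg _ _)) fun y =>
      mul_le_of_le_one_right (V'.wt_pos y).le (ind_le _ _)
  have k : V.S (A.indicator 1) ≤ V'.S (A'.indicator 1) := by
    rw [e]
    exact Summable.tsum_le_tsum_of_inj (fun y : A => ρ y) (fun a b c => Subtype.ext (i a.2 b.2 c))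
      (fun y _ => mul_nonneg (V'.wt_pos y).le (ind_nonneg _ _))
      (fun y => by simpa [m y y.2] using w y) (h.summable.subtype A) s'
  have a := h.Z_pos
  have b := h'.Z_pos
  have c : 0 ≤ V.S (A.indicator 1) := TS.S_nonneg (ind_nonneg _)
  rw [TS.P, TS.P, TS.E, TS.E, ← mul_div_assoc, div_le_div_iff₀ a b]
  nlinarith

theorem pig (h : V.Tri) {ι : Type} (I : Finset ι) (n : I.Nonempty) (c : (V.C → ℤ) → ι)
    (A : Set (V.C → ℤ)) (m : ∀ y ∈ A, c y ∈ I) :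
    ∃ i ∈ I, V.P A ≤ #I * V.P {y ∈ A | c y = i} := by
  have p : (0 : ℝ) < #I := by exact_mod_cast n.card_pos
  have k := le_trans (h.P_mono (s := A) fun y a => by exact ⟨c y, m y a, a, rfl⟩)
    (h.P_biUnion I fun i => {y ∈ A | c y = i})
  obtain ⟨i, a, b⟩ := exists_le_of_sum_le n (f := fun _ => V.P A / #I)
    (g := fun i => V.P {y ∈ A | c y = i}) (by
      rwa [sum_const, nsmul_eq_mul, mul_div_cancel₀ _ p.ne'])
  exact ⟨i, a, by rwa [div_le_iff₀' p] at b⟩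

theorem P_tw0 {τ : Type} [DecidableEq σ] (T : TS σ) (S : Sh σ τ) (A : Set (T.Cw S → ℤ)) :
    (T.tw S (T.tw0 S)).P A = (T.sh S).P A :=
  congrArg (fun Φ => ((T.sh S).setΦ Φ).P A)
    (funext fun p => congrArg (S.cf _ p.1.2) (TS.eval₂_tw0 _ _))

theorem num (g m : ℕ) {N k u : ℝ} (hN : N ≤ 2 ^ g) (k1 : k ≤ 4 ^ g) (k0 : 0 ≤ k)
    (h : u ^ 2 ≤ (N + 1) * ((m + 1 : ℕ) + 1) * k) : |u| ≤ 2 ^ (2 * g + m + 1) := by
  refine abs_le_of_sq_le_sq' (h.trans ?_) (by positivity) |> abs_le.2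
  have a : (1 : ℝ) ≤ 2 ^ g := one_le_pow₀ one_le_two
  have a' : (1 : ℝ) ≤ 2 ^ m := one_le_pow₀ one_le_two
  have b : ((m + 1 : ℕ) : ℝ) + 1 ≤ 2 * 2 ^ m := by
    have : m + 1 + 1 ≤ 2 * 2 ^ m := by have := Nat.lt_two_pow_self (n := m); omega
    exact_mod_cast this
  have e : (4 : ℝ) ^ g = 2 ^ g * 2 ^ g := by rw [← mul_pow]; norm_num
  calc _ ≤ (2 * 2 ^ g) * (2 * 2 ^ m) * k := by gcongr; linarith
    _ ≤ (2 * 2 ^ g) * (2 * 2 ^ m) * (2 ^ g * 2 ^ g) := by rw [← e]; gcongr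
    _ ≤ (2 * 2 ^ g) * (2 * 2 ^ m) * (2 ^ g * 2 ^ g) * (2 ^ g * 2 ^ m) :=
      le_mul_of_one_le_right (by positivity) (one_le_mul_of_one_le_of_one_le a a')
    _ = _ := by ring

theorem rd_mem {t : ℝ} {L : ℕ} (h : |t| ≤ L) : round t ∈ Icc (-(L : ℤ)) L := by
  have a := abs_le.1 (abs_sub_round t)
  have b := abs_le.1 h
  have c : ((round t : ℤ) : ℝ) < (L + 1 : ℤ) := by push_cast; linarith
  have d : ((-(L : ℤ) - 1 : ℤ) : ℝ) < round t := by push_cast; linarith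
  have := Int.cast_lt.1 c
  have := Int.cast_lt.1 d
  rw [mem_Icc]
  omega

theorem sft_tri {C : Type} {B : Bk C σ} (h : B.Tri) (o : B.N → ℝ) : (sft B o).Tri := by
  classical
  intro (a : B.N) (a' : B.N) (k : Sum.inr a' ∈ (B.Θ a - MvPolynomial.C (o a)).vars)
  exact h a a' (by simpa only [vars_C, union_empty] using vars_sub_subset _ k)

theorem core {C Λ : Type} {B : Bk C Λ} (hB : B.Tri) (t : V.Tri) (t0 : V'.Tri)
    (ρ : (V.C → ℤ) → V'.C → ℤ) (ν : (V.C → ℤ) → B.N → ℤ) (ξ : (V'.C → ℤ) → C → ℝ)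
    (inj : Function.Injective fun y => (ρ y, ν y)) (w : ∀ y, V.wt y ≤ V'.wt (ρ y))
    (z : V'.Z ≤ 2 * V.Z) (A : Set (V.C → ℤ)) (R r : ℕ) (A' : Set (V.C → ℤ)) (hb : ∀ y ∈ A ∩ A', ∀ x,
      |ν y x - eval (Sum.elim (ξ (ρ y)) fun a => (ν y a : ℝ)) (B.Θ x)| ≤ 2 ^ R) :
    ∃ o : B.N → ℝ, (∀ x, |o x| ≤ 2 ^ R) ∧ V.P (A ∩ A') ≤ 2 ^ ((R + r + 3) * Fintype.card B.N + 1) *
      V'.P {y0 | ∃ y ∈ A, ρ y = y0 ∧ ν y = (sft B o).om (ξ y0) ∧
        ∀ x, |(sft B o).ev (ξ y0) ((sft B o).Θ x) - ν y x| ≤ 1 / 2 ^ (r + 2)} := by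
  let u : (V.C → ℤ) → B.N → ℝ := fun y x =>
    ν y x - eval (Sum.elim (ξ (ρ y)) fun a => (ν y a : ℝ)) (B.Θ x)
  let L : ℕ := 2 ^ (R + r + 1)
  have p2 : (0 : ℝ) < 2 ^ (r + 1) := by positivity
  have hL : (L : ℝ) = 2 ^ R * 2 ^ (r + 1) := by simp only [L]; push_cast; ring
  obtain ⟨i, hi, pg⟩ := pig t (Fintype.piFinset fun _ : B.N => Icc (-(L : ℤ)) L)
    (Fintype.piFinset_nonempty.2 fun _ => ⟨0, by simp⟩) (fun y x => round (u y x * 2 ^ (r + 1)))
    (A ∩ A') fun y hy => Fintype.mem_piFinset.2 fun x => rd_mem (by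
      rw [abs_mul, abs_of_pos p2, hL]
      exact mul_le_mul_of_nonneg_right (hb y hy x) p2.le)
  refine ⟨fun x => -(i x / 2 ^ (r + 1)), fun x => ?_, ?_⟩
  · have k : |(i x : ℝ)| ≤ L := by exact_mod_cast abs_le.2 (mem_Icc.1 (Fintype.mem_piFinset.1 hi x))
    rwa [abs_neg, abs_div, abs_of_pos p2, div_le_iff₀ p2, ← hL]
  generalize ho : (fun x => -(i x / 2 ^ (r + 1)) : B.N → ℝ) = o
  have key : ∀ y, (fun x => round (u y x * 2 ^ (r + 1))) = i → ∀ x,
      |eval (Sum.elim (ξ (ρ y)) fun a => (ν y a : ℝ)) ((sft B o).Θ x) - ν y x| ≤ 1 / 2 ^ (r + 2) :=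
    fun y e x => by
    have k := abs_sub_round (u y x * 2 ^ (r + 1))
    rw [congrFun e x] at k
    have : eval (Sum.elim (ξ (ρ y)) fun a => (ν y a : ℝ)) (B.Θ x - MvPolynomial.C (o x)) - ν y x =
        -((u y x * 2 ^ (r + 1) - i x) / 2 ^ (r + 1)) := by
      rw [sub_div, mul_div_cancel_right₀ _ p2.ne', map_sub, eval_C, ← ho]
      simp only [u]
      ring
    refine (congrArg abs this).trans_le ?_
    rw [abs_neg, abs_div, abs_of_pos p2, div_le_iff₀ p2]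
    exact k.trans_eq (by field_simp; ring)
  have om : ∀ y, (fun x => round (u y x * 2 ^ (r + 1))) = i → ν y = (sft B o).om (ξ (ρ y)) :=
    fun y e => (sft_tri hB o).om_of_lt _ fun x => (key y e x).trans_lt
      (one_div_lt_one_div_of_lt two_pos (by
        have : (1 : ℝ) ≤ 2 ^ r := one_le_pow₀ one_le_two
        rw [pow_add]; linarith))
  rw [pow_succ (2 : ℝ) (_ * _), mul_assoc]
  refine pg.trans (mul_le_mul ?_ (P_img t t0 ρ w z
    (fun y hy y' hy' e => inj (Prod.ext e (by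
      change ν y = ν y'
      rw [om y hy.2, om y' hy'.2, e])))
    fun y hy => ⟨y, hy.1.1, rfl, om y hy.2, fun x => by
      have := key y hy.2 x
      rw [om y hy.2] at this ⊢
      exact this⟩) (TS.P_nonneg _ _) (by positivity))
  rw [Fintype.card_piFinset, prod_const, card_univ, pow_mul]
  have : #(Icc (-(L : ℤ)) L) ≤ 2 ^ (R + r + 3) := by
    have : 1 ≤ L := Nat.one_le_two_pow
    rw [Int.card_Icc, show 2 ^ (R + r + 3) = 4 * L by simp only [L]; ring]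
    omega
  exact_mod_cast Nat.pow_le_pow_left this _

end Ot

open Ot in
/-- **OUT** -/
theorem out (hW : COLW) (hA : COLA) (hT : TAIL) : OUT := by
  intro σ τ _ _ _ s M n m g r T st B w a η col W K A tb bo hs dn sz k1 a0 wa wg e0 e1 m0 m1 cd hP
  have w0 : 0 < w := by nlinarith
  obtain ⟨⟨-, sg⟩, -, c⟩ := hA σ s M T st B w tb bo hs w0
  have ad := sg.adm sz.toOk
  have o0 : (MR (fun _ : τ => ()) W K).Ok := ⟨sz.ne, sz.one, fun x μ k => Tw.unit_ext <|
    (Sh.weight_dg μ).symm.trans ((sz.toOk.gr_dg k).trans (Sh.cd_degree x).symm), sz.mul, sz.eps,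
    sz.pd, fun x x' k => Tw.unit_ext <| (Sh.cd_degree x).trans <| Eq.trans
      ((Sh.cd_degree (S := MR col W K) x).symm.trans ((congrArg _ (sz.blk x x' k)).trans
        (Sh.cd_degree (S := MR col W K) x'))) (Sh.cd_degree x').symm⟩
  have z0 : (MR (fun _ : τ => ()) W K).Sz n a := ⟨o0, sz.card, sz.ht, sz.lo, sz.gen⟩
  have ad0 := tb.stg.adm o0
  obtain ⟨-, b', pd, bj, -, hu, hw, hz⟩ := hW σ τ s M T st B w col W K _ tb bo hs w0 dn sz.toOk ad0
  rw [(c τ col W K).2] at hu hw hz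
  have t := TS.tw_tri sg.cl ad sz.toOk
  have t0 := TS.tw_tri tb.stg.cl ad0 o0
  have tl := hT σ τ _ _ _ _ n (m + 1) a η _ sg ad sz a0.le e0 e1 m1
  have q0 := abs_le.1 (m0 τ _ _ ad0 z0)
  have q1 := abs_le.1 (m1 τ _ _ ad sz)
  rw [TS.lw_Zc_tw tb.stg ad0 o0, TS.lw_Z] at q0
  rw [TS.lw_Zc_tw sg ad sz.toOk, TS.lw_Z] at q1
  have dt : 1 ≤ √(KN B w col W K).det :=
    Real.one_le_sqrt.2 (det_ge pd.isHermitian (lo_sub (N := (sp B col W).N)
      (K := (MR col W K).K) Subtype.val_injective w0.le wa sz.lo fun _ _ => rfl))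
  rw [← P_tw0] at hP
  generalize (cE s T B w).tw0 (MR col W K) = Ψ at ad hu hw hz t tl q1 hP
  have zz : (T.tw _ (T.tw0 (MR (fun _ => ()) W K))).Z ≤ 2 * ((cE s T B w).tw _ Ψ).Z := by
    have := t0.Zc_pos
    have := le_mul_of_one_le_right this.le dt
    rw [← hz] at this
    nlinarith [q0.2, q1.1]
  have rz : ∀ y : (cE s T B w).Cw (MR col W K) → ℤ,
      res s T B w col W K (zc y) = zc (res s T B w col W K y) := fun y => funext fun p => by
    simp only [res, ex, zc, Int.cast_sum]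
  have pi := t.P_inter A {y | ∃ p, (Fintype.card ((cE s T B w).Cw (MR col W K)) + 1) *
    ((m + 1 : ℕ) + 1) * ((cE s T B w).tw _ Ψ).K p p < ((cE s T B w).tw _ Ψ).u (zc y) p ^ 2}ᶜ
  rw [compl_compl] at pi
  obtain ⟨o, ho, im⟩ := core b'.ok.tri t t0 (res s T B w col W K) (nw s T B w col W K)
    (fun y => ex T _ id (zc y)) bj.1
    (fun y => (hw y).trans_le (mul_le_of_le_one_right (TS.wt_pos _ _).le (gs_le_one pd.inv _))) zz
    A (2 * g + m + 1) r {y | ∃ p, (Fintype.card ((cE s T B w).Cw (MR col W K)) + 1) *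
      ((m + 1 : ℕ) + 1) * ((cE s T B w).tw _ Ψ).K p p < ((cE s T B w).tw _ Ψ).u (zc y) p ^ 2}ᶜ
    fun y hy x => by
      have k : ((cE s T B w).tw _ Ψ).K ⟨(.inr x.1.1, x.1.2), x.2⟩ ⟨(.inr x.1.1, x.1.2), x.2⟩ =
          w * K x.1.2.1 x.1.2.1 := by
        change (w • (1 : Matrix B.N B.N ℝ)) x.1.1 x.1.1 * _ = _
        rw [Matrix.smul_apply, one_apply_eq, smul_eq_mul, mul_one]
        rfl
      have := num g m (by exact_mod_cast cd)
        (k.trans_le ((mul_le_of_le_one_right w0.le (k1 _ x.1.2.mem)).trans wg))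
        (t.pd.diag_pos).le (not_lt.1 fun z => hy.2 ⟨_, z⟩)
      have l := hu (zc y) x
      rw [rz y] at l
      exact (congrArg abs l).symm.trans_le this
  refine ⟨o, fun x => (ho x).trans (pow_le_pow_right₀ one_le_two (by omega)), ?_⟩
  have l : (1 : ℝ) / 2 ^ (m + 1) ≤ _ := le_trans (by
    have : (1 : ℝ) / 2 ^ m = 2 * (1 / 2 ^ (m + 1)) := by field_simp; ring
    linarith) (pi.trans im)
  rw [← div_le_iff₀' (by positivity), div_div, ← pow_add] at l
  refine le_trans (one_div_le_one_div_of_le (by positivity) (pow_le_pow_right₀ one_le_two ?_))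
    (l.trans_eq (P_tw0 T _ _))
  have := Nat.mul_le_mul_right (Fintype.card (sp B col W).N)
    (show 2 * g + m + 1 + r + 3 ≤ 2 * g + m + r + 8 by omega)
  omega

end Crest.Agent.N49.Sw

end
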