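import Crest.Agent.N49.Sw.Alt
import Crest.Agent.N49.Sw.Altf
import Crest.Agent.N49.Sw.Box
import Crest.Agent.N49.Sw.Boxf
import Crest.Agent.N49.Sw.Cola
import Crest.Agent.N49.Sw.Coln
import Crest.Agent.N49.Sw.Cols
import Crest.Agent.N49.Sw.Colw
import Crest.Agent.N49.Sw.Cub
import Crest.Agent.N49.Sw.Diag
import Crest.Agent.N49.Sw.Fib
import Crest.Agent.N49.Sw.Fibs
import Crest.Agent.N49.Sw.Inb
import Crest.Agent.N49.Sw.Msec
import Crest.Agent.N49.Sw.Out
import Crest.Agent.N49.Sw.Perm
import Crest.Agent.N49.Sw.Prd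
import Crest.Agent.N49.Sw.Sbc
import Crest.Agent.N49.Sw.Star
import Crest.Agent.N49.Sw.Tail
import Crest.Agent.N49.Sw.Trf

/-!
# Row 49 (helper64): the leaves of the symmetrisation without hypotheses
-/

set_option autoImplicit false

namespace Crest.Agent.N49.Sw

theorem cubA : CUB := cub msec
theorem boxA : BOX := box cubA sbc
theorem fibsA : FIBS := fibs fib
theorem colsA : COLS := cols cola colw
theorem inbA : INB := inb colw
theorem outA : OUT := out colw cola tail
theorem trfA : TRF := trf cola colw perm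

end Crest.Agent.N49.Sw
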