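import Crest.Agent.N49.Sw.Df3
import Crest.Agent.N49.Sw.Trf
import Crest.Agent.N49.Sw.Colw
import Crest.Agent.N49.Sw.Inb

/-!
# Row 49 (helper24): forms in the old families do not see the wide pending families (`PMB`)
-/

set_option autoImplicit false

open Matrix MvPolynomial Finset

noncomputable section

namespace Crest.Agent.N49.Sw

open Po Tw Sd Tf

namespace Pm

theorem cmp {X X' Y : Type} {f : X → ℝ} {f' : X' → ℝ} (π : X' → X) {h : X → Y → ℝ} {c η δ : ℝ}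
    (g : X → Y → ℂ) (f0 : ∀ x, 0 ≤ f x) (f0' : ∀ x, 0 ≤ f' x) (h0 : ∀ x y, 0 ≤ h x y)
    (sf : Summable f) (sf' : Summable f') (F0 : 0 < ∑' x, f x) (F0' : 0 < ∑' x, f' x)
    (sh : ∀ x, Summable (h x)) (c0 : 0 < c) (b : ∀ x, |∑' y, h x y - c| ≤ η * c)
    (hg : ∀ x y, ‖g x y‖ ≤ 1)
    (d : ‖(∑' x, (f' x : ℂ) * ((∑' y, (h (π x) y : ℂ) * g (π x) y) / (c : ℝ))) / (∑' x, f' x : ℝ) -
      (∑' x, (f x : ℂ) * ((∑' y, (h x y : ℂ) * g x y) / (c : ℝ))) / (∑' x, f x : ℝ)‖ ≤ δ) :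
    ‖(∑' p : X' × Y, ((f' p.1 * h (π p.1) p.2 : ℝ) : ℂ) * g (π p.1) p.2) /
        (∑' p : X' × Y, f' p.1 * h (π p.1) p.2 : ℝ)‖ ≤
      ‖(∑' p : X × Y, ((f p.1 * h p.1 p.2 : ℝ) : ℂ) * g p.1 p.2) /
        (∑' p : X × Y, f p.1 * h p.1 p.2 : ℝ)‖ + (2 * η + δ) := by
  have b1 := (abs_le.1 (one g f0 h0 sf sh c0 b hg).2).2
  have b2 := (abs_le.1 (one (h := fun x => h (π x)) (fun x => g (π x)) f0' (fun x => h0 _) sf'
    (fun x => sh _) c0 (fun x => b _) fun x => hg _).2).1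
  have b3 := (norm_sub_norm_le _ _).trans d
  rw [norm_div, norm_div, Complex.norm_real, Complex.norm_real, Real.norm_of_nonneg F0.le,
    Real.norm_of_nonneg F0'.le] at b3
  rw [sub_le_iff_le_add, ← add_mul, ← div_le_iff₀ F0] at b1
  rw [le_sub_iff_add_le, ← neg_mul, ← add_mul, ← le_div_iff₀ F0'] at b2
  linarith

section rn
variable {C C' σ τ : Type} [DecidableEq σ] [DecidableEq τ] (f : C → C') {B : Bk (VV C σ) σ}

omit [DecidableEq σ] in
theorem bo (h : Bo B) : Bo (rnB f B) := by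
  classical
  refine ⟨⟨h.ok.ne, fun a m z => ?_, fun a c k => ?_, fun a a' k => ?_⟩, h.sq⟩
  · obtain ⟨u, rfl, k⟩ := coeff_rename_ne_zero _ _ m z
    refine (TS.weight_map _ _ u).trans (Eq.trans ?_ (h.ok.hom a k))
    exact congrArg (Finsupp.weight · u) (funext fun v => by cases v <;> rfl)
  · obtain ⟨v | v, i, e⟩ := mem_vars_rename _ _ k
    · exact Sum.inl.inj e ▸ h.ok.live a v i
    · cases e
  · obtain ⟨v | v, i, e⟩ := mem_vars_rename _ _ k
    · cases e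
    · exact h.ok.tri a a' (Sum.inr.inj e ▸ i)

variable (B) (col : τ → σ) (W : Finset (τ →₀ ℕ))

theorem ev_gen {V V' U U' : Type} {z : U → ℝ} {z' : U' → ℝ} {φ : V → MvPolynomial U ℝ}
    {φ' : V' → MvPolynomial U' ℝ} {ρ : V → V'} (P : MvPolynomial V ℝ)
    (h : ∀ v, eval z' (φ' (ρ v)) = eval z (φ v)) :
    eval z' (aeval φ' (rename ρ P)) = eval z (aeval φ P) := by
  induction P using MvPolynomial.induction_on with
  | C a => simp
  | add p q a b => simp only [map_add, a, b]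
  | mul_X p c a => simp only [map_mul, a, rename_X, aeval_X, h]

theorem ev_Θ (y : VV C' τ → ℝ) (k : (sp B col W).N → ℝ) (x : (sp B col W).N) :
    eval (Sum.elim y k) ((sp (rnB f B) col W).Θ x) =
      eval (Sum.elim (fun v => y (f v.1, v.2)) k) ((sp B col W).Θ x) := by
  refine (congrArg (eval (Sum.elim y k)) (sp_Θ (rnB f B) col W x)).trans (Eq.trans ?_
    (congrArg (eval (Sum.elim (fun v : VV C τ => y (f v.1, v.2)) k)) (sp_Θ B col W x)).symm)
  refine ev_gen (ρ := Sum.map (Prod.map f id) id) (B.Θ x.1.1) fun v => ?_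
  cases v with
  | inl v =>
    exact (eval_X (f := Sum.elim y k) (Sum.inl (f v.1, sw col x.1.2.1 v.2))).trans
      (eval_X (f := Sum.elim (fun v : VV C τ => y (f v.1, v.2)) k)
        (Sum.inl (v.1, sw col x.1.2.1 v.2))).symm
  | inr a =>
    have e := map_vb B col W (eval (Sum.elim y k)) (map_zero _) (fun z => X (.inr z)) a
      (sw col x.1.2.1 (B.wd a))
    have e' := map_vb B col W (eval (Sum.elim (fun v : VV C τ => y (f v.1, v.2)) k)) (map_zero _)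
      (fun z => X (.inr z)) a (sw col x.1.2.1 (B.wd a))
    simp only [eval_X, Sum.elim_inr] at e e'
    exact e.trans e'.symm

theorem bw_rn (v : (sp B col W).N → ℝ) (y : VV C' τ → ℝ) (k : (sp B col W).N → ℤ) :
    bw (sp (rnB f B) col W) v y k = bw (sp B col W) v (fun v => y (f v.1, v.2)) k :=
  prod_congr rfl fun x _ => congrArg (fun t => Real.exp (-Real.pi * ((k x - t) ^ 2 / v x)))
    (ev_Θ f B col W y _ x)

theorem ev_rn (y : VV C' τ → ℝ) (k : (sp B col W).N → ℝ) (Q : MvPolynomial (VV (C ⊕ B.N) τ) ℝ) :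
    eval (zz (rnB f B) col W y k) (rename (Prod.map (Sum.map f id) id) Q) =
      eval (zz B col W (fun v => y (f v.1, v.2)) k) Q :=
  (eval_rename _ _ Q).trans (congrArg (eval · Q) (funext fun ⟨c, _⟩ => by cases c <;> rfl))

end rn

theorem ex_pj {τ : Type} [DecidableEq τ] (T : TS Unit) (P : Bk T.C Unit) (w : ℝ)
    (W : Finset (τ →₀ ℕ)) (K : Kn τ) (y : (xw T P w).Cw (MR (fun _ => ()) W K) → ℤ) :
    (fun v : VV T.C τ => ex (xw T P w) _ id (zc y) (.inl v.1, v.2)) =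
      ex T _ id (zc (pj T P w W K y)) := by
  funext v
  refine (sum_of_injOn (fun p : T.Cw (MR (fun _ => ()) W K) =>
    (⟨(.inl p.1.1, p.1.2), p.2⟩ : (xw T P w).Cw (MR (fun _ => ()) W K))) (fun p _ q _ e => ?_)
    (fun p hp => ?_) (fun p hp n => ?_) fun _ _ => rfl).symm
  · exact Subtype.ext (Prod.ext (Sum.inl.inj (congrArg (·.1.1) e)) (congrArg (·.1.2) e))
  · exact mem_coe.2 (mem_filter.2 ⟨mem_univ _, congrArg Sum.inl (mem_filter.1 hp).2.1,
      (mem_filter.1 hp).2.2⟩)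
  · obtain ⟨⟨c | c, μ⟩, e⟩ := p
    · exact (n ⟨⟨(c, μ), e⟩, mem_coe.2 (mem_filter.2 ⟨mem_univ _,
        Sum.inl.inj (mem_filter.1 hp).2.1, (mem_filter.1 hp).2.2⟩), rfl⟩).elim
    · cases (mem_filter.1 hp).2.1

theorem ok {σ τ : Type} [DecidableEq τ] (col : τ → σ) {W : Finset (τ →₀ ℕ)} {κ : (τ →₀ ℕ) → ℝ}
    (dn : Dn W) (h : ∀ μ ∈ W, 0 < κ μ) : (MR col W (dk κ)).Ok := Sh.mono_ok dn (by
  have : (MR col W (dk κ)).K = diagonal fun μ : {μ // μ ∈ W.erase 0} => κ μ.1 :=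
    Matrix.ext fun (a b : {μ // μ ∈ W.erase 0}) =>
      if_congr (Subtype.ext_iff (a1 := a) (a2 := b)).symm rfl rfl
  rw [this]
  exact PosDef.diagonal fun μ => h _ (mem_of_mem_erase μ.2)) (Sh.dk_blk _)

theorem KN_dk {C σ τ : Type} [DecidableEq σ] [DecidableEq τ] (B : Bk (VV C σ) σ) (w : ℝ)
    (col : τ → σ) (W : Finset (τ →₀ ℕ)) (κ : (τ →₀ ℕ) → ℝ) :
    KN B w col W (dk κ) = diagonal fun x => w * κ x.1.2.1 := by
  ext x x'
  by_cases c : x = x'
  · subst c; simp [KN, dk]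
  · rw [diagonal_apply_ne _ c, KN, of_apply]
    split_ifs with c1
    · rw [dk, if_neg fun c2 => c (Subtype.ext (Prod.ext c1 (Subtype.ext c2))), mul_zero]
    · rfl

/-- the bias on the coloured tower as a double sum (diagonal kernels) -/
theorem bi_eq {σ τ : Type} [Fintype σ] [DecidableEq σ] [DecidableEq τ] {s M : ℕ} {T : TS Unit}
    {B : Bk (VV T.C σ) σ} {w : ℝ} (col : τ → σ) {W : Finset (τ →₀ ℕ)} {st : T.C → ℕ}
    {κ : (τ →₀ ℕ) → ℝ} (hT : Tb T st M s) (hB : Bo B) (hd : ∀ a, (B.wd a).degree ≤ s) (w0 : 0 < w)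
    (k0 : ∀ μ ∈ W, 0 < κ μ) (dn : Dn W) (Q : MvPolynomial (VV (T.C ⊕ B.N) τ) ℝ) :
    Bo (sp B col W) ∧ bi (cE s T B w) (MR col W (dk κ)) (fm s T B w) Q =
      ‖(∑' p : (T.Cw (MR (fun _ => ()) W (dk κ)) → ℤ) × ((sp B col W).N → ℤ),
        (((T.tw _ (T.tw0 _)).wt p.1 * bw (sp B col W) (fun x => w * κ x.1.2.1)
          (ex T _ id (zc p.1)) p.2 : ℝ) : ℂ) *
            ee (eval (zz B col W (ex T _ id (zc p.1)) (zc p.2)) Q)) /
      (∑' p : (T.Cw (MR (fun _ => ()) W (dk κ)) → ℤ) × ((sp B col W).N → ℤ),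
        (T.tw _ (T.tw0 _)).wt p.1 * bw (sp B col W) (fun x => w * κ x.1.2.1)
          (ex T _ id (zc p.1)) p.2 : ℝ)‖ := by
  obtain ⟨-, h2, -, h4, -, h6, h7, -⟩ := colw σ τ s M T st B w col W _ (T.tw0 _) hT hB hd w0 dn
    (ok col dn k0) (hT.stg.adm (ok _ dn k0))
  refine ⟨h2, congrArg norm ?_⟩
  have e0 := ((cola σ s M T st B w hT hB hd w0).2.2 τ col W (dk κ)).2
  rw [e0] at h6 h7
  let E := Equiv.ofBijective _ h4
  have e1 : ∀ y, ((cE s T B w).sh (MR col W (dk κ))).wt y =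
      (T.tw _ (T.tw0 _)).wt (E y).1 * bw (sp B col W) (fun x => w * κ x.1.2.1)
        (ex T _ id (zc (E y).1)) (E y).2 := fun y => by
    rw [wt_tw0, h7, KN_dk, Ib.gs_diag fun x : (sp B col W).N =>
      mul_pos w0 (k0 _ (mem_of_mem_erase x.1.2.2))]
    refine congrArg _ (prod_congr rfl fun x _ => ?_)
    rw [h6]
    exact congrArg (fun z => Real.exp (-Real.pi * ((_ - eval (Sum.elim (ex T _ id z) _) _) ^ 2 / _)))
      (zc_res s T B w col W _ y)
  refine congrArg₂ (· / ·) ?_ (congrArg _ ?_)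
  · refine Eq.trans (tsum_congr fun y => ?_) (E.tsum_eq _)
    refine congrArg₂ (fun (a : ℝ) z => (a : ℂ) * ee (eval z Q)) (e1 y)
      ((ex_eq s T B w col W _ (zc y)).trans ?_)
    exact congrArg (fun z => zz B col W (ex T _ id z) _) (zc_res s T B w col W _ y)
  · exact (tsum_congr e1).trans (E.tsum_eq fun p => (T.tw _ (T.tw0 _)).wt p.1 *
      bw (sp B col W) (fun x => w * κ x.1.2.1) (ex T _ id (zc p.1)) p.2)

theorem half {X Y : Type} {h : X → Y → ℝ} {c η : ℝ} {g : X → Y → ℂ} (h0 : ∀ x y, 0 ≤ h x y)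
    (sh : ∀ x, Summable (h x)) (c0 : 0 < c) (b : ∀ x, |∑' y, h x y - c| ≤ η * c) (η1 : η ≤ 1)
    (hg : ∀ x y, ‖g x y‖ ≤ 1) (x : X) : ‖(2⁻¹ : ℂ) * ((∑' y, (h x y : ℂ) * g x y) / (c : ℝ))‖ ≤ 1 := by
  have := tsum_of_norm_bounded (sh x).hasSum (f := fun y => (h x y : ℂ) * g x y) fun y => by
    rw [norm_mul, Complex.norm_real, Real.norm_of_nonneg (h0 x y)]
    exact mul_le_of_le_one_right (h0 x y) (hg x y)
  rw [norm_mul, norm_div, Complex.norm_real, Real.norm_of_nonneg c0.le, norm_inv,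
    Complex.norm_two, inv_mul_le_iff₀ two_pos, div_le_iff₀ c0]
  nlinarith [(abs_le.1 (b x)).2]

theorem dbl {σ σ' : Type} {U : TS σ} {U' : TS σ'} {G : (U.C → ℤ) → ℂ} {G' : (U'.C → ℤ) → ℂ} {δ : ℝ}
    (d : ‖(U'.Ec fun y => 2⁻¹ * G' y) - U.Ec fun y => 2⁻¹ * G y‖ ≤ δ) :
    ‖U'.Ec G' - U.Ec G‖ ≤ 2 * δ := by
  rwa [TS.Ec_mul, TS.Ec_mul, ← mul_sub, norm_mul, norm_inv, Complex.norm_two,
    inv_mul_le_iff₀ two_pos] at d

end Pm

open Pm in
/-- **PMB** -/
theorem pmb (xa : XWA) (mp : MP) : PMB := by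
  intro σ τ _ _ _ s M m T st P B w w' col W κ Q hT hP hB hd w0 w0' dn hw
  have k0 : ∀ μ ∈ W, 0 < κ μ := fun μ h =>
    (mul_pos_iff_of_pos_left w0).1 (lt_of_lt_of_le (by positivity) (hw μ h).1)
  have o := ok (fun _ => ()) dn k0
  obtain ⟨hT', e⟩ := xa s M T st P w' hT hP w0'
  obtain ⟨c1, q1⟩ := bi_eq col hT hB hd w0 k0 dn Q
  have q2 := (bi_eq (T := xw T P w') (B := rnB Sum.inl B) col hT' (bo _ hB) hd w0 k0 dn
    (rename (Prod.map (Sum.map Sum.inl id) id) Q)).2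
  have t := TS.tw_tri hT.stg.cl (hT.stg.adm o) o
  have t' := TS.tw_tri hT'.stg.cl (hT'.stg.adm o) o
  have hv : ∀ x : (sp B col W).N, (Fintype.card (sp B col W).N + m + 1 : ℝ) ≤ w * κ x.1.2.1 :=
    fun x => le_trans (by have := card_sp B col W; gcongr; exact_mod_cast this)
      (hw _ (mem_of_mem_erase x.1.2.2)).1
  have v1 := fun y => wn _ _ (sp B col W) _ m y c1.ok.tri hv
  have b1 : ∀ y k, 0 ≤ bw (sp B col W) (fun x => w * κ x.1.2.1) y k :=
    fun _ _ => prod_nonneg fun _ _ => (Real.exp_pos _).le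
  have p0 : 0 < ∏ x : (sp B col W).N, √(w * κ x.1.2.1) :=
    prod_pos fun x _ => Real.sqrt_pos.2 (mul_pos w0 (k0 _ (mem_of_mem_erase x.1.2.2)))
  have d := mp τ s M m T st P w' W κ (T.tw0 _) _ hT hP w0' dn (hT.stg.adm o)
    (fun μ h => (hw μ h).2) (half
      (h := fun y => bw (sp B col W) (fun x => w * κ x.1.2.1) (ex T _ id (zc y)))
      (g := fun y k => ee (eval (zz B col W (ex T _ id (zc y)) (zc k)) Q)) (fun y => b1 _)
      (fun y => (v1 _).1) p0 (fun y => (v1 _).2) (div_le_one_of_le₀ (one_le_pow₀ one_le_two)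
        (by positivity)) fun _ _ => (norm_ee _).le)
  rw [(e τ W (dk κ)).2] at d
  replace d := dbl d
  have c := cmp (f := (T.tw _ (T.tw0 _)).wt) (f' := ((xw T P w').tw _ ((xw T P w').tw0 _)).wt)
    (pj T P w' W (dk κ))
    (h := fun y => bw (sp B col W) (fun x => w * κ x.1.2.1) (ex T _ id (zc y)))
    (fun y k => ee (eval (zz B col W (ex T _ id (zc y)) (zc k)) Q))
    (fun y => (TS.wt_pos _ y).le) (fun y => (TS.wt_pos _ y).le) (fun y => b1 _) t.summable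
    t'.summable t.Z_pos t'.Z_pos (fun y => (v1 _).1) p0 (fun y => (v1 _).2)
    (fun _ _ => (norm_ee _).le) d
  refine q2.trans_le (le_trans (le_of_eq (congrArg norm (congrArg₂ (· / ·) (tsum_congr fun p => ?_)
    (congrArg _ (tsum_congr fun p => ?_))))) (c.trans (add_le_add q1.ge ?_)))
  · refine congrArg₂ (fun (a b : ℝ) => ((_ * a : ℝ) : ℂ) * ee b) ?_ ?_
    · exact (bw_rn _ B col W _ _ _).trans (congrArg (bw _ _ · _) (ex_pj T P w' W _ p.1))
    · exact (ev_rn _ B col W _ _ Q).trans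
        (congrArg (fun z => eval (zz B col W z _) Q) (ex_pj T P w' W _ p.1))
  · exact congrArg _ ((bw_rn _ B col W _ _ _).trans (congrArg (bw _ _ · _) (ex_pj T P w' W _ p.1)))
  · rw [← mul_div_assoc, ← mul_div_assoc, ← add_div]
    gcongr
    norm_num

end Crest.Agent.N49.Sw

end
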