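import Crest.Agent.N49.Sw.Df5
import Crest.Agent.N49.Sw.Colw1
import Crest.Agent.N49.Sw.Diag
import Crest.Agent.N49.Sw.Cola
import Crest.Agent.N49.Tw.ConM

/-!
# Row 49 (helper11): isolating one word in the witness (leaf DEC)
-/

set_option autoImplicit false
set_option linter.unusedSectionVars false

open Matrix MvPolynomial Finset

noncomputable section

namespace Crest.Agent.N49.Sw

open Po Tw Sd Sy Md Rm Mv

namespace Dc0

section md
variable {σ τ C : Type} [DecidableEq σ] [Fintype τ] [DecidableEq τ] [DecidableEq C]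
  {col : τ → σ} {lam : τ → ℤ} {c0 : σ}

/-- the part of `R` whose product with a letter of colour `c0` has the colour `n` -/
def fl (col : τ → σ) (c0 : σ) (n : σ →₀ ℕ) (R : MvPolynomial τ ℤ) : MvPolynomial τ ℤ :=
  ∑ ν ∈ R.support with ν.mapDomain col + Finsupp.single c0 1 = n, monomial ν (coeff ν R)

theorem coeff_fl (n : σ →₀ ℕ) (R : MvPolynomial τ ℤ) (ν : τ →₀ ℕ) : coeff ν (fl col c0 n R) =
    if ν.mapDomain col + Finsupp.single c0 1 = n then coeff ν R else 0 := by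
  simp only [fl, coeff_sum, coeff_monomial, sum_ite_eq', mem_filter, mem_support_iff]
  by_cases a : coeff ν R = 0 <;> simp [a]

theorem coeff_lam (hl : ∀ a, lam a ≠ 0 → col a = c0) (n : σ →₀ ℕ) (R : MvPolynomial τ ℤ)
    (μ : τ →₀ ℕ) : coeff μ ((∑ a, lam a • X a) * fl col c0 n R) =
      if μ.mapDomain col = n then coeff μ ((∑ a, lam a • X a) * R) else 0 := by
  simp only [sum_mul, coeff_sum, smul_mul_assoc, coeff_smul, coeff_X_mul', coeff_fl]
  have k : ∀ a, lam a ≠ 0 → a ∈ μ.support →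
      (μ - Finsupp.single a 1).mapDomain col + Finsupp.single c0 1 = μ.mapDomain col :=
    fun a h m => by
      rw [← hl a h, ← Finsupp.mapDomain_single, ← Finsupp.mapDomain_add,
        tsub_add_cancel_of_le (Finsupp.single_le_iff.2 (Nat.one_le_iff_ne_zero.2
          (Finsupp.mem_support_iff.1 m)))]
  split_ifs with e
  · refine sum_congr rfl fun a _ => ?_
    by_cases h : lam a = 0
    · simp [h]
    split_ifs with m m'
    · rfl
    · exact absurd ((k a h m).trans e) m'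
    · rfl
  · refine sum_eq_zero fun a _ => ?_
    by_cases h : lam a = 0
    · simp [h]
    split_ifs with m m'
    · exact absurd ((k a h m).symm.trans m') e
    · simp
    · simp

theorem md_ex (U : TS σ) (fm : U.C → C) {W : Finset (τ →₀ ℕ)} {K : Kn τ}
    (hl : ∀ a, lam a ≠ 0 → col a = c0) {y y' : U.Cw (MR col W K) → ℤ}
    (h : Md U (MR col W K) lam y y') : ∃ Q : C → MvPolynomial τ ℤ, ∀ F, ∀ μ ∈ W.erase 0,
      ex U _ fm y (F, μ) - ex U _ fm y' (F, μ) = coeff μ ((∑ a, lam a • X a) * Q F) := by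
  obtain ⟨Q, h⟩ := h
  refine ⟨fun F => ∑ c with fm c = F, fl col c0 (U.deg c) (Q c), fun F μ hμ => ?_⟩
  simp only [mul_sum, coeff_sum, coeff_lam hl]
  rw [ex, ex, ← sum_sub_distrib, ← sum_filter, filter_filter]
  refine sum_bij' (fun q _ => q.1.1) (fun c hc => ⟨(c, ⟨μ, hμ⟩), (mem_filter.1 hc).2.2⟩)
    (fun q hq => ?_) (fun c hc => mem_filter.2 ⟨mem_univ _, (mem_filter.1 hc).2.1, rfl⟩)
    (fun q hq => Subtype.ext (Prod.ext rfl (Subtype.ext (mem_filter.1 hq).2.2.symm)))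
    (fun _ _ => rfl) fun q hq => ?_
  · obtain ⟨-, a, b⟩ := mem_filter.1 hq
    exact mem_filter.2 ⟨mem_univ _, a, (congrArg (Finsupp.mapDomain col) b).symm.trans q.2⟩
  · rw [h q, (mem_filter.1 hq).2.2]

theorem ex_cg {R : Type} [AddCommMonoid R] {τ : Type} [DecidableEq τ] (U : TS σ) (S : Sh σ τ)
    (fm : U.C → C) {y y' : U.Cw S → R} {v : VV C τ} (h : ∀ p, S.ty p.1.2 = v.2 → y p = y' p) :
    ex U S fm y v = ex U S fm y' v :=
  sum_congr rfl fun p hp => h p (mem_filter.1 hp).2.2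

theorem ex_zc {τ : Type} [DecidableEq τ] (U : TS σ) (S : Sh σ τ) (fm : U.C → C)
    (y : U.Cw S → ℤ) (v : VV C τ) : ex U S fm (zc y) v = ((ex U S fm y v : ℤ) : ℝ) := by
  simp only [ex, zc, Int.cast_sum]
end md

section res
variable {σ τ : Type} [Fintype σ] [DecidableEq σ] [Fintype τ] [DecidableEq τ] {s : ℕ}
  {T : TS Unit} {B : Bk (VV T.C σ) σ} {w : ℝ} {col : τ → σ} {W : Finset (τ →₀ ℕ)} {K : Kn τ}

theorem inv_res {lam : τ → ℤ} {c0 : σ} (hl : ∀ a, lam a ≠ 0 → col a = c0)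
    {f : (T.Cw (MR (fun _ => ()) W K) → ℤ) → ℂ} (h : Inv T _ lam f) :
    Inv (cE s T B w) (MR col W K) lam fun y => f (res s T B w col W K y) := fun _ _ m => by
  obtain ⟨Q, k⟩ := md_ex _ (fm s T B w) hl m
  exact h _ _ ⟨fun F => Q (.inl F), fun p => k _ _ p.1.2.2⟩

theorem res_cg {a : τ} {y y' : (cE s T B w).Cw (MR col W K) → ℤ}
    (h : ∀ p, (MR col W K).ty p.1.2 a = 0 → y p = y' p) (p : T.Cw (MR (fun _ => ()) W K))
    (e : (MR (fun _ => ()) W K).ty p.1.2 a = 0) :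
    res s T B w col W K y p = res s T B w col W K y' p :=
  ex_cg _ _ _ fun q k => h q (by rw [k]; exact e)

theorem res_zc (y : (cE s T B w).Cw (MR col W K) → ℤ) :
    res s T B w col W K (zc y) = zc (res s T B w col W K y) := funext fun _ => ex_zc ..
end res

section split
variable {τ L C : Type} [Fintype τ] [DecidableEq τ] [Fintype L] [DecidableEq L]

theorem ee_sum {ι : Type} (S : Finset ι) (f : ι → ℝ) : ee (∑ i ∈ S, f i) = ∏ i ∈ S, ee (f i) := by
  classical
  induction S using Finset.induction_on with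
  | empty => simp [ee_zero]
  | insert a S h ih => rw [sum_insert h, prod_insert h, ee_add, ih]

/-- the words other than `E` miss a letter of `E` -/
theorem split {blk : τ → L} {x : τ} {B : Bk (VV C τ) τ} {Γ : MvPolynomial (VV C τ ⊕ B.N) ℝ}
    {q : (τ →₀ ℕ) → Prop} {E : Finset τ} (o : Bo B) (h : Tyf blk x B q Γ)
    (hq : ∀ μ, q μ → (∀ ℓ, μ.mapDomain blk ℓ ≤ 1) → wE E ≤ μ → μ = wE E) :
    ∃ R : τ → (VV C τ → ℝ) → ℝ, (∀ a z z', (∀ F ν, ν a = 0 → z (F, ν) = z' (F, ν)) →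
      R a z = R a z') ∧ ∀ z, B.ev z Γ = B.ev z (cw B E Γ) + ∑ a ∈ E, R a z := by
  have k : ∀ m ∈ Γ.support.filter fun m => ¬ Finsupp.weight (B.wg Prod.snd) m = wE E,
      ∃ a ∈ E, Finsupp.weight (B.wg Prod.snd) m a = 0 := fun m hm => by
    obtain ⟨m1, m2⟩ := mem_filter.1 hm
    by_contra n
    refine m2 (hq _ (h.ty m m1).2.2 (h.ty m m1).1 fun a => ?_)
    rw [Dg.wE_apply]
    split_ifs with e
    · exact Nat.one_le_iff_ne_zero.2 fun z => n ⟨a, e, z⟩
    · exact Nat.zero_le _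
  have : Nonempty τ := ⟨x⟩
  choose! pk p1 p2 using k
  refine ⟨fun a z => ∑ m ∈ Γ.support.filter (fun m => ¬ Finsupp.weight (B.wg Prod.snd) m = wE E)
    with pk m = a, B.ev z (monomial m (coeff m Γ)), fun a z z' e => sum_congr rfl fun m hm => ?_,
    fun z => ?_⟩
  · obtain ⟨m1, rfl⟩ := mem_filter.1 hm
    have m2 := (mem_filter.1 m1).1
    refine o.ok.ev_congr (w := Finsupp.weight (B.wg Prod.snd) m) (fun c _ l => e c.1 c.2 ?_)
      (isWeightedHomogeneous_monomial _ _ _ rfl) fun c hc => h.live c ?_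
    · exact Nat.le_zero.1 (p2 m m1 ▸ l (pk m))
    · rw [vars_monomial (mem_support_iff.1 m2)] at hc
      exact (mem_vars_iff_mem_support _).2 ⟨m, m2, hc⟩
  · rw [sum_fiberwise_of_maps_to p1, cw, weightedHomogeneousComponent_apply]
    simp only [Bk.ev, ← map_sum, ← map_add]
    congr 1
    convert (sum_filter_add_sum_filter_not Γ.support _ fun m => monomial m (coeff m Γ)).symm
    exact Γ.as_sum

theorem deg_le {blk : τ → L} {μ : τ →₀ ℕ} {s : ℕ} (h : ∀ ℓ, μ.mapDomain blk ℓ ≤ 1)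
    (k : Fintype.card L ≤ s) : μ.degree ≤ s := by
  rw [← Finsupp.degree_mapDomain blk μ, Finsupp.degree_eq_sum]
  exact (sum_le_card_nsmul _ _ 1 fun l _ => h l).trans (by simpa using k)

variable {s : ℕ} {κ : ℝ} {T : TS Unit}

theorem uo_cg {a : τ} {y y' : T.Cw (FO τ (fun _ => ()) s κ) → ℤ}
    (h : ∀ p, (FO τ (fun _ => ()) s κ).ty p.1.2 (some a) = 0 → y p = y' p) (F : T.C)
    (ν : τ →₀ ℕ) (e : ν a = 0) : uo T id (zc y) (F, ν) = uo T id (zc y') (F, ν) :=
  ex_cg _ _ _ fun p k => congrArg Int.cast (h p (by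
    rw [k]; exact (Finsupp.mapDomain_apply (Option.some_injective _) _ _).trans e))

/-- the symbols -/
theorem syms (mri : MRI) (hT : ∀ F, T.lev F ≤ s) {x t : τ} (n : t ≠ x) (S : Finset (Finset τ))
    (hS : ∀ U ∈ S, x ∈ U) (Pi : Finset τ → MvPolynomial T.C ℝ) :
    ∃ a b c : (T.Cw (FO τ (fun _ => ()) s κ) → ℤ) → ℝ,
      Inv T _ (dxt x t) (fun y => ee (a y)) ∧ Bl T _ (some x) (fun y => ee (b y)) ∧
      Bl T _ (some t) (fun y => ee (c y)) ∧
      ∀ y, ∑ U ∈ S, sv (Pi U) (ind U) (uo T id (zc y)) = a y + b y + c y := by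
  have k : ∀ U ∈ S, ∃ a b c : (T.Cw (FO τ (fun _ => ()) s κ) → ℤ) → ℝ,
      Inv T _ (dxt x t) (fun y => ee (a y)) ∧ Bl T _ (some x) (fun y => ee (b y)) ∧
      Bl T _ (some t) (fun y => ee (c y)) ∧
      ∀ y, sv (Pi U) (ind U) (uo T id (zc y)) = a y + b y + c y := fun U hU => by
    by_cases e : t ∈ U
    · exact mri τ s κ T x t _ U hT (hS U hU) e n
    refine ⟨fun _ => 0, fun _ => 0, fun y => sv (Pi U) (ind U) (uo T id (zc y)),
      fun _ _ _ => rfl, fun _ _ _ => rfl, fun y y' h => congrArg ee ?_, fun y => by simp⟩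
    refine Dg.sv_eq _ fun F ν l => ?_
    rw [Dg.cf_Y (fun μ => uo T id (zc y') (F, μ)) l]
    refine (uo_cg h F ν (Nat.le_zero.1 ((l t).trans_eq ?_))).symm
    simp [ind, e]
  choose! a b c k1 k2 k3 k4 using k
  refine ⟨fun y => ∑ U ∈ S, a U y, fun y => ∑ U ∈ S, b U y, fun y => ∑ U ∈ S, c U y,
    fun y y' h => ?_, fun y y' h => ?_, fun y y' h => ?_, fun y => ?_⟩
  · simp only [ee_sum]; exact prod_congr rfl fun U hU => k1 U hU y y' h
  · simp only [ee_sum]; exact prod_congr rfl fun U hU => k2 U hU y y' h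
  · simp only [ee_sum]; exact prod_congr rfl fun U hU => k3 U hU y y' h
  · rw [← sum_add_distrib, ← sum_add_distrib]; exact sum_congr rfl fun U hU => k4 U hU y
end split

theorem m1 {x y : ℂ} (hx : ‖x‖ ≤ 1) (hy : ‖y‖ ≤ 1) : ‖x * y‖ ≤ 1 := by
  rw [norm_mul]; exact mul_le_one₀ hx (norm_nonneg _) hy

theorem i1 {x : ℂ} (p : Prop) [Decidable p] (hx : ‖x‖ ≤ 1) : ‖if p then x else 1‖ ≤ 1 := by
  split_ifs; exacts [hx, norm_one.le]

end Dc0
open Dc0

theorem dec (inb : INB2) (mri : MRI) : DEC := by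
  classical
  intro τ L _ _ _ _ s M m g T st W blk x t B Γ q E w κ δ tb al td tf hx ht n hq w0 h1 h2
    ⟨Ψ, g0, A, C, Pi, ad, b1, bg, iA, bC, hδ⟩
  have dg : ∀ a, (B.wd a).degree ≤ s := fun a => deg_le (td.tr a) al.cL
  obtain ⟨G, hG⟩ : ∃ G : (T.Cw (FO τ (fun _ => ()) s κ) → ℤ) → ℂ, G = fun y => g0 y * A y * C y *
      ee (B.ev (uo T id (zc y)) Γ + ∑ U ∈ W with x ∈ U, sv (Pi U) (ind U) (uo T id (zc y))) :=
    ⟨_, rfl⟩
  obtain ⟨c, c1, c2, hc⟩ := inb τ (Option τ) s M m g T st B w (cxt x t) some _ (fun _ => κ) Ψ G tb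
    td.bo dg w0 dn_full ad (Option.some_injective _)
    (fun a => ⟨mem_full.2 (by rw [Finsupp.degree_mapDomain]; exact dg a), fun u hu =>
      Function.update_of_ne (fun e => hu (by rw [e]; exact td.fr a)) _ _⟩) (fun _ _ => ⟨h1, h2⟩)
    fun y => by
      rw [hG]; exact m1 (m1 (m1 (b1 y).1 (b1 y).2.1) (b1 y).2.2) (norm_ee _).le
  obtain ⟨R, R1, R2⟩ := split td.bo tf hq
  obtain ⟨a, b, e, a1, a2, a3, a4⟩ := syms (κ := κ) mri tb.lev n (W.filter (x ∈ ·))
    (fun _ h => (mem_filter.1 h).2) Pi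
  obtain ⟨r, hr⟩ : ∃ r : ((cE s T B w).Cw (FO τ (cxt x t) s κ) → ℤ) → _,
    r = res s T B w (cxt x t) (full (Option τ) s) (dk fun _ => κ) := ⟨_, rfl⟩
  obtain ⟨J, hJ⟩ : ∃ J : ((cE s T B w).Cw (FO τ (cxt x t) s κ) → ℤ) → Prop, J = fun y => ∀ a,
    ex _ _ (fm s T B w) y (.inr a, (B.wd a).mapDomain some) = B.om (uo T id (zc (r y))) a :=
    ⟨_, rfl⟩
  have rc : ∀ {u : τ} {y y' : (cE s T B w).Cw (FO τ (cxt x t) s κ) → ℤ},
      (∀ p, (FO τ (cxt x t) s κ).ty p.1.2 (some u) = 0 → y p = y' p) →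
      ∀ p, (FO τ (fun _ => ()) s κ).ty p.1.2 (some u) = 0 → r y p = r y' p := fun h => by
    rw [hr]; exact res_cg h
  refine ⟨cT s T B w (cxt x t) _ (dk fun _ => κ) Ψ, fun y => A (r y) * ee (a (r y)), fun u y =>
    (if u = x then g0 (r y) * ee (b (r y)) * c (uo T id (zc (r y))) * (if J y then 1 else 0)
      else 1) * (if u = t then C (r y) * ee (e (r y)) else 1) * ee (R u (uo T id (zc (r y)))),
    ((cola τ s M T st B w tb td.bo dg w0).2.2 _ _ _ _).1 Ψ ad,
    fun y => m1 (b1 _).2.1 (norm_ee _).le, fun u y => m1 (m1 (i1 _ (m1 (m1 (m1 (b1 _).1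
      (norm_ee _).le) ?_) ?_)) (i1 _ (m1 (b1 _).2.2 (norm_ee _).le))) (norm_ee _).le, ?_,
    fun u _ y y' h => ?_, ?_⟩
  · rw [Complex.norm_real, Real.norm_of_nonneg (c1 _).1]; exact (c1 _).2
  · split_ifs <;> simp
  · rw [hr]
    refine inv_res (c0 := t) (f := fun y => A y * ee (a y)) (fun o ho => ?_) fun y y' h =>
      congrArg₂ (· * ·) (iA y y' h) (a1 y y' h)
    by_cases e1 : o = some x
    · simp [e1, cxt]
    by_cases e2 : o = some t
    · simp [e2, cxt, n]
    simp [dxt, e1, e2] at ho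
  · have k := rc h
    have k' := uo_cg k
    refine congrArg₂ (· * ·) (congrArg₂ (· * ·) ?_ ?_) (congrArg ee (R1 u _ _ k'))
    · refine if_ctx_congr Iff.rfl (fun z => ?_) fun _ => rfl
      subst z
      have f0 : ∀ {μ : τ →₀ ℕ} {a : B.N}, μ ≤ B.wd a → μ u = 0 := fun {μ a} l =>
        Nat.le_zero.1 (td.fr a ▸ l u)
      have j : J y ↔ J y' := by
        rw [hJ]
        refine forall_congr' fun a => ?_
        rw [td.bo.ok.om_congr (w := B.wd a) (fun v _ l => k' v.1 v.2 (f0 l)) a le_rfl,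
          ex_cg _ _ (fm s T B w) (y' := y') fun p e => h p (by
            rw [e]
            exact (Finsupp.mapDomain_apply (Option.some_injective _) _ _).trans (td.fr a))]
      rw [bg _ _ k, show ee (b (r y)) = ee (b (r y')) from a2 _ _ k, c2 _ _ fun F μ a l => k' F μ (f0 l), if_congr j rfl rfl]
    · refine if_ctx_congr Iff.rfl (fun z => ?_) fun _ => rfl
      subst z
      rw [bC _ _ k, show ee (e (r y)) = ee (e (r y')) from a3 _ _ k]
  · refine le_trans (by gcongr; rw [hG]; exact hδ) (hc.trans_eq (congrArg _ (congrArg _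
      (funext fun y => ?_))))
    rw [← hr]
    change G (r y) * c (uo T id (zc (r y))) * (if ∀ a, ex _ _ (fm s T B w) y
      (.inr a, (B.wd a).mapDomain some) = B.om (uo T id (zc (r y))) a then 1 else 0) = _
    simp only [prod_mul_distrib, prod_ite_eq', hx, ht, if_true]
    by_cases j : J y
    · have j' := j
      rw [hJ] at j'
      have ev : eval (uo (cE s T B w) (fm s T B w) (zc y)) (up B (cw B E Γ)) =
          B.ev (uo T id (zc (r y))) (cw B E Γ) := by
        rw [up, eval_rename, Bk.ev]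
        refine congrArg (eval · _) (funext fun v => ?_)
        rcases v with v | a
        · change _ = uo T id (zc (r y)) v
          rw [hr]
          exact (Cw1.ex_res _ _ _).symm.trans (congrArg (uo T id · v) (res_zc y))
        · exact (ex_zc _ _ _ _ _).trans (congrArg Int.cast (j' a))
      rw [if_pos j', if_pos j, ev, hG]
      simp only [R2, a4, ee_add, ee_sum]
      ring
    · have j' := j
      rw [hJ] at j'
      rw [if_neg j', if_neg j]
      simp

end Crest.Agent.N49.Sw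

end
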