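import Crest.Agent.N49.Sw.Df5
import Crest.Agent.N49.Sw.Inb
import Crest.Agent.N49.Sw.Colw

/-!
# Row 49 (helper95): the bracket functions become coordinates, rings with other letters
-/

set_option autoImplicit false

open Matrix MvPolynomial Finset

noncomputable section

namespace Crest.Agent.N49.Sw

open Po Tw Sd

namespace I2

theorem sw_lt {σ τ : Type} [DecidableEq τ] {col : τ → σ} {lt : σ → τ} {w μ : σ →₀ ℕ}
    (hi : Function.Injective lt) (h1 : ∀ t, w t ≤ 1) (h2 : ∀ t, w t ≠ 0 → col (lt t) = t)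
    (h : μ ≤ w) : sw col (w.mapDomain lt) μ = μ.mapDomain lt := by
  ext u
  rw [sw, Finsupp.filter_apply]
  by_cases k : u ∈ Set.range lt
  · obtain ⟨t, rfl⟩ := k
    have a := h t
    have b := h1 t
    rw [Finsupp.mapDomain_apply hi, Finsupp.mapDomain_apply hi]
    by_cases c : w t = 0
    · rw [c, ite_self]; omega
    · rw [h2 t c]; split_ifs <;> omega
  · rw [Finsupp.mapDomain_of_notMem_range _ _ k, Finsupp.mapDomain_of_notMem_range _ _ k, ite_self]

variable {C C' σ : Type} (B : Bk C σ) (f : C → C')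

/-- rename the coordinates -/
abbrev rn : Bk C' σ := { B with Θ := fun a => rename (Sum.map f id) (B.Θ a) }

theorem rn_tri (h : B.Tri) : (rn B f).Tri := fun a a' k => by
  classical
  obtain ⟨v | v, i, e⟩ := mem_vars_rename _ _ k
  · cases e
  · exact h a a' (Sum.inr.inj e ▸ i)

theorem rn_bw (v : B.N → ℝ) (y : C' → ℝ) (k : B.N → ℤ) : bw (rn B f) v y k = bw B v (y ∘ f) k :=
  prod_congr rfl fun a _ => congrArg (fun t => Real.exp (-Real.pi * ((k a - t) ^ 2 / v a)))
    ((eval_rename _ _ (B.Θ a)).trans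
      (congrArg (eval · (B.Θ a)) (funext fun c => by cases c <;> rfl)))

end I2

open Ib in
theorem inb2 : INB2 := by
  classical
  intro σ τ _ _ _ s M m g T st B w col lt W κ Ψ G tb bo hs w0 dn adm hl hW hκ hG
  have n0 : ∀ μ ∈ W, (1 : ℝ) ≤ w * κ μ := fun μ h =>
    le_trans (le_add_of_nonneg_left (by positivity)) (hκ μ h).1
  have ok : (MR col W (dk κ)).Ok := Sh.mono_ok dn (by
    have : (MR col W (dk κ)).K = diagonal fun μ : {μ // μ ∈ W.erase 0} => κ μ.1 :=
      Matrix.ext fun (a b : {μ // μ ∈ W.erase 0}) =>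
        if_congr (Subtype.ext_iff (a1 := a) (a2 := b)).symm rfl rfl
    rw [this]
    exact PosDef.diagonal fun μ => (mul_pos_iff_of_pos_left w0).1
      (zero_lt_one.trans_le (n0 _ (mem_of_mem_erase μ.2)))) (Sh.dk_blk _)
  obtain ⟨-, bs, -, bij, -, hu, hw, -⟩ := colw σ τ s M T st B w col W _ Ψ tb bo hs w0 dn ok adm
  let v : (sp B col W).N → ℝ := fun x => w * κ x.1.2.1
  have hK : KN B w col W (dk κ) = diagonal v := by
    ext x x'
    by_cases c : x = x'
    · subst c; simp [KN, dk, v]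
    · rw [diagonal_apply_ne _ c, KN, of_apply]
      split_ifs with c1
      · rw [dk, if_neg fun c2 => c (Subtype.ext (Prod.ext c1 (Subtype.ext c2))), mul_zero]
      · rfl
  have cd : (Fintype.card (sp B col W).N : ℝ) ≤ Fintype.card B.N * #W := by
    have : Fintype.card (sp B col W).N ≤ Fintype.card B.N * #W :=
      (Fintype.card_subtype_le _).trans (by
        rw [Fintype.card_prod, Fintype.card_coe]
        exact Nat.mul_le_mul_left _ card_erase_le)
    exact_mod_cast this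
  have hv : ∀ x, (Fintype.card (sp B col W).N + m + 1 : ℝ) ≤ v x := fun x =>
    le_trans (by linarith) (hκ _ (mem_of_mem_erase x.1.2.2)).1
  have v1 : ∀ x, 1 ≤ v x := fun x => n0 _ (mem_of_mem_erase x.1.2.2)
  have v0 : ∀ x, 0 < v x := fun x => zero_lt_one.trans_le (v1 x)
  have mem : ∀ a, (B.wd a).mapDomain lt ∈ W.erase 0 := fun a => mem_erase.2 ⟨fun z => bo.ok.ne a
    (Finsupp.mapDomain_injective hl (z.trans Finsupp.mapDomain_zero.symm)), (hW a).1⟩
  let j' : B.N → (sp B col W).N := fun a => ⟨(a, ⟨_, mem a⟩),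
    Finsupp.mapDomain_comp.symm.trans (md_eq (col := col ∘ lt) (hW a).2)⟩
  let lm : VV T.C σ → VV T.C τ := fun v => (v.1, v.2.mapDomain lt)
  have hj' : Function.Injective j' := fun a b c => congrArg (fun x => x.1.1) c
  have hΘ : ∀ a, (sp B col W).Θ (j' a) = rename (Sum.map id j') ((I2.rn B lm).Θ a) := fun a => by
    change aeval (S₁ := MvPolynomial (VV T.C τ ⊕ (sp B col W).N) ℝ) _ (B.Θ a) =
      rename _ (rename (Sum.map lm id) (B.Θ a))
    rw [rename_rename, rename_eq_aeval]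
    refine eval₂Hom_congr' rfl (fun x hx _ => ?_) rfl
    have k := I2.sw_lt hl (bo.sq a) (hW a).2 (wt_le (bo.ok.hom a) hx)
    cases x with
    | inl x => exact congrArg (fun μ => X (Sum.inl (x.1, μ))) k
    | inr b =>
      have k' : sw col ((B.wd a).mapDomain lt) (B.wd b) = (B.wd b).mapDomain lt := k
      refine (dif_pos ⟨k'.symm ▸ mem b, by rw [k']; exact (j' b).2⟩).trans ?_
      exact congrArg (fun x => X (Sum.inr x)) (Subtype.ext (Prod.ext rfl (Subtype.ext k')))
  let β : (VV T.C σ → ℝ) → ℝ := fun z => bw B (v ∘ j') z (B.om z)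
  have β0 : ∀ z, 1 / 3 ^ Fintype.card B.N ≤ β z := fun z => by
    rw [← _root_.one_div_pow, ← card_univ, ← prod_const]
    refine prod_le_prod (fun _ _ => by norm_num) fun a _ => ?_
    have h1 : ((B.om z a : ℝ) - eval (Sum.elim z fun a => (B.om z a : ℝ)) (B.Θ a)) ^ 2 ≤
        (1 / 2) ^ 2 := by
      rw [← sq_abs, abs_sub_comm]
      exact pow_le_pow_left₀ (abs_nonneg _) (bo.ok.tri.abs_le z a) 2
    have h2 := (div_le_self (sq_nonneg _) (v1 (j' a))).trans h1
    have h3 : Real.exp (-1) ≤ Real.exp (-Real.pi * (((B.om z a : ℝ) -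
        eval (Sum.elim z fun a => (B.om z a : ℝ)) (B.Θ a)) ^ 2 / v (j' a))) :=
      Real.exp_le_exp.2 (by nlinarith [Real.pi_le_four, Real.pi_pos])
    refine le_trans ?_ h3
    rw [Real.exp_neg, one_div]
    exact inv_anti₀ (Real.exp_pos 1) (by linarith [Real.exp_one_lt_d9])
  have q0 : (0 : ℝ) < 1 / 3 ^ Fintype.card B.N := by positivity
  have βp : ∀ z, 0 < β z := fun z => q0.trans_le (β0 z)
  have c0 : ∀ z, 0 ≤ 1 / 3 ^ Fintype.card B.N / β z ∧ 1 / 3 ^ Fintype.card B.N / β z ≤ 1 :=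
    fun z => ⟨div_nonneg q0.le (βp z).le, (div_le_one (βp z)).2 (β0 z)⟩
  refine ⟨fun z => 1 / 3 ^ Fintype.card B.N / β z, c0, fun z z' e => ?_, ?_⟩
  · refine congrArg _ (prod_congr rfl fun a _ => ?_)
    have e' : ∀ c : VV T.C σ, c.2 ≠ 0 → c.2 ≤ B.wd a → z c = z' c := fun c _ k => e c.1 c.2 a k
    rw [bo.ok.om_congr e' a le_rfl]
    exact congrArg (fun t => Real.exp (-Real.pi * ((B.om z' a - t) ^ 2 / _)))
      (bo.ok.ev_congr e' (bo.ok.hom a) (bo.ok.live a))
  have rz : ∀ y : (cE s T B w).Cw (MR col W (dk κ)) → ℤ,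
      res s T B w col W _ (zc y) = zc (res s T B w col W _ y) := fun y => by
    funext p; simp [res, ex, zc]
  have ez : ∀ (y : (cE s T B w).Cw (MR col W (dk κ)) → ℤ) a,
      ex _ _ (fm s T B w) y (.inr a, (B.wd a).mapDomain lt) = nw s T B w col W _ y (j' a) := fun y a => by
    refine sum_eq_single_of_mem _ (mem_filter.2 ⟨mem_univ _, rfl, rfl⟩) fun p hp c => ?_
    obtain ⟨⟨x | x, μ⟩, k⟩ := p
    · exact absurd (mem_filter.1 hp).2.1 Sum.inl_ne_inr
    · obtain ⟨k1, k2⟩ := (mem_filter.1 hp).2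
      exact absurd (Subtype.ext (Prod.ext (congrArg Sum.inr (Sum.inr_injective k1))
        (Subtype.ext k2))) c
  have r0 : ∀ x, 0 < √(v x) := fun x => Real.sqrt_pos.2 (v0 x)
  have p0 : 0 < ∏ a, √(v (j' a)) := prod_pos fun a _ => r0 _
  have p1 : ∏ a, √(v (j' a)) ≤ (2 ^ g) ^ Fintype.card B.N := by
    rw [← card_univ, ← prod_const]
    refine prod_le_prod (fun a _ => (r0 _).le) fun a _ => Real.sqrt_le_iff.2 ⟨by positivity, ?_⟩
    rw [← pow_mul, mul_comm g, pow_mul]
    norm_num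
    exact (hκ _ (hW a).1).2
  have key := core (Equiv.ofBijective _ bij) (f := (T.tw _ Ψ).wt)
    (h := fun y0 => bw (sp B col W) v (ex T _ id (zc y0)))
    (u := ((cE s T B w).tw _ (cT s T B w col W (dk κ) Ψ)).wt) (P := ∏ x, √(v x))
    (p := 1 / 3 ^ Fintype.card B.N / ∏ a, √(v (j' a))) (ε := 1 / 2 ^ m) (G := G)
    (c := fun y0 => 1 / 3 ^ Fintype.card B.N / β (ex T _ id (zc y0) ∘ lm))
    (i := fun y0 k => if k ∘ j' = B.om (ex T _ id (zc y0) ∘ lm) then 1 else 0)
    (F := fun y => G (res s T B w col W _ y) *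
      ((1 / 3 ^ Fintype.card B.N / β (ex T _ id (zc (res s T B w col W _ y)) ∘ lm) : ℝ) : ℂ) *
        if ∀ a, ex _ _ (fm s T B w) y (.inr a, (B.wd a).mapDomain lt) =
          B.om (ex T _ id (zc (res s T B w col W _ y)) ∘ lm) a then 1 else 0)
    (fun _ => Real.exp_pos _) (fun _ _ => prod_pos fun _ _ => Real.exp_pos _)
    (fun y => by
      rw [hw, hK, gs_diag v0]
      refine congrArg _ (prod_congr rfl fun x _ => ?_)
      have k := hu (zc y) x
      rw [rz] at k
      exact congrArg (fun t => Real.exp (-Real.pi * (t ^ 2 / v x))) k)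
    (fun y => by
      refine congrArg _ (if_congr ?_ rfl rfl)
      simp only [ez]
      exact funext_iff.symm)
    (prod_pos fun x _ => r0 x) (by positivity) (by positivity)
    (div_le_one_of_le₀ (one_le_pow₀ one_le_two) (by positivity))
    (fun y0 => (wn _ _ _ v m _ bs.ok.tri hv).1) (fun y0 => (wn _ _ _ v m _ bs.ok.tri hv).2) hG
    (fun y0 => c0 _) (fun y0 k => by split_ifs <;> simp)
    (fun y0 => by
      have h1 := ws _ _ _ (sp B col W) (I2.rn B lm) j' v m (ex T _ id (zc y0))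
        (fun k => if k = B.om (ex T _ id (zc y0) ∘ lm) then 1 else 0) bs.ok.tri
        (I2.rn_tri B lm bo.ok.tri) hj' hΘ hv fun k => by split_ifs <;> simp
      rw [tsum_eq_single (f := fun k => (bw (I2.rn B lm) (v ∘ j') (ex T _ id (zc y0)) k : ℂ) *
        if k = B.om (ex T _ id (zc y0) ∘ lm) then 1 else 0) (B.om (ex T _ id (zc y0) ∘ lm))
        fun k hk => by rw [if_neg hk, mul_zero], if_pos rfl, mul_one,
        I2.rn_bw] at h1
      have h2 : ((1 / 3 ^ Fintype.card B.N / ∏ a, √(v (j' a)) : ℝ) : ℂ) =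
          (1 / 3 ^ Fintype.card B.N / β (ex T _ id (zc y0) ∘ lm) : ℝ) *
            ((β (ex T _ id (zc y0) ∘ lm) : ℂ) / (∏ a, √(v (j' a)) : ℝ)) := by
        rw [← Complex.ofReal_div, ← Complex.ofReal_mul, div_mul_div_cancel₀ (βp _).ne']
      rw [h2, ← mul_sub, norm_mul, Complex.norm_real, Real.norm_of_nonneg (c0 _).1, mul_one_div]
      exact (mul_le_of_le_one_left (norm_nonneg _) (c0 _).2).trans h1)
  refine le_trans ?_ key
  rw [mul_one_div]
  refine sub_le_sub_right ?_ _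
  have n1 := norm_nonneg ((T.tw _ Ψ).Ec G)
  calc _ = 1 / 3 ^ Fintype.card B.N / (2 ^ g) ^ Fintype.card B.N * ‖(T.tw _ Ψ).Ec G‖ / 2 := by
        rw [mul_pow]; field_simp
    _ ≤ 1 / 3 ^ Fintype.card B.N / (∏ a, √(v (j' a))) * ‖(T.tw _ Ψ).Ec G‖ / 2 := by gcongr
    _ = _ := rfl

end Crest.Agent.N49.Sw

end
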