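import Crest.Agent.N49.Sw.Df5
import Crest.Agent.N49.Sw.Rtr

/-!
# Row 49 (helper17): merging two letters in a symbol (`MRI`)
-/

set_option autoImplicit false

open Matrix MvPolynomial Finset

noncomputable section

namespace Crest.Agent.N49.Sw

open Po Tw Sd Sy

namespace Mi

section
variable {τ : Type} [DecidableEq τ] {x t : τ}

theorem f_iff {m β : τ →₀ ℕ} (n : t ≠ x) (hx : β x = 0) (ht : β t = 0) (i j : ℕ) :
    m = β + Finsupp.single x i + Finsupp.single t j ↔
      (∀ a, a ≠ x → a ≠ t → m a = β a) ∧ m x = i ∧ m t = j := by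
  refine ⟨fun e => ?_, fun ⟨a, b, c⟩ => Finsupp.ext fun z => ?_⟩
  · subst e
    exact ⟨fun a p q => by simp [p, q], by simp [hx, n.symm], by simp [ht, n]⟩
  · by_cases p : z = x
    · subst p; simp [hx, n.symm, b]
    by_cases q : z = t
    · subst q; simp [ht, n, c]
    · simp [p, q, a z p q]

theorem md_eq (m : τ →₀ ℕ) :
    m.mapDomain (Function.update id t x) = m.erase t + Finsupp.single x (m t) := by
  conv_lhs => rw [← Finsupp.erase_add_single t m]
  rw [Finsupp.mapDomain_add, Finsupp.mapDomain_single, Function.update_self,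
    Finsupp.mapDomain_congr (g := id) fun a k => Function.update_of_ne
      (fun e : a = t => Finsupp.mem_support_iff.1 k (by rw [e, Finsupp.erase_same])) _ _,
    Finsupp.mapDomain_id]

theorem three {β : τ →₀ ℕ} (n : t ≠ x) (hx : β x = 0) (ht : β t = 0) (R : MvPolynomial τ ℝ) :
    coeff (β + Finsupp.single x 2 + Finsupp.single t 0) (rename (Function.update id t x) R) =
      coeff (β + Finsupp.single x 1 + Finsupp.single t 1) R +
      coeff (β + Finsupp.single x 0 + Finsupp.single t 2) R +
      coeff (β + Finsupp.single x 2 + Finsupp.single t 0) R := by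
  induction R using MvPolynomial.induction_on' with
  | add p q a b => simp only [map_add, coeff_add, a, b]; ring
  | monomial m c =>
    have e : (∀ a, a ≠ x → a ≠ t → (m.erase t + Finsupp.single x (m t) : τ →₀ ℕ) a = β a) ↔
        ∀ a, a ≠ x → a ≠ t → m a = β a := forall₃_congr fun a p q => by simp [p, q]
    have e1 : (m.erase t + Finsupp.single x (m t) : τ →₀ ℕ) x = m x + m t := by simp [n.symm]
    have e2 : (m.erase t + Finsupp.single x (m t) : τ →₀ ℕ) t = 0 := by simp [n]
    classical
    have g : ∀ (m : τ →₀ ℕ) i j, coeff (β + Finsupp.single x i + Finsupp.single t j) (monomial m c) =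
        if (∀ a, a ≠ x → a ≠ t → m a = β a) ∧ m x = i ∧ m t = j then c else 0 := fun m i j => by
      rw [coeff_monomial, if_congr (f_iff n hx ht i j) rfl rfl]
    rw [rename_monomial, md_eq, g, g, g, g]
    simp only [e, e1, e2, and_true]
    by_cases k : ∀ a, a ≠ x → a ≠ t → m a = β a
    · simp only [eq_true k, true_and]
      split_ifs <;> first | omega | simp
    · simp only [eq_false k, false_and, if_false, add_zero]

theorem ren_hc (f : τ → τ) (n : ℕ) (D : MvPolynomial τ ℤ) :
    rename f (homogeneousComponent n D) = homogeneousComponent n (rename f D) := by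
  have h : ∀ (m : τ →₀ ℕ) (c : ℤ), homogeneousComponent n (monomial m c) =
      if m.degree = n then monomial m c else 0 := fun m c => by
    ext ν
    rw [coeff_homogeneousComponent, apply_ite (coeff ν), coeff_monomial, coeff_zero]
    by_cases k : m = ν
    · rw [k]
    · simp [k]
  induction D using MvPolynomial.induction_on' with
  | add p q a b => simp only [map_add, a, b]
  | monomial m c =>
    rw [rename_monomial, h, h, degree_col, apply_ite (rename f), rename_monomial, map_zero]
end

variable {τ : Type} [Fintype τ] [DecidableEq τ] {s : ℕ} {κ : ℝ} {T : TS Unit}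

/-- the polynomial of a family -/
def Yz (y : T.Cw (FO τ (fun _ => ()) s κ) → ℤ) (F : T.C) : MvPolynomial (Option τ) ℤ :=
  ∑ p : T.Cw (FO τ (fun _ => ()) s κ) with p.1.1 = F, monomial p.1.2.1 (y p)

theorem cf_Yz (y : T.Cw (FO τ (fun _ => ()) s κ) → ℤ) (F : T.C) (ν : Option τ →₀ ℕ) :
    coeff ν (Yz y F) = ex T _ id y (F, ν) := by
  simp only [Yz, ex, coeff_sum, coeff_monomial, sum_filter, ite_and, apply_ite (coeff ν),
    coeff_zero]
  rfl

theorem cf_Yr (y : T.Cw (FO τ (fun _ => ()) s κ) → ℤ) (F : T.C) (ν : Option τ →₀ ℕ) :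
    coeff ν (Md.zr (Yz y F)) = ex T _ id (zc y) (F, ν) := by
  rw [coeff_map, cf_Yz]
  exact Int.cast_sum _ _

theorem blind (P : MvPolynomial T.C ℝ) {a : Option τ} {ν : Option τ →₀ ℕ} (h : ν a = 0) :
    Bl T (FO τ (fun _ => ()) s κ) a fun y => ee (-coeff ν (aeval (fun F => Md.zr (Yz y F)) P)) :=
  fun y y' e => congrArg (fun r => ee (-r)) (Dg.Cg.aeval (w := ν) (fun F μ k => by
    rw [coeff_map, coeff_map, cf_Yz, cf_Yz]
    exact congrArg _ (sum_congr rfl fun p m => e p (by
      rw [(mem_filter.1 m).2.2]; exact Nat.le_zero.1 (h ▸ k a)))) P ν le_rfl)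

theorem Yz_sub (hs : ∀ F, T.lev F ≤ s) {y y' : T.Cw (FO τ (fun _ => ()) s κ) → ℤ}
    {D : T.C → MvPolynomial (Option τ) ℤ} (h0 : ∀ F, coeff 0 (D F) = 0)
    (h : ∀ p, y p - y' p = coeff p.1.2.1 (D p.1.1)) (F : T.C) :
    Yz y F - Yz y' F = homogeneousComponent (T.lev F) (D F) := by
  ext ν
  rw [coeff_sub, cf_Yz, cf_Yz, coeff_homogeneousComponent, ex, ex, ← sum_sub_distrib]
  by_cases k : ν.degree = T.lev F ∧ ν ≠ 0
  · let p : T.Cw (FO τ (fun _ => ()) s κ) := ⟨(F, ⟨ν, mem_erase.2 ⟨k.2,
      mem_full.2 (k.1 ▸ hs F)⟩⟩), unit_ext ((degree_col _ _).trans k.1)⟩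
    rw [if_pos k.1, sum_eq_single_of_mem p (mem_filter.2 ⟨mem_univ _, rfl, rfl⟩) fun q m n =>
      absurd (Subtype.ext (Prod.ext (mem_filter.1 m).2.1 (Subtype.ext (mem_filter.1 m).2.2))) n]
    exact h p
  · rw [sum_eq_zero fun p m => (k ?_).elim]
    · split_ifs with z
      · rw [not_not.1 fun n => k ⟨z, n⟩, h0]
      · rfl
    have a : p.1.1 = F := (mem_filter.1 m).2.1
    have b : p.1.2.1 = ν := (mem_filter.1 m).2.2
    exact ⟨b ▸ a ▸ (degree_col _ _).symm.trans (congrArg Finsupp.degree p.2),
      b ▸ (mem_erase.1 p.1.2.2).1⟩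

end Mi

open Mi in
theorem mri : MRI := by
  intro τ _ _ s κ T x t P U hs hx ht n
  have n' : some t ≠ some x := fun e => n (Option.some.inj e)
  obtain ⟨β, hβ⟩ : ∃ β, β = (((ind U).mapDomain some).erase (some x)).erase (some t) := ⟨_, rfl⟩
  have bx : β (some x) = 0 := by rw [hβ, Finsupp.erase_ne n'.symm, Finsupp.erase_same]
  have bt : β (some t) = 0 := by rw [hβ, Finsupp.erase_same]
  have e : (ind U).mapDomain some = β + Finsupp.single (some x) 1 + Finsupp.single (some t) 1 :=
    (f_iff n' bx bt 1 1).2 ⟨fun a p q => by rw [hβ, Finsupp.erase_ne q, Finsupp.erase_ne p],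
      by rw [Finsupp.mapDomain_apply (Option.some_injective _), ind_apply, if_pos hx],
      by rw [Finsupp.mapDomain_apply (Option.some_injective _), ind_apply, if_pos ht]⟩
  refine ⟨fun y => coeff (β + Finsupp.single (some x) 2 + Finsupp.single (some t) 0)
    (rename (Function.update id (some t) (some x)) (aeval (fun F => Md.zr (Yz y F)) P)), _, _,
    fun y y' ⟨Q, hQ⟩ => ?_,
    blind P (ν := β + Finsupp.single (some x) 0 + Finsupp.single (some t) 2) (by simp [bx, n'.symm]),
    blind P (ν := β + Finsupp.single (some x) 2 + Finsupp.single (some t) 0) (by simp [bt, n']),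
    fun y => ?_⟩
  · have k : ∀ F, rename (Function.update id (some t) (some x)) (Md.zr (Yz y F)) =
        rename (Function.update id (some t) (some x)) (Md.zr (Yz y' F)) := fun F => by
      have z : ∑ a, dxt x t a • (X a : MvPolynomial (Option τ) ℤ) = X (some x) - X (some t) := by
        simp [dxt, sub_smul, sum_sub_distrib, Pi.single_apply]
      rw [← map_rename, ← map_rename]
      refine congrArg _ (sub_eq_zero.1 ?_)
      rw [← map_sub, Yz_sub hs (D := fun F => (∑ a, dxt x t a • X a) * Q F) (fun F => ?_) hQ,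
        ren_hc, z, map_mul, map_sub, rename_X, rename_X, Function.update_self,
        Function.update_of_ne n'.symm, id, sub_self, zero_mul, map_zero]
      rw [z, ← constantCoeff_eq]
      simp
    beta_reduce
    rw [← AlgHom.comp_apply, ← AlgHom.comp_apply, comp_aeval, comp_aeval, funext k]
  · beta_reduce
    rw [three n' bx bt, ← e, ← Dg.sv_eq P fun F ν _ => cf_Yr y F ν,
      Rt.sv_md (Option.some_injective _) P (ind U) (z' := uo T id (zc y)) fun _ _ _ => rfl]
    ring

end Crest.Agent.N49.Sw

end
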