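import Crest.Agent.N49.Sw.Df3
import Crest.Agent.N49.Sw.Inb
import Crest.Agent.N49.Tn.Fub

/-!
# Row 49 (helper95): the marginal of the wide tower on the old families
-/

set_option autoImplicit false

open Matrix MvPolynomial Finset

noncomputable section

namespace Crest.Agent.N49.Sw

open Po Tw Sd TS

namespace Mp

theorem core {X Y : Type} [Nonempty X] {f : X → ℝ} {h : X → Y → ℝ} {c η : ℝ} {g : X → ℂ}
    (f0 : ∀ x, 0 < f x) (h0 : ∀ x y, 0 ≤ h x y) (sf : Summable f) (sh : ∀ x, Summable (h x))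
    (c0 : 0 < c) (b : ∀ x, |∑' y, h x y - c| ≤ η * c) (hg : ∀ x, ‖g x‖ ≤ 1) :
    ‖(∑' p : X × Y, ((f p.1 * h p.1 p.2 : ℝ) : ℂ) * g p.1) /
      (∑' p : X × Y, f p.1 * h p.1 p.2 : ℝ) - (∑' x, (f x : ℂ) * g x) / (∑' x, f x : ℝ)‖ ≤
      2 * η := by
  obtain ⟨s, b1⟩ := Wn.split (fun x => (f0 x).le) h0 sf sh b
  have b2 := b1 1 fun _ => norm_one.le
  have b3 := b1 g hg
  simp only [Pi.one_apply, mul_one] at b2
  rw [← Complex.ofReal_tsum, ← Complex.ofReal_tsum] at b2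
  have Z0 : 0 < c * ∑' x, f x :=
    mul_pos c0 (sf.tsum_pos (fun x => (f0 x).le) (Classical.arbitrary X) (f0 _))
  have u0 : ∀ p : X × Y, 0 ≤ f p.1 * h p.1 p.2 := fun p => mul_nonneg (f0 _).le (h0 _ _)
  have a : ‖∑' p : X × Y, ((f p.1 * h p.1 p.2 : ℝ) : ℂ) * g p.1‖ ≤ ∑' p : X × Y, f p.1 * h p.1 p.2 :=
    tsum_of_norm_bounded s.hasSum fun p => by
      rw [norm_mul, Complex.norm_real, Real.norm_of_nonneg (u0 p)]
      exact mul_le_of_le_one_right (u0 p) (hg _)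
  have a' := div_le_one_of_le₀ a (tsum_nonneg u0)
  rw [← Real.norm_of_nonneg (tsum_nonneg u0), ← Complex.norm_real, ← norm_div] at a'
  rw [← mul_div_mul_left _ ((∑' x, f x : ℝ) : ℂ) (Complex.ofReal_ne_zero.2 c0.ne')]
  rw [mul_assoc, ← Real.norm_of_nonneg Z0.le, ← Complex.norm_real, Complex.ofReal_mul] at b2 b3
  have n : (c : ℂ) * (∑' x, f x : ℝ) ≠ 0 := by exact_mod_cast Z0.ne'
  have z : ((∑' p : X × Y, f p.1 * h p.1 p.2 : ℝ) : ℂ) = 0 →
      ∑' p : X × Y, ((f p.1 * h p.1 p.2 : ℝ) : ℂ) * g p.1 = 0 := fun e =>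
    norm_le_zero_iff.1 (a.trans_eq (Complex.ofReal_eq_zero.1 e))
  generalize (c : ℂ) * (∑' x, f x : ℝ) = Z' at *
  generalize (c : ℂ) * ∑' x, (f x : ℂ) * g x = A' at *
  generalize ((∑' p : X × Y, f p.1 * h p.1 p.2 : ℝ) : ℂ) = Z at *
  generalize ∑' p : X × Y, ((f p.1 * h p.1 p.2 : ℝ) : ℂ) * g p.1 = A at *
  have e : A / Z - A' / Z' = ((A - A') - A / Z * (Z - Z')) / Z' := by
    by_cases k : Z = 0
    · simp [k, z k, neg_div]
    · field_simp; ring
  rw [e, norm_div, div_le_iff₀ (norm_pos_iff.2 n)]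
  refine (norm_sub_le _ _).trans ?_
  rw [norm_mul]
  nlinarith [mul_le_of_le_one_left (norm_nonneg (Z - Z')) a']

variable {τ : Type} {T : TS Unit} {P : Bk T.C Unit} {w : ℝ} {S : Sh Unit τ}

variable (P S) in
/-- the pending coordinates -/
abbrev Nc : Type := {x : P.N × S.W // S.cd x.2 = P.wd x.1}

variable (P w S) in
/-- old and pending coordinates -/
def eX : T.Cw S ⊕ Nc P S ≃ (xw T P w).Cw S where
  toFun := Sum.elim (fun p => ⟨(.inl p.1.1, p.1.2), p.2⟩) fun x => ⟨(.inr x.1.1, x.1.2), x.2⟩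
  invFun
    | ⟨(.inl c, u), k⟩ => .inl ⟨(c, u), k⟩
    | ⟨(.inr a, u), k⟩ => .inr ⟨(a, u), k⟩
  left_inv := by rintro (_ | _) <;> rfl
  right_inv := by rintro ⟨⟨_ | _, _⟩, _⟩ <;> rfl

theorem Yw_inl (y : (xw T P w).Cw S → ℝ) (F : T.C) :
    (xw T P w).Yw S y (.inl F) = T.Yw S (fun p => y (eX P w S (.inl p))) F :=
  (sum_of_injOn (fun p => eX P w S (.inl p))
    ((eX P w S).injective.comp Sum.inl_injective).injOn
    (fun p m => mem_flt.2 ⟨mem_univ _, congrArg Sum.inl (mem_flt.1 m).2⟩)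
    (fun q m n => by
      obtain ⟨q | q, rfl⟩ := (eX P w S).surjective q
      · exact absurd ⟨q, mem_coe.2 (mem_flt.2 ⟨mem_univ _, Sum.inl.inj (mem_flt.1 m).2⟩), rfl⟩ n
      · cases (mem_flt.1 m).2) fun _ _ => rfl).symm

theorem ev_congr {V R : Type} [CommRing R] {Q : MvPolynomial V R} {x x' : V → R}
    (h : ∀ v ∈ Q.vars, x v = x' v) : eval x Q = eval x' Q :=
  eval₂Hom_congr' rfl (fun v hv _ => h v hv) rfl

theorem Yw_congr {U : TS Unit} {y y' : U.Cw S → ℝ} {F : U.C} (h : ∀ q, q.1.1 = F → y q = y' q) :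
    U.Yw S y F = U.Yw S y' F := sum_congr rfl fun q m => by rw [h q (mem_filter.1 m).2]

/-- the centre of a pending coordinate -/
def ce (y : (xw T P w).Cw S → ℝ) (x : Nc P S) : ℝ :=
  S.cf ℝ x.1.2 (eval (σ := T.C ⊕ P.N) ((xw T P w).Yw S y) (map MvPolynomial.C (P.Θ x.1.1)))

theorem ce_tr (h : P.Tri) (b : T.Cw S → ℤ) : Wn.Tr (fun x : Nc P S => P.rk x.1.1)
    fun x k => ce (zc (smg (eX P w S) b k)) x := fun x k k' e => by
  refine congrArg (S.cf ℝ x.1.2) (ev_congr fun v hv => Yw_congr fun q m => ?_)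
  obtain ⟨q | q, rfl⟩ := (eX P w S).surjective q
  · simp only [zc, smg_inl]
  · subst m
    simp only [zc, smg_inr, e q (h _ _ (vars_map _ _ hv))]

theorem u_inl {Ψ : T.Twd S} {Ψ' : (xw T P w).Twd S}
    (h : ∀ F, Ψ' (.inl F) = rename (Sum.inl : T.C → (xw T P w).C) (Ψ F))
    (y : (xw T P w).Cw S → ℝ) (p : T.Cw S) : ((xw T P w).tw S Ψ').u y (eX P w S (.inl p)) =
      (T.tw S Ψ).u (fun p => y (eX P w S (.inl p))) p := by
  refine (tw_u _ _).trans (Eq.trans ?_ (tw_u _ p).symm)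
  refine congrArg (S.cf ℝ p.1.2) ((congrArg (eval _) (h p.1.1)).trans ?_)
  exact (eval_rename _ _ _).trans (congrArg (eval · (Ψ p.1.1)) (funext (Yw_inl y)))

theorem u_inr (o : S.Ok) {Ψ' : (xw T P w).Twd S}
    (h : ∀ a, Ψ' (.inr a) = map MvPolynomial.C ((xw T P w).Φ (.inr a)))
    (y : (xw T P w).Cw S → ℝ) (x : Nc P S) : ((xw T P w).tw S Ψ').u y (eX P w S (.inr x)) =
      y (eX P w S (.inr x)) - ce y x := by
  refine (tw_u _ _).trans ((congrArg (S.cf ℝ x.1.2) (?_ : _ = (xw T P w).Yw S y (.inr x.1.1) -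
    eval (σ := T.C ⊕ P.N) ((xw T P w).Yw S y) (map MvPolynomial.C (P.Θ x.1.1)))).trans
    ((map_sub _ _ _).trans (congrArg (· - _) (cf_Yw o y (eX P w S (.inr x))))))
  refine (congrArg (eval _) (h x.1.1)).trans ?_
  change eval (σ := T.C ⊕ P.N) _ (map MvPolynomial.C (X (Sum.inr x.1.1) - P.Θ x.1.1)) = _
  rw [map_sub, map_sub, map_X]
  exact congrArg (· - _) (eval_X _)

end Mp

theorem mp : MP := fun τ _ s M m T st P w W κ Ψ f hT hP w0 hW hΨ hv hf => by
  have v0 : ∀ μ ∈ W, 0 < w * κ μ := fun μ k => lt_of_lt_of_le (by positivity) (hv μ k)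
  have dK : (MR (fun _ => ()) W (dk κ)).K = diagonal fun u : Sh.MW W => κ u.1 :=
    Matrix.ext fun (u u' : Sh.MW W) => if_congr Subtype.ext_iff.symm rfl rfl
  have o : (MR (fun _ => ()) W (dk κ)).Ok := Sh.mono_ok hW (dK ▸ PosDef.diagonal fun u =>
    (pos_iff_pos_of_mul_pos (v0 _ (mem_of_mem_erase u.2))).1 w0) (Sh.dk_blk _)
  have t := tw_tri hT.stg.cl hΨ o
  let e := Mp.eX P w (MR (fun _ => ()) W (dk κ))
  have p0 : ∀ x : Mp.Nc P (MR (fun _ => ()) W (dk κ)), 0 < w * κ x.1.2.1 :=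
    fun x => v0 _ (mem_of_mem_erase x.1.2.2)
  have wt : ∀ b k, ((xw T P w).tw _ (xT T P w W (dk κ) Ψ)).wt (smg e b k) = (T.tw _ Ψ).wt b *
      ∏ x, Wn.g1 (w * κ x.1.2.1) (Mp.ce (zc (smg e b k)) x) (k x) := fun b k => by
    refine (gs_blocks e (u2 := fun x => k x - Mp.ce (zc (smg e b k)) x) t.pd
      (PosDef.diagonal p0) (Matrix.ext ?_) ?_).trans (congrArg _ (Ib.gs_diag p0 _))
    · rintro (p | x) (p' | x')
      · rfl
      · exact zero_mul _
      · exact zero_mul _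
      · change w * (if x.1.1 = x'.1.1 then 1 else 0) *
          (if x.1.2.1 = x'.1.2.1 then κ x.1.2.1 else 0) = if x = x' then w * κ x.1.2.1 else 0
        by_cases c : x = x'
        · simp [c]
        · rw [if_neg c]
          by_cases c' : x.1.1 = x'.1.1
          · rw [if_neg (c := x.1.2.1 = _) fun z => c (Subtype.ext (Prod.ext c' (Subtype.ext z))),
              mul_zero]
          · rw [if_neg c', mul_zero, zero_mul]
    · rintro (p | x)
      · exact (Mp.u_inl (fun _ => rfl) _ p).trans (congrArg ((T.tw _ Ψ).u · p)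
          (funext fun p => congrArg Int.cast (smg_inl e b k p)))
      · exact (Mp.u_inr o (fun _ => rfl) _ x).trans
          (congrArg (· - _) (congrArg Int.cast (smg_inr e b k x)))
  have k := fun b : T.Cw (MR (fun _ => ()) W (dk κ)) → ℤ => Wn.tri
    (N := Mp.Nc P (MR (fun _ => ()) W (dk κ))) (c := Fintype.card P.N * #W) (m := m)
    (v := fun x => w * κ x.1.2.1)
    ((Fintype.card_subtype_le _).trans ((Fintype.card_prod _ _).trans_le (Nat.mul_le_mul_left _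
      ((Fintype.card_coe _).trans_le card_erase_le)))) (Mp.ce_tr (w := w) hP.ok.tri b)
    fun x => by push_cast; exact hv _ (mem_of_mem_erase x.1.2.2)
  have := Mp.core (wt_pos _) (fun b k => prod_nonneg fun x _ => (Wn.g1_pos _ _ _).le) t.summable
    (fun b => (k b).1) (prod_pos fun x _ => Real.sqrt_pos.2 (p0 x)) (fun b => (k b).2) hf
  refine le_trans (le_of_eq (congrArg (‖· - _‖) ?_)) (this.trans ?_)
  · exact congrArg₂ (fun (a : ℂ) (z : ℝ) => a / z) (((smgE e).tsum_eq _).symm.trans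
      (tsum_congr fun p => congrArg₂ (· * ·) (congrArg _ (wt p.1 p.2))
        (congrArg f (funext (smg_inl e p.1 p.2)))))
      (((smgE e).tsum_eq _).symm.trans (tsum_congr fun p => wt p.1 p.2))
  · rw [mul_one_div]; gcongr; norm_num

end Crest.Agent.N49.Sw

end
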