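import Crest.Agent.N49.Sw.Df3
import Crest.Agent.N49.Sw.Cola

/-!
# Row 49 (helper80): the tower with wide pending families is staged (`XWA`)
-/

set_option autoImplicit false

open Matrix MvPolynomial Finset

noncomputable section

namespace Crest.Agent.N49.Sw

open Po Tw Sd

namespace Xa

variable {s M : ℕ} {T : TS Unit} {st : T.C → ℕ} {P : Bk T.C Unit} {w : ℝ}

theorem ok (h : Tb T st M s) (hP : Pb T P s) (hw : 0 < w) : (xw T P w).Ok :=
  Ca.ok_xt h.ok P.rk hP.ok.tri hP.ok.ne hP.ok.hom hw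

theorem stg (h : Tb T st M s) (hP : Pb T P s) (hw : 0 < w) :
    (xw T P w).Stg (xst T P w s st M) (M * (s + 1) ^ s) :=
  Ca.stg_xt h.ok h.stg h.lev h.one P.rk hP.ok.tri hP.ok.ne hP.ok.hom hw _ (fun _ => rfl) hP.lv

theorem tb (h : Tb T st M s) (hP : Pb T P s) (hw : 0 < w) :
    Tb (xw T P w) (xst T P w s st M) (M * (s + 1) ^ s) s :=
  ⟨ok h hP hw, stg h hP hw, fun c => by
    rcases c with c | a
    exacts [h.lev c, hP.lv a], h.one.trans (Nat.le_mul_of_pos_right _ (by positivity))⟩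

variable {τ : Type} [DecidableEq τ] {W : Finset (τ →₀ ℕ)} {K : Kn τ}

theorem adm (h : Tb T st M s) (hP : Pb T P s) (hw : 0 < w)
    {Ψ : T.Twd (MR (fun _ => ()) W K)} (hΨ : T.Adm _ st Ψ) :
    (xw T P w).Adm _ (xst T P w s st M) (xT T P w W K Ψ) := by
  have o := ok h hP hw
  have a0 := (stg h hP hw)
  have lv : ∀ c m, coeff m ((xw T P w).Φ c) ≠ 0 →
      Finsupp.weight (xw T P w).lev m = (xw T P w).lev c := fun c m z => by
    rw [TS.weight_lev, o.hom c z]; rfl
  have i : Function.Injective (Sum.inl : T.C → (xw T P w).C) := Sum.inl_injective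
  have w1 : ∀ u : T.C →₀ ℕ, Finsupp.weight (xw T P w).lev (u.mapDomain Sum.inl) =
      Finsupp.weight T.lev u := fun u => TS.weight_map _ _ _
  have w2 : ∀ u : T.C →₀ ℕ, Finsupp.weight (xst T P w s st M) (u.mapDomain Sum.inl) =
      Finsupp.weight st u := fun u => TS.weight_map _ _ _
  have c1 : ∀ c (u : T.C →₀ ℕ), coeff (u.mapDomain Sum.inl) (xT T P w W K Ψ (.inl c)) =
      coeff u (Ψ c) := fun c u => coeff_rename_mapDomain _ i _ _
  have c2 : ∀ c (u : T.C →₀ ℕ), coeff (u.mapDomain Sum.inl) ((xw T P w).Φ (.inl c)) =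
      coeff u (T.Φ c) := fun c u => coeff_rename_mapDomain _ i _ _
  have c3 : ∀ a m, coeff m (xT T P w W K Ψ (.inr a)) =
      MvPolynomial.C (coeff m ((xw T P w).Φ (.inr a))) := fun a m => coeff_map _ _ _
  have c0 : ∀ c (m : (xw T P w).C →₀ ℕ), (∃ u : T.C →₀ ℕ, m = u.mapDomain Sum.inl) ∨
      coeff m (xT T P w W K Ψ (.inl c)) = 0 ∧ coeff m ((xw T P w).Φ (.inl c)) = 0 := fun c m => by
    by_cases e : ∃ u : T.C →₀ ℕ, m = u.mapDomain Sum.inl
    · exact .inl e
    · exact .inr ⟨coeff_rename_eq_zero _ _ m fun u k => absurd ⟨u, k.symm⟩ e,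
        coeff_rename_eq_zero _ _ m fun u k => absurd ⟨u, k.symm⟩ e⟩
  refine ⟨fun c m => ?_, fun c m hm => ?_, fun c m e => ?_⟩ <;> rcases c with c | a
  · rcases c0 c m with ⟨u, rfl⟩ | z
    · exact (congrArg₂ (IsWeightedHomogeneous _ · <| T.lev c - ·) (c1 c u) (w1 u)).mpr (hΨ.gr c u)
    · exact (congrArg (IsWeightedHomogeneous _ · _) z.1).mpr (isWeightedHomogeneous_zero _ _ _)
  · refine (congrArg (IsWeightedHomogeneous _ · _) (c3 a m)).mpr ?_
    by_cases z : coeff m ((xw T P w).Φ (.inr a)) = 0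
    · exact (congrArg (IsWeightedHomogeneous _ · _) ((congrArg _ z).trans (map_zero _))).mpr
        (isWeightedHomogeneous_zero _ _ _)
    · exact (congrArg (IsWeightedHomogeneous _ _) (Nat.sub_eq_zero_of_le (lv _ m z).ge)).mpr
        (isWeightedHomogeneous_C _ _)
  · rcases c0 c m with ⟨u, rfl⟩ | z
    · have := hΨ.le c u (mem_support_iff.2 fun z => mem_support_iff.1 hm ((c1 c u).trans z))
      exact ⟨(w1 u).trans_le this.1, (w2 u).trans_le this.2⟩
    · exact absurd z.1 (mem_support_iff.1 hm)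
  · have z : coeff m ((xw T P w).Φ (.inr a)) ≠ 0 := fun z =>
      mem_support_iff.1 hm ((c3 a m).trans ((congrArg _ z).trans (map_zero _)))
    exact ⟨(lv _ m z).le, a0.wt _ (mem_support_iff.2 z)⟩
  · rcases c0 c m with ⟨u, rfl⟩ | z
    · exact (c1 c u).trans ((hΨ.top c u ((w1 u).symm.trans e)).trans (congrArg _ (c2 c u).symm))
    · exact z.1.trans ((congrArg _ z.2).trans (map_zero _)).symm
  · exact c3 a m

theorem xT_tw0 (h : Tb T st M s) (hP : Pb T P s) (hw : 0 < w) :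
    xT T P w W K (T.tw0 _) = (xw T P w).tw0 _ := funext fun c => by
  rw [Ca.tw0_ok (ok h hP hw)]
  rcases c with c | a
  · change rename Sum.inl (T.tw0 _ c) = map MvPolynomial.C (rename Sum.inl (T.Φ c))
    rw [Ca.tw0_ok h.ok, map_rename]
  · rfl

end Xa

theorem xwa : XWA := fun _ _ _ _ _ _ h hP hw =>
  ⟨Xa.tb h hP hw, fun _ _ _ _ => ⟨fun _ hΨ => Xa.adm h hP hw hΨ, Xa.xT_tw0 h hP hw⟩⟩

end Crest.Agent.N49.Sw

end
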