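import Crest.Agent.N49.Sw.Cols
import Crest.Agent.N49.Sw.Df3

/-!
# Row 49 (helper63): wide pending families keep the regularity (port of helper91's `ex_bar`)
-/

set_option autoImplicit false

open Matrix MvPolynomial Finset

noncomputable section

namespace Crest.Agent.N49.Sw

open Po Tw Sd TS Nold

namespace Xs

variable {s M n : ℕ} {T : TS Unit} {st : T.C → ℕ} {P : Bk T.C Unit} {w : ℝ}

theorem lt_st (h : Tb T st M s) (o : Pb T P s) (a : P.N) :
    M < M * (s + 1) ^ (P.wd a).degree := by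
  have a1 : (P.wd a).degree ≠ 0 := fun e => o.ok.ne a ((Finsupp.degree_eq_zero_iff _).1 e)
  have a2 := o.lv a
  have a3 : s + 1 ≤ (s + 1) ^ (P.wd a).degree := Nat.le_self_pow a1 _
  have := h.one
  nlinarith [Nat.pos_of_ne_zero a1]

theorem ex_xw (h : Tb T st M s) (o : Pb T P s) (hw : 0 < w) {M' : ℕ}
    (hb : Tb (xw T P w) (xst T P w s st M) M' s) (hn : Fintype.card P.N ≤ n) :
    Cq.Ex T (xw T P w) st (xst T P w s st M) M 1 n w := by
  have rg : ∀ c, xst T P w s st M c ≤ M → ∃ c', Sum.inl c' = c := by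
    rintro (c | a) e
    · exact ⟨c, rfl⟩
    · exact absurd e (not_le.2 (lt_st h o a))
  have m := mor_inj hb.stg.tri h.stg.tri Sum.inl 1
    (fun c => (stg_lev c).trans (stg_lev (T := xw T P w) (st := xst T P w s st M) (.inl c)).symm)
    (fun y c => (eval_rename Sum.inl (zc y) (T.Φ c)).symm.trans (one_mul _).symm) fun c c' => by
      rw [one_pow, one_mul]; rfl
  refine ⟨h.stg.tri, hb.stg.tri, fun t ht => ?_, fun t ht κ R τ hκ sy l col k k0 hk hR => ?_,
    Cq.new_gen P hw.le X (fun a => ?_) o.ok.tri (fun c => (h.stg.le c).1) hn hb.stg.tri⟩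
  · have := Cq.old_ct m fun c e => rg c (((stg_lev c).symm.trans e).trans_le ht)
    exact ⟨this.1.trans_eq (pow_one _).symm, this.2.trans_eq (mul_one _).symm⟩
  · have kr := fun c z => rg c ((hk c z).1.trans_le ht)
    let ι : T.Cw (Sh.sym col κ) → (xw T P w).Cw (Sh.sym col κ) :=
      fun p => ⟨(.inl p.1.1, p.1.2), p.2⟩
    have hi : Function.Injective ι := fun _ _ e => Subtype.ext (Prod.ext
      (Sum.inl_injective (congrArg (·.1.1) e)) (congrArg (·.1.2) e))
    have r1 : ∀ q : (xw T P w).Cw (Sh.sym col κ), (∃ c, Sum.inl c = q.1.1) → ∃ p, ι p = q := by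
      rintro ⟨⟨_, x⟩, e⟩ ⟨c, rfl⟩
      exact ⟨⟨(c, x), e⟩, rfl⟩
    refine (Cq.sbS_eq h.stg hb.stg hκ ι hi (fun _ => rfl) (fun y p => ?_) (fun _ _ => rfl)
      (fun q e => r1 q (rg _ (e.trans ht))) (fun c z => (hk c z).1)
      (k' := fun c => k (.inl c)) fun _ => rfl).trans_le (sy l col _ (fun z => k0 (funext fun c =>
        not_not.1 fun y => ?_)) (fun c z => hk (.inl c) z) (le_trans (le_of_eq ?_) hR))
    · refine (sh_u _ _).trans (Eq.trans ?_ (sh_u _ _).symm)
      rw [h.ok.hz _ 1, hb.ok.hz _ 1, hz_one, hz_one]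
      refine congrArg _ (Eq.trans ?_ (aeval_rename _ _ _).symm)
      refine congrArg (aeval · (T.Φ p.1.1)) (funext fun F => ?_)
      change T.Yw _ _ F = (xw T P w).Yw _ y (.inl F : (xw T P w).C)
      unfold Yw
      rw [sum_filter, sum_filter]
      refine Fintype.sum_of_injective ι hi _ _ (fun q e => if_neg fun z => e (r1 q ⟨F, z.symm⟩))
        fun q => ?_
      by_cases z : q.1.1 = F
      · exact (if_pos z).trans (if_pos (congrArg Sum.inl z)).symm
      · exact (if_neg z).trans (if_neg fun k => z (Sum.inl_injective k)).symm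
    · obtain ⟨c, rfl⟩ := kr c y
      exact y (congrFun z c)
    · exact (congrArg (qf · _) (Cq.mor_D m)).trans (Cq.qf_zc Sum.inl_injective _ kr)
  · have e : (Sum.elim (fun v => rename Sum.inl (X v)) fun a => X (Sum.inr a)) =
        (X : T.C ⊕ P.N → MvPolynomial (T.C ⊕ P.N) ℝ) := funext fun v => by cases v <;> simp
    rw [e, aeval_X_left_apply]; rfl

end Xs

/-- **wide pending families keep the regularity** -/
theorem xws (ha : XWA) : XWS := fun s M C' => by
  obtain ⟨C, c, r⟩ := Cq.rg_ext M (M * (s + 1) ^ s) C' 1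
    (Nat.le_mul_of_pos_right _ (by positivity)) le_rfl
  refine ⟨C, c, fun T st P w a η n h o hn n1 a0 a1 e0 e1 g hw => ?_⟩
  have w0 : 0 < w := (mul_pos_iff_of_pos_right a0).1 (lt_of_lt_of_le (by
    have := log_inv_nonneg e0 e1
    have := log_inv_nonneg a0 a1
    positivity) hw)
  exact r _ _ T _ st _ n w a η (Xs.ex_xw h o w0 (ha s M T st P w h o w0).1 hn) n1 a0 a1 e0 e1 g hw

end Crest.Agent.N49.Sw

end
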