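import Crest.Agent.N49.Sw.All
import Crest.Agent.N49.Sw.Cln
import Crest.Agent.N49.Sw.Cubf2
import Crest.Agent.N49.Sw.Desc
import Crest.Agent.N49.Sw.Dgu
import Crest.Agent.N49.Sw.Mp
import Crest.Agent.N49.Sw.Pmb
import Crest.Agent.N49.Sw.Rtr
import Crest.Agent.N49.Sw.Xwa
import Crest.Agent.N49.Sw.Xwl
import Crest.Agent.N49.Sw.Xws

/-!
# Row 49 (helper64): more leaves of the symmetrisation without hypotheses
-/

set_option autoImplicit false

namespace Crest.Agent.N49.Sw

theorem cubfA : CUBF := cubf2 msec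
theorem boxfA : BOXF := boxf cubfA
theorem colnA : COLN := colN cola colw
theorem xwsA : XWS := xws xwa
theorem pmbA : PMB := pmb xwa mp

end Crest.Agent.N49.Sw
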