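import Crest.Agent.N49.Sw.Df5
import Crest.Agent.N49.Sw.All2
import Crest.Agent.N49.Tw.Fin
import Crest.Agent.N49.Tw.Mono

/-!
# Row 49 (helper71): regularity of all the towers of a turn (leaf `REG`)
-/

set_option autoImplicit false

open Matrix MvPolynomial Finset

noncomputable section

namespace Crest.Agent.N49.Sw

open Po Tw Sd

namespace Rg0

theorem hf {a b : ℕ} (e : a ≤ b) : (1 : ℝ) / 2 ^ b ≤ 1 / 2 ^ a :=
  one_div_le_one_div_of_le (by positivity) (pow_le_pow_right₀ one_le_two e)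

/-- a number between `2 ^ -A` and `1` -/
def In (A : ℕ) (a : ℝ) : Prop := 1 / 2 ^ A ≤ a ∧ a ≤ 1

theorem In.pos {A : ℕ} {a : ℝ} (h : In A a) : 0 < a := lt_of_lt_of_le (by positivity) h.1

theorem In.hf (A : ℕ) : In A (1 / 2 ^ A) := ⟨le_rfl, by simpa using Rg0.hf (Nat.zero_le A)⟩

theorem In.log {A : ℕ} {a : ℝ} (h : In A a) : Real.log a⁻¹ ≤ A := by
  have : a⁻¹ ≤ 2 ^ A := by
    rw [inv_le_comm₀ h.pos (by positivity), ← one_div]; exact h.1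
  refine (Real.log_le_log (inv_pos.2 h.pos) this).trans ?_
  rw [Real.log_pow]
  have := Real.log_two_lt_d9
  nlinarith [(Nat.cast_nonneg A : (0 : ℝ) ≤ A)]

theorem In.mul {A E : ℕ} {a η : ℝ} (h : In A a) (k : In E η) : In (E + A) (η * a) :=
  ⟨by rw [pow_add, ← one_div_mul_one_div]; exact mul_le_mul k.1 h.1 (by positivity) k.pos.le,
    mul_le_one₀ k.2 h.pos.le h.2⟩

theorem In.div {A Z n c : ℕ} {a : ℝ} (h : In A a) (e : (n + 2) ^ c ≤ Z) :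
    In (A + Z) (a / (n + 2) ^ c) := by
  have p : (1 : ℝ) ≤ (n + 2) ^ c := one_le_pow₀ (by linarith [(Nat.cast_nonneg n : (0 : ℝ) ≤ n)])
  have q : ((n : ℝ) + 2) ^ c ≤ 2 ^ Z := by exact_mod_cast e.trans Nat.lt_two_pow_self.le
  refine ⟨?_, (div_le_self h.pos.le p).trans h.2⟩
  rw [pow_add, ← div_div]
  exact div_le_div₀ h.pos.le h.1 (by positivity) q

theorem In.pow {A Y Z : ℕ} {a : ℝ} (h : In A a) (e : Y ≤ Z) : In (A * Z) (a ^ Y) := by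
  refine ⟨(Rg0.hf (Nat.mul_le_mul_left A e)).trans ?_, pow_le_one₀ h.pos.le h.2⟩
  rw [pow_mul, one_div, ← inv_pow, ← one_div]
  exact pow_le_pow_left₀ (by positivity) h.1 _

theorem In.lg {A E Z n c : ℕ} {a η : ℝ} (h : In A a) (k : In E η) (e : (n + 2) ^ c ≤ Z) :
    ((n : ℝ) + 2) ^ c * (1 + Real.log η⁻¹ + Real.log a⁻¹) ≤ (Z * (1 + E + A) : ℕ) := by
  have q : ((n : ℝ) + 2) ^ c ≤ Z := by exact_mod_cast e
  have p : ∀ {B : ℕ} {b : ℝ}, In B b → 0 ≤ Real.log b⁻¹ := fun h =>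
    Real.log_nonneg ((one_le_inv₀ h.pos).2 h.2)
  push_cast
  exact mul_le_mul q (by linarith [h.log, k.log]) (by linarith [p h, p k]) (by positivity)

variable {σ : Type} [DecidableEq σ] {T : TS σ} {st : T.C → ℕ} {M C C' n β A E N h r : ℕ} {a η : ℝ}

theorem base (s : T.Stg st M) (g : T.RgS st M 1 β (1 / 2 ^ β) (1 / 2 ^ β)) (e : (n + 1) ^ C ≤ β)
    (ha : In A a) (hη : In E η) (e1 : A ≤ β) (e2 : E ≤ β) : T.RgS st M C n a η := by
  have k : ((n : ℝ) + 1) ^ C ≤ (β + 1) ^ 1 := by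
    rw [pow_one]; exact_mod_cast e.trans (Nat.le_succ β)
  refine g.mono'' s.tri (In.hf β).pos (In.hf β).2 le_rfl (by rwa [one_mul])
    (mul_le_mul k ((hf e1).trans ha.1) (by positivity) (by positivity)) ?_
  have := Real.log_le_log (inv_pos.2 hη.pos) (inv_anti₀ (In.hf β).pos ((hf e2).trans hη.1))
  linarith

theorem hh (m : MAST M C ∧ MARGT M C ∧ MARHT M C ∧ PTMT M C) (s : T.Stg st M)
    (g : T.RgS st M C' n a η) (p : 0 < η) (e : C ≤ C') (e1 : N ≤ n) (e2 : a ≤ 1 / 2 ^ h)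
    (e3 : η ≤ 1 / 2 ^ r) : HH T st N h r := by
  have k := g.mono s.tri p (e3.trans (In.hf r).2) e e1 e2 e3
  exact ⟨fun τ S Ψ x y => m.1 σ τ T S st Ψ _ _ _ ⟨s, x, (In.hf r).pos, (In.hf r).2, k, y⟩,
    fun τ τ' J _ _ S Ψ S' φ ψ N Q cj x y z => m.2.2.1 σ τ τ' J T S st Ψ _ _ _ S' φ ψ N Q cj
      ⟨s, x, (In.hf r).pos, (In.hf r).2, k, y⟩ z⟩

theorem wd {Z Y X c h : ℕ} {w y : ℝ} (e : (X ^ c * 2 ^ h : ℝ) ≤ w) (k : Y * Z ≤ X ^ c) (y0 : 0 < y)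
    (y1 : y ≤ Z) : (Y : ℝ) ≤ w * (1 / 2 ^ h / y) := by
  have : (Y : ℝ) * Z ≤ X ^ c := by exact_mod_cast k
  rw [← mul_div_assoc, le_div_iff₀ y0, mul_one_div, le_div_iff₀ (by positivity)]
  exact (mul_le_mul_of_nonneg_right ((mul_le_mul_of_nonneg_left y1 (Nat.cast_nonneg Y)).trans this)
    (by positivity)).trans e

theorem num {Z : ℕ} (z2 : 2 ≤ Z) : Z + Z + Z ≤ Z ^ 7 ∧ Z * (1 + Z + Z) * 1 ≤ Z ^ 7 ∧
    (Z + Z + Z) * Z ≤ Z ^ 7 ∧ ((Z + Z + Z) * Z + (Z + Z) + Z) * Z ≤ Z ^ 7 ∧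
    Z * (1 + (Z + Z + Z) * Z + (Z + Z)) * Z ≤ Z ^ 7 := by
  have z8 : 8 * Z ^ 4 ≤ Z ^ 7 := by
    have := Nat.pow_le_pow_left z2 3
    calc 8 * Z ^ 4 ≤ Z ^ 3 * Z ^ 4 := Nat.mul_le_mul_right _ this
      _ = Z ^ 7 := by ring
  have a1 : Z ≤ Z ^ 2 := Nat.le_self_pow two_ne_zero Z
  have a2 : Z ^ 2 ≤ Z ^ 3 := Nat.pow_le_pow_right (by omega) (by omega)
  have a3 : Z ^ 3 ≤ Z ^ 4 := Nat.pow_le_pow_right (by omega) (by omega)
  refine ⟨by omega, ?_, ?_, ?_, ?_⟩ <;> ring_nf <;> omega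

end Rg0

open Rg0 in
/-- **regularity of all the towers of a turn** -/
theorem reg : REG := by
  intro s M
  obtain ⟨C0, m0⟩ := mastA M
  obtain ⟨C1, m1⟩ := mastA (M * (s + 1) ^ s)
  obtain ⟨C2, m2⟩ := mastA (M * (s + 1) ^ s * (s + 1) ^ s)
  obtain ⟨Ca, ca, ha⟩ := colnA s (M * (s + 1) ^ s) C2
  obtain ⟨Cb, cb, hb⟩ := xwsA s M (Ca + C1)
  obtain ⟨Cc, cc, hc⟩ := colnA s M C1
  refine ⟨7 * (2 * (C0 + Cb + Cc + ca + cb + cc) + 1), fun σ _ _ T st P B B' w w' N h r β tb pb bo bo'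
    d d' cσ cP cB cB' hβ g hw hw' => ?_⟩
  have c1 : ((N + h + r + 2 : ℕ) : ℝ) = N + h + r + 2 := by push_cast; rfl
  rw [← c1] at hw hw'
  have e1 : N ≤ N + h + r + 2 := by omega
  have e2 : h ≤ N + h + r + 2 := by omega
  have e3 : r ≤ N + h + r + 2 := by omega
  have e4 : 2 ≤ N + h + r + 2 := by omega
  generalize N + h + r + 2 = X at hβ hw hw' e1 e2 e3 e4
  have u : ∀ i, i ≤ C0 + Cb + Cc + ca + cb + cc →
      (X + 2) ^ i ≤ X ^ (2 * (C0 + Cb + Cc + ca + cb + cc) + 1) := fun i k =>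
    (Nat.pow_le_pow_left (by nlinarith : X + 2 ≤ X ^ 2) i).trans (by
      rw [← pow_mul]; exact Nat.pow_le_pow_right (by omega) (by omega))
  have xz : X ≤ X ^ (2 * (C0 + Cb + Cc + ca + cb + cc) + 1) := Nat.le_self_pow (by omega) X
  rw [mul_comm 7, pow_mul] at hβ
  have z7 : X ^ (7 * (2 * (C0 + Cb + Cc + ca + cb + cc) + 1)) =
      (X ^ (2 * (C0 + Cb + Cc + ca + cb + cc) + 1)) ^ 7 := by rw [mul_comm 7, pow_mul]
  generalize 7 * (2 * (C0 + Cb + Cc + ca + cb + cc) + 1) = c at hw hw' z7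
  generalize X ^ (2 * (C0 + Cb + Cc + ca + cb + cc) + 1) = Z at hβ u xz z7
  have z2 : 2 ≤ Z := e4.trans xz
  obtain ⟨n1, n2, n3, n4, n5⟩ := num z2
  have v : ∀ i, i ≤ C0 + Cb + Cc + ca + cb + cc → (X + 1) ^ i ≤ β := fun i k =>
    ((Nat.pow_le_pow_left (Nat.le_succ _) i).trans (u i k)).trans (by omega)
  have w0 : ∀ {w : ℝ}, (X ^ c * 2 ^ h : ℝ) ≤ w → 0 < w := fun k =>
    lt_of_lt_of_le (mul_pos (pow_pos (by exact_mod_cast (by omega : 0 < X)) _) (by positivity)) k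
  have ih : In Z (1 / 2 ^ h) := ⟨hf (e2.trans xz), (In.hf h).2⟩
  have ir : In Z (1 / 2 ^ r) := ⟨hf (e3.trans xz), (In.hf r).2⟩
  have ua := u ca (by omega)
  have ub := u cb (by omega)
  have uc := u cc (by omega)
  have w1 : ∀ {w : ℝ} {i : ℕ}, (X ^ c * 2 ^ h : ℝ) ≤ w → (X + 2) ^ i ≤ Z → ((X : ℝ) + 2) ^ i *
      (1 + Real.log (1 / 2 ^ r)⁻¹ + Real.log (1 / 2 ^ h)⁻¹) ≤ w * (1 / 2 ^ h) := fun k e => by
    have := wd (Z := 1) (Y := Z * (1 + Z + Z)) (y := 1) k (z7 ▸ n2) one_pos (by simp)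
    rw [div_one] at this
    exact (ih.lg ir e).trans this
  have ia := ih.div ua
  have ie := ((ih.mul ir).div ua).pow ua
  have xa := xwa s M T st P w' tb pb (w0 hw')
  have p1 : (1 : ℝ) ≤ (X + 2) ^ ca := one_le_pow₀ (by linarith [(Nat.cast_nonneg X : (0 : ℝ) ≤ X)])
  have gx := hb T st P w' _ _ X tb pb (cP.trans e1) (by omega) ia.pos ia.2 ie.pos ie.2
    (base tb.stg g (v Cb (by omega)) (ia.div ub) (((ia.mul ie).div ub).pow ub) (n1.trans hβ)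
      (n4.trans hβ))
    ((ia.lg ie ub).trans (wd hw' (Z := Z) (z7 ▸ n5) (by positivity)
      (by exact_mod_cast ua)))
  have le : ((1 : ℝ) / 2 ^ r * (1 / 2 ^ h) / (X + 2) ^ ca) ^ (X + 2) ^ ca ≤ 1 / 2 ^ r :=
    (pow_le_of_le_one ((ih.mul ir).div ua).pos.le ((ih.mul ir).div ua).2 (by positivity)).trans
      ((div_le_self (ih.mul ir).pos.le p1).trans (mul_le_of_le_one_right ir.pos.le ih.2))
  refine ⟨hh m0 tb.stg (base tb.stg g (v C0 (by omega)) ih ir (by omega) (by omega)) ir.pos le_rfl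
    e1 le_rfl le_rfl, hh m1 xa.1.stg gx ie.pos (by omega) e1 (div_le_self ih.pos.le p1) le, ?_, ?_⟩
  · have b : Bo (rnB (Sum.inl : T.C → (xw T P w').C) B) := Pm.bo _ bo
    have g2 := gx.mono xa.1.stg.tri ie.pos ie.2 (Nat.le_add_right Ca C1) le_rfl le_rfl le_rfl
    have g3 := ha σ (xw T P w') (xst T P w' s st M) (rnB Sum.inl B) w (1 / 2 ^ h) (1 / 2 ^ r) X xa.1
      b d (cσ.trans e1) (cB.trans e1) (by omega) ih.pos ih.2 ir.pos ir.2 g2 (w1 hw ua)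
    exact hh m2 (cola σ s _ _ _ _ w xa.1 b d (w0 hw)).1.2 g3 ir.pos le_rfl e1 le_rfl le_rfl
  · exact hh m1 (cola σ s _ _ _ _ w tb bo' d' (w0 hw)).1.2
      (hc σ _ _ B' w _ _ X tb bo' d' (cσ.trans e1) (cB'.trans e1) (by omega)
        ih.pos ih.2 ir.pos ir.2 (base tb.stg g (v Cc (by omega)) (ih.div uc)
          (((ih.mul ir).div uc).pow uc) (by omega) (n3.trans hβ)) (w1 hw uc))
      ir.pos le_rfl e1 le_rfl le_rfl

end Crest.Agent.N49.Sw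

end
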