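import Crest.Agent.N49.Sw.Df5
import Crest.Agent.N49.Sw.All
import Crest.Agent.N49.Su.Df2

/-!
# Row 49 (helper73): the swap on the base tower
-/

set_option autoImplicit false

open Matrix MvPolynomial Finset

noncomputable section

namespace Crest.Agent.N49.Sw

open Po Tw Sd Sy Md Rm Mv

namespace S0

/-- the exponent of the bias -/
def r0 (s n m g : ℕ) : ℕ := (2 * (m + (g + 2) * n) + 10) * 2 ^ s + 5

/-- **the swap** -/
def SWAP0 : Prop := ∀ s : ℕ, ∃ c : ℕ, ∀ (τ L : Type) [Fintype τ] [DecidableEq τ] [Fintype L]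
  [DecidableEq L] (T : TS Unit) (st : T.C → ℕ) (M n N h r m g : ℕ) (W : Finset (Finset τ))
  (blk : τ → L) (x t : τ) (B : Bk (VV T.C τ) τ) (Γ : MvPolynomial (VV T.C τ ⊕ B.N) ℝ)
  (q : (τ →₀ ℕ) → Prop) (E : Finset τ) (w κ κ' : ℝ) (π : GE E),
  Tb T st M s → Al s W blk x → Tyd blk x B → Tyf blk x B q Γ → E ∈ W → x ∈ E → t ∈ E → t ≠ x →
  (∀ μ, q μ → (∀ ℓ, μ.mapDomain blk ℓ ≤ 1) → wE E ≤ μ → μ = wE E) → π.1 = Equiv.swap t x →
  Fintype.card τ ≤ n → Fintype.card B.N ≤ n → (n + 2) ^ c ≤ N → r0 s n m g ≤ r →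
  2 ^ s / 2 ^ h ≤ κ' → (n + 2) ^ c * κ' ≤ κ → w * κ ≤ 4 ^ g → (N + r + 1 : ℝ) ≤ w * κ' →
  HH (cE s T B w) (cst s T B w st M) N h r → Wt2 s T st W x t κ B Γ (1 / 2 ^ m) →
  1 / 2 ^ r0 s n m g ≤ bi (cE s T (sy B E) w) (MR id (W0 s E) (dk fun _ => κ')) (fm s T _ w)
    (ug B E (Su.g1 E) (cw B E Γ) - ug B E π (cw B E Γ))

theorem up_hom {C σ : Type} [DecidableEq σ] (B : Bk (VV C σ) σ)
    {P : MvPolynomial (VV C σ ⊕ B.N) ℝ} {μ : σ →₀ ℕ}
    (h : P.IsWeightedHomogeneous (B.wg Prod.snd) μ) :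
    (up B P).IsWeightedHomogeneous Prod.snd μ := by
  intro d hd
  obtain ⟨d', rfl, h'⟩ := coeff_rename_ne_zero _ _ _ hd
  rw [← h h', Finsupp.weight_apply, Finsupp.weight_apply,
    Finsupp.sum_mapDomain_index (by simp) (by simp [add_smul])]
  refine Finsupp.sum_congr fun v _ => ?_
  rcases v with v | v <;> rfl

theorem half {a b : ℕ} (h : a ≤ b) : (1 / 2 ^ b : ℝ) ≤ 1 / 2 ^ a :=
  one_div_le_one_div_of_le (by positivity) (pow_le_pow_right₀ one_le_two h)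

theorem swap0 (hD : DEC) (hT : TWB) : SWAP0 := by
  intro s
  obtain ⟨c1, hT⟩ := hT s
  refine ⟨c1 + (s + 1 + s.factorial), ?_⟩
  intro τ L _ _ _ _ T st M n N h r m g W blk x t B Γ q E w κ κ' π tb al ty tf hE hx ht tx hq hπ
    cτ cB hN hr k1 k2 k3 k4 hh wt
  have k0 : 0 < κ' := lt_of_lt_of_le (by positivity) k1
  have w0 : 0 < w := by
    have : (0 : ℝ) < w * κ' := lt_of_lt_of_le (by positivity) k4
    exact (mul_pos_iff_of_pos_right k0).1 this
  have p1 : (n + 2) ^ c1 ≤ (n + 2) ^ (c1 + (s + 1 + s.factorial)) :=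
    Nat.pow_le_pow_right (by omega) (by omega)
  have p2 : (n + 2) ^ (s + 1 + s.factorial) ≤ N :=
    (Nat.pow_le_pow_right (by omega) (by omega)).trans hN
  have k2' : (n + 2 : ℝ) ^ c1 * κ' ≤ κ := by
    refine le_trans (mul_le_mul_of_nonneg_right ?_ k0.le) k2
    exact_mod_cast p1
  have kk : κ' ≤ κ := le_trans (le_mul_of_one_le_left k0.le
    (one_le_pow₀ (by linarith [(Nat.cast_nonneg n : (0 : ℝ) ≤ n)]))) k2'
  have dg : ∀ a, (B.wd a).degree ≤ s := fun a => by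
    rw [← Finsupp.degree_mapDomain blk, Finsupp.degree_eq_sum]
    exact (sum_le_card_nsmul _ _ 1 fun ℓ _ => ty.tr a ℓ).trans (by simpa using al.cL)
  have cE' : #E ≤ s := by
    rw [← card_image_of_injOn ((al.mem E).1 hE)]
    exact (card_le_univ _).trans al.cL
  have f1 : s.factorial ≤ (n + 2) ^ s.factorial :=
    Nat.lt_two_pow_self.le.trans (Nat.pow_le_pow_left (by omega) _)
  have f0 : 1 ≤ s.factorial := s.factorial_pos
  have big : n * s.factorial * (n + 2) ^ s ≤ N := by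
    refine le_trans ?_ p2
    rw [pow_add, pow_succ, mul_assoc n, mul_comm s.factorial, ← mul_assoc, mul_comm n]
    exact Nat.mul_le_mul (Nat.mul_le_mul_left _ (by omega)) f1
  set m2 := m + (g + 2) * n + 2 with hm2
  have e0 : r0 s n m g = (2 * m2 + 6) * 2 ^ s + 5 := by unfold r0; rw [hm2]; ring
  have s1 : 1 ≤ 2 ^ s := Nat.one_le_two_pow
  have rm : m2 + 1 ≤ r := by
    have : (2 * m2 + 6) * 1 ≤ (2 * m2 + 6) * 2 ^ s := Nat.mul_le_mul_left _ s1
    omega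
  have n1 : Fintype.card B.N * #(full (Option τ) s) ≤ N := by
    refine le_trans (Nat.mul_le_mul (cB.trans (Nat.le_mul_of_pos_right n f0))
      ((Cn.card_full' _ s).trans (Nat.pow_le_pow_left ?_ s))) big
    rw [Fintype.card_option]; omega
  have d := hD τ L s M (m2 + 1) g T st W blk x t B Γ q E w κ _ tb al ty tf hx ht tx hq w0 (by
    have a : ((Fintype.card B.N * #(full (Option τ) s) + (m2 + 1) : ℕ) : ℝ) ≤ (N + r : ℕ) := by
      exact_mod_cast Nat.add_le_add n1 rm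
    have b := mul_le_mul_of_nonneg_left kk w0.le
    push_cast at a ⊢
    linarith) k3 wt
  have d2 : Wt3 s (cE s T B w) (cst s T B w st M) (fm s T B w) κ E x t (up B (cw B E Γ))
      (1 / 2 ^ m2) := by
    obtain ⟨Ψ, A, Cf, a1, a2, a3, a4, a5, a6⟩ := d
    refine ⟨Ψ, A, Cf, a1, a2, a3, a4, a5, le_trans ?_ a6⟩
    have b1 : (3 * 2 ^ g : ℝ) ^ Fintype.card B.N ≤ 2 ^ ((g + 2) * n) := by
      rw [pow_mul]
      have : (1 : ℝ) ≤ 2 ^ g := one_le_pow₀ one_le_two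
      refine (pow_le_pow_left₀ (by positivity) ?_ _).trans
        (pow_le_pow_right₀ (one_le_pow₀ one_le_two) cB)
      rw [pow_add]; nlinarith
    have b2 : (1 / 2 ^ m : ℝ) / (2 * 2 ^ ((g + 2) * n)) ≤
        1 / 2 ^ m / (2 * (3 * 2 ^ g) ^ Fintype.card B.N) := by gcongr
    refine le_trans (le_of_eq ?_) (sub_le_sub_right b2 _)
    rw [hm2]
    simp only [pow_add]
    field_simp
    ring
  obtain ⟨⟨ok, stg⟩, -⟩ := cola τ s M T st B w tb ty.bo dg w0
  have hom : (cw B E Γ).IsWeightedHomogeneous (B.wg Prod.snd) (wE E) :=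
    weightedHomogeneousComponent_isWeightedHomogeneous _ _
  have b := hT τ _ _ _ (fm s T B w) _ n N m2 κ κ' (1 / 2 ^ h) (1 / 2 ^ r) E x t _ ok stg cτ cE' hx
    ht tx (up_hom B hom) (p1.trans hN) (by positivity) (by rwa [mul_one_div]) k2' (by positivity)
    (half (by omega)) hh.1 hh.2 d2
  have n2 : Fintype.card (sy B E).N * #(W0 s E) ≤ N := by
    refine le_trans (Nat.mul_le_mul ((perm τ s M T st B w κ' E tb ty.bo dg w0 k0).1.2.2.1.trans
      (Nat.mul_le_mul cB (Nat.factorial_le cE'))) ?_) big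
    exact (card_filter_le _ _).trans ((card_filter_le _ _).trans
      ((Cn.card_full' _ s).trans (Nat.pow_le_pow_left (by omega) s)))
  have tr := trfA τ s M (r0 s n m g) T st B w κ' E x t (Su.g1 E) π _ tb ty.bo dg ty.fr hx ht tx rfl
    hπ k0 (by
      have a : ((Fintype.card (sy B E).N * #(W0 s E) + r0 s n m g : ℕ) : ℝ) ≤ (N + r : ℕ) := by
        exact_mod_cast Nat.add_le_add n2 hr
      push_cast at a ⊢
      linarith) hom
  have z := b.trans tr
  rw [e0] at z ⊢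
  have y : (0 : ℝ) < 1 / 2 ^ ((2 * m2 + 6) * 2 ^ s) := by positivity
  have y1 : ∀ i : ℕ, (1 / 2 ^ ((2 * m2 + 6) * 2 ^ s + i) : ℝ) =
      1 / 2 ^ ((2 * m2 + 6) * 2 ^ s) / 2 ^ i := fun i => by rw [pow_add, div_div]
  rw [div_eq_mul_one_div 8, y1, y1] at z
  rw [y1]
  generalize (1 / 2 ^ ((2 * m2 + 6) * 2 ^ s) : ℝ) = u at z y ⊢
  norm_num at z ⊢
  linarith

end S0

end Crest.Agent.N49.Sw

end
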