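import Crest.Agent.N49.Sw.Df2
import Crest.Agent.N49.Sw.Prod

/-!
# Row 49 (helper72): the product law for diagonal kernels
-/

set_option autoImplicit false

open Matrix MvPolynomial Finset

noncomputable section

namespace Crest.Agent.N49.Sw

open Po Tw Sd

open Pd in
/-- **PRD** -/
theorem prd : PRD := by
  intro σ τ ι _ _ _ _ _ U st M col W u V g hU hS hW hu hV hg
  let K : ι → Kn τ := fun i => dk (u i)
  have pd : ∀ {τ : Type} [DecidableEq τ] (col : τ → σ) (W : Finset (τ →₀ ℕ)) (v : (τ →₀ ℕ) → ℝ),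
      (∀ w : Sh.MW W, 0 < v w.1) → (MR col W (dk v)).K.PosDef := fun col W v h => by
    have : (MR col W (dk v)).K = diagonal fun w => v w.1 := by
      ext w w'
      exact if_congr Subtype.ext_iff.symm rfl rfl
    rw [this]
    exact PosDef.diagonal h
  have o : (MR (col ∘ Prod.snd) (WP W) (dk V)).Ok := Sh.mono_ok (dn_WP hW) (pd _ _ _ fun w => by
    obtain ⟨i, v, rfl⟩ := em_surj w
    exact (hu i _).trans_eq (hV i v.1 v.mem v.ne).symm) (Sh.dk_blk V)
  have oi : ∀ i, (MR col (W i) (K i)).Ok := fun i =>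
    Sh.mono_ok (hW i) (pd _ _ _ fun w => hu i _) (Sh.dk_blk _)
  have hm : ∀ i, (MR (col ∘ Prod.snd) (WP W) (dk V)).Hm (MR col (W i) (K i))
      (Sh.smm _ _ 0 (dk V) _ (pr i)) := fun i => Sh.hm_mono (hW i)
    ⟨fun a a' z => by
      by_cases h : a.1 = i
      · have : a' = a.2 := by
          by_contra n
          simp [pr, h, n] at z
        rw [this]; rfl
      · simp [pr, h] at z,
    fun ν m μ z => mem_WP.2 ⟨i, ν, m, (smat_wd i ν μ z).symm⟩, fun a => by simp⟩
  have e1 : ∀ i y, hs U (MR col (W i) (K i)) (pr i) y =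
      fun p => y (ec U col K (dk V) ⟨i, p⟩) := fun i y => funext fun p =>
    sum_pr U col K (dk V) i y p
  refine Eq.trans ?_ (Ec_pi (U.sh (MR (col ∘ Prod.snd) (WP W) (dk V)))
    (fun i => U.sh (MR col (W i) (K i))) (Equiv.ofBijective _ (ec_bij U col K (dk V))) ?_ ?_
    (fun i => TS.sh_tri hS.cl (oi i)) g hg)
  · exact congrArg _ (funext fun y => prod_congr rfl fun i _ => congrArg _ (e1 i y))
  · rintro ⟨i, p⟩ ⟨j, p'⟩
    change U.K p.1.1 p'.1.1 * dk V (p.1.2.1.mapDomain (i, ·)) (p'.1.2.1.mapDomain (j, ·)) = _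
    by_cases h : i = j
    · subst h
      rw [blockDiagonal'_apply_eq]
      refine congrArg _ (if_congr ⟨fun k => (md_eq (Sh.MW.ne _) k).2, fun k => by rw [k]⟩ ?_ rfl)
      exact hV i _ (Sh.MW.mem _) (Sh.MW.ne _)
    · rw [blockDiagonal'_apply_ne _ _ _ h]
      exact mul_eq_zero_of_right _ (if_neg fun k => h (md_eq (Sh.MW.ne _) k).1)
  · intro y i p
    have := (congrFun (TS.sh_u_hm (T := U) (hm i) o (oi i) y) p).trans (TS.hmM_mulVec _ _ p)
    exact (sum_pr U col K (dk V) i _ p).symm.trans (this.symm.trans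
      (congrArg (fun z => (U.sh (MR col (W i) (K i))).u (zc z) p) (e1 i y)))

end Crest.Agent.N49.Sw

end
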