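import Crest.Agent.N49.Sw.Defs

/-!
# Row 49 (helper67): alternating sums over a cube keep the top part
-/

set_option autoImplicit false

open Matrix MvPolynomial Finset

noncomputable section

namespace Crest.Agent.N49.Sw

open Po Tw Sd

namespace Alt

/-- constant in degree `0`, linear in degree `1` -/
def Rn {R : Type} [CommRing R] (s t : ℤ) (n : ℕ) (x y z : R) : Prop :=
  (n = 0 → x = z ∧ y = z) ∧ (n = 1 → z = s * x + t * y)

section
variable {R : Type} [CommRing R] {s t : ℤ}

theorem Rn.mul {n n' : ℕ} {x y z x' y' z' : R} (h : Rn s t n x y z) (h' : Rn s t n' x' y' z') :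
    Rn s t (n + n') (x * x') (y * y') (z * z') := by
  refine ⟨fun e => ?_, fun e => ?_⟩
  · obtain ⟨rfl, rfl⟩ := h.1 (by omega)
    obtain ⟨rfl, rfl⟩ := h'.1 (by omega)
    exact ⟨rfl, rfl⟩
  · rcases (by omega : n = 0 ∧ n' = 1 ∨ n = 1 ∧ n' = 0) with ⟨a, b⟩ | ⟨a, b⟩
    · obtain ⟨rfl, rfl⟩ := h.1 a
      rw [h'.2 b]; ring
    · obtain ⟨rfl, rfl⟩ := h'.1 b
      rw [h.2 a]; ring

theorem Rn.cst (c : R) : Rn s t 0 c c c := ⟨fun _ => ⟨rfl, rfl⟩, fun e => by omega⟩

theorem Rn.zero (n : ℕ) : Rn s t n (0 : R) 0 0 := ⟨fun _ => ⟨rfl, rfl⟩, fun _ => by simp⟩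

theorem Rn.sum {ι : Type} {S : Finset ι} {n : ℕ} {x y z : ι → R}
    (h : ∀ i ∈ S, Rn s t n (x i) (y i) (z i)) :
    Rn s t n (∑ i ∈ S, x i) (∑ i ∈ S, y i) (∑ i ∈ S, z i) :=
  ⟨fun e => ⟨sum_congr rfl fun i hi => ((h i hi).1 e).1, sum_congr rfl fun i hi => ((h i hi).1 e).2⟩,
    fun e => by
      rw [mul_sum, mul_sum, ← sum_add_distrib]; exact sum_congr rfl fun i hi => (h i hi).2 e⟩

theorem Rn.pow {n : ℕ} {x y z : R} (h : Rn s t n x y z) (k : ℕ) :
    Rn s t (k * n) (x ^ k) (y ^ k) (z ^ k) := by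
  induction k with
  | zero => simpa using Rn.cst 1
  | succ k ih => simpa only [pow_succ, add_mul, one_mul] using ih.mul h

theorem Rn.prod {ι : Type} {S : Finset ι} {n : ι → ℕ} {x y z : ι → R}
    (h : ∀ i ∈ S, Rn s t (n i) (x i) (y i) (z i)) :
    Rn s t (∑ i ∈ S, n i) (∏ i ∈ S, x i) (∏ i ∈ S, y i) (∏ i ∈ S, z i) := by
  classical
  induction S using Finset.induction_on with
  | empty => simpa using Rn.cst 1
  | insert a S ha ih =>
    simp only [sum_insert ha, prod_insert ha]
    exact (h a (mem_insert_self _ _)).mul (ih fun i hi => h i (mem_insert_of_mem hi))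

theorem Rn.cast {n : ℕ} {x y z : ℤ} (h : Rn s t n x y z) : Rn s t n (x : R) y z :=
  ⟨fun e => by obtain ⟨rfl, rfl⟩ := h.1 e; exact ⟨rfl, rfl⟩, fun e => by rw [h.2 e]; simp⟩
end

variable {τ τ0 C : Type} [DecidableEq τ0] [Fintype τ0] {s t : ℤ} {b : τ0} {φ1 φ2 φ3 : τ → τ0 → ℤ}

theorem rn_lsub (h : ∀ a b', Rn s t (if b' = b then 1 else 0) (φ1 a b') (φ2 a b') (φ3 a b'))
    (μ : τ →₀ ℕ) (ν : τ0 →₀ ℕ) : Rn s t (ν b) (smat φ1 ν μ) (smat φ2 ν μ) (smat φ3 ν μ) := by
  induction μ using Finsupp.induction_linear generalizing ν with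
  | zero =>
    simp only [smat, monomial_zero', map_one, coeff_one]
    split_ifs with e
    · subst e; exact Rn.cst 1
    · exact Rn.zero _
  | add μ μ' ih ih' =>
    have e : (monomial (μ + μ') 1 : MvPolynomial τ ℤ) = monomial μ 1 * monomial μ' 1 := by
      rw [monomial_mul, one_mul]
    simp only [smat, e, map_mul, coeff_mul]
    refine Rn.sum fun p hp => ?_
    rw [← mem_antidiagonal.1 hp]
    exact (ih _).mul (ih' _)
  | single a k =>
    induction k generalizing ν with
    | zero =>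
      simp only [smat, Finsupp.single_zero, monomial_zero', map_one, coeff_one]
      split_ifs with e
      · subst e; exact Rn.cst 1
      · exact Rn.zero _
    | succ k ih =>
      have e : (monomial (Finsupp.single a (k + 1)) 1 : MvPolynomial τ ℤ) =
          monomial (Finsupp.single a k) 1 * X a := by
        rw [X, monomial_mul, one_mul, Finsupp.single_add]
      simp only [smat, e, map_mul, coeff_mul]
      refine Rn.sum fun p hp => ?_
      rw [← mem_antidiagonal.1 hp]
      refine (ih _).mul ?_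
      simp only [lsub, aeval_X, coeff_sum, coeff_smul, coeff_X, smul_eq_mul]
      refine Rn.sum fun b' _ => ?_
      split_ifs with e
      · simpa [← e, Finsupp.single_apply] using h a b'
      · simpa using Rn.zero _

theorem rn_eval (h : ∀ a b', Rn s t (if b' = b then 1 else 0) (φ1 a b') (φ2 a b') (φ3 a b'))
    (W : Finset (τ →₀ ℕ)) (z : VV C τ → ℝ) {w : τ0 →₀ ℕ} {G : MvPolynomial (VV C τ0) ℝ}
    (hG : G.IsWeightedHomogeneous Prod.snd w) :
    Rn s t (w b) (eval (sbv φ1 W z) G) (eval (sbv φ2 W z) G) (eval (sbv φ3 W z) G) := by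
  simp only [eval_eq]
  refine Rn.sum fun m hm => ?_
  have e : w b = 0 + ∑ v ∈ m.support, m v * v.2 b := by
    rw [← hG (mem_support_iff.1 hm), Finsupp.weight_apply, Finsupp.sum, Finsupp.finsetSum_apply]
    simp
  rw [e]
  refine (Rn.cst _).mul (Rn.prod fun v _ => Rn.pow ?_ _)
  exact Rn.sum fun μ _ => (rn_lsub h μ v.2).cast.mul (Rn.cst _)

end Alt

open Alt in
theorem alt : ALT := fun τ τ0 C _ _ _ l e φ lam W z w G he hl _ hG hw => by
  classical
  let ψ (u : Fin l → τ ⊕ Fin l × Bool → ℤ) (a : τ ⊕ Fin l × Bool) (b : τ0) : ℤ :=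
    Function.extend e (fun i => u i a) (Sum.elim φ 0 a) b
  have key : ∀ (s t : ℤ) (u : Fin l → τ ⊕ Fin l × Bool → ℤ) i x y,
      eval (sbv (ψ (Function.update u i (s • x + t • y))) W z) G =
        s * eval (sbv (ψ (Function.update u i x)) W z) G +
          t * eval (sbv (ψ (Function.update u i y)) W z) G := fun s t u i x y => by
    refine (rn_eval (b := e i) (fun a b' => ?_) W z hG).2 (hw i)
    by_cases k : ∃ j, e j = b'
    · obtain ⟨j, rfl⟩ := k
      simp only [ψ, he.extend_apply, he.eq_iff]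
      split_ifs with k
      · subst k; exact ⟨fun e => by omega, fun _ => by simp⟩
      · simpa only [Function.update_of_ne k] using Rn.cst _
    · simp only [ψ, Function.extend_apply' _ _ _ k, if_neg fun f : b' = e i => k ⟨i, f.symm⟩]
      exact Rn.cst _
  let F : MultilinearMap ℤ (fun _ : Fin l => τ ⊕ Fin l × Bool → ℤ) ℝ :=
    MultilinearMap.mk' (fun u => eval (sbv (ψ u) W z) G)
      (fun u i x y => by simpa using key 1 1 u i x y)
      (fun u i c x => by simpa using key c 0 u i x 0)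
  let g (i : Fin l) (β : Bool) : τ ⊕ Fin l × Bool → ℤ :=
    Sum.elim (fun a => φ a (e i)) fun j => if j.2 = β then lam j.1 (e i) else 0
  have z0 : ∀ i j, i ≠ j → lam i (e j) = 0 := fun i j n => by_contra fun f => n (he (hl _ _ f)).symm
  have z1 : ∀ i b, (¬ ∃ j, e j = b) → lam i b = 0 :=
    fun i b n => by_contra fun f => n ⟨i, (hl _ _ f).symm⟩
  have hF : ∀ u, F u = eval (sbv (ψ u) W z) G := fun u => rfl
  have := F.map_sum fun i β => (if β = true then -1 else 1 : ℤ) • g i β
  clear_value F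
  refine Eq.trans (sum_congr rfl fun ω _ => ?_) (this.symm.trans ((hF _).trans ?_))
  · rw [F.map_smul_univ, prod_ite, prod_const, prod_const_one, mul_one, zsmul_eq_mul, hF]
    push_cast
    refine congrArg (HMul.hMul _) ?_
    refine congrArg (fun φ => eval (sbv φ W z) G) (funext₂ fun a b => ?_)
    by_cases k : ∃ j, e j = b
    · obtain ⟨j, rfl⟩ := k
      simp only [ψ, he.extend_apply, g]
      rcases a with a | ⟨i, β⟩
      · rfl
      · by_cases n : i = j
        · subst n; by_cases k : β = ω i <;> simp [k]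
        · by_cases k : β = ω i <;> simp [k, z0 i j n]
    · simp only [ψ, Function.extend_apply' _ _ _ k]
      rcases a with a | ⟨i, β⟩
      · rfl
      · by_cases k' : β = ω i <;> simp [k', z1 i b k]
  · refine congrArg (fun φ => eval (sbv φ W z) G) (funext₂ fun a b => ?_)
    by_cases k : ∃ j, e j = b
    · obtain ⟨j, rfl⟩ := k
      simp only [ψ, he.extend_apply, g]
      rcases a with a | ⟨i, β⟩
      · simp
      · cases β <;> simp
    · simp only [ψ, Function.extend_apply' _ _ _ k]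
      rcases a with a | ⟨i, β⟩
      · simp [k]
      · cases β <;> simp [z1 i b k]

end Crest.Agent.N49.Sw

end
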