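import Crest.Agent.N49.Sw.Alt

/-!
# Row 49 (helper67): alternating sums over a cube of blocks keep the top part
-/

set_option autoImplicit false

open Matrix MvPolynomial Finset

noncomputable section

namespace Crest.Agent.N49.Sw

open Po Tw Sd

namespace Alt

variable {τ τ0 C : Type} [DecidableEq τ0] [Fintype τ0] {s t : ℤ} {χ : τ0 → ℕ}
  {φ1 φ2 φ3 : τ → τ0 → ℤ}

theorem rn_lsubW (h : ∀ a b, Rn s t (χ b) (φ1 a b) (φ2 a b) (φ3 a b)) (μ : τ →₀ ℕ)
    (ν : τ0 →₀ ℕ) :
    Rn s t (Finsupp.weight χ ν) (smat φ1 ν μ) (smat φ2 ν μ) (smat φ3 ν μ) := by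
  have z : ∀ ν : τ0 →₀ ℕ,
      Rn s t (Finsupp.weight χ ν) (smat φ1 ν 0) (smat φ2 ν 0) (smat φ3 ν 0) := fun ν => by
    simp only [smat, monomial_zero', map_one, coeff_one]
    split_ifs with e
    · subst e; exact Rn.cst 1
    · exact Rn.zero _
  induction μ using Finsupp.induction_linear generalizing ν with
  | zero => exact z ν
  | add μ μ' ih ih' =>
    have e : (monomial (μ + μ') 1 : MvPolynomial τ ℤ) = monomial μ 1 * monomial μ' 1 := by
      rw [monomial_mul, one_mul]
    simp only [smat, e, map_mul, coeff_mul]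
    refine Rn.sum fun p hp => ?_
    rw [← mem_antidiagonal.1 hp, map_add]
    exact (ih _).mul (ih' _)
  | single a k =>
    induction k generalizing ν with
    | zero => rw [Finsupp.single_zero]; exact z ν
    | succ k ih =>
      have e : (monomial (Finsupp.single a (k + 1)) 1 : MvPolynomial τ ℤ) =
          monomial (Finsupp.single a k) 1 * X a := by
        rw [X, monomial_mul, one_mul, Finsupp.single_add]
      simp only [smat, e, map_mul, coeff_mul]
      refine Rn.sum fun p hp => ?_
      rw [← mem_antidiagonal.1 hp, map_add]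
      refine (ih _).mul ?_
      simp only [lsub, aeval_X, coeff_sum, coeff_smul, coeff_X, smul_eq_mul]
      refine Rn.sum fun b' _ => ?_
      split_ifs with e
      · simpa [← e, Finsupp.weight_single] using h a b'
      · simpa using Rn.zero _

theorem rn_evalW (h : ∀ a b, Rn s t (χ b) (φ1 a b) (φ2 a b) (φ3 a b)) (W : Finset (τ →₀ ℕ))
    (z : VV C τ → ℝ) {n : ℕ} {G : MvPolynomial (VV C τ0) ℝ}
    (hG : G.IsWeightedHomogeneous (fun v => Finsupp.weight χ v.2) n) :
    Rn s t n (eval (sbv φ1 W z) G) (eval (sbv φ2 W z) G) (eval (sbv φ3 W z) G) := by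
  simp only [eval_eq]
  refine Rn.sum fun m hm => ?_
  have e : n = 0 + ∑ v ∈ m.support, m v * Finsupp.weight χ v.2 := by
    rw [← hG (mem_support_iff.1 hm), Finsupp.weight_apply, Finsupp.sum]
    simp
  rw [e]
  refine (Rn.cst _).mul (Rn.prod fun v _ => Rn.pow ?_ _)
  exact Rn.sum fun μ _ => (rn_lsubW h μ v.2).cast.mul (Rn.cst _)

/-- **multilinearity in the blocks of columns** -/
theorem alt_gen {l : ℕ} (bk : τ0 → Option (Fin l)) (φ : τ → τ0 → ℤ)
    (g : Fin l → Bool → τ → τ0 → ℤ) (W : Finset (τ →₀ ℕ)) (z : VV C τ → ℝ)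
    {G : MvPolynomial (VV C τ0) ℝ} (hG : ∀ i, G.IsWeightedHomogeneous
      (fun v => Finsupp.weight (fun b => if bk b = some i then 1 else 0) v.2) 1) :
    ∑ ω : Fin l → Bool, (-1) ^ #{i | ω i = true} *
      eval (sbv (fun a b => (bk b).elim (φ a b) fun i => g i (ω i) a b) W z) G =
      eval (sbv (fun a b => (bk b).elim (φ a b) fun i => g i false a b - g i true a b) W z) G := by
  classical
  let ψ (u : Fin l → τ → τ0 → ℤ) (a : τ) (b : τ0) : ℤ := (bk b).elim (φ a b) fun i => u i a b
  have key : ∀ (s t : ℤ) (u : Fin l → τ → τ0 → ℤ) i x y,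
      eval (sbv (ψ (Function.update u i (s • x + t • y))) W z) G =
        s * eval (sbv (ψ (Function.update u i x)) W z) G +
          t * eval (sbv (ψ (Function.update u i y)) W z) G := fun s t u i x y => by
    refine (rn_evalW (fun a b => ?_) W z (hG i)).2 rfl
    simp only [ψ]
    rcases bk b with _ | j
    · exact Rn.cst _
    · by_cases k : j = i
      · subst k; exact ⟨fun e => by simp at e, fun _ => by simp⟩
      · simpa [Function.update_of_ne k, k] using Rn.cst _
  let F : MultilinearMap ℤ (fun _ : Fin l => τ → τ0 → ℤ) ℝ :=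
    MultilinearMap.mk' (fun u => eval (sbv (ψ u) W z) G)
      (fun u i x y => by simpa using key 1 1 u i x y)
      (fun u i c x => by simpa using key c 0 u i x 0)
  have hF : ∀ u, F u = eval (sbv (ψ u) W z) G := fun u => rfl
  have := F.map_sum fun i β => (if β = true then -1 else 1 : ℤ) • g i β
  clear_value F
  refine Eq.trans (sum_congr rfl fun ω _ => ?_) (this.symm.trans ((hF _).trans ?_))
  · rw [F.map_smul_univ, prod_ite, prod_const, prod_const_one, mul_one, zsmul_eq_mul, hF]
    push_cast
    rfl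
  · refine congrArg (fun φ => eval (sbv φ W z) G) (funext₂ fun a b => ?_)
    simp only [ψ]
    rcases bk b with _ | j
    · rfl
    · simp [sub_eq_neg_add]

end Alt

end Crest.Agent.N49.Sw

end
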