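import Crest.Agent.N49.Sw.Defs
import Crest.Agent.N49.Tw.Ccs
import Crest.Agent.N49.Tw.Cc0

/-!
# Row 49 (helper19): Cauchy–Schwarz with a removed factor, the chain of the cube rings
-/

set_option autoImplicit false
set_option linter.unusedSectionVars false

open Matrix MvPolynomial Finset

noncomputable section

namespace Crest.Agent.N49.Sw.Bx

open Po Tw Sd Tw.TS Tw.Sh

section cs
variable {σ τ τ' : Type}

/-- normalised Cauchy–Schwarz with a factor -/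
theorem cs_EcF {T : TS σ} (h : T.Tri) {p : T.C → Prop} [DecidablePred p] (hp : T.Low p) {η : ℝ}
    (h0 : 0 ≤ η) (h8 : η ≤ 1 / 8) (m0 : (T.cut p 0).Mas η) (m1 : T.Mas η) (m2 : (T.dbl p).Mas η)
    {F g : (T.C → ℤ) → ℂ} (hF : ∀ y, ‖F y‖ ≤ 1) (dF : ∀ y y', (∀ c, p c → y c = y' c) → F y = F y')
    (hg : ∀ y, ‖g y‖ ≤ 1) : ‖T.Ec fun y => F y * g y‖ ^ 2 ≤ 2 * ‖(T.dbl p).Ec fun y =>
      g (fun c => y (.inl c)) * (starRingEnd ℂ) (g fun c => y (T.snd p c))‖ := by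
  have c := h.cs_dbl hp (f := fun a => F (glue p a 0)) (A := 1) (fun _ => hF _) hg
  have t0 := h.cut_low hp 0
  have a0 := t0.Z_pos
  have e0 : (fun y => F (glue p (fun c => y c.1) 0) * g y) = fun y => F y * g y :=
    funext fun y => congrArg (· * _) (dF _ _ fun c k => glue_pos _ _ k)
  have b : ∀ a : {c // p c} → ℤ, ‖F (glue p a 0)‖ ^ 2 ≤ 1 := fun a =>
    pow_le_one₀ (norm_nonneg _) (hF _)
  have s1 : (T.cut p 0).S (fun a : {c // p c} → ℤ => ‖F (glue p a 0)‖ ^ 2) ≤ (T.cut p 0).Z :=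
    (t0.S_mono (.of_mem (fun _ => sq_nonneg _) b) (.const 1) b).trans_eq (S_one _)
  have s0 : 0 ≤ (T.cut p 0).S (fun a : {c // p c} → ℤ => ‖F (glue p a 0)‖ ^ 2) :=
    S_nonneg fun _ => sq_nonneg _
  rw [e0] at c
  have c2 := c.trans ((mul_le_mul_of_nonneg_left (Complex.re_le_norm _) s0).trans
    (mul_le_mul_of_nonneg_right s1 (norm_nonneg _)))
  have z := h.Zc_dbl hp 0
  have a1 := h.Z_pos
  have a2 := (h.dbl hp).Z_pos
  have b0 := t0.Zc_pos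
  have b1 := h.Zc_pos
  have b2 := (h.dbl hp).Zc_pos
  have d0 := (abs_le.1 m0).2
  have d1 := (abs_le.1 m1).1
  have d2 := (abs_le.1 m2).2
  have e : (T.cut p 0).Z * (T.dbl p).Z ≤ 2 * T.Z ^ 2 :=
    calc _ ≤ (9 / 8 * (T.cut p 0).Zc) * (9 / 8 * (T.dbl p).Zc) :=
          mul_le_mul (by nlinarith) (by nlinarith) a2.le (by positivity)
      _ = 81 / 64 * T.Zc ^ 2 := by rw [← z]; ring
      _ ≤ 2 * (7 / 8 * T.Zc) ^ 2 := by nlinarith [sq_nonneg T.Zc]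
      _ ≤ _ := by gcongr; nlinarith
  rw [Ec, Ec, norm_div, norm_div, Complex.norm_of_nonneg a1.le, Complex.norm_of_nonneg a2.le,
    div_pow, div_le_iff₀ (by positivity), mul_div_assoc', div_mul_eq_mul_div, le_div_iff₀ a2]
  nlinarith [mul_le_mul_of_nonneg_right c2 a2.le, mul_le_mul_of_nonneg_left e (norm_nonneg
    ((T.dbl p).Sc fun y => g (fun c => y (.inl c)) * (starRingEnd ℂ) (g fun c => y (T.snd p c))))]

/-- **Cauchy–Schwarz on shapes**, a function of the common words is removed -/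
theorem lcf [DecidableEq σ] {T : TS σ} {S : Sh σ τ} {S' : Sh σ τ'} {st : T.C → ℕ} {M : ℕ}
    {Ψ : T.Twd S} {Ψ' : T.Twd S'} {q : S.W → Prop} [DecidablePred q] {e1 e2 : S.W → S'.W}
    (h : S.Cn S' q e1 e2) {η : ℝ} {F g : (T.Cw S → ℤ) → ℂ} (hs : T.Stg st M) (o : S.Ok) (o' : S'.Ok)
    (ha : T.Adm S st Ψ) (ha' : T.Adm S' st Ψ')
    (h1 : ∀ F, map (killCompl h.c1.inj).toRingHom (Ψ' F) = Ψ F)
    (h2 : ∀ F, map (killCompl h.c2.inj).toRingHom (Ψ' F) = Ψ F) (h0 : 0 ≤ η) (h8 : η ≤ 1 / 8)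
    (m1 : (T.lw S st Ψ).Mas η) (m2 : (T.lw S' st Ψ').Mas η)
    (m0 : (T.lw (S.sub q) st (T.tp S (S.sub q) (S.prj q) Ψ)).Mas η) (hF : ∀ y, ‖F y‖ ≤ 1)
    (dF : ∀ y y', (∀ c : T.Cw S, q c.1.2 → y c = y' c) → F y = F y') (hg : ∀ y, ‖g y‖ ≤ 1) :
    ‖(T.tw S Ψ).Ec fun y => F y * g y‖ ^ 2 ≤ 2 * ‖(T.tw S' Ψ').Ec fun y =>
      g (T.pb S h.c1 y) * (starRingEnd ℂ) (g (T.pb S h.c2 y))‖ := by
  obtain ⟨V, B, V', i⟩ := TS.dbl_iso h hs o o' ha ha' h1 h2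
  have oq : (S.sub q).Ok := Mh.sub_ok o h.idl
  have c := cs_EcF (TS.lw_tri hs ha o) (TS.lw_low h.idl) h0 h8
    ((TS.cut_sub hs o oq ha h.idl η).2 m0) m1 ((i.mas η).1 m2) hF dF hg
  refine c.trans_eq (congrArg (2 * ‖·‖) ((i.Ec _).symm.trans
    (congrArg (T.tw S' Ψ').Ec (funext fun y => ?_))))
  exact congrArg (fun z => g (T.pb S h.c1 y) * (starRingEnd ℂ) (g z))
    (funext fun x => congrArg y (TS.cE_snd h x))

end cs

section ch
variable {σ τ : Type} [DecidableEq τ] {W W' : Finset (τ →₀ ℕ)} (π : τ ≃ τ)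

/-- relabel the letters -/
def me (h : ∀ μ ∈ W, Finsupp.domCongr π μ ∈ W') (w : MW W) : MW W' :=
  ⟨Finsupp.domCongr π w.1, mem_erase.2 ⟨fun e => w.ne ((AddEquiv.map_eq_zero_iff _).1 e), h _ w.mem⟩⟩

variable {π} {h : ∀ μ ∈ W, Finsupp.domCongr π μ ∈ W'}

theorem me_inj : Function.Injective (me π h) :=
  fun _ _ e => Subtype.ext ((Finsupp.domCongr π).injective (congrArg (·.1) e))

theorem mem_me (y : MW W') (k : (Finsupp.domCongr π).symm y.1 ∈ W) : y ∈ Set.range (me π h) :=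
  ⟨⟨_, mem_erase.2 ⟨fun e => y.ne ((AddEquiv.map_eq_zero_iff _).1 e), k⟩⟩,
    Subtype.ext (AddEquiv.apply_symm_apply _ _)⟩

theorem ch_me {col : τ → σ} {K K' : Kn τ} (hc : ∀ a, col (π a) = col a) (hW : Dn W) :
    (MR col W K).Ch (MR col W' K') (me π h) where
  inj := me_inj
  cd x := Cc.map_dc hc x.1
  r1 x (m : MW W →₀ ℕ) := by
    change (if Finsupp.weight Subtype.val (m.mapDomain (me π h)) = Finsupp.domCongr π x.1 then 1
      else 0) = if Finsupp.weight Subtype.val m = x.1 then (1 : ℤ) else 0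
    rw [Mh.weight_mapDomain]
    exact if_congr ((Eq.congr_left (weight_hom (Finsupp.domCongr (M := ℕ) π).toAddMonoidHom
      (fun y : MW W => y.1) m)).trans (Finsupp.domCongr π).injective.eq_iff) rfl rfl
  r2 x (m : MW W' →₀ ℕ) z y hy := mem_me y (hW _ (MW.mem x) _ fun a => by
    have := Cc.le_weight Subtype.val hy (π a)
    rw [mono_r_ne z] at this
    simpa [me] using this)

end ch

section cube
variable {σ τ : Type} [DecidableEq τ] [Fintype τ] {l s : ℕ} {W : Finset (τ →₀ ℕ)}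
  {B : Finset (Fin l →₀ ℕ)}

theorem mem_WX {j : ℕ} {μ : τ ⊕ Fin l × Bool →₀ ℕ} : μ ∈ WX s W B j ↔ μ.degree ≤ s ∧ wl μ ∈ W ∧
    wr μ ∈ Bj l s j ∧ (wr μ).mapDomain Prod.fst ∈ B := by rw [WX, mem_filter, Cc.mem_fl]

/-- a permutation of the new letters -/
abbrev sc (τ : Type) {L : Type} (ρ : L ≃ L) : τ ⊕ L ≃ τ ⊕ L := Equiv.sumCongr (Equiv.refl τ) ρ

theorem wl_sc {L : Type} (ρ : L ≃ L) (μ : τ ⊕ L →₀ ℕ) : wl (Finsupp.domCongr (sc τ ρ) μ) = wl μ :=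
  Finsupp.ext fun _ => rfl

theorem wr_sc {L : Type} (ρ : L ≃ L) (μ : τ ⊕ L →₀ ℕ) :
    wr (Finsupp.domCongr (sc τ ρ) μ) = Finsupp.domCongr ρ (wr μ) := Finsupp.ext fun _ => rfl

theorem sc_mem {j j' : ℕ} {ρ : Fin l × Bool ≃ Fin l × Bool} (hρ : ∀ a, (ρ a).1 = a.1)
    {μ : τ ⊕ Fin l × Bool →₀ ℕ} (h : μ ∈ WX s W B j) (k : Finsupp.domCongr ρ (wr μ) ∈ Bj l s j') :
    Finsupp.domCongr (sc τ ρ) μ ∈ WX s W B j' := by
  obtain ⟨a, b, -, d⟩ := mem_WX.1 h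
  exact mem_WX.2 ⟨by rwa [Cc.deg_dc], by rwa [wl_sc], by rwa [wr_sc], by rwa [wr_sc, Cc.map_dc hρ]⟩

variable (j : Fin l)

theorem w1 : ∀ μ ∈ WX s W B j, Finsupp.domCongr (sc τ (Equiv.refl _)) μ ∈ WX s W B (j + 1) :=
  fun _ h => sc_mem (fun _ => rfl) h (Cc.h1 j _ (mem_WX.1 h).2.2.1)

theorem w2 : ∀ μ ∈ WX s W B j, Finsupp.domCongr (sc τ (Cc.sw j)) μ ∈ WX s W B (j + 1) :=
  fun _ h => sc_mem (Cc.sw_fst j) h (Cc.h2 j _ (mem_WX.1 h).2.2.1)

theorem tr0 (x : MW (WX s W B j)) : x.1 (.inr (j, true)) = 0 :=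
  (Cc.mem_Bj.1 (mem_WX.1 x.mem).2.2.1).2.2 j le_rfl

theorem r1 (y : MW (WX s W B (j + 1))) (k : y.1 (.inr (j, true)) = 0) :
    y ∈ Set.range (me _ (w1 j)) := by
  refine mem_me y (sc_mem (ρ := Equiv.refl _) (fun _ => rfl) y.mem ?_)
  obtain ⟨a, b, c⟩ := Cc.mem_Bj.1 (mem_WX.1 y.mem).2.2.1
  rw [Cc.dc_rf]
  exact Cc.mem_Bj.2 ⟨a, b, fun i hi => by
    by_cases e : i = j
    · rwa [e]
    · exact c i (by have := Fin.val_ne_of_ne e; omega)⟩

theorem r2 (y : MW (WX s W B (j + 1))) (k : y.1 (.inr (j, false)) = 0) :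
    y ∈ Set.range (me _ (w2 j)) := by
  refine mem_me y (sc_mem (ρ := Cc.sw j) (Cc.sw_fst j) y.mem ?_)
  obtain ⟨a, b, c⟩ := Cc.mem_Bj.1 (mem_WX.1 y.mem).2.2.1
  refine Cc.mem_Bj.2 ⟨by rwa [Cc.deg_dc], fun i => ?_, fun i hi => ?_⟩
  · rw [Cc.dc_sw, Cc.dc_sw]; split_ifs
    · exact (b i).symm
    · exact b i
  · rw [Cc.dc_sw]; split_ifs with e
    · rwa [e]
    · exact c i (by have := Fin.val_ne_of_ne e; omega)

theorem ne12 (x x' : MW (WX s W B j)) (e : me _ (w1 j) x = me _ (w2 j) x') :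
    x'.1 (.inr (j, false)) = 0 := by
  have a := DFunLike.congr_fun (congrArg (fun z => wr z.1) e) (j, true)
  exact ((if_pos rfl).symm.trans (Cc.dc_sw j (wr x'.1) j true).symm).trans (a.symm.trans (tr0 j x))

variable {K : Kn τ} {lam : Fin l → τ → ℤ} {v : ℕ → ℝ}

theorem k_sc (ρ : Fin l × Bool ≃ Fin l × Bool) (μ ν : τ ⊕ Fin l × Bool →₀ ℕ) :
    KX s W K B lam v (Finsupp.domCongr (sc τ ρ) μ) (Finsupp.domCongr (sc τ ρ) ν) =
      KX s W K B lam v μ ν :=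
  if_congr (and_congr ((Eq.congr_left (wr_sc ρ μ)).trans (AddEquiv.map_eq_zero_iff _))
    ((Eq.congr_left (wr_sc ρ ν)).trans (AddEquiv.map_eq_zero_iff _))) (by rw [wl_sc, wl_sc])
    (if_congr (Finsupp.domCongr _).injective.eq_iff (congrArg v (Cc.deg_dc _)) rfl)

theorem cn {col : τ → σ} {cl : Fin l → σ} (d : Dn (WX s W B j)) :
    (CX s col W K cl B lam v j).Cn (CX s col W K cl B lam v (j + 1))
      (fun x : MW (WX s W B j) => x.1 (.inr (j, false)) = 0) (me _ (w1 j)) (me _ (w2 j)) where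
  c1 := ch_me (by rintro (a | a) <;> rfl) d
  c2 := ch_me (by
    rintro (a | a)
    · rfl
    · exact congrArg cl (Cc.sw_fst j a)) d
  eq (x : MW (WX s W B j)) k := Subtype.ext (Finsupp.ext (by
    rintro (a | ⟨i, b⟩)
    · rfl
    · have := tr0 j x
      refine Eq.trans ?_ (Cc.dc_sw j (wr x.1) i b).symm
      change x.1 (.inr (i, b)) = if _ then x.1 (.inr (i, !b)) else x.1 (.inr (i, b))
      split_ifs with e
      · subst e; cases b <;> simp [k, this]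
      · rfl))
  ne := ne12 j
  all y := ((Cc.mem_Bj.1 (mem_WX.1 (MW.mem y)).2.2.1).2.1 j).symm.imp (r1 j y) (r2 j y)
  idl (x : MW (WX s W B j)) (m : MW (WX s W B j) →₀ ℕ) k z y hy := by
    have := Cc.le_weight Subtype.val hy (.inr (j, false))
    rw [mono_r_ne z, k] at this
    exact Nat.le_zero.1 this
  sep x x' k k' := (if_neg fun a => k' (DFunLike.congr_fun a.2 (j, false))).trans
    (if_neg fun a : x.1 = x'.1 => k' (a ▸ k))
  k1 x x' := k_sc _ x.1 x'.1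
  k2 x x' := k_sc _ x.1 x'.1
  k3 x x' k k' := (if_neg fun a => k (DFunLike.congr_fun a.1 (j, false))).trans
    (if_neg fun a => k' (ne12 j x x' (Subtype.ext a)))

end cube

end Crest.Agent.N49.Sw.Bx

end
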