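import Crest.Agent.N49.Rn.Nold
import Crest.Agent.N49.Tw.Pers
import Crest.Agent.N49.Tw.Ap2

/-!
# Row 49 (helper91): wide top stages keep the regularity (abstract part)
-/

set_option autoImplicit false
set_option linter.unusedSectionVars false

open Matrix MvPolynomial Finset

noncomputable section

namespace Crest.Agent.N49.Sw.Cq

open Po Tw TS Nold

theorem qf_inj {a b : Type} [Fintype a] [Fintype b] {f : a → b} (hf : Function.Injective f)
    (M : Matrix b b ℝ) {x : b → ℝ} (hx : ∀ i, x i ≠ 0 → ∃ j, f j = i) :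
    qf M x = qf (M.submatrix f f) fun j => x (f j) := by
  have s : ∀ g : b → ℝ, ∑ j, x (f j) * g (f j) = ∑ i, x i * g i := fun g =>
    Fintype.sum_of_injective f hf _ _ (fun i n => mul_eq_zero_of_left
      (not_not.1 fun z => n (hx i z)) _) fun _ => rfl
  simp only [qf, dotProduct, mulVec, submatrix_apply]
  rw [← s]
  refine sum_congr rfl fun j _ => congrArg _ ?_
  simp only [mul_comm (M _ _)]
  exact (s fun i => M (f j) i).symm

variable {σ σ' : Type}

section
variable {V : TS σ} {V0 : TS σ'} {ι : V0.C → V.C} {B : Matrix V0.C V.C ℝ}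

theorem mor_D (m : V.Mor V0 (· ∘ ι) (pm ℤ ι) B) : V0.D = V.D.submatrix ι ι := by
  rw [m.D]
  ext c c'
  simp [mul_apply, rl_apply, pm]

theorem old_ct (m : V.Mor V0 (· ∘ ι) (pm ℤ ι) B) {t : ℕ}
    (hs : ∀ c, V.lev c = t → ∃ c', ι c' = c) : V.ct t ≤ V0.ct t ∧ V.R t ≤ V0.R t := by
  have lv : ∀ c, V0.lev c = V.lev (ι c) := fun c => m.lv c _ (by simp [pm])
  choose g hg using hs
  let f : {c // V.lev c = t} → {c // V0.lev c = t} := fun c =>
    ⟨g c.1 c.2, by rw [lv, hg, c.2]⟩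
  have i : Function.Injective f := fun a b e => Subtype.ext
    ((hg a.1 a.2).symm.trans ((congrArg (fun x => ι x.1) e).trans (hg b.1 b.2)))
  refine ⟨le_trans (le_of_eq ?_) (th_submatrix (m.t'.pd_D.submatrix Subtype.val_injective) i), ?_⟩
  · refine congrArg (Po.th · 0) (Matrix.ext fun a b => ?_)
    rw [mor_D m]
    change _ = V.D (ι (g a.1 a.2)) (ι (g b.1 b.2))
    rw [hg, hg]; rfl
  · rw [TS.R, TS.R, ← Fintype.card_subtype, ← Fintype.card_subtype]
    exact Fintype.card_le_of_injective f i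

/-- unipotent wide levels have no short frequency -/
theorem new_q (h : V.Tri) {t : ℕ} {w : ℝ} (hw : 0 ≤ w) (rk : V.C → ℕ)
    (hK : ∀ c c', V.lev c = t → V.K c c' = if c = c' then w else 0)
    (h1 : ∀ c, V.lev c = t → V.A c c = 1)
    (h2 : ∀ c c', V.lev c = t → V.A c c' ≠ 0 → c = c' ∨ rk c' < rk c) {k : V.C → ℤ} (k0 : k ≠ 0)
    (hk : ∀ c, k c ≠ 0 → V.lev c = t) : w ≤ qf V.D (zc k) := by
  set x := V.A⁻¹ᵀ *ᵥ zc k with hx
  have e : V.Aᵀ *ᵥ x = zc k := by
    rw [hx, mulVec_mulVec, ← transpose_mul, nonsing_inv_mul _ h.unit, transpose_one, one_mulVec]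
  have xl : ∀ c, x c ≠ 0 → V.lev c = t := fun c z => by
    obtain ⟨c', -, z'⟩ := exists_ne_zero_of_sum_ne_zero z
    rw [← hk c' fun a => right_ne_zero_of_mul z' (by simp [zc, a])]
    exact (not_not.1 fun n => left_ne_zero_of_mul z' (blk_inv V.blk_A c' c n)).symm
  have q : qf V.D (zc k) = w * ∑ c, x c ^ 2 := by
    rw [D, ← transpose_transpose V.A⁻¹, transpose_transpose V.A⁻¹ᵀ, qf_conj, ← hx, qf, dotProduct,
      mul_sum]
    refine sum_congr rfl fun c _ => ?_
    by_cases z : x c = 0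
    · simp [z]
    · simp only [mulVec, dotProduct, hK c _ (xl c z), ite_mul, zero_mul, sum_ite_eq, mem_univ,
        if_true]
      ring
  obtain ⟨c, hc, mx⟩ := exists_max_image (univ.filter fun c => x c ≠ 0) rk (by
    by_contra n
    have : x = 0 := funext fun c => not_not.1 fun z => n ⟨c, by simpa using z⟩
    rw [this, mulVec_zero] at e
    exact k0 (funext fun c => by simpa [zc] using (congrFun e c).symm))
  have z : x c ≠ 0 := by simpa using hc
  have v : x c = k c := by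
    have := congrFun e c
    rw [mulVec, dotProduct, sum_eq_single c, transpose_apply, h1 c (xl c z), one_mul] at this
    · exact this
    · intro b _ n
      by_contra a
      have b0 := right_ne_zero_of_mul a
      rcases h2 b c (xl b b0) (left_ne_zero_of_mul a) with r | r
      · exact n r
      · exact absurd (mx b (by simpa using b0)) (not_le.2 r)
    · simp
  have o : (1 : ℝ) ≤ x c ^ 2 := by
    rw [v] at z ⊢
    exact_mod_cast (one_le_sq_iff_one_le_abs _).2 (Int.one_le_abs (by exact_mod_cast z))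
  rw [q]
  exact le_mul_of_one_le_right hw (o.trans
    (single_le_sum (f := fun c => x c ^ 2) (fun _ _ => sq_nonneg _) (mem_univ c)))

theorem new_ct (h : V.Tri) {t : ℕ} {w : ℝ} (hw : (V.R t : ℝ) + 1 ≤ w)
    (hq : ∀ k : V.C → ℤ, k ≠ 0 → (∀ c, k c ≠ 0 → V.lev c = t) → w ≤ qf V.D (zc k)) :
    Real.log (V.ct t) ≤ 1 := by
  have a := th_short (h.pd_D.submatrix (Subtype.val_injective (p := fun c => V.lev c = t)))
    (R := w) fun n n0 => by
      have s : ∀ c, glue (fun c => V.lev c = t) n 0 c ≠ 0 → V.lev c = t := fun c z =>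
        not_not.1 fun b => z (glue_neg _ _ b)
      refine (hq _ (fun z => n0 (funext fun c => (glue_val n 0 c).symm.trans (congrFun z c.1)))
        s).trans_eq ((qf_inj Subtype.val_injective _ fun c z => ⟨⟨c, s c fun b => z (by
          simp [zc, b])⟩, rfl⟩).trans (congrArg _ (funext fun c => ?_)))
      exact congrArg Int.cast (glue_val n 0 c)
  have b : bz {c // V.lev c = t} w ≤ 1 / 2 := by
    rw [bz, Fintype.card_subtype]
    have e2 : (2 : ℝ) ≤ Real.exp 1 := by linarith [Real.add_one_le_exp (1 : ℝ)]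
    have s : √2 ≤ Real.exp 1 := (Real.sqrt_le_iff.2 ⟨by positivity, by nlinarith⟩)
    have p : √2 ^ V.R t ≤ Real.exp (V.R t) := by
      rw [← Real.exp_one_pow]; gcongr
    have r : (0 : ℝ) ≤ V.R t := Nat.cast_nonneg _
    calc _ ≤ Real.exp (V.R t) * Real.exp (-(V.R t + 1)) := by
          gcongr
          · exact p
          · nlinarith [Real.pi_gt_three]
      _ = (Real.exp 1)⁻¹ := by rw [← Real.exp_add, ← Real.exp_neg]; congr 1; ring
      _ ≤ 1 / 2 := by rw [one_div]; gcongr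
  have c := one_le_ct h t
  change (1 - _) * V.ct t ≤ 1 at a
  linarith [Real.log_le_sub_one_of_pos (zero_lt_one.trans_le c), show V.ct t ≤ 2 by nlinarith]
end

variable [DecidableEq σ] [DecidableEq σ'] {T : TS σ'} {U : TS σ} {st : T.C → ℕ} {su : U.C → ℕ}

/-- `U` has the stages of `T` (with multiplicity `≤ N`) and wide stages on top -/
structure Ex (T : TS σ') (U : TS σ) (st : T.C → ℕ) (su : U.C → ℕ) (M N n : ℕ) (w : ℝ) : Prop where
  t : (T.stg st).Tri
  u : (U.stg su).Tri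
  old : ∀ t ≤ M, (U.stg su).ct t ≤ (T.stg st).ct t ^ N ∧ (U.stg su).R t ≤ (T.stg st).R t * N
  sy : ∀ t ≤ M, ∀ κ R τ, (∀ j, 0 < κ j) → T.SymS st t κ R τ → U.SymS su t κ R τ
  new : ∀ t, M < t → (U.stg su).R t ≤ n ∧ ∀ k : U.C → ℤ, k ≠ 0 → (∀ c, k c ≠ 0 → su c = t) →
    w ≤ qf (U.stg su).D (zc k)

theorem Ex.rgP {M M' N n : ℕ} {w P P0 a a0 l l0 : ℝ} {κ : ℕ → ℕ → ℝ} {lb : ℕ → ℝ}
    (h : Ex T U st su M N n w) (r : T.RgP st M P0 a0 l0 κ lb) (hM : M ≤ M') (hN : 1 ≤ N)
    (hP : 1 ≤ P) (hP0 : P * N ≤ P0) (a1 : a ≤ 1) (ha : a0 ≤ a / P ^ (M' + 1)) (hl : 0 ≤ l)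
    (hl0 : l + M' * (1 + n * (1 + Real.log (a / P ^ (M' + 1))⁻¹)) ≤ l0)
    (hw : P * (2 + l + M' * (1 + n * (1 + Real.log (a / P ^ (M' + 1))⁻¹))) ≤
      w * (a / P ^ (M' + 1))) :
    U.RgP su M' P a l (fun t j => if t ≤ M then κ t j else a / P ^ (M' + 1 - t))
      fun t => if t ≤ M then lb t else a / P ^ (M' + 1 - t) := by
  set b := a / P ^ (M' + 1) with hb
  set x := 1 + n * (1 + Real.log b⁻¹) with hx
  have N1 : (1 : ℝ) ≤ N := by exact_mod_cast hN
  have P0' : 0 < P := by linarith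
  have pp : P ≤ P0 := by nlinarith
  have kp : ∀ t ≤ M, ∀ j, 0 < κ t j ∧ P * κ t j ≤ b := fun t ht j =>
    have y := (r.lo t ht).1.trans_le ((r.lo t ht).2.2 j).1
    ⟨y, ((mul_le_mul_of_nonneg_right pp y.le).trans ((r.lo t ht).2.2 j).2).trans ha⟩
  have b0 : 0 < b := (mul_pos P0' (kp 0 (Nat.zero_le _) 0).1).trans_le (kp 0 (Nat.zero_le _) 0).2
  have a0' : 0 < a := (div_pos_iff_of_pos_right (by positivity)).1 b0
  have mo : ∀ i j, i ≤ j → a / P ^ j ≤ a / P ^ i := fun i j e => by gcongr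
  have st1 : ∀ i j, i + 1 ≤ j → P * (a / P ^ j) ≤ a / P ^ i := fun i j e =>
    (mul_le_mul_of_nonneg_left (mo _ _ e) P0'.le).trans_eq (by rw [pow_succ]; field_simp)
  have ma : ∀ j, a / P ^ j ≤ a := fun j => by simpa using mo 0 j (Nat.zero_le _)
  have lg : 0 ≤ Real.log b⁻¹ := log_inv_nonneg b0 ((ma _).trans a1)
  have n0 : (0 : ℝ) ≤ n := Nat.cast_nonneg _
  have x1 : n + 1 ≤ x := by nlinarith
  set lb' := fun t => if t ≤ M then lb t else a / P ^ (M' + 1 - t) with hlb
  have M0 : (0 : ℝ) ≤ M' := Nat.cast_nonneg _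
  have w0 : 0 < w := (mul_pos_iff_of_pos_right b0).1 (lt_of_lt_of_le (by positivity) hw)
  have c2 : ∀ j ∈ Ioc M M', U.cst su lb' j ≤ x := fun j hj => by
    obtain ⟨j1, j2⟩ := mem_Ioc.1 hj
    have M1 : (1 : ℝ) ≤ M' := by exact_mod_cast (by omega : 1 ≤ M')
    have rn : ((U.stg su).R j : ℝ) ≤ n := by exact_mod_cast (h.new j j1).1
    have y := new_ct h.u (t := j) (w := w) (by
      have : w * b ≤ w := mul_le_of_le_one_right w0.le ((ma _).trans a1)
      have : 2 + l + M' * x ≤ P * (2 + l + M' * x) := le_mul_of_one_le_left (by positivity) hP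
      nlinarith) fun k k0 hk => (h.new j j1).2 k k0 fun c z => (stg_lev c).symm.trans (hk c z)
    have z : Real.log (lb' j)⁻¹ ≤ Real.log b⁻¹ := by
      rw [hlb]; simp only [if_neg (not_le.2 j1)]
      exact Real.log_le_log (by positivity) (inv_anti₀ b0 (mo _ _ (Nat.sub_le _ _)))
    have : ((U.stg su).R j : ℝ) * (1 + Real.log (lb' j)⁻¹) ≤ n * (1 + Real.log b⁻¹) :=
      (mul_le_mul_of_nonneg_left (by linarith) (Nat.cast_nonneg _)).trans
        (mul_le_mul_of_nonneg_right rn (by linarith))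
    rw [cst]; linarith
  have c3 : ∀ s ⊆ Ioc M M', ∑ j ∈ s, U.cst su lb' j ≤ M' * x := fun s hs =>
    (sum_le_card_nsmul _ _ _ fun j hj => c2 j (hs hj)).trans (by
      rw [nsmul_eq_mul]
      gcongr
      exact (card_le_card hs).trans (by simp))
  have c1 : ∀ j ≤ M, U.cst su lb' j ≤ N * T.cst st lb j := fun j hj => by
    have y := Real.log_le_log (zero_lt_one.trans_le (one_le_ct h.u j)) (h.old j hj).1
    have z : ((U.stg su).R j : ℝ) ≤ (T.stg st).R j * N := by exact_mod_cast (h.old j hj).2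
    have := log_inv_nonneg (r.lo j hj).1 (r.lo j hj).2.1
    rw [Real.log_pow] at y
    rw [cst, cst, hlb]; simp only [if_pos hj]
    nlinarith
  refine ⟨fun t ht => ?_, fun t ht t' e j j' => ?_, fun t ht => ?_⟩
  · by_cases k : t ≤ M
    · simp only [hlb, if_pos k]
      exact ⟨(r.lo t k).1, (r.lo t k).2.1, fun j => ⟨((r.lo t k).2.2 j).1,
        (kp t k j).2.trans (ma _)⟩⟩
    · simp only [hlb, if_neg k]
      exact ⟨by positivity, (ma _).trans a1, fun _ => ⟨le_rfl, by
        simpa using st1 0 (M' + 1 - t) (by omega)⟩⟩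
  · by_cases k : t ≤ M
    · rw [if_pos k, if_pos (e.le.trans k)]
      exact (mul_le_mul_of_nonneg_right pp (kp t' (e.le.trans k) j').1.le).trans
        (r.sep t k t' e j j')
    · rw [if_neg k]
      split_ifs with k'
      · exact (kp t' k' j').2.trans (mo _ _ (Nat.sub_le _ _))
      · exact st1 _ _ (by omega)
  · obtain ⟨t1, t2⟩ := mem_Icc.1 ht
    by_cases k : t ≤ M
    · have s := r.sum_nonneg h.t t le_rfl
      have y : ∑ j ∈ Icc t M', U.cst su lb' j ≤ N * ∑ j ∈ Icc t M, T.cst st lb j + M' * x := by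
        rw [show Icc t M' = Icc t M ∪ Ioc M M' by ext; simp; omega, sum_union (by
          rw [disjoint_left]; simp; omega), mul_sum]
        exact add_le_add (sum_le_sum fun j hj => c1 j (mem_Icc.1 hj).2) (c3 _ subset_rfl)
      have y0 : 0 ≤ l + M' * x := by positivity
      have z : P * (1 + l + ∑ j ∈ Icc t M', U.cst su lb' j) ≤
          P0 * (1 + l0 + ∑ j ∈ Icc t M, T.cst st lb j) :=
        calc _ ≤ P * (N * (1 + l0 + ∑ j ∈ Icc t M, T.cst st lb j)) :=
              mul_le_mul_of_nonneg_left (by nlinarith) P0'.le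
          _ ≤ _ := by rw [← mul_assoc]; gcongr; linarith
      simp only [if_pos k, show lb' t = lb t from if_pos k]
      exact h.sy t k _ _ _ (fun j => (kp t k j).1) ((r.sym t (mem_Icc.2 ⟨t1, k⟩)).mono
        (div_le_div_of_nonneg_right z (r.lo t k).1.le) (Real.exp_le_exp.2 (neg_le_neg z)))
    · intro m col q q0 hq hR
      have y := c3 (Icc t M') fun j hj => by simp at hj ⊢; omega
      have z := ((h.new t (not_le.1 k)).2 q q0 fun c z => (hq c z).1).trans hR
      have v : b ≤ lb' t := by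
        rw [show lb' t = _ from if_neg k]; exact mo _ _ (Nat.sub_le _ _)
      rw [le_div_iff₀ (b0.trans_le v)] at z
      nlinarith [mul_le_mul_of_nonneg_left v w0.le, mul_le_mul_of_nonneg_left y P0'.le]

theorem rg_ext (M M' C' N : ℕ) (hM : M ≤ M') (hN : 1 ≤ N) : ∃ C c : ℕ, ∀ (σ σ' : Type)
    [DecidableEq σ] [DecidableEq σ'] (T : TS σ') (U : TS σ) (st : T.C → ℕ) (su : U.C → ℕ) (n : ℕ)
    (w a η : ℝ), Ex T U st su M N n w → 1 ≤ n → 0 < a → a ≤ 1 → 0 < η → η ≤ 1 →
    T.RgS st M C n (a / (n + 2) ^ c) ((η * a / (n + 2) ^ c) ^ (n + 2) ^ c) →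
    (n + 2) ^ c * (1 + Real.log η⁻¹ + Real.log a⁻¹) ≤ w * a → U.RgS su M' C' n a η := by
  refine ⟨C' + N, C' * (M' + 2) + (2 + M' * (1 + (M' + 1) * C') + 2),
    fun σ σ' _ _ T U st su n w a η h n1 a0 a1 e0 e1 r hw => ?_⟩
  obtain ⟨κ, lb, r⟩ := rgS_iff.1 r
  have n1' : (1 : ℝ) ≤ n := by exact_mod_cast n1
  have two : ∀ m : ℕ, (m : ℝ) ≤ (n + 1) ^ m := fun m =>
    (by exact_mod_cast Nat.lt_two_pow_self.le : (m : ℝ) ≤ 2 ^ m).trans (by gcongr; linarith)
  set P : ℝ := (n + 1) ^ C' with hP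
  set E := 2 + M' * (1 + (M' + 1) * C') with hE
  set Q : ℝ := (n + 2) ^ (C' * (M' + 2) + (E + 2)) with hQ
  have P1 : 1 ≤ P := one_le_pow₀ (by linarith)
  have le := log_inv_nonneg e0 e1
  have la := log_inv_nonneg a0 a1
  set Y := 1 + Real.log η⁻¹ + Real.log a⁻¹ with hY
  have lp : Real.log (a / P ^ (M' + 1))⁻¹ ≤ Real.log a⁻¹ + (M' + 1) * C' * n := by
    have := Real.log_le_sub_one_of_pos (show (0 : ℝ) < n + 1 by linarith)
    rw [inv_div, div_eq_inv_mul, Real.log_mul (by positivity) (by positivity), hP, Real.log_pow,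
      Real.log_pow]
    push_cast
    rw [mul_assoc]
    gcongr
    linarith
  set Z := 2 + Real.log η⁻¹ + M' * (1 + n * (1 + Real.log (a / P ^ (M' + 1))⁻¹)) with hZ
  have z1 : Z ≤ E * (n + 2) ^ 2 * Y := by
    set D : ℝ := (M' + 1) * C'
    have D0 : 0 ≤ D := by positivity
    have Y1 : 1 ≤ Y := by linarith
    have s : 1 + n * (1 + Real.log (a / P ^ (M' + 1))⁻¹) ≤ (1 + D) * ((n + 2) ^ 2 * Y) := by
      have b1 : n * (1 + Real.log (a / P ^ (M' + 1))⁻¹) ≤ n * (Y + D * n) :=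
        mul_le_mul_of_nonneg_left (by linarith) (by linarith)
      have b2 : D * (n * n) ≤ D * ((n + 2) ^ 2 * Y) :=
        mul_le_mul_of_nonneg_left (by nlinarith) D0
      nlinarith
    have b3 : Y ≤ (n + 2) ^ 2 * Y := le_mul_of_one_le_left (by linarith) (by nlinarith)
    have := mul_le_mul_of_nonneg_left s (Nat.cast_nonneg (α := ℝ) M')
    rw [hE]; push_cast
    nlinarith
  have q1 : P ^ (M' + 2) * (E * (n + 2) ^ 2) ≤ Q := by
    rw [hQ, pow_add _ (C' * _), pow_add _ E, hP, ← pow_mul]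
    gcongr
    · linarith
    · exact (two E).trans (by gcongr; linarith)
  have Z0 : 0 ≤ Z := by
    have := log_inv_nonneg (η := a / P ^ (M' + 1)) (by positivity)
      ((div_le_self a0.le (one_le_pow₀ P1)).trans a1)
    positivity
  have q2 : P ^ (M' + 2) * Z ≤ Q * Y :=
    (mul_le_mul_of_nonneg_left z1 (by positivity)).trans (by rw [← mul_assoc]; gcongr)
  have E1 : (1 : ℝ) ≤ E * (n + 2) ^ 2 :=
    one_le_mul_of_one_le_of_one_le (by exact_mod_cast (by omega : 1 ≤ E)) (by nlinarith)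
  have q3 : P ^ (M' + 1) ≤ Q := (pow_le_pow_right₀ P1 (Nat.le_succ _)).trans
    ((le_mul_of_one_le_right (by positivity) E1).trans q1)
  have Q3 : 3 ≤ Q := le_trans (by linarith) (le_self_pow₀ (by linarith) (by omega))
  refine rgS_iff.2 ⟨_, _, h.rgP r hM hN P1 ?_ a1 (by gcongr) le ?_ ?_⟩
  · rw [pow_add]; gcongr; exact two N
  · have lq : 1 ≤ Real.log Q := by
      rw [Real.le_log_iff_exp_le (by linarith)]; linarith [Real.exp_one_lt_d9]
    have : Z ≤ P ^ (M' + 2) * Z := le_mul_of_one_le_left Z0 (one_le_pow₀ P1)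
    rw [Real.log_inv ((_ : ℝ) ^ _), Real.log_pow, Real.log_div (by positivity) (by positivity),
      Real.log_mul e0.ne' a0.ne']
    rw [Real.log_inv η, Real.log_inv a] at hY
    push_cast
    rw [← hQ]
    nlinarith
  · rw [← mul_div_assoc, le_div_iff₀ (by positivity)]
    refine le_trans (le_of_eq ?_) (q2.trans hw)
    ring

end Crest.Agent.N49.Sw.Cq

end
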