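import Crest.Agent.N49.Sw.Df2
import Crest.Agent.N49.Tn.Fub

/-!
# Row 49 (helper57): the coordinates of the coloured tower
-/

set_option autoImplicit false
set_option linter.unusedSectionVars false

open Matrix MvPolynomial Finset

noncomputable section

namespace Crest.Agent.N49.Sw.Cw0

open Po Tw Sd

variable {σ τ : Type} [Fintype σ] [DecidableEq σ] [DecidableEq τ] {s : ℕ} {T : TS Unit}
  {B : Bk (VV T.C σ) σ} {w : ℝ} {col : τ → σ} {W : Finset (τ →₀ ℕ)} {K : Kn τ}

/-- clause 1 -/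
theorem ok0 (hW : Dn W) (o : (MR col W K).Ok) : (MR (fun _ => ()) W K).Ok :=
  ⟨o.ne, o.one, (Sh.mono_ok (col := fun _ => ()) (ε := 0) (Kw := dk fun _ => 1) hW
      (KB.pd' (kb_dk (a := 1) (b := 1) fun _ _ => ⟨le_rfl, le_rfl⟩) one_pos) (Sh.dk_blk _)).gr,
    o.mul, o.eps, o.pd, fun μ ν z => unit_ext (by
      have := congrArg Finsupp.degree (o.blk μ ν z)
      simp only [Sh.cd, degree_col] at this ⊢
      exact this)⟩

theorem lev_cw {col' : τ → Unit} (p : T.Cw (MR col' W K)) : p.1.2.1.degree = T.lev p.1.1 :=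
  (degree_col col' _).symm.trans (congrArg Finsupp.degree p.2)

theorem mem_col (h : ∀ F, T.lev F ≤ s) (p : T.Cw (MR (fun _ => ()) W K)) :
    p.1.2.1.mapDomain col ∈ (full σ s).erase 0 := by
  refine mem_erase.2 ⟨fun e => Sh.MW.ne p.1.2 ?_, mem_full.2 ?_⟩
  · rw [← Finsupp.degree_eq_zero_iff, ← degree_col col, e, map_zero]
  · rw [degree_col, lev_cw]; exact h _

variable (col) in
/-- the coloured part of an old coordinate -/
def cp (h : ∀ F, T.lev F ≤ s) (p : T.Cw (MR (fun _ => ()) W K)) : T.Cw (FS σ s) :=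
  ⟨(p.1.1, ⟨p.1.2.1.mapDomain col, mem_col h p⟩), unit_ext (by
    change ((p.1.2.1.mapDomain col).mapDomain _).degree = _
    rw [degree_col, degree_col]; exact lev_cw p)⟩

theorem old (p : T.Cw (FS σ s)) (μ : Sh.MW W) (e : μ.1.mapDomain col = p.1.2.1) :
    (MR (fun _ => ()) W K).cd μ = T.deg p.1.1 := unit_ext (by
  change (μ.1.mapDomain _).degree = _
  rw [degree_col, ← degree_col col, e]; exact lev_cw p)

variable (B w col W K) in
/-- **the coordinates of the coloured tower: old coordinates and brackets** -/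
def eqv (h : ∀ F, T.lev F ≤ s) :
    T.Cw (MR (fun _ => ()) W K) ⊕ (sp B col W).N ≃ (cE s T B w).Cw (MR col W K) where
  toFun := Sum.elim (fun p => ⟨(.inl (cp col h p), p.1.2), rfl⟩) fun x => ⟨(.inr x.1.1, x.1.2), x.2⟩
  invFun q := match q with
    | ⟨(.inl p, μ), e⟩ => .inl ⟨(p.1.1, μ), old p μ e⟩
    | ⟨(.inr a, μ), e⟩ => .inr ⟨(a, μ), e⟩
  left_inv := by rintro (p | x) <;> rfl
  right_inv := by
    rintro ⟨⟨p | a, μ⟩, e⟩
    · refine Subtype.ext (Prod.ext (congrArg Sum.inl (Subtype.ext (Prod.ext rfl ?_))) rfl)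
      exact Subtype.ext e
    · rfl

variable (h : ∀ F, T.lev F ≤ s)

theorem eqv_inl (p : T.Cw (MR (fun _ => ()) W K)) :
    eqv B w col W K h (.inl p) = ⟨(.inl (cp col h p), p.1.2), rfl⟩ := rfl

theorem eqv_inr (x : (sp B col W).N) :
    eqv B w col W K h (.inr x) = ⟨(.inr x.1.1, x.1.2), x.2⟩ := rfl

theorem eqv_old (p : T.Cw (FS σ s)) (μ : Sh.MW W) (e e') :
    eqv B w col W K h (.inl ⟨(p.1.1, μ), e'⟩) = ⟨(.inl p, μ), e⟩ :=
  (eqv B w col W K h).apply_symm_apply ⟨(.inl p, μ), e⟩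

theorem res_eq {R : Type} [AddCommMonoid R] (y : (cE s T B w).Cw (MR col W K) → R)
    (p : T.Cw (MR (fun _ => ()) W K)) : res s T B w col W K y p = y (eqv B w col W K h (.inl p)) := by
  unfold res ex
  refine sum_eq_single_of_mem _ (mem_filter.2 ⟨mem_univ _, rfl, rfl⟩) fun q hq ne => (ne ?_).elim
  obtain ⟨e1, e2⟩ := (mem_filter.1 hq).2
  obtain ⟨⟨c | a, μ⟩, e⟩ := q
  · obtain rfl : μ = p.1.2 := Subtype.ext e2
    have e3 : c.1.1 = p.1.1 := Sum.inl_injective e1
    refine Subtype.ext (Prod.ext (congrArg Sum.inl (Subtype.ext (Prod.ext e3 ?_))) rfl)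
    exact Subtype.ext e.symm
  · exact absurd e1 Sum.inr_ne_inl

theorem res_old {R : Type} [AddCommMonoid R] (y : (cE s T B w).Cw (MR col W K) → R)
    (p : T.Cw (FS σ s)) (μ : Sh.MW W) (e e') :
    res s T B w col W K y ⟨(p.1.1, μ), e'⟩ = y ⟨(.inl p, μ), e⟩ := by
  unfold res ex
  refine sum_eq_single_of_mem (⟨(.inl p, μ), e⟩ : (cE s T B w).Cw (MR col W K))
    (mem_filter.2 ⟨mem_univ _, rfl, rfl⟩) fun q hq ne => (ne ?_).elim
  obtain ⟨e1, e2⟩ := (mem_filter.1 hq).2
  obtain ⟨⟨c | a, ν⟩, e0⟩ := q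
  · obtain rfl : ν = μ := Subtype.ext e2
    have e3 : c.1.1 = p.1.1 := Sum.inl_injective e1
    refine Subtype.ext (Prod.ext (congrArg Sum.inl (Subtype.ext (Prod.ext e3 ?_))) rfl)
    exact Subtype.ext (e0.symm.trans e)
  · exact absurd e1 Sum.inr_ne_inl

theorem nw_eq {R : Type} (y : (cE s T B w).Cw (MR col W K) → R) (x : (sp B col W).N) :
    nw s T B w col W K y x = y (eqv B w col W K h (.inr x)) := rfl

theorem res_smg {R : Type} [AddCommMonoid R] (b : T.Cw (MR (fun _ => ()) W K) → R)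
    (z : (sp B col W).N → R) : res s T B w col W K (smg (eqv B w col W K h) b z) = b :=
  funext fun p => (res_eq h _ p).trans (smg_inl _ b z p)

theorem nw_smg {R : Type} (b : T.Cw (MR (fun _ => ()) W K) → R) (z : (sp B col W).N → R) :
    nw s T B w col W K (smg (eqv B w col W K h) b z) = z :=
  funext fun p => (nw_eq h _ p).trans (smg_inr _ b z p)

theorem smg_res {R : Type} [AddCommMonoid R] (y : (cE s T B w).Cw (MR col W K) → R) :
    smg (eqv B w col W K h) (res s T B w col W K y) (nw s T B w col W K y) = y := by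
  rw [show res s T B w col W K y = _ from funext (res_eq h y)]
  exact smg_self _ y

include h in
/-- clause 4 -/
theorem bij {R : Type} [AddCommMonoid R] :
    Function.Bijective fun y : (cE s T B w).Cw (MR col W K) → R =>
      (res s T B w col W K y, nw s T B w col W K y) :=
  Function.bijective_iff_has_inverse.2 ⟨fun x => smg (eqv B w col W K h) x.1 x.2, smg_res h,
    fun x => Prod.ext (res_smg h x.1 x.2) (nw_smg (w := w) h x.1 x.2)⟩

theorem zc_res (y : (cE s T B w).Cw (MR col W K) → ℤ) :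
    res s T B w col W K (zc y) = zc (res s T B w col W K y) := by
  funext p
  simp only [res, ex, zc, Int.cast_sum]

theorem cp_eq {p p' : T.Cw (MR (fun _ => ()) W K)} : cp col h p = cp col h p' ↔
    p.1.1 = p'.1.1 ∧ p.1.2.1.mapDomain col = p'.1.2.1.mapDomain col :=
  ⟨fun e => ⟨congrArg (·.1.1) e, congrArg (·.1.2.1) e⟩,
    fun e => Subtype.ext (Prod.ext e.1 (Subtype.ext e.2))⟩

/-- products of kernels in the new coordinates -/
theorem kw_eqv (M0 : Matrix T.C T.C ℝ) (X : Matrix B.N (T.Cw (FS σ s)) ℝ) (M2 : Matrix B.N B.N ℝ)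
    (Kw : Matrix (Sh.MW W) (Sh.MW W) ℝ)
    (blk : ∀ μ ν, Kw μ ν ≠ 0 → μ.1.mapDomain col = ν.1.mapDomain col) (a a') :
    (cE s T B w).kw (MR col W K) (fromBlocks (T.kw (FS σ s) M0 1) 0 X M2) Kw
      (eqv B w col W K h a) (eqv B w col W K h a') =
    fromBlocks (T.kw (MR (fun _ => ()) W K) M0 Kw) 0
      (Matrix.of fun (x : (sp B col W).N) p => X x.1.1 (cp col h p) * Kw x.1.2 p.1.2)
      (Matrix.of fun x x' : (sp B col W).N => M2 x.1.1 x'.1.1 * Kw x.1.2 x'.1.2) a a' := by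
  rcases a with p | x <;> rcases a' with p' | x'
  · change M0 p.1.1 p'.1.1 * (1 : Matrix (FS σ s).W (FS σ s).W ℝ) (cp col h p).1.2 (cp col h p').1.2 *
      Kw p.1.2 p'.1.2 = M0 p.1.1 p'.1.1 * Kw p.1.2 p'.1.2
    by_cases z : Kw p.1.2 p'.1.2 = 0
    · rw [z, mul_zero, mul_zero]
    · rw [show (cp col h p).1.2 = (cp col h p').1.2 from Subtype.ext (blk _ _ z), one_apply_eq,
        mul_one]
  · exact zero_mul _
  · rfl
  · rfl

theorem fs_K : (FS σ s).K = 1 := by
  ext μ ν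
  rw [one_apply]
  exact if_congr Subtype.ext_iff.symm rfl rfl

theorem cE_K : (cE s T B w).K = fromBlocks (T.kw (FS σ s) T.K 1) 0 0 (w • 1) := by
  rw [← fs_K]; rfl

/-- the covariance in the new coordinates -/
theorem K_eqv (o : (MR col W K).Ok) (Ψ' : (cE s T B w).Twd (MR col W K))
    (Ψ : T.Twd (MR (fun _ => ()) W K)) (a a') :
    ((cE s T B w).tw _ Ψ').K (eqv B w col W K h a) (eqv B w col W K h a') =
      fromBlocks (T.tw _ Ψ).K 0 0 (KN B w col W K) a a' := by
  rw [TS.tw_K, TS.tw_K, cE_K]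
  refine (kw_eqv h T.K 0 (w • 1) (MR col W K).K o.blk a a').trans ?_
  rcases a with p | x <;> rcases a' with p' | x'
  · rfl
  · rfl
  · exact zero_mul _
  · change (w • (1 : Matrix B.N B.N ℝ)) x.1.1 x'.1.1 * K x.1.2.1 x'.1.2.1 =
      if x.1.1 = x'.1.1 then w * K x.1.2.1 x'.1.2.1 else 0
    rw [Matrix.smul_apply, one_apply]
    split_ifs <;> simp

end Crest.Agent.N49.Sw.Cw0

end
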