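import Crest.Agent.N49.Po.Lin

/-!
# Row 49 (helper29): descent of a relation along a fibre sum, abstract form
-/

set_option autoImplicit false
set_option linter.unusedSectionVars false

open Matrix Finset

noncomputable section

namespace Crest.Agent.N49.Sw.Ds

open Po

variable {D D' : Type} [Fintype D] [DecidableEq D] [Fintype D'] [DecidableEq D']

/-- the fibre sums -/
def ps (pr : D → D') (ξ : D → ℝ) (c' : D') : ℝ := ∑ c with pr c = c', ξ c
/-- the sizes of the fibres -/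
def nf (pr : D → D') (c' : D') : ℝ := #{c | pr c = c'}

theorem nf_one (pr : D → D') (c : D) : 1 ≤ nf pr (pr c) := by
  rw [nf, Nat.one_le_cast, one_le_card]; exact ⟨c, by simp⟩

theorem ps_cg {pr : D → D'} {ξ η : D → ℝ} {c' : D'} (h : ∀ c, pr c = c' → ξ c = η c) :
    ps pr ξ c' = ps pr η c' := sum_congr rfl fun c hc => h c (mem_filter.1 hc).2

theorem ps_div {pr : D → D'} {ξ : D → ℝ} {a : ℝ} {c : D}
    (h : ∀ d, pr d = pr c → ξ d = a / nf pr (pr c)) : ps pr ξ (pr c) = a := by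
  have := nf_one pr c
  rw [ps_cg h, ps, sum_const, nsmul_eq_mul, ← nf]; field_simp

theorem fix (rk : D → ℕ) (F : (D → ℝ) → D → ℝ)
    (h : ∀ ξ η c, (∀ d, rk d < rk c → ξ d = η d) → F ξ c = F η c) : ∃ ξ, F ξ = ξ := by
  have : ∀ r, ∃ ξ : D → ℝ, ∀ c, rk c < r → F ξ c = ξ c := fun r => by
    induction r with
    | zero => exact ⟨0, fun _ h => absurd h (Nat.not_lt_zero _)⟩
    | succ r ih =>
      obtain ⟨ξ, e⟩ := ih
      refine ⟨fun c => if rk c < r then ξ c else F ξ c, fun c hc => ?_⟩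
      rw [h _ ξ c fun d hd => if_pos (by omega)]
      beta_reduce
      split_ifs with k
      exacts [e c k, rfl]
  obtain ⟨ξ, e⟩ := this (univ.sup rk + 1)
  exact ⟨ξ, funext fun c => e c (Nat.lt_succ_of_le (le_sup (mem_univ c)))⟩

theorem qf_of {K : Matrix D D ℝ} (hK : K.PosDef) {l v : D → ℝ} (h : K *ᵥ l = v) :
    qf K⁻¹ v = v ⬝ᵥ l := by
  rw [qf, ← h, mulVec_mulVec, nonsing_inv_mul _ hK.det_pos.ne'.isUnit, one_mulVec]

/-- block structure of the kernels; `o` = the old coordinates -/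
structure Kb (pr : D → D') (o : D' → Prop) (K : Matrix D D ℝ) (K' : Matrix D' D' ℝ) : Prop where
  pd : K.PosDef
  pd' : K'.PosDef
  sj : ∀ c', o c' → ∃ c, pr c = c'
  ij : ∀ c d, o (pr c) → pr d = pr c → d = c
  old : ∀ c d, o (pr c) → o (pr d) → K c d = K' (pr c) (pr d)
  dg : ∀ c, K c c = K' (pr c) (pr c)
  off : ∀ c d, ¬ o (pr c) ∨ ¬ o (pr d) → c ≠ d → K c d = 0
  off' : ∀ c d, ¬ o c ∨ ¬ o d → c ≠ d → K' c d = 0

variable {pr : D → D'} {o : D' → Prop} {K : Matrix D D ℝ} {K' : Matrix D' D' ℝ}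

theorem Kb.fib (h : Kb pr o K K') {c : D} (k : o (pr c)) : ({d | pr d = pr c} : Finset D) = {c} :=
  eq_singleton_iff_unique_mem.2 ⟨by simp, fun d e => h.ij c d k (mem_filter.1 e).2⟩

theorem Kb.nf (h : Kb pr o K K') {c : D} (k : o (pr c)) : nf pr (pr c) = 1 := by
  rw [Ds.nf, h.fib k]; simp

theorem Kb.ps (h : Kb pr o K K') {c : D} (k : o (pr c)) (ξ : D → ℝ) : ps pr ξ (pr c) = ξ c := by
  rw [Ds.ps, h.fib k, sum_singleton]

theorem Kb.row (h : Kb pr o K K') {c : D} (k : ¬ o (pr c)) (l : D → ℝ) :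
    (K *ᵥ l) c = K c c * l c :=
  sum_eq_single c (fun d _ e => mul_eq_zero_of_left (h.off c d (.inl k) e.symm) _) (by simp)

theorem Kb.le (h : Kb pr o K K') (v' : D' → ℝ) :
    qf K⁻¹ (fun c => v' (pr c) / Ds.nf pr (pr c)) ≤ qf K'⁻¹ v' := by
  classical
  obtain ⟨l, e⟩ : ∃ l, K' *ᵥ l = v' := ⟨K'⁻¹ *ᵥ v', by
    rw [mulVec_mulVec, mul_nonsing_inv _ h.pd'.det_pos.ne'.isUnit, one_mulVec]⟩
  have row : ∀ c', ¬ o c' → v' c' = K' c' c' * l c' := fun c k => e ▸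
    sum_eq_single c (fun d _ e => mul_eq_zero_of_left (h.off' c d (.inl k) e.symm) _) (by simp)
  rw [qf_of h.pd' e, qf_of h.pd (l := fun c => l (pr c) / Ds.nf pr (pr c)) (funext fun c => ?_),
    dotProduct, dotProduct, ← sum_fiberwise univ pr]
  · refine sum_le_sum fun c' _ => ?_
    by_cases k : ∃ c, pr c = c'
    · obtain ⟨c, rfl⟩ := k
      have n := nf_one pr c
      rw [show ∑ d with pr d = pr c, _ = _ from ps_div (a := v' (pr c) * l (pr c) / Ds.nf pr (pr c))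
        fun d hd => by rw [hd]; field_simp]
      by_cases k : o (pr c)
      · rw [h.nf k, div_one]
      · refine div_le_self ?_ n
        rw [row _ k, mul_assoc]
        exact mul_nonneg h.pd'.diag_pos.le (mul_self_nonneg _)
    · rw [sum_eq_zero fun d hd => absurd ⟨d, (mem_filter.1 hd).2⟩ k, row _ (mt (h.sj _) k),
        mul_assoc]
      exact mul_nonneg h.pd'.diag_pos.le (mul_self_nonneg _)
  by_cases k : o (pr c)
  · rw [h.nf k, div_one, ← e, mulVec, mulVec, dotProduct, dotProduct, ← sum_fiberwise univ pr]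
    refine sum_congr rfl fun d' _ => ?_
    by_cases k' : o d'
    · obtain ⟨d, rfl⟩ := h.sj d' k'
      rw [h.fib k', sum_singleton, h.nf k', div_one, h.old c d k k']
    · rw [h.off' _ _ (.inr k') fun e => k' (e ▸ k), zero_mul]
      refine sum_eq_zero fun d hd => ?_
      have := (mem_filter.1 hd).2
      rw [h.off c d (.inr (this ▸ k')) fun e => k' (this ▸ e ▸ k), zero_mul]
  · rw [h.row k, row _ k, h.dg, mul_div_assoc]

variable {p : D → Prop} {p' : D' → Prop} [DecidablePred p] [DecidablePred p']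

theorem Kb.sub (h : Kb pr o K K') (hp : ∀ c, p c ↔ p' (pr c)) :
    Kb (fun c : {c // p c} => (⟨pr c, (hp c).1 c.2⟩ : {c // p' c})) (fun c => o c)
      (K.submatrix Subtype.val Subtype.val) (K'.submatrix Subtype.val Subtype.val) :=
  ⟨h.pd.submatrix Subtype.val_injective, h.pd'.submatrix Subtype.val_injective,
    fun c' k => let ⟨c, e⟩ := h.sj c' k; ⟨⟨c, (hp c).2 (e ▸ c'.2)⟩, Subtype.ext e⟩,
    fun c d k e => Subtype.ext (h.ij c d k (congrArg Subtype.val e)), fun c d => h.old c d,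
    fun c => h.dg c, fun c d k e => h.off c d k (Subtype.val_injective.ne e),
    fun c d k e => h.off' c d k (Subtype.val_injective.ne e)⟩

theorem nf_sub (hp : ∀ c, p c ↔ p' (pr c)) (c' : {c // p' c}) :
    nf (fun c : {c // p c} => (⟨pr c, (hp c).1 c.2⟩ : {c // p' c})) c' = nf pr c' :=
  congrArg Nat.cast (card_bij (fun c _ => c.1) (fun c h => by simpa [Subtype.ext_iff] using h)
    (fun _ _ _ _ => Subtype.ext) fun c h => have e := (mem_filter.1 h).2
      ⟨⟨c, (hp c).2 (e ▸ c'.2)⟩, by simpa [Subtype.ext_iff] using e, rfl⟩)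

/-- triangular error maps -/
def Tr (rk : D → ℕ) (u : (D → ℝ) → D → ℝ) : Prop :=
  ∀ ξ η c, rk c ≠ 0 → (∀ d, rk d < rk c → ξ d = η d) → u ξ c - ξ c = u η c - η c

theorem Tr.inj {rk : D → ℕ} {u : (D → ℝ) → D → ℝ} (h : Tr rk u) {ξ η : D → ℝ} (r : ℕ)
    (e : ∀ c, rk c < r → ξ c = η c ∨ (rk c ≠ 0 ∧ u ξ c = u η c)) : ∀ c, rk c < r → ξ c = η c := by
  induction r with
  | zero => exact fun _ h => absurd h (Nat.not_lt_zero _)
  | succ r ih =>
    refine fun c hc => (e c hc).elim id fun k => ?_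
    have := h ξ η c k.1 fun d hd => ih (fun c hc => e c (by omega)) d (by omega)
    linarith [k.2]

theorem Tr.inj' {rk : D → ℕ} {u : (D → ℝ) → D → ℝ} (h : Tr rk u) {ξ η : D → ℝ}
    (e : ∀ c, ξ c = η c ∨ (rk c ≠ 0 ∧ u ξ c = u η c)) : ξ = η :=
  funext fun c => h.inj (rk c + 1) (fun c _ => e c) c (Nat.lt_succ_self _)

theorem Tr.ex {rk : D → ℕ} {u : (D → ℝ) → D → ℝ} (h : Tr rk u) (q : D → Prop) (a t : D → ℝ) :
    ∃ ξ, ∀ c, (¬ (q c ∧ rk c ≠ 0) → ξ c = a c) ∧ (q c → rk c ≠ 0 → u ξ c = t c) := by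
  classical
  obtain ⟨ξ, e⟩ := fix rk (fun ξ c => if q c ∧ rk c ≠ 0 then t c - (u ξ c - ξ c) else a c)
    fun ξ η c k => by
      split_ifs with z
      exacts [by rw [h ξ η c z.2 k], rfl]
  refine ⟨ξ, fun c => ⟨fun k => (congrFun e c).symm.trans (if_neg k), fun k k' => ?_⟩⟩
  have := (congrFun e c).symm.trans (if_pos ⟨k, k'⟩)
  linarith

/-- the relation -/
def RR (K : Matrix D D ℝ) (u : (D → ℝ) → D → ℝ) (p : D → Prop) [DecidablePred p] (y : D → ℝ)
    (b : ℝ) (G : (D → ℝ) → ℝ) (I : D → ℤ) : Prop := (∀ c, ¬ p c → I c = 0) ∧ ∀ ξ : D → ℝ,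
  (∀ c, ¬ p c → ξ c = y c) → |G ξ - ∑ c, I c * ξ c| ≤
    b * √(qf (K.submatrix (Subtype.val : {c // p c} → D) Subtype.val)⁻¹ fun c => u ξ c.1)

variable {rk : D' → ℕ} {u : (D → ℝ) → D → ℝ} {u' : (D' → ℝ) → D' → ℝ} {y : D → ℝ} {y' : D' → ℝ}
  {G : (D → ℝ) → ℝ} {G' : (D' → ℝ) → ℝ} {b k0 : ℝ} {I : D → ℤ}

/-- the data of a descent -/
structure Dd (pr : D → D') (rk : D' → ℕ) (K : Matrix D D ℝ) (K' : Matrix D' D' ℝ)
    (u : (D → ℝ) → D → ℝ) (u' : (D' → ℝ) → D' → ℝ) (p : D → Prop) (p' : D' → Prop) (y : D → ℝ)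
    (y' : D' → ℝ) (G : (D → ℝ) → ℝ) (G' : (D' → ℝ) → ℝ) (b : ℝ) : Prop where
  kb : Kb pr (rk · = 0) K K'
  hp : ∀ c, p c ↔ p' (pr c)
  b0 : 0 ≤ b
  lo : ∀ c, rk (pr c) ≠ 0 → 4 * b ^ 2 < K c c
  tr : Tr (fun c => rk (pr c)) u
  tr' : Tr rk u'
  old : ∀ ξ η c, rk (pr c) = 0 → (∀ d, rk (pr d) = 0 → ξ d = η d) → u ξ c = u η c
  fn : ∀ ξ ξ', (∀ c, ξ' (pr c) = ps pr ξ (pr c)) → ∀ c, u' ξ' (pr c) = ps pr (u ξ) (pr c)
  hy : ∀ c, ¬ p c → y' (pr c) = ps pr y (pr c)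
  hG : ∀ ξ ξ', (∀ c, ¬ p c → ξ c = y c) → (∀ c, ¬ p' c → ξ' c = y' c) →
    (∀ c, ξ' (pr c) = ps pr ξ (pr c)) → G ξ = G' ξ'

theorem Dd.step (h : Dd pr rk K K' u u' p p' y y' G G' b) (r : RR K u p y b G I) {c₁ c₂ : D}
    (e : pr c₂ = pr c₁) (ih : ∀ d₁ d₂, pr d₂ = pr d₁ → rk (pr c₁) < rk (pr d₁) → I d₂ = I d₁) :
    I c₂ = I c₁ := by
  classical
  by_cases k0 : rk (pr c₁) = 0
  · rw [h.kb.ij c₁ c₂ k0 e]
  by_cases k1 : ¬ p c₁
  · rw [r.1 _ k1, r.1 _ (by rwa [h.hp, e, ← h.hp])]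
  by_contra ne
  have k2 : p c₂ := by rw [h.hp, e, ← h.hp]; exact not_not.1 k1
  have n12 : c₂ ≠ c₁ := fun e => ne (e ▸ rfl)
  let v : D → ℝ := Pi.single c₁ 1 - Pi.single c₂ 1
  have v0 : ∀ c, rk (pr c) ≠ rk (pr c₁) → v c = 0 := fun c k => by
    simp only [v, Pi.sub_apply]
    rw [Pi.single_eq_of_ne (show c ≠ c₁ from fun e => k (by rw [e])),
      Pi.single_eq_of_ne (show c ≠ c₂ from fun e' => k (by rw [e', e])), sub_self]
  have v1 : ∀ c', ps pr v c' = 0 := fun c' => by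
    simp only [ps, v, Pi.sub_apply, sum_sub_distrib, Pi.single_apply, sum_ite_eq', mem_filter, e,
      mem_univ, true_and, sub_self]
  choose ξ hξ using fun t : ℝ => h.tr.ex p y (t • v)
  have off : ∀ t c, ¬ p c → ξ t c = y c := fun t c k => (hξ t c).1 fun z => k z.1
  have pe : ∀ t, ps pr (ξ t) = ps pr (ξ 0) := fun t => h.tr'.inj' fun c' => by
    by_cases k : p' c' ∧ rk c' ≠ 0 ∧ ∃ c, pr c = c'
    · obtain ⟨a, a', c, rfl⟩ := k
      refine .inr ⟨a', ?_⟩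
      have : ∀ t, u' (ps pr (ξ t)) (pr c) = 0 := fun t => by
        rw [h.fn _ _ (fun _ => rfl), ps_cg (η := t • v) fun d (z : pr d = pr c) =>
          (hξ t d).2 ((h.hp d).2 (by rw [z]; exact a)) (by rw [z]; exact a')]
        simpa only [ps, Pi.smul_apply, smul_eq_mul, ← mul_sum, mul_eq_zero] using .inr (v1 (pr c))
      rw [this, this]
    · refine .inl (ps_cg fun d z => ?_)
      have : ¬ (p d ∧ rk (pr d) ≠ 0) := fun a => k ⟨z ▸ (h.hp d).1 a.1, z ▸ a.2, d, z⟩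
      rw [(hξ t d).1 this, (hξ 0 d).1 this]
  have gG : ∀ t, G (ξ t) = G' fun c' => if p' c' then ps pr (ξ 0) c' else y' c' := fun t =>
    h.hG _ _ (off t) (fun c k => if_neg k) fun c => by
      split_ifs with k
      · rw [pe t]
      · rw [h.hy c (by rwa [h.hp])]
        exact ps_cg fun d z => (off t d (by rwa [h.hp, z])).symm
  have low : ∀ t c, rk (pr c) < rk (pr c₁) → ξ t c = ξ 0 c := fun t => h.tr.inj _ fun c k => by
    by_cases a : p c ∧ rk (pr c) ≠ 0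
    · exact .inr ⟨a.2, by simp [(hξ _ c).2 a.1 a.2, v0 c k.ne]⟩
    · exact .inl (((hξ t c).1 a).trans ((hξ 0 c).1 a).symm)
  have sm : ∀ t, ∑ c, I c * ξ t c - ∑ c, I c * ξ 0 c = t * (I c₁ - I c₂) := fun t => by
    have : ∑ c, (I c : ℝ) * (t * v c) = t * (I c₁ - I c₂) := by
      simp [v, mul_sub, Pi.single_apply, mul_comm]
    rw [← this, ← sum_sub_distrib, ← sub_eq_zero, ← sum_sub_distrib, ← sum_fiberwise univ pr]
    refine sum_eq_zero fun c' _ => ?_
    rcases lt_or_ge (rk (pr c₁)) (rk c') with k | k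
    · by_cases a : ∃ c, pr c = c'
      · obtain ⟨c, rfl⟩ := a
        rw [sum_congr rfl (g := fun d => I c * (ξ t d - ξ 0 d)) fun d z => by
          have z := (mem_filter.1 z).2
          rw [ih c d z k, v0 d (by rw [z]; exact k.ne')]; ring, ← mul_sum, sum_sub_distrib]
        exact mul_eq_zero_of_right _ (sub_eq_zero.2 (congrFun (pe t) _))
      · exact sum_eq_zero fun d z => absurd ⟨d, (mem_filter.1 z).2⟩ a
    refine sum_eq_zero fun d z => ?_
    rw [← (mem_filter.1 z).2] at k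
    rcases k.lt_or_eq with k | k
    · rw [low t d k, v0 d k.ne]; ring
    by_cases a : p d
    · have k3 : rk (pr d) ≠ 0 := by rw [k]; exact k0
      have := h.tr (ξ t) (ξ 0) d k3 fun c z => low t c (lt_of_lt_of_eq z k)
      rw [(hξ t d).2 a k3, (hξ 0 d).2 a k3] at this
      simp only [Pi.smul_apply, smul_eq_mul] at this
      linear_combination (-I d : ℝ) * this
    · simp [r.1 d a]
  have S := h.kb.sub h.hp
  obtain ⟨κ, hκ⟩ : ∃ κ, κ = K c₁ c₁ := ⟨_, rfl⟩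
  have κ0 : 0 < κ := hκ ▸ h.kb.pd.diag_pos
  have qv : (qf (K.submatrix (Subtype.val : {c // p c} → D) Subtype.val)⁻¹ fun c => v c) =
      2 / κ := by
    rw [qf_of S.pd (l := fun c => v c / κ) (funext fun c => ?_)]
    · have : ∀ c, ¬ p c → v c * (v c / κ) = 0 := fun c k => by
        simp only [v, Pi.sub_apply]
        rw [Pi.single_eq_of_ne (show c ≠ c₁ from fun e => k (by rw [e]; exact not_not.1 k1)),
          Pi.single_eq_of_ne (show c ≠ c₂ from fun e => k (by rw [e]; exact k2))]; simp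
      rw [dotProduct, ← sum_subtype (univ.filter p) (by simp) fun c => v c * (v c / κ),
        sum_filter_of_ne fun c _ k => not_not.1 (mt (this c) k),
        Fintype.sum_eq_add c₁ c₂ n12.symm fun c k => by simp [v, k.1, k.2]]
      simp [v, n12, n12.symm]; ring
    by_cases k : rk (pr c) = 0
    · rw [v0 c (k ▸ Ne.symm k0)]
      refine sum_eq_zero fun d _ => ?_
      by_cases k' : rk (pr d) = 0
      · simp [v0 d (k' ▸ Ne.symm k0)]
      · exact mul_eq_zero_of_left (S.off c d (.inr k') fun e => k' (e ▸ k)) _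
    rw [S.row k, submatrix_apply]
    by_cases a : c.1 = c₁ ∨ c.1 = c₂
    · rw [show K c c = κ by rcases a with a | a <;> rw [a, hκ, h.kb.dg]; rw [e, h.kb.dg]]
      field_simp
    · simp [v, (not_or.1 a).1, (not_or.1 a).2]
  obtain ⟨Q, hQ⟩ : ∃ Q, Q = qf (K.submatrix (Subtype.val : {c // p c} → D) Subtype.val)⁻¹
    fun c => u (ξ 0) c := ⟨_, rfl⟩
  have θ : b * √(4 / κ) < 1 := by
    rw [← Real.sqrt_sq h.b0, ← Real.sqrt_mul (sq_nonneg b), Real.sqrt_lt' one_pos, ← mul_div_assoc,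
      div_lt_iff₀ κ0, hκ]
    linarith [h.lo c₁ k0]
  obtain ⟨t, t0, ht⟩ : ∃ t, 0 ≤ t ∧ b * √Q + b * √(2 * Q) < t * (1 - b * √(4 / κ)) :=
    ⟨(b * √Q + b * √(2 * Q) + 1) / (1 - b * √(4 / κ)), div_nonneg (by have := h.b0; positivity)
      (sub_pos.2 θ).le, by rw [div_mul_cancel₀ _ (sub_pos.2 θ).ne']; linarith⟩
  have r0 := r.2 _ (off 0)
  have r1 := r.2 _ (off t)
  have ut : (fun c : {c // p c} => u (ξ t) c) = (fun c => u (ξ 0) c.1) + t • fun c => v c.1 :=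
    funext fun c => by
      by_cases k : rk (pr c) = 0
      · rw [h.old _ (ξ 0) c k fun d z => low t d (z ▸ Nat.pos_of_ne_zero k0)]
        simp [v0 c (k ▸ Ne.symm k0)]
      · simp [(hξ _ c).2 c.2 k]
  have q1 := qf_add_le S.pd.inv (fun c => u (ξ 0) c.1) (t • fun c => v c.1)
  rw [← ut, qf_smul_right, qv, ← hQ] at q1
  have q2 : √(2 * Q + 2 * (t ^ 2 * (2 / κ))) ≤ √(2 * Q) + t * √(4 / κ) := by
    have Q0 : 0 ≤ Q := hQ ▸ qf_nonneg S.pd.inv _
    rw [Real.sqrt_le_left (by positivity), add_sq, mul_pow, Real.sq_sqrt (by positivity),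
      Real.sq_sqrt (by positivity)]
    have : 0 ≤ 2 * √(2 * Q) * (t * √(4 / κ)) := by positivity
    rw [show 2 * (t ^ 2 * (2 / κ)) = t ^ 2 * (4 / κ) by ring]; linarith
  have r2 := r1.trans (mul_le_mul_of_nonneg_left ((Real.sqrt_le_sqrt q1).trans q2) h.b0)
  rw [← hQ, gG] at r0
  rw [gG] at r2
  have a : t ≤ |t * ((I c₁ : ℝ) - I c₂)| := by
    rw [abs_mul, abs_of_nonneg t0]
    exact le_mul_of_one_le_right t0 (by exact_mod_cast Int.one_le_abs (sub_ne_zero.2 (Ne.symm ne)))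
  rw [← sm t] at a
  rw [abs_le] at r0 r2
  rcases le_abs'.1 a with a | a <;> nlinarith

theorem Dd.const (h : Dd pr rk K K' u u' p p' y y' G G' b) (r : RR K u p y b G I) {c₁ c₂ : D}
    (e : pr c₂ = pr c₁) : I c₂ = I c₁ := by
  have : ∀ n c₁ c₂, pr c₂ = pr c₁ → univ.sup rk < rk (pr c₁) + n → I c₂ = I c₁ := fun n => by
    induction n with
    | zero => exact fun c _ _ k => absurd (le_sup (mem_univ (pr c))) (not_le.2 k)
    | succ n ih => exact fun c d e k => h.step r e fun d₁ d₂ e' k' => ih _ _ e' (by omega)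
  exact this (univ.sup rk + 1) _ _ e (by omega)

/-- **descent** -/
theorem Dd.desc (h : Dd pr rk K K' u u' p p' y y' G G' b) (r : RR K u p y b G I) :
    ∃ I', RR K' u' p' y' b G' I' := by
  classical
  let I' : D' → ℤ := fun c' => if k : ∃ c, pr c = c' then I k.choose else 0
  have hI : ∀ c, I' (pr c) = I c := fun c =>
    (dif_pos ⟨c, rfl⟩).trans (h.const r (Exists.choose_spec (⟨c, rfl⟩ : ∃ d, pr d = pr c)))
  refine ⟨I', fun c' k => ?_, fun ξ' hξ' => ?_⟩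
  · by_cases a : ∃ c, pr c = c'
    · obtain ⟨c, rfl⟩ := a
      rw [hI, r.1 c (by rwa [h.hp])]
    · exact dif_neg a
  obtain ⟨ξ, hξ⟩ := h.tr.ex p (fun c => if p c then ξ' (pr c) else y c)
    fun c => u' ξ' (pr c) / nf pr (pr c)
  have off : ∀ c, ¬ p c → ξ c = y c := fun c k => ((hξ c).1 fun z => k z.1).trans (if_neg k)
  have e : (fun c' => if ∃ c, pr c = c' then ps pr ξ c' else ξ' c') = ξ' := h.tr'.inj' fun c' => by
    by_cases a : ∃ c, pr c = c'
    · obtain ⟨c, rfl⟩ := a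
      by_cases k : p c
      · by_cases k' : rk (pr c) = 0
        · exact .inl ((if_pos ⟨c, rfl⟩).trans
            ((h.kb.ps k' ξ).trans (((hξ c).1 fun z => z.2 k').trans (if_pos k))))
        · refine .inr ⟨k', (h.fn ξ _ (fun d => if_pos ⟨d, rfl⟩) c).trans (ps_div fun d z => ?_)⟩
          rw [(hξ d).2 (by rwa [h.hp, z, ← h.hp]) (z ▸ k'), z]
      · refine .inl ((if_pos ⟨c, rfl⟩).trans ?_)
        rw [hξ' _ (by rwa [← h.hp]), h.hy c k]
        exact ps_cg fun d z => off d (by rwa [h.hp, z, ← h.hp])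
    · exact .inl (if_neg a)
  have e' : ∀ c, ξ' (pr c) = ps pr ξ (pr c) := fun c => (congrFun e _).symm.trans (if_pos ⟨c, rfl⟩)
  have s : ∑ c', I' c' * ξ' c' = ∑ c, I c * ξ c := by
    rw [← sum_fiberwise univ pr]
    refine sum_congr rfl fun c' _ => ?_
    by_cases a : ∃ c, pr c = c'
    · obtain ⟨c, rfl⟩ := a
      rw [e', ps, mul_sum]
      exact sum_congr rfl fun d z => by rw [← (mem_filter.1 z).2, hI]
    · rw [sum_eq_zero fun d z => absurd ⟨d, (mem_filter.1 z).2⟩ a, show I' c' = 0 from dif_neg a]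
      simp
  rw [← h.hG ξ ξ' off hξ' e', s]
  refine (r.2 ξ off).trans (mul_le_mul_of_nonneg_left (Real.sqrt_le_sqrt ?_) h.b0)
  convert (h.kb.sub h.hp).le fun c => u' ξ' c.1 using 3 with c
  rw [nf_sub h.hp]
  by_cases k : rk (pr c) = 0
  · rw [h.kb.nf k, div_one, h.fn ξ ξ' e', h.kb.ps k]
  · exact (hξ c).2 c.2 k

end Crest.Agent.N49.Sw.Ds

end
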