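import Crest.Agent.N49.Md.Fw
import Crest.Agent.N49.Sd.Stc
import Crest.Agent.N49.Md.Emc0
import Crest.Agent.N49.Rn.L1

/-!
# Row 49 (helper61): a substitution moved along a map of letters
-/

set_option autoImplicit false
set_option linter.unusedSectionVars false
set_option maxHeartbeats 400000

open Finset MvPolynomial

noncomputable section

namespace Crest.Agent.N49.Md

open Tw Sy

variable {τ τ' : Type} (k : τ' → ℕ) (col : τ' → τ)

/-- the substitution `t' ↦ k t' * t (col t')` -/
def sb (R : Type) [CommRing R] : MvPolynomial τ' R →ₐ[R] MvPolynomial τ R :=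
  aeval fun t => C (k t : R) * X (col t)

theorem sb_X (R : Type) [CommRing R] (t : τ') : sb k col R (X t) = C (k t : R) * X (col t) :=
  aeval_X _ _

theorem sb_C (R : Type) [CommRing R] (a : R) : sb k col R (C a) = C a := aeval_C _ _

theorem zr_sb (P : MvPolynomial τ' ℤ) : zr (sb k col ℤ P) = sb k col ℝ (zr P) := by
  induction P using MvPolynomial.induction_on with
  | C a => simp [sb]
  | add p q a b => simp only [map_add, a, b]
  | mul_X p t a => simp only [map_mul, a, sb_X, map_X, map_C, map_natCast]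

theorem sb_hom {R : Type} [CommRing R] {P : MvPolynomial τ' R} {n : ℕ} (h : P.IsHomogeneous n) :
    (sb k col R P).IsHomogeneous n := by
  have := h.aeval (fun t => C (k t : R) * X (col t)) (n := 1) fun a => (isHomogeneous_X R _).C_mul _
  rwa [one_mul] at this

theorem sb_mon (R : Type) [CommRing R] (μ : τ' →₀ ℕ) (a : R) : sb k col R (monomial μ a) =
    monomial (μ.mapDomain col) (a * μ.prod fun t n => (k t : R) ^ n) := by
  induction μ using Finsupp.induction_linear generalizing a with
  | zero => simp [sb]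
  | add f g hf hg =>
    rw [← mul_one a, ← monomial_mul, map_mul, hf, hg, monomial_mul, Finsupp.mapDomain_add,
      Finsupp.prod_add_index' (fun _ => pow_zero _) fun _ _ _ => pow_add _ _ _]
    congr 1; ring
  | single t n =>
    rw [← C_mul_X_pow_eq_monomial, map_mul, map_pow, sb_C, sb_X, Finsupp.mapDomain_single,
      Finsupp.prod_single_index (h := fun t n => (k t : R) ^ n) (pow_zero _), mul_pow, ← C_pow,
      ← mul_assoc, ← C_mul, C_mul_X_pow_eq_monomial]

theorem l1_sb {y : ℝ} (hy : 1 ≤ y) (hk : ∀ t, (k t : ℝ) ≤ y) {P : MvPolynomial τ' ℝ} {n s : ℕ}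
    (h : P.IsHomogeneous n) (e : n ≤ s) : l1 (sb k col ℝ P) ≤ l1 P * y ^ s :=
  l1_aeval_hom (w := 1) (fun a => by
    rw [l1_C_mul, l1_X, mul_one, Nat.abs_cast]; exact hk a) hy (fun _ => one_pos) h e

/-- back along a section of the colouring -/
theorem sb_ren {i : τ → τ'} (hi : ∀ a, col (i a) = a) (R : Type) [CommRing R] (m : τ → R)
    (P : MvPolynomial τ R) :
    sb k col R (rename i (scl m P)) = scl (fun a => m a * k (i a)) P := by
  induction P using MvPolynomial.induction_on with
  | C a => simp [sb, scl]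
  | add p q a b => simp only [map_add, a, b]
  | mul_X p t a =>
    rw [map_mul, map_mul, map_mul, a, map_mul]
    simp only [scl, aeval_X, map_mul, rename_C, rename_X, sb_C, sb_X, hi, mul_assoc]

theorem scl_one' {R : Type} [CommRing R] (P : MvPolynomial τ R) : scl (fun _ => 1) P = P := by
  simp [scl]

variable {T1 T2 : TS Unit}

/-- the moved substitution -/
def Tan.mp (θ : Tan T1 T2 τ') : Tan T1 T2 τ where
  fam := θ.fam
  mon G := sb k col ℤ (θ.mon G)
  sc := θ.sc
  be F := sb k col ℤ (θ.be F)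
  bu F := sb k col ℝ (θ.bu F)
  top := θ.top

variable {k col} {θ : Tan T1 T2 τ'}

theorem map_ae' {A A' α β : Type} [CommRing A] [CommRing A'] [Algebra ℝ A] [Algebra ℝ A']
    (μ : A →ₐ[ℝ] A') (S : α → MvPolynomial β A) (P : MvPolynomial α ℝ) :
    MvPolynomial.map (μ : A →+* A') (aeval S P) =
      aeval (fun a => MvPolynomial.map (μ : A →+* A') (S a)) P := by
  induction P using MvPolynomial.induction_on with
  | C a => simp [MvPolynomial.algebraMap_apply]
  | add p q a b => simp only [map_add, a, b]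
  | mul_X p t a => simp only [map_mul, a, aeval_X]

theorem Tan.Ok.mp {x y : ℝ} {s : ℕ} (h : θ.Ok x) (hf : ∀ G, θ.fam G ≠ none) (hy : 1 ≤ y)
    (hk : ∀ t, (k t : ℝ) ≤ y) (hs : ∀ F, T1.lev F ≤ s) : (θ.mp k col).Ok (x * y ^ s) := by
  have ys : 1 ≤ y ^ s := one_le_pow₀ hy
  refine ⟨fun F G e => ⟨(h.le F G e).1, sb_hom k col (h.le F G e).2⟩,
    fun F => sb_hom k col (h.be F), fun F => sb_hom k col (h.bu F), fun F => ?_, h.uq,
    fun G => ?_, fun F => ?_⟩
  · obtain ⟨a, b, c, d⟩ := h.top F
    have x1 : 1 ≤ x := by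
      have := (h.bd (θ.top F)).2
      rw [b, zr, map_one, ← C_1, ← monomial_zero', l1_monomial, abs_one] at this
      exact this
    refine ⟨a, (congrArg (sb k col ℤ) b).trans (map_one _), le_trans ?_ c, d⟩
    exact inv_anti₀ (by positivity) (le_mul_of_one_le_right (by positivity) ys)
  · obtain ⟨F, e⟩ := Option.ne_none_iff_exists'.1 (hf G)
    have x0 : 0 ≤ x := (abs_nonneg _).trans (h.bd G).1
    refine ⟨(h.bd G).1.trans (le_mul_of_one_le_right x0 ys), (congrArg l1 (zr_sb k col _)).trans_le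
      ((l1_sb k col hy hk ((h.le F G e).2.map _) ((Nat.sub_le _ _).trans (hs F))).trans
        (mul_le_mul_of_nonneg_right (h.bd G).2 (by positivity)))⟩
  · have := congrArg (MvPolynomial.map (sb k col ℝ : MvPolynomial τ' ℝ →+* MvPolynomial τ ℝ)) (h.eq F)
    rw [map_ae'] at this
    simp only [map_add, map_sum, map_mul, map_C, map_X, MvPolynomial.map_map, RingHom.coe_coe,
      map_smul, ← zr_sb] at this
    rw [show (sb k col ℝ : MvPolynomial τ' ℝ →+* MvPolynomial τ ℝ).comp C = C from
      RingHom.ext (sb_C k col ℝ)] at this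
    exact this

theorem Tan.St.mp {st1 : T1.C → ℕ} {st2 : T2.C → ℕ} (h : θ.St st1 st2) :
    (θ.mp k col).St st1 st2 := ⟨h.adq, h.pu, h.gr⟩

/-- the coefficients of the moved substitution -/
theorem Tan.Ok.mp_l1 {x y : ℝ} (h : θ.Ok x) (hy : 1 ≤ y) (hk : ∀ t, (k t : ℝ) ≤ y) {G : T2.C}
    {F : T1.C} (e : θ.fam G = some F) :
    l1 (zr ((θ.mp k col).mon G)) ≤ l1 (zr (θ.mon G)) * y ^ (T1.lev F - T2.lev G) :=
  (congrArg l1 (zr_sb k col _)).trans_le (l1_sb k col hy hk ((h.le F G e).2.map _) le_rfl)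

/-- the map of configurations -/
theorem Tan.Y_mp (θ : Tan T1 T2 τ') {Z : T2.C → MvPolynomial τ' ℝ} {Y : T2.C → MvPolynomial τ ℝ}
    {m : τ → ℝ} (h : ∀ G, sb k col ℝ (Z G) = scl m (Y G)) (F : T1.C) :
    sb k col ℝ (zr (θ.be F) + ∑ G with θ.fam G = some F, zr (θ.mon G) * Z G) =
      (θ.mp k col).Y (fun _ => 1) m Y F := by
  simp only [Tan.Y, scl_one', map_add, map_sum, map_mul, h, ← zr_sb]
  rfl

end Crest.Agent.N49.Md

end
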