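import Crest.Agent.N49.Sw.Defs
import Crest.Agent.N49.Sw.Tmap
import Crest.Agent.N49.Mv.Defs

/-!
# Row 49 (helper35): freezing the centres over a big alphabet (FROZEN statements)
-/

set_option autoImplicit false
set_option linter.unusedSectionVars false

open Matrix MvPolynomial Finset

noncomputable section

namespace Crest.Agent.N49.Fz

open Po Tw Sy Md Rm
open Sw (MR ex sbv)

variable {τ τ' L : Type} [Fintype τ] [DecidableEq τ] [Fintype τ'] [DecidableEq τ'] [Fintype L]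
  [DecidableEq L]

/-- the setting: a big alphabet `τ'` over `τ`, directions `a ↦ μ a * i a` -/
structure Ct (s n : ℕ) (W : Finset (Finset τ)) (W' : Finset (Finset τ')) (col : τ' → τ)
    (i : τ → τ') (μ : τ → ℕ) (k : τ' → ℕ) (c : ℕ) : Prop where
  dw : Dw W'
  le : ∀ A ∈ W', #A ≤ s
  ci : ∀ a, col (i a) = a
  up : ∀ A : Finset τ, A.image i ∈ W' → A ∈ W
  dn : ∀ A : Finset τ', Set.InjOn col A → A.image col ∈ W → A ∈ W'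
  μ1 : ∀ a, 1 ≤ μ a ∧ μ a ≤ n
  k1 : ∀ t, k t ≤ 2 ^ n
  c1 : 1 ≤ c ∧ c ≤ 2 ^ n
  mu : ∀ a, μ a * k (i a) = c
  cd : Fintype.card τ' ≤ n

/-- diagonal monomial rings -/
abbrev DR (U : Finset (τ' →₀ ℕ)) (κ : (τ' →₀ ℕ) → ℝ) : Sh Unit τ' := MR (fun _ => ()) U (dk κ)

section rings
variable (blk : τ → L) (blk' : τ' → L) (s g : ℕ) (W : Finset (Finset τ)) (i : τ → τ') (μ : τ → ℕ)
  (κ κ0 : (τ' →₀ ℕ) → ℝ)

/-- the monomials whose part in the directions is a word -/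
def UU : Finset (τ' →₀ ℕ) := (full τ' s).filter fun ω => ∃ A ∈ W, ∀ a, ω (i a) = ind A a
/-- the free ring -/
abbrev b1 : Sh Unit τ' := bg blk' (fun _ => 1) s univ
/-- the ring of the centres -/
abbrev cn : Sh Unit τ' := (b1 blk' s).setK (diagonal fun w => κ0 w.1.1)
/-- the ring of the directions -/
abbrev dn : Sh Unit τ := mr blk (fun _ => 2 ^ g) (W.image ind)
/-- centres and directions -/
abbrev t3 : Sh Unit Unit :=
  (cn blk' s κ0).ten (dn blk g W) (vv blk' (fun _ => 1) s univ)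
/-- `c t ↦ t`, `v a ↦ μ a * i a` -/
def ph : Matrix (DR (UU s W i) κ).W (t3 blk blk' s g W κ0).W ℤ := Matrix.of fun w x =>
  if ow blk' (fun _ => 1) x.1.1 + (x.1.2.elim 0 fun w' => w'.1).mapDomain i = w.1 then
    ∏ a ∈ (x.1.2.elim 0 fun w' => w'.1 : τ →₀ ℕ).support, (μ a : ℤ) else 0
end rings

section out
variable {T : TS Unit} (B2 : Bs L) (W : Finset (Finset τ)) (i : τ → τ') (μ : τ → ℕ)

/-- a configuration moved to the directions -/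
def Yi (y : B2.SC W → ℝ) (G : B2.T.C) : MvPolynomial τ' ℝ :=
  rename i (scl (fun a => (μ a : ℝ)) (Yp B2.T.lev (sx B2.T _ W y) G))

/-- **the configuration on the big alphabet** -/
def Yb (θ : Tan T B2.T τ') (y : B2.SC W → ℝ) (F : T.C) : MvPolynomial τ' ℝ :=
  zr (θ.be F) + ∑ G with θ.fam G = some F, zr (θ.mon G) * Yi B2 W i μ y G
end out

/-- the frame on the small alphabet -/
def fm {T : TS Unit} (f : Fr T τ' L) (k : τ' → ℕ) (col : τ' → τ) (c : ℕ) : Fr T τ L :=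
  { f.toBs with m := fun _ => c, θ := f.θ.mp k col }

/-- **freeze the centres** -/
def FRZ (s M : ℕ) : Prop := ∃ e : ℕ, ∀ K' : ℕ, ∃ K : ℕ, ∀ (τ τ' L : Type) [Fintype τ]
  [DecidableEq τ] [Fintype τ'] [DecidableEq τ'] [Fintype L] [DecidableEq L] (B : Bs L)
  (W : Finset (Finset τ)) (blk : τ → L) (W' : Finset (Finset τ')) (col : τ' → τ) (i : τ → τ')
  (μ : τ → ℕ) (k : τ' → ℕ) (c n : ℕ) (κ : (τ' →₀ ℕ) → ℝ)
  (A : Set (B.T.Cw (DR (W'.image ind) κ) → ℤ)), Mv.Sb B W blk s n → B.M = M →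
  Ct s n W W' col i μ k c → (∀ ω ∈ W'.image ind, 1 / 2 ^ n ≤ κ ω ∧ κ ω ≤ 1) →
  B.Rg 1 (n ^ K) (1 / 2 ^ n ^ K) (1 / 2 ^ n ^ K) → 1 / 2 ^ n ≤ (B.T.sh _).P A →
  ∃ (f : Fr B.T τ' L) (H : Set (f.SC W → ℤ)), f.Ok s (n ^ e) ∧ f.m = 1 ∧ f.Fw 1 (n ^ e) ∧
    (∀ G, f.θ.sc G = 1 ∧ f.θ.fam G ≠ none ∧ ∃ ω, f.θ.mon G = monomial ω 1) ∧
    (∀ F, f.T.Φ (f.θ.top F) = rename f.θ.top (B.T.Φ F)) ∧
    f.M = tM M ∧ f.θ.St B.st f.st ∧ Fintype.card f.T.C ≤ 2 ^ n ^ e ∧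
    f.Rg 1 (n ^ K') (1 / 2 ^ n ^ K') (1 / 2 ^ n ^ K') ∧
    (fm f k col c).Ok s (n ^ e) ∧ (fm f k col c).Fw c (n ^ e) ∧
    1 / 2 ^ n ^ e ≤ (f.SY W blk).pr H ∧ (∀ y ∈ H, (f.SY W blk).Cen (2 ^ n ^ e) y) ∧
    ∀ y ∈ H, ∃ y' ∈ A, (∀ F, ∀ ω ∈ W'.image ind,
        ex B.T _ id (zc y') (F, ω) = coeff ω (Yb f.toBs W i μ f.θ (zc y) F)) ∧
      ∀ w : B.SC W, ka B W blk (fm f k col c) (TT.cf y) (.inl w) =
        sbv (fun t => Pi.single (col t) (k t : ℤ)) (W'.image ind) (ex B.T _ id (zc y'))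
          (w.1.1, ind w.1.2)

/-! ### leaves -/

/-- a quotient ring is a mixture of twisted laws -/
def EXL1 : Prop := ∀ (τ' : Type) [Fintype τ'] [DecidableEq τ'] (T : TS Unit) (st : T.C → ℕ)
  (M s : ℕ) (U U' : Finset (τ' →₀ ℕ)) (κ κ' : (τ' →₀ ℕ) → ℝ) (A : Set (T.Cw (DR U κ) → ℤ)),
  Old T st M s → Dn U → Dn U' → U ⊆ U' → (∀ ω ∈ U', 0 < κ' ω) → (∀ ω ∈ U, κ ω = κ' ω) →
  ∃ x : T.Cw (DR U' κ') → ℝ, (T.sh (DR U κ)).P A ≤ (T.tw (DR U' κ') (tc T _ (T.Yw _ x))).P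
    {y | ∃ y0 ∈ A, ∀ F, ∀ ω ∈ U, ex T _ id (zc y0) (F, ω) = ex T _ id (zc y) (F, ω)}

/-- `ph` is a split surjection for a good variance of the centres; offsets lift -/
def SPL1 : Prop := ∀ (τ τ' L : Type) [Fintype τ] [DecidableEq τ] [Fintype τ'] [DecidableEq τ']
  [Fintype L] [DecidableEq L] (blk : τ → L) (blk' : τ' → L) (s g h m : ℕ) (W : Finset (Finset τ))
  (i : τ → τ') (μ : τ → ℕ) (κ : (τ' →₀ ℕ) → ℝ), Wf s W blk → Function.Injective i →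
  (∀ a, 1 ≤ μ a ∧ μ a ≤ m) → 1 ≤ m → (∀ ω, 1 / 2 ^ h ≤ κ ω ∧ κ ω ≤ 1) →
  2 ^ (s + h + 1) * m ^ 2 ≤ 4 ^ g → ∃ κ0 : (τ' →₀ ℕ) → ℝ, (∀ ω, 1 / 2 ^ (h + 1) ≤ κ0 ω) ∧
    (∃ (J : Type) (_ : Fintype J) (_ : DecidableEq J) (ψ N Q cj : _),
      (t3 blk blk' s g W κ0).Spl (J := J) (DR (UU s W i) κ) (m ^ s) (ph blk blk' s g W i μ κ κ0)
        ψ N Q cj) ∧
    ∀ (T : TS Unit) (x : T.Cw (DR (UU s W i) κ) → ℝ), ∃ x0 : T.Cw (cn blk' s κ0) → ℝ, ∀ F,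
      (t3 blk blk' s g W κ0).pu _ (ph blk blk' s g W i μ κ κ0)
        (rename (fun w => (⟨(some w, none), by simp⟩ : Sh.TW _ _)) (T.Yw _ x0 F)) = T.Yw _ x F

/-- sizes of the rings -/
def SZ1 : Prop := ∀ (τ τ' L : Type) [Fintype τ] [DecidableEq τ] [Fintype τ'] [DecidableEq τ']
  [Fintype L] [DecidableEq L] (blk' : τ' → L) (s n : ℕ) (a : ℝ) (W : Finset (Finset τ))
  (i : τ → τ') (κ0 : (τ' →₀ ℕ) → ℝ), Dw W → (Fintype.card τ' + 1) ^ s ≤ n → 0 < a → a ≤ 1 →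
  (∀ ω, a ≤ κ0 ω) → (cn blk' s κ0).Sz n a ∧ (cn blk' s κ0).Tk (vv blk' (fun _ => 1) s univ) 1 ∧
    Dn (UU s W i) ∧ ∀ W' : Finset (Finset τ'), Dw W' → (∀ A ∈ W', #A ≤ s) →
      Function.Injective i → (∀ A : Finset τ, A.image i ∈ W' → A ∈ W) →
      Dn (W'.image ind) ∧ W'.image ind ⊆ UU s W i

/-- `ph` on configurations -/
def HMK1 : Prop := ∀ (τ τ' L : Type) [Fintype τ] [DecidableEq τ] [Fintype τ'] [DecidableEq τ']
  [Fintype L] [DecidableEq L] (B : Bs L) (W : Finset (Finset τ)) (blk : τ → L) (blk' : τ' → L)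
  (s h g : ℕ) (i : τ → τ') (μ : τ → ℕ) (κ κ0 : (τ' →₀ ℕ) → ℝ) (Ψ0 : B.T.Twd (cn blk' s κ0))
  (b : B.T.Cw (b1 blk' s) → ℤ) (hp : ∀ c, 0 < B.T.lev c) (ho : (dn blk g W).Ok)
  (Y : B.T.Cw (t3 blk blk' s g W κ0) → ℤ)
  (y : (tT blk' (fun _ => 1) B.T s univ b).Cw (dn blk g W) → ℤ), B.Ok s h → Wf s W blk →
  Function.Injective i → (∀ p, Y (B.T.tE (cn blk' s κ0) _ _ Ψ0 b ho (.inl p)) = b p) →
  (∀ q, Y (B.T.tE (cn blk' s κ0) _ _ Ψ0 b ho (.inr q)) = y q) → ∀ F, ∀ ω ∈ UU s W i,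
  ex B.T (DR (UU s W i) κ) id (zc (B.T.hm _ _ (ph blk blk' s g W i μ κ κ0) Y)) (F, ω) =
    coeff ω (Yb (tf B blk' (fun _ => 1) s univ b hp (fun _ => 2 ^ g) 1).toBs W i μ
      (tθ blk' (fun _ => 1) B.T s univ b hp)
      (zc fun w => wv blk (fun _ => 2 ^ g) _ y w.1.1 (ind w.1.2)) F)

/-- the frame on the small alphabet -/
def KMP : Prop := ∀ (τ τ' L : Type) [Fintype τ] [DecidableEq τ] [Fintype τ'] [DecidableEq τ']
  [Fintype L] [DecidableEq L] (B : Bs L) (W : Finset (Finset τ)) (blk : τ → L)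
  (W' : Finset (Finset τ')) (col : τ' → τ) (i : τ → τ') (μ : τ → ℕ) (k : τ' → ℕ) (c s n h : ℕ)
  (f : Fr B.T τ' L), B.Ok s n → Wf s W blk → Ct s n W W' col i μ k c → f.Ok s h → f.Fw 1 h →
  (∀ G, f.θ.fam G ≠ none) →
  (fm f k col c).Ok s (h + n * (s + 1)) ∧ (fm f k col c).Fw c (h + 2 * n * s) ∧
  ∀ (y : f.SC W → ℤ) (z : B.T.C × (τ' →₀ ℕ) → ℝ),
    (∀ F, ∀ ω ∈ W'.image ind, z (F, ω) = coeff ω (Yb f.toBs W i μ f.θ (zc y) F)) →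
    ∀ w : B.SC W, ka B W blk (fm f k col c) (TT.cf y) (.inl w) =
      sbv (fun t => Pi.single (col t) (k t : ℤ)) (W'.image ind) z (w.1.1, ind w.1.2)

/-- the unit tangent substitution -/
def PUR : Prop := ∀ (τ' L : Type) [Fintype τ'] [DecidableEq τ'] [Fintype L] [DecidableEq L]
  (T : TS Unit) (st : T.C → ℕ) (M s : ℕ) (blk' : τ' → L) (b : T.Cw (b1 blk' s) → ℤ)
  (hp : ∀ c, 0 < T.lev c), Old T st M s →
  (∀ G, (tθ blk' (fun _ => 1) T s univ b hp).sc G = 1) ∧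
  ∀ F, (tT blk' (fun _ => 1) T s univ b).Φ ((tθ blk' (fun _ => 1) T s univ b hp).top F) =
    rename (tθ blk' (fun _ => 1) T s univ b hp).top (T.Φ F)

end Crest.Agent.N49.Fz

end
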