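import Crest.Agent.N49.Sw.Frz
import Crest.Agent.N49.Md.Can
import Crest.Agent.N49.Md.Fw2

/-!
# Row 49 (helper98): freezing the centres over a big alphabet, the glue
-/

set_option autoImplicit false
set_option linter.unusedSectionVars false

open Matrix MvPolynomial Finset

noncomputable section

namespace Crest.Agent.N49.Fz

open Po Tw Sy Md Rm Md.Idf Md.Can N49.Top
open Sw (MR ex sbv)

namespace F2

theorem tan_tr2 {τ0 τ1 : Type} {T : TS Unit} {S0 : Sh Unit τ0} {K : Matrix S0.W S0.W ℝ}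
    {Ψ : T.Twd (S0.setK K)} {v : Matrix (Option S0.W) (Option S0.W) ℝ} {b : T.Cw S0 → ℤ}
    (e : T.tan (S0.setK K) Ψ v b = T.tan (S0.setK K) (T.tw0 (S0.setK K)) v b) :
    (∀ st M M' C n a η, (T.tan (S0.setK K) Ψ v b).RgS (T.ts (S0.setK K) st M) M' C n a η →
      (T.tan S0 (T.tw0 S0) v b).RgS (T.ts S0 st M) M' C n a η) ∧
    ∀ (S : Sh Unit τ1) (D : Matrix (T.Tc S0) (T.Tc S0) ℝ)
      (Ψ1 : ((T.tan S0 (T.tw0 S0) v b).un D).Twd S)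
      (X : Set ((T.tan (S0.setK K) Ψ v b).Cw S → ℤ))
      (X' : Set (((T.tan S0 (T.tw0 S0) v b).un D).Cw S → ℤ)),
      (∀ y, (((T.tan S0 (T.tw0 S0) v b).un D).tw S Ψ1).wt y =
        ((T.tan S0 (T.tw0 S0) v b).sh S).wt y) →
      (((T.tan S0 (T.tw0 S0) v b).un D).tw S Ψ1).Tri →
      (∀ y : ((T.tan S0 (T.tw0 S0) v b).un D).Cw S → ℤ, y ∈ X → y ∈ X') →
      ((T.tan (S0.setK K) Ψ v b).sh S).P X ≤ (((T.tan S0 (T.tw0 S0) v b).un D).tw S Ψ1).P X' := by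
  have e' : T.tan S0 Ψ v b = T.tan S0 (T.tw0 S0) v b := e
  obtain ⟨a, c⟩ := tan_tr (τ1 := τ1) e'
  exact ⟨fun st M => a (T.ts S0 st M), c⟩

theorem spl_mono {σ τ τ' J : Type} [Fintype J] [DecidableEq J] {S : Sh σ τ} {S' : Sh σ τ'}
    {n n' : ℕ} {φ : Matrix S'.W S.W ℤ} {ψ : Matrix S.W S'.W ℤ} {N : Matrix S.W J ℤ}
    {Q : Matrix J S.W ℤ} {cj : J → σ →₀ ℕ} (h : S.Spl S' n φ ψ N Q cj) (k : n ≤ n') :
    S.Spl S' n' φ ψ N Q cj :=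
  have e : (n : ℤ) ≤ n' := by exact_mod_cast k
  { h with ht := fun w w' j =>
      let ⟨a, b, c, d⟩ := h.ht w w' j
      ⟨a.trans e, b.trans e, c.trans e, d.trans e⟩ }

theorem tk_mono {τ : Type} {S : Sh Unit τ} {v : Matrix (Option S.W) (Option S.W) ℝ} {a a' : ℝ}
    (h : S.Tk v a) (k : a' ≤ a) : S.Tk v a' :=
  ⟨h.pd, h.blk, fun x => (mul_le_mul_of_nonneg_right k (by positivity)).trans (h.lo x)⟩

variable {τ τ' L : Type} [Fintype τ] [DecidableEq τ] [Fintype τ'] [DecidableEq τ'] [Fintype L]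
  [DecidableEq L]

/-- the probabilistic half -/
theorem chain (h1 : EXL1) (h2 : SPL1) (h3 : TXA) (h4 : SZB) (h4' : SZ1) (h5 : BGP) (h6 : TFA)
    (h7 : HMK1) (h8 : SYP) {C0 C' A N s n g h' : ℕ} {a a' : ℝ} {B : Bs L} {W : Finset (Finset τ)}
    {blk : τ → L} (blk' : τ' → L) {W' : Finset (Finset τ')} {i : τ → τ'} {μ : τ → ℕ}
    {κ : (τ' →₀ ℕ) → ℝ} (X : Set (B.T.Cw (DR (W'.image ind) κ) → ℤ)) (hp : ∀ c, 0 < B.T.lev c)
    (m1 : MAST B.M C0) (m2 : MARHT B.M C0) (m3 : MAST (tM B.M) C')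
    (tg : ∀ (S0 : Sh Unit τ') (Ψ0 : B.T.Twd S0) (v : Matrix (Option S0.W) (Option S0.W) ℝ),
      B.T.Adm S0 B.st Ψ0 → S0.Sz A a → S0.Tk v a →
      (B.T.tw S0 Ψ0).P {b | ¬ (B.T.tan S0 Ψ0 v b).RgS (B.T.ts S0 B.st B.M) (tM B.M) C' A a a} ≤ a)
    (o : B.Ok s n) (w : Wf s W blk) (dw' : Dw W') (le' : ∀ A ∈ W', #A ≤ s)
    (hi : Function.Injective i) (up : ∀ A : Finset τ, A.image i ∈ W' → A ∈ W)
    (hμ : ∀ a, 1 ≤ μ a ∧ μ a ≤ n) (n1 : 1 ≤ n)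
    (hκ : ∀ ω ∈ W'.image ind, 1 / 2 ^ n ≤ κ ω ∧ κ ω ≤ 1) (hg : 2 ^ (s + n + 1) * n ^ 2 ≤ 4 ^ g)
    (of : ∀ b, (tf B blk' (fun _ => 1) s univ b hp (fun _ => 2 ^ g) 1).toBs.Ok s h')
    (hA : (Fintype.card τ + 1) ^ s ≤ A) (hA' : (Fintype.card τ' + 1) ^ s ≤ A) (a0 : 0 < a)
    (a1 : a ≤ 1 / 10) (ha : a ≤ 1 / 2 ^ (2 * g * s)) (hb : a ≤ 1 / 2 ^ (n + 1))
    (hN : (A + 1) * (A + 1) ≤ N) (hN' : n ^ s ≤ N) (ha' : a' ≤ a * a) (rg : B.Rg C0 N a' a) :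
    ∃ b, (tf B blk' (fun _ => 1) s univ b hp (fun _ => 2 ^ g) 1).Rg C' A a a ∧
      (B.T.sh _).P X - 11 * a ≤
      ((tf B blk' (fun _ => 1) s univ b hp (fun _ => 2 ^ g) 1).SY W blk).pr {y | ∃ y' ∈ X,
        ∀ F, ∀ ω ∈ W'.image ind, ex B.T _ id (zc y') (F, ω) =
          coeff ω (Yb (tf B blk' (fun _ => 1) s univ b hp (fun _ => 2 ^ g) 1).toBs W i μ
            (tθ blk' (fun _ => 1) B.T s univ b hp) (zc y) F)} := by
  classical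
  have gs := o.old.stg
  have a1' : a ≤ 1 := by linarith
  obtain ⟨κ', k1, k2⟩ : ∃ κ' : (τ' →₀ ℕ) → ℝ, (∀ ω, 1 / 2 ^ n ≤ κ' ω ∧ κ' ω ≤ 1) ∧
      ∀ ω ∈ W'.image ind, κ ω = κ' ω := ⟨fun ω => if ω ∈ W'.image ind then κ ω else 1, fun ω => by
    beta_reduce
    split_ifs with m
    · exact hκ ω m
    · exact ⟨(two_pow_le (Nat.zero_le n)).trans_eq (by norm_num), le_rfl⟩,
    fun ω m => (if_pos m).symm⟩
  obtain ⟨κ0, k0, ⟨J, _, _, ψ, N', Q, cj, sp⟩, lf⟩ := h2 τ τ' L blk blk' s g n n W i μ κ' w hi hμ n1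
    k1 hg
  obtain ⟨s0, t0', du, dw2⟩ := h4' τ τ' L blk' s A a W i κ0 w.dw hA' a0 a1' fun ω => hb.trans (k0 ω)
  obtain ⟨dw3, sb3⟩ := dw2 W' dw' le' hi up
  have k0 := tk_mono t0' a1'
  obtain ⟨z2, -, dw, -⟩ := h4 τ L blk (fun _ => 2 ^ g) s g A a
    (fun _ => ⟨by positivity, le_rfl⟩) hA ha
  obtain ⟨dn, sb⟩ := dw W w
  have s2 := z2 _ dn sb
  have aa : a * a ≤ a := by nlinarith
  have st : (t3 blk blk' s g W κ0).Sz ((A + 1) * (A + 1)) (a * a) :=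
    tsz _ _ _ _ _ A A a a a _ s0 s2 k0 a0 a0 aa le_rfl
  obtain ⟨x, ex0⟩ := h1 τ' B.T B.st B.M s _ _ κ κ' X o.old dw3 du sb3
    (fun ω _ => lt_of_lt_of_le (by positivity) (k1 ω).1) k2
  obtain ⟨x0, lf⟩ := lf B.T x
  obtain ⟨t0a, t0b⟩ := h3 _ B.T B.st B.M s _ o.old s0.toOk
  obtain ⟨ad, tn0, -, ti⟩ := t0a _ fun F => (t0b x0).1 F
  have ti := ti _ (Fz.dn blk g W) (vv blk' (fun _ => 1) s univ)
  have ad' := (tid _ _ B.T (cn blk' s κ0) _ B.st _ (vv blk' (fun _ => 1) s univ) s2.toOk ad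
    s0.toOk).1
  have tp := ((h3 _ B.T B.st B.M s _ o.old st.toOk).1 _ fun F => hom_ren
    (f := fun w => (⟨(some w, none), by simp⟩ : Sh.TW _ _)) (fun _ => Finsupp.degree_single _ _)
    ((t0b x0).1 F)).2.2.1 _ _ (Fz.ph blk blk' s g W i μ κ' κ0)
  rw [← ti, funext lf] at tp
  have AN : A ≤ N := by nlinarith
  have hy := TS.RgS.hy rg gs a0 a1' ad' st hN ha'
  have pu := (m2 _ _ _ _ _ _ _ _ _ _ _ _ _ _ _ _ _ hy (spl_mono sp hN')).P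
    {y | ∃ y0 ∈ X, ∀ F, ∀ ω ∈ W'.image ind,
      ex B.T _ id (zc y0) (F, ω) = ex B.T _ id (zc y) (F, ω)}
  rw [tp] at pu
  obtain ⟨b, hb, bg⟩ := h5 _ _ B.T (cn blk' s κ0) _ B.st B.M _ _ s2.toOk a a
    {b | (B.T.tan (cn blk' s κ0) _ _ b).RgS (B.T.ts (cn blk' s κ0) B.st B.M) (tM B.M) C' A a a} (B.T.hm _ _ (Fz.ph blk blk' s g W i μ κ' κ0) ⁻¹'
      {y | ∃ y0 ∈ X, ∀ F, ∀ ω ∈ W'.image ind,
        ex B.T _ id (zc y0) (F, ω) = ex B.T _ id (zc y) (F, ω)}) gs ad s0.toOk k0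
    st.toOk a0 a1 (m1 _ _ _ _ _ _ _ _ _ (TS.RgS.hy rg gs a0 a1' ad s0 AN (ha'.trans aa)))
    (m1 _ _ _ _ _ _ _ _ _ hy) (fun b hb => by
      have u := (tst _ _ (cn blk' s κ0) _ _ _ _ _ b gs ad s0.toOk k0).1
      exact m3 _ _ _ _ _ _ _ _ _ (TS.RgS.hy hb u a0 a1' (u.adm s2.toOk) s2 le_rfl le_rfl))
    (tg (cn blk' s κ0) _ _ ad s0 k0)
  obtain ⟨ol, -, rg', wt⟩ := h6 τ' L B.T B.st B.M s blk' (fun _ => 1) univ b o.old
    fun _ => one_pos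
  obtain ⟨r1, r2⟩ := tan_tr2 (τ1 := τ) (tn0 (vv blk' (fun _ => 1) s univ) b)
  refine ⟨b, rg' _ _ _ _ (r1 _ _ _ _ _ _ _ hb), ?_⟩
  rw [h8 τ L _ W blk s h' _ (of b) w]
  refine (comb ex0 pu bg).trans (r2 _ _ _ _ _ (wt _ _ s2.toOk)
    (TS.tw_tri ol.stg.cl (ol.stg.adm s2.toOk) s2.toOk) ?_)
  rintro y ⟨Y, ⟨y0, m, q⟩, y1, y2⟩
  exact ⟨y0, m, fun F ω k => (q F ω k).trans
    (h7 τ τ' L B W blk blk' s n g i μ κ' κ0 _ b hp s2.toOk Y y o w hi y1 y2 F ω (sb3 k))⟩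

end F2

/-- `FRZ` with narrow words -/
def FRZ1 (s M : ℕ) : Prop := ∃ e : ℕ, ∀ K' : ℕ, ∃ K : ℕ, ∀ (τ τ' L : Type) [Fintype τ]
  [DecidableEq τ] [Fintype τ'] [DecidableEq τ'] [Fintype L] [DecidableEq L] (B : Bs L)
  (W : Finset (Finset τ)) (blk : τ → L) (W' : Finset (Finset τ')) (col : τ' → τ) (i : τ → τ')
  (μ : τ → ℕ) (k : τ' → ℕ) (c n : ℕ) (κ : (τ' →₀ ℕ) → ℝ)
  (A : Set (B.T.Cw (DR (W'.image ind) κ) → ℤ)), Mv.Sb B W blk s n → B.M = M →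
  Ct s n W W' col i μ k c → (∀ ω ∈ W'.image ind, 1 / 2 ^ n ≤ κ ω ∧ κ ω ≤ 1) →
  B.Rg 1 (n ^ K) (1 / 2 ^ n ^ K) (1 / 2 ^ n ^ K) → 1 / 2 ^ n ≤ (B.T.sh _).P A →
  ∃ (f : Fr B.T τ' L) (H : Set (f.SC W → ℤ)), f.Ok s (n ^ e) ∧ f.m = 1 ∧ (∀ l, 1 ≤ f.la l) ∧
    f.Fw 1 (n ^ e) ∧
    (∀ G, f.θ.sc G = 1 ∧ f.θ.fam G ≠ none ∧ ∃ ω, f.θ.mon G = monomial ω 1) ∧
    (∀ F, f.T.Φ (f.θ.top F) = rename f.θ.top (B.T.Φ F)) ∧
    f.M = tM M ∧ f.θ.St B.st f.st ∧ Fintype.card f.T.C ≤ 2 ^ n ^ e ∧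
    f.Rg 1 (n ^ K') (1 / 2 ^ n ^ K') (1 / 2 ^ n ^ K') ∧
    (fm f k col c).Ok s (n ^ e) ∧ (fm f k col c).Fw c (n ^ e) ∧
    1 / 2 ^ n ^ e ≤ (f.SY W blk).pr H ∧ (∀ y ∈ H, (f.SY W blk).Cen (2 ^ n ^ e) y) ∧
    ∀ y ∈ H, ∃ y' ∈ A, (∀ F, ∀ ω ∈ W'.image ind,
        ex B.T _ id (zc y') (F, ω) = coeff ω (Yb f.toBs W i μ f.θ (zc y) F)) ∧
      ∀ w : B.SC W, ka B W blk (fm f k col c) (TT.cf y) (.inl w) =
        sbv (fun t => Pi.single (col t) (k t : ℤ)) (W'.image ind) (ex B.T _ id (zc y'))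
          (w.1.1, ind w.1.2)

open F2 in
/-- **freeze the centres** -/
theorem frz' (h1 : EXL1) (h2 : SPL1) (h4' : SZ1) (h7 : HMK1) (hk : KMP) (hu : PUR) (h3 : TXA)
    (h4 : SZB) (h5 : BGP) (h6 : TFA) (h8 : SYP) (h9 : TFO) (hc : Mv.CNB) (hs : Sd.STT)
    (ht : ∀ M C', TANG M C') (s M : ℕ) : FRZ1 s M := by
  choose Cm hm using mastC
  obtain ⟨Ct, c0, ht⟩ := ht M (1 + Cm (tM M))
  obtain ⟨e, he⟩ : Pl fun y => 3 * ((y + 1) ^ s * (((s + 2) * y + 1) * (s + 1))) +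
      (y * (s + 1) + 2 * y * s + 3 * y + 3) := by pl
  refine ⟨e, fun K' => ?_⟩
  obtain ⟨K, hK⟩ : Pl fun y => (((y + 1) ^ s + y + 5 + 2 * ((s + 2) * y) * s + 2 * y ^ e * s +
      y ^ K' + 1) * (((y + 1) ^ s + y + 5 + 2 * ((s + 2) * y) * s + 2 * y ^ e * s + y ^ K' + 1) +
      (c0 + 4)) + 1) ^ (Ct + Cm M + 1) := by pl
  refine ⟨K, fun τ τ' L _ _ _ _ _ _ B W blk W' col i μ k c n κ X sb eM ct hκ rg hX => ?_⟩
  subst eM
  have n2 := sb.two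
  have o := sb.ok
  have k1 := hK n n2
  have k2 := he n n2
  beta_reduce at k1 k2
  have p1 : (Fintype.card τ + 1) ^ s ≤ (n + 1) ^ s :=
    Nat.pow_le_pow_left (Nat.succ_le_succ sb.cτ) _
  have p2 : (Fintype.card τ' + 1) ^ s ≤ (n + 1) ^ s :=
    Nat.pow_le_pow_left (Nat.succ_le_succ ct.cd) _
  have p3 : n ^ s ≤ (n + 1) ^ s := Nat.pow_le_pow_left (Nat.le_succ n) _
  have hg : 2 ^ (s + n + 1) * n ^ 2 ≤ 4 ^ ((s + 2) * n) := by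
    have := Nat.pow_le_pow_left (Nat.lt_two_pow_self (n := n)).le 2
    calc _ ≤ 2 ^ (s + n + 1) * (2 ^ n) ^ 2 := Nat.mul_le_mul_left _ this
      _ ≤ (2 ^ 2) ^ ((s + 2) * n) := by
        rw [← pow_mul, ← pow_mul, ← pow_add]
        exact Nat.pow_le_pow_right two_pos (by nlinarith)
  generalize (s + 2) * n = g at k1 k2 hg
  generalize hh : (n + 1) ^ s * ((g + 1) * (s + 1)) = h' at k2
  have p4 : 2 * h' * s ≤ 2 * n ^ e * s := by gcongr; omega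
  generalize hA : (n + 1) ^ s + n + 5 + 2 * g * s + 2 * n ^ e * s + n ^ K' = A at k1
  generalize hN : (A + 1) * (A + 1 + (c0 + 4)) = N at k1
  have k3 : (A + 1) * (A + 1) ≤ N := hN ▸ Nat.mul_le_mul_left _ (by omega)
  have k4 : (A + 1) * (c0 + 4) ≤ N := hN ▸ Nat.mul_le_mul_left _ (by omega)
  have k5 : A < N := by nlinarith
  have k6 : N ≤ n ^ K := (Nat.le_succ N).trans ((Nat.le_self_pow (by omega) _).trans k1)
  have hp : ∀ c, 0 < B.T.lev c := o.old.ok.lev_pos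
  have t := o.old.ok.toTri
  have u1 : (1 : ℝ) / 2 ^ g ≤ 1 := (two_pow_le (Nat.zero_le g)).trans_eq (by norm_num)
  have u2 : (1 : ℝ) ≤ 2 ^ g := one_le_pow₀ one_le_two
  have ok : ∀ b, (tf B (blk ∘ col) (fun _ => 1) s univ b hp (fun _ => 2 ^ g) 1).Ok s h' :=
    fun b => fr_mono t (h9 τ' L B s g _ _ _ 1 univ b hp o.old (fun _ => ⟨u1, u2⟩)
      (fun _ => ⟨u1.trans u2, le_rfl⟩) fun _ => ⟨le_rfl, Nat.one_le_two_pow⟩)
      (hh ▸ Nat.mul_le_mul_right _ p2)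
  have a0 : (0 : ℝ) < 1 / 2 ^ A := by positivity
  have a4 : (1 : ℝ) / 2 ^ A ≤ 1 / 2 ^ (n + 5) := two_pow_le (by omega)
  have a5 : (1 : ℝ) / 2 ^ n ≤ 1 / 2 ^ 0 := two_pow_le (by omega)
  have a6 : (1 : ℝ) / 2 ^ (n + 5) = 1 / 2 ^ n / 32 := by rw [pow_add]; field_simp; norm_num
  have a7 : (0 : ℝ) < 1 / 2 ^ n := by positivity
  have a8 : (1 : ℝ) / 2 ^ (n + 2) = 1 / 2 ^ n / 4 := by rw [pow_add]; field_simp; norm_num
  norm_num only at a5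
  have rg' : ∀ C', C' ≤ Ct + Cm B.M → B.Rg C' N (1 / 2 ^ N) (1 / 2 ^ A) := fun C' k => by
    have q : ((N : ℝ) + 1) ^ C' ≤ ((n ^ K : ℕ) + 1 : ℝ) ^ 1 := by
      have := (Nat.pow_le_pow_right (Nat.succ_pos N) (k.trans (Nat.le_succ _))).trans
        (k1.trans (Nat.le_succ _))
      rw [pow_one]; exact_mod_cast this
    have z : (0 : ℝ) < 1 / 2 ^ n ^ K := by positivity
    have z1 : (1 : ℝ) / 2 ^ n ^ K ≤ 1 := (two_pow_le (Nat.zero_le _)).trans_eq (by norm_num)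
    exact (TS.RgS.mono' rg o.old.stg.tri z z1 q (mul_le_mul q (two_pow_le k6) z.le
      (by positivity))).mono o.old.stg.tri z z1 le_rfl le_rfl le_rfl (two_pow_le (by omega))
  have hi : Function.Injective i := Function.LeftInverse.injective ct.ci
  obtain ⟨b, r1, pr⟩ := chain h1 h2 h3 h4 h4' h5 h6 h7 h8 (C' := 1 + Cm (tM B.M)) (A := A)
    (a := 1 / 2 ^ A) (blk ∘ col) X hp (hm B.M _ le_rfl).1 (hm B.M _ le_rfl).2.2.1
    (hm _ _ (Nat.le_add_left _ _)).1 (fun S0 Ψ0 v x y z => ht τ' B.T S0 B.st Ψ0 v A N _ _ _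
      o.old.stg x y z a0 (by linarith) a0 (by linarith) k5 (num k4) (rg' _ (by omega)))
    o sb.wf ct.dw ct.le hi ct.up ct.μ1 (by omega) hκ hg (fun b => (ok b).toOk) (by omega)
    (by omega) a0 (by linarith) (two_pow_le (by omega)) (two_pow_le (by omega)) k3 (by omega)
    (by rw [div_mul_div_comm, one_mul, ← pow_add]; exact two_pow_le (by nlinarith))
    (rg' _ (by omega))
  obtain ⟨pu1, pu2⟩ := hu τ' L B.T B.st B.M s (blk ∘ col) b hp o.old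
  have st := hs τ' L B (blk ∘ col) (fun _ => 1) s univ b hp (fun _ => 2 ^ g) 1 o.old
    fun _ => one_pos
  have mo : ∀ G, ∃ ω, (tθ (blk ∘ col) (fun _ => 1) B.T s univ b hp).mon G = monomial ω 1 :=
    fun _ => ⟨_, rfl⟩
  have fa : ∀ G, (tθ (blk ∘ col) (fun _ => 1) B.T s univ b hp).fam G ≠ none :=
    fun _ => Option.some_ne_none _
  have of := ok b
  have fM : (tf B (blk ∘ col) (fun _ => 1) s univ b hp (fun _ => 2 ^ g) 1).M = tM B.M := rfl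
  have fm1 : (tf B (blk ∘ col) (fun _ => 1) s univ b hp (fun _ => 2 ^ g) 1).m = 1 := rfl
  have fl : ∀ l, 1 ≤ (tf B (blk ∘ col) (fun _ => 1) s univ b hp (fun _ => 2 ^ g) 1).la l :=
    fun _ => u2
  change ∀ G, (tf B (blk ∘ col) (fun _ => 1) s univ b hp (fun _ => 2 ^ g) 1).θ.sc G = 1 at pu1
  change ∀ F, (tf B (blk ∘ col) (fun _ => 1) s univ b hp (fun _ => 2 ^ g) 1).T.Φ
    ((tf B (blk ∘ col) (fun _ => 1) s univ b hp (fun _ => 2 ^ g) 1).θ.top F) =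
    rename (tf B (blk ∘ col) (fun _ => 1) s univ b hp (fun _ => 2 ^ g) 1).θ.top _ at pu2
  change ∀ G, ∃ ω, (tf B (blk ∘ col) (fun _ => 1) s univ b hp (fun _ => 2 ^ g) 1).θ.mon G = _ at mo
  change ∀ G, (tf B (blk ∘ col) (fun _ => 1) s univ b hp (fun _ => 2 ^ g) 1).θ.fam G ≠ _ at fa
  change _ ≤ TT.pr _ {y | ∃ y' ∈ X, ∀ F, ∀ ω ∈ W'.image ind, _ = coeff ω (Yb _ W i μ
    (tf B (blk ∘ col) (fun _ => 1) s univ b hp (fun _ => 2 ^ g) 1).θ (zc y) F)} at pr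
  generalize tf B (blk ∘ col) (fun _ => 1) s univ b hp (fun _ => 2 ^ g) 1 = f at *
  have cd := ((idf τ' L B ∅ (blk ∘ col) s n o ⟨by simp [Dw], by simp, by simp⟩).2.2 _ _ of).1
  have cd' : Fintype.card f.T.C ≤ 2 ^ (h' + n + 1) := by
    have x := Nat.lt_two_pow_self (n := h')
    have y := Nat.one_le_two_pow (n := n)
    have z := sb.cC
    rw [add_assoc, pow_add, pow_succ]
    exact (Nat.le_succ _).trans (cd.trans (Nat.mul_le_mul x (by omega)))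
  have cs : Fintype.card (f.SC W) ≤ 2 ^ (h' + n + 1 + n) := by
    refine (Fintype.card_subtype_le _).trans ?_
    rw [Fintype.card_prod, Fintype.card_finset, pow_add]
    exact Nat.mul_le_mul cd' (Nat.pow_le_pow_right two_pos sb.cτ)
  have cb := hc _ _ (hm (tM B.M) _ (Nat.le_add_left _ 1)).1 τ L f.toBs W blk s h' A _ (n + 2)
    (1 / 2 ^ A) fM of.toOk sb.wf (by omega) (two_pow_le (by omega)) cs
    (TS.RgS.mono r1 of.old.stg.tri a0 (by linarith) le_rfl le_rfl le_rfl (by linarith))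
  have fw := fw_ok of fm1 fun G _ _ => by rw [pu1]; exact one_ne_zero
  obtain ⟨km1, km2, km3⟩ := hk τ τ' L B W blk W' col i μ k c s n (2 * h') f o sb.wf ct
    (fr_mono t of (by omega)) fw fa
  have so := sy_ok of.toOk sb.wf
  refine ⟨f, _ ∩ {y | (f.SY W blk).Cen (2 ^ (h' + n + 1 + n + (n + 2))) y}, fr_mono t of (by omega),
    fm1, fl, fw.mono (by omega), fun G => ⟨pu1 G, fa G, mo G⟩, pu2, fM, st,
    cd'.trans (Nat.pow_le_pow_right two_pos (by omega)),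
    TS.RgS.mono r1 of.old.stg.tri a0 (by linarith) (by omega) (by omega) (two_pow_le (by omega))
      (two_pow_le (by omega)), fr_mono t km1 (by omega), km2.mono (by omega),
    le_trans ?_ ((sub_le_sub pr cb).trans (so.pr_inter _ _)),
    fun y hy c => (hy.2 c).trans (pow_le_pow_right₀ one_le_two (by omega)),
    fun y hy => ?_⟩
  · exact (two_pow_le (by omega : n + 2 ≤ n ^ e)).trans (by linarith)
  · obtain ⟨y', m, q⟩ := hy.1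
    exact ⟨y', m, q, km3 y _ q⟩

theorem FRZ1.frz {s M : ℕ} (h : FRZ1 s M) : FRZ s M := by
  obtain ⟨e, h⟩ := h
  refine ⟨e, fun K' => ?_⟩
  obtain ⟨K, h⟩ := h K'
  refine ⟨K, fun τ τ' L _ _ _ _ _ _ B W blk W' col i μ k c n κ X a1 a2 a3 a4 a5 a6 => ?_⟩
  obtain ⟨f, H, b1, b2, -, b3⟩ := h τ τ' L B W blk W' col i μ k c n κ X a1 a2 a3 a4 a5 a6
  exact ⟨f, H, b1, b2, b3⟩

theorem frz (h1 : EXL1) (h2 : SPL1) (h4' : SZ1) (h7 : HMK1) (hk : KMP) (hu : PUR) (h3 : TXA)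
    (h4 : SZB) (h5 : BGP) (h6 : TFA) (h8 : SYP) (h9 : TFO) (hc : Mv.CNB) (hs : Sd.STT)
    (ht : ∀ M C', TANG M C') (s M : ℕ) : FRZ s M :=
  (frz' h1 h2 h4' h7 hk hu h3 h4 h5 h6 h8 h9 hc hs ht s M).frz

end Crest.Agent.N49.Fz

end
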