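import Crest.Agent.N49.Sw.Xwl

/-!
# Row 49 (helper50): pending words become coordinates (`INP`)
-/

set_option autoImplicit false

open Matrix MvPolynomial Finset

noncomputable section

namespace Crest.Agent.N49.Sw

open Po Tw Sd

namespace Ip

/-- the abstract estimate, sharp form -/
theorem core {X Y Z : Type} [Nonempty X] [Nonempty Y] (e : Z ≃ X × Y) {f : X → ℝ} {h : X → Y → ℝ}
    {u : Z → ℝ} {P p ε : ℝ} {G : X → ℂ} {c : X → ℝ} {i : X → Y → ℂ} {F : Z → ℂ}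
    (f0 : ∀ x, 0 < f x) (h0 : ∀ x y, 0 < h x y) (hu : ∀ z, u z = f (e z).1 * h (e z).1 (e z).2)
    (hF : ∀ z, F z = G (e z).1 * c (e z).1 * i (e z).1 (e z).2) (P0 : 0 < P) (p0 : 0 ≤ p)
    (p1 : p ≤ 1) (ε0 : 0 ≤ ε) (sh : ∀ x, Summable (h x)) (b : ∀ x, |∑' y, h x y - P| ≤ ε * P)
    (hG : ∀ x, ‖G x‖ ≤ 1) (c0 : ∀ x, 0 ≤ c x ∧ c x ≤ 1) (hi : ∀ x y, ‖i x y‖ ≤ 1)
    (b' : ∀ x, G x ≠ 0 → ‖c x * ((∑' y, (h x y : ℂ) * i x y) / P) - p‖ ≤ ε) :
    p * ‖(∑' x, (f x : ℂ) * G x) / (∑' x, f x : ℝ)‖ - 2 * ε ≤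
      ‖(∑' z, (u z : ℂ) * F z) / (∑' z, u z : ℝ)‖ := by
  by_cases sf : Summable f
  swap
  · rw [tsum_eq_zero_of_not_summable sf, Complex.ofReal_zero, div_zero, norm_zero, mul_zero]
    linarith [norm_nonneg ((∑' z, (u z : ℂ) * F z) / (∑' z, u z : ℝ))]
  obtain ⟨s, b1⟩ := Wn.split (fun x => (f0 x).le) (fun x y => (h0 x y).le) sf sh b
  have b2 := b1 1 fun _ => norm_one.le
  simp only [Pi.one_apply, mul_one] at b2
  rw [← Complex.ofReal_tsum, ← Complex.ofReal_tsum, ← Complex.ofReal_mul, ← Complex.ofReal_sub,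
    Complex.norm_real, Real.norm_eq_abs] at b2
  have Z0 : 0 < ∑' x, f x := sf.tsum_pos (fun x => (f0 x).le) (Classical.arbitrary X) (f0 _)
  have U0 : 0 < ∑' q : X × Y, f q.1 * h q.1 q.2 := s.tsum_pos
    (fun q => (mul_pos (f0 _) (h0 _ _)).le) (Classical.arbitrary _) (mul_pos (f0 _) (h0 _ _))
  have n : ∀ {Z : Type} {u : Z → ℝ} (G : Z → ℂ) (a : ℝ), (∀ z, 0 ≤ u z) → Summable u →
      (∀ z, ‖G z‖ ≤ a) → Summable fun z => (u z : ℂ) * G z := fun G a u0 su hG =>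
    (su.mul_right a).of_norm_bounded fun z => by
      rw [norm_mul, Complex.norm_real, Real.norm_of_nonneg (u0 z)]
      exact mul_le_mul_of_nonneg_left (hG z) (u0 z)
  have cn : ∀ x, ‖(c x : ℂ)‖ ≤ 1 := fun x => by
    rw [Complex.norm_real, Real.norm_of_nonneg (c0 x).1]; exact (c0 x).2
  have s3 := n (fun q : X × Y => G q.1 * c q.1 * i q.1 q.2) 1
    (fun q => (mul_pos (f0 _) (h0 _ _)).le) s fun q => by
      rw [norm_mul, norm_mul]
      exact mul_le_one₀ (mul_le_one₀ (hG _) (norm_nonneg _) (cn _)) (norm_nonneg _) (hi _ _)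
  have Pc : (P : ℂ) ≠ 0 := Complex.ofReal_ne_zero.2 P0.ne'
  set d : X → ℂ := fun x => G x * (c x * ((∑' y, (h x y : ℂ) * i x y) / P) - p) with hd
  have db : ∀ x, ‖d x‖ ≤ ε := fun x => by
    rw [hd, norm_mul]
    by_cases z : G x = 0
    · rwa [z, norm_zero, zero_mul]
    exact (mul_le_of_le_one_left (norm_nonneg _) (hG x)).trans (b' x z)
  have q : ∀ x, ∑' y, ((f x * h x y : ℝ) : ℂ) * (G x * c x * i x y) =
      P * (p * (f x * G x) + f x * d x) := fun x => by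
    rw [show P * (p * (f x * G x) + f x * d x) = f x * G x * c x * ∑' y, (h x y : ℂ) * i x y by
      rw [hd]; field_simp; ring, ← tsum_mul_left]
    exact tsum_congr fun y => by push_cast; ring
  have s4 := n G 1 (fun x => (f0 x).le) sf hG
  have s5 := n d _ (fun x => (f0 x).le) sf db
  have t : ∀ (D : X → ℂ) (a : ℝ), (∀ x, ‖D x‖ ≤ a) → ‖∑' x, (f x : ℂ) * D x‖ ≤ (∑' x, f x) * a :=
    fun D a hD => by
      rw [← tsum_mul_right]
      refine tsum_of_norm_bounded (sf.mul_right _).hasSum fun x => ?_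
      rw [norm_mul, Complex.norm_real, Real.norm_of_nonneg (f0 x).le]
      exact mul_le_mul_of_nonneg_left (hD x) (f0 x).le
  have t4 := t G 1 hG
  have t5 := t d ε db
  rw [tsum_congr hu, e.tsum_eq fun q => f q.1 * h q.1 q.2,
    tsum_congr fun z => show (u z : ℂ) * F z = _ by rw [hu, hF],
    e.tsum_eq fun q => ((f q.1 * h q.1 q.2 : ℝ) : ℂ) * (G q.1 * c q.1 * i q.1 q.2), s3.tsum_prod,
    tsum_congr q, tsum_mul_left, (s4.mul_left _).tsum_add s5, tsum_mul_left, norm_div, norm_div,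
    norm_mul, Complex.norm_real, Complex.norm_real, Complex.norm_real, Real.norm_of_nonneg Z0.le,
    Real.norm_of_nonneg U0.le, Real.norm_of_nonneg P0.le]
  have t6 := norm_sub_le (p * ∑' x, (f x : ℂ) * G x + ∑' x, (f x : ℂ) * d x) (∑' x, (f x : ℂ) * d x)
  rw [add_sub_cancel_right, norm_mul, Complex.norm_real, Real.norm_of_nonneg p0] at t6
  have t7 := norm_nonneg (p * ∑' x, (f x : ℂ) * G x + ∑' x, (f x : ℂ) * d x)
  have t9 := norm_nonneg (∑' x, (f x : ℂ) * G x)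
  generalize ‖p * ∑' x, (f x : ℂ) * G x + ∑' x, (f x : ℂ) * d x‖ = A at *
  generalize ‖∑' x, (f x : ℂ) * G x‖ = A0 at *
  generalize ‖∑' x, (f x : ℂ) * d x‖ = A1 at *
  generalize ∑' q : X × Y, f q.1 * h q.1 q.2 = U at *
  generalize ∑' x, f x = V at *
  have t8 : U ≤ (1 + ε) * (P * V) := by
    have := (abs_le.1 b2).2
    nlinarith
  have a1 : p * (A0 / V) ≤ A / V + ε := by
    rw [← mul_div_assoc, div_le_iff₀ Z0, add_mul, div_mul_cancel₀ _ Z0.ne']; linarith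
  have a2 : p * (A0 / V) ≤ 1 :=
    mul_le_one₀ p1 (by positivity) ((div_le_one Z0).2 (by linarith))
  calc _ ≤ A / V / (1 + ε) := by
        rw [le_div_iff₀ (by positivity)]; nlinarith
    _ = P * A / ((1 + ε) * (P * V)) := by field_simp
    _ ≤ _ := div_le_div_of_nonneg_left (by positivity) U0 t8

theorem half {N : Type} [Fintype N] {v t : N → ℝ} {k : N → ℤ} {n r : ℕ} (c : Fintype.card N ≤ n)
    (h : ∀ a, |k a - t a| ≤ 2 ^ r ∧ (5 * n * 4 ^ r : ℝ) ≤ v a) :
    1 / 2 ≤ ∏ a, Wn.g1 (v a) (t a) (k a) := by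
  have e : ∀ a, (k a - t a) ^ 2 / v a ≤ 1 / (5 * n) := fun a => by
    have n0 : (0 : ℝ) < n := Nat.cast_pos.2 ((Fintype.card_pos_iff.2 ⟨a⟩).trans_le c)
    have : (k a - t a) ^ 2 ≤ 4 ^ r := by
      rw [← sq_abs, show (4 : ℝ) = 2 ^ 2 by norm_num, ← pow_mul, mul_comm, pow_mul]
      exact pow_le_pow_left₀ (abs_nonneg _) (h a).1 2
    calc _ ≤ 4 ^ r / (5 * n * 4 ^ r : ℝ) := by gcongr; exact (h a).2
      _ = _ := by field_simp
  have s : ∑ a, (k a - t a) ^ 2 / v a ≤ 1 / 5 := by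
    refine (sum_le_card_nsmul _ _ _ fun a _ => e a).trans ?_
    rw [card_univ, nsmul_eq_mul]
    refine (mul_le_mul_of_nonneg_right (Nat.cast_le.2 c) (by positivity)).trans ?_
    rcases Nat.eq_zero_or_pos n with z | z
    · simp [z]
    · have : (0 : ℝ) < n := Nat.cast_pos.2 z
      exact le_of_eq (by field_simp)
  simp only [Wn.g1]
  rw [← Real.exp_sum, ← mul_sum, one_div, ← Real.exp_log two_pos, ← Real.exp_neg, Real.exp_le_exp]
  nlinarith [Real.log_two_gt_d9, Real.pi_lt_d2, Real.pi_pos]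

end Ip

open Xl in
theorem inp : INP := by
  classical
  intro τ _ s M m g r T st P w W Wz κ Ψ G Y tb pb w0 dn dz sub adm hκ hG hY
  have n0 : ∀ μ ∈ W, (1 : ℝ) ≤ w * κ μ := fun μ h =>
    le_trans (le_add_of_nonneg_left (by positivity)) (hκ μ h).1
  have κ0 : ∀ μ ∈ W, 0 < κ μ := fun μ h =>
    (mul_pos_iff_of_pos_left w0).1 (zero_lt_one.trans_le (n0 μ h))
  have mW : ∀ x : PN T P W, x.1.2.1 ∈ W := fun x => mem_of_mem_erase x.1.2.2
  have mk : ∀ a, ∀ μ ∈ Wz, μ.degree = (P.wd a).degree →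
      μ ∈ W.erase 0 ∧ μ.mapDomain (fun _ => ()) = P.wd a := fun a μ h e =>
    ⟨mem_erase.2 ⟨fun z => pb.ok.ne a (by
      rw [← Finsupp.degree_eq_zero_iff, ← e, z, map_zero]), sub h⟩, md_iff.2 e⟩
  let v := vr T P w W κ
  have r1 : ∀ x, 1 ≤ √(v x) := fun x => Real.one_le_sqrt.2 (n0 _ (mW x))
  let β : (T.Cw (MR (fun _ => ()) W (dk κ)) → ℤ) → ℝ := fun y =>
    ∏ x : {x : PN T P W // x.1.2.1 ∈ Wz}, Wn.g1 (v x)
      (sv (P.Θ x.1.1.1) x.1.1.2.1 (zP T P (ex T _ id (zc y)) (Y y))) (Y y x.1.1.1 x.1.1.2.1)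
  have βp : ∀ y, 0 < β y := fun y => prod_pos fun _ _ => Wn.g1_pos _ _ _
  have β0 : ∀ y, G y ≠ 0 → 1 / 2 ≤ β y := fun y z =>
    Ip.half (r := r) ((Fintype.card_subtype_le _).trans card_le) fun x =>
      ⟨hY y z _ _ x.2 (md_iff.1 x.1.2), by
        push_cast; rw [← mul_assoc]; exact (hκ _ (mW x)).2.1⟩
  have c0 : ∀ y, 0 ≤ min 1 (1 / 2 / β y) ∧ min 1 (1 / 2 / β y) ≤ 1 := fun y =>
    ⟨le_min zero_le_one (div_nonneg (by norm_num) (βp y).le), min_le_left _ _⟩
  refine ⟨fun y => min 1 (1 / 2 / β y), c0, fun y y' e e' => ?_, ?_⟩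
  · refine congrArg (fun t => min 1 (1 / 2 / t)) (prod_congr rfl fun x _ => ?_)
    rw [e']
    refine congrArg (fun t => Wn.g1 _ t _) (sv_congr fun F _ ν hν => ?_)
    cases F with
    | inl c =>
      exact sum_congr rfl fun p hp => congrArg Int.cast (e p (by
        rw [show p.1.2.1 = ν from (mem_filter.1 hp).2.2]; exact dz _ x.2 _ hν))
    | inr a => rfl
  have p0 : 1 ≤ ∏ x : {x : PN T P W // x.1.2.1 ∈ Wz}, √(v x) :=
    (prod_const_one (s := univ)).ge.trans (prod_le_prod (fun _ _ => zero_le_one) fun x _ => r1 x)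
  have p1 : ∏ x : {x : PN T P W // x.1.2.1 ∈ Wz}, √(v x) ≤ (2 ^ g) ^ (Fintype.card P.N * #Wz) := by
    have c : Fintype.card {x : PN T P W // x.1.2.1 ∈ Wz} ≤ Fintype.card P.N * #Wz := by
      rw [← Fintype.card_coe Wz, ← Fintype.card_prod]
      exact Fintype.card_le_of_injective (fun x => (x.1.1.1, ⟨_, x.2⟩)) fun x x' e =>
        Subtype.ext (Subtype.ext (Prod.ext (congrArg (·.1) e) (Subtype.ext (congrArg (·.2.1) e))))
    refine le_trans ?_ (pow_le_pow_right₀ (one_le_pow₀ one_le_two) c)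
    rw [← card_univ, ← prod_const]
    refine prod_le_prod (fun a _ => Real.sqrt_nonneg _) fun a _ =>
      Real.sqrt_le_iff.2 ⟨by positivity, ?_⟩
    rw [← pow_mul, mul_comm g, pow_mul]
    norm_num
    exact (hκ _ (mW a)).2.2
  have p2 : 0 < ∏ x : {x : PN T P W // x.1.2.1 ∉ Wz}, √(v x) :=
    prod_pos fun x _ => zero_lt_one.trans_le (r1 x)
  have key := Ip.core (E T P w W (dk κ) ℤ) (f := (T.tw _ Ψ).wt) (h := pw T P w W κ)
    (u := ((xw T P w).tw _ (xT T P w W (dk κ) Ψ)).wt) (P := ∏ x, √(v x))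
    (p := 1 / 2 / ∏ x : {x : PN T P W // x.1.2.1 ∈ Wz}, √(v x)) (ε := 1 / 2 ^ m) (G := G)
    (c := fun y => min 1 (1 / 2 / β y))
    (i := fun y k => if ∀ x : PN T P W, x.1.2.1 ∈ Wz → k x = Y y x.1.1 x.1.2.1 then 1 else 0)
    (F := fun y => G (pj T P w W _ y) * ((min 1 (1 / 2 / β (pj T P w W _ y)) : ℝ) : ℂ) *
      if ∀ a, ∀ μ ∈ Wz, μ.degree = (P.wd a).degree →
        ex (xw T P w) _ id y (.inr a, μ) = Y (pj T P w W _ y) a μ then 1 else 0)
    (fun _ => Real.exp_pos _) pw_pos (wt_eq tb.ok.pd dn w0 κ0 Ψ)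
    (fun y => congrArg _ (if_congr ⟨fun h x hx =>
      (ex_eq (xw T P w) y (eqv T P w W _ (.inr x))).symm.trans (h _ _ hx (md_iff.1 x.2)),
      fun h a μ hμ e => (ex_eq (xw T P w) y (eqv T P w W _
        (.inr ⟨(a, ⟨μ, (mk a μ hμ e).1⟩), (mk a μ hμ e).2⟩))).trans (h _ hμ)⟩ rfl rfl))
    (prod_pos fun x _ => zero_lt_one.trans_le (r1 x)) (by positivity)
    (div_le_one_of_le₀ (by linarith) (by linarith)) (by positivity)
    (fun y => (nrm pb.ok.tri (fun μ h => (hκ μ h).1) y).1)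
    (fun y => (nrm pb.ok.tri (fun μ h => (hκ μ h).1) y).2) hG c0
    (fun y k => by split_ifs <;> simp) fun y z => by
      let j : ({x : PN T P W // x.1.2.1 ∉ Wz} → ℤ) → PN T P W → ℤ := fun k x =>
        if h : x.1.2.1 ∈ Wz then Y y x.1.1 x.1.2.1 else k ⟨x, h⟩
      have j1 : ∀ k (x : PN T P W), x.1.2.1 ∈ Wz → j k x = Y y x.1.1 x.1.2.1 := fun k x h =>
        dif_pos h
      have j2 : ∀ k (x : {x : PN T P W // x.1.2.1 ∉ Wz}), j k x = k x := fun k x => dif_neg x.2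
      have hj : Function.Injective j := fun k k' e => funext fun x =>
        (j2 k x).symm.trans ((congrFun e x).trans (j2 k' x))
      obtain ⟨-, b⟩ := Wn.tri (N := {x : PN T P W // x.1.2.1 ∉ Wz}) (rk := fun x => P.rk x.1.1.1)
        (θ := fun x k => th T P W _ y x (j k)) (v := fun x => v x) (m := m)
        ((Fintype.card_subtype_le _).trans card_le)
        (fun x k k' e => tr pb.ok.tri y x _ _ fun b hb => by
          by_cases h : b.1.2.1 ∈ Wz
          · rw [j1 k b h, j1 k' b h]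
          · exact (j2 k ⟨b, h⟩).trans ((e ⟨b, h⟩ hb).trans (j2 k' ⟨b, h⟩).symm))
        fun x => by push_cast; exact (hκ _ (mW x)).1
      have e : ∀ k, pw T P w W κ y (j k) = β y * ∏ x : {x : PN T P W // x.1.2.1 ∉ Wz},
          Wn.g1 (v x) (th T P W _ y x (j k)) (k x) := fun k => by
        rw [pw, ← Fintype.prod_subtype_mul_prod_subtype fun x : PN T P W => x.1.2.1 ∈ Wz]
        refine congrArg₂ (· * ·) (prod_congr rfl fun x _ => ?_) (prod_congr rfl fun x _ => by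
          rw [j2])
        rw [j1 k x x.2]
        refine congrArg (fun t => Wn.g1 _ t _) (sv_congr fun F _ ν hν => ?_)
        cases F with
        | inl c => rfl
        | inr a =>
          have h := dz _ x.2 _ hν
          exact if_ctx_congr Iff.rfl (fun e => congrArg Int.cast
            ((dif_pos (mk a ν h e)).trans (j1 k _ h))) fun _ => rfl
      rw [← hj.tsum_eq (fun k hk => ?_), tsum_congr fun k => show _ = (β y : ℂ) * _ by
          rw [if_pos (j1 k), mul_one, e, Complex.ofReal_mul], tsum_mul_left, ← Complex.ofReal_tsum,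
        min_eq_right ((div_le_one (βp y)).2 (β0 y z)),
        ← Fintype.prod_subtype_mul_prod_subtype (fun x : PN T P W => x.1.2.1 ∈ Wz) fun x => √(v x),
        ← Complex.ofReal_mul, ← Complex.ofReal_div, ← Complex.ofReal_mul, ← Complex.ofReal_sub,
        Complex.norm_real, Real.norm_eq_abs]
      · have := βp y
        generalize ∏ x : {x : PN T P W // x.1.2.1 ∈ Wz}, √(v x) = A at *
        generalize ∏ x : {x : PN T P W // x.1.2.1 ∉ Wz}, √(v x) = B at *
        generalize ∑' k : {x : PN T P W // x.1.2.1 ∉ Wz} → ℤ, ∏ x : {x : PN T P W // x.1.2.1 ∉ Wz},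
          Wn.g1 (v x) (th T P W _ y x (j k)) (k x) = S at *
        have A0 : 0 < A := by linarith
        rw [show 1 / 2 / β y * (β y * S / (A * B)) - 1 / 2 / A = (S - B) / (2 * A * B) by
          field_simp, abs_div, abs_of_pos (a := 2 * A * B) (by positivity),
          div_le_iff₀ (by positivity)]
        refine b.trans ?_
        gcongr
        nlinarith
      · refine ⟨fun x => k x, funext fun x => ?_⟩
        by_cases h : x.1.2.1 ∈ Wz
        · refine (j1 (fun x => k x) x h).trans (of_not_not fun n => hk ?_)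
          exact (congrArg _ (if_neg fun a => n (a x h).symm)).trans (mul_zero _)
        · exact j2 (fun x => k x) ⟨x, h⟩
  refine le_trans ?_ key
  have n1 := norm_nonneg ((T.tw _ Ψ).Ec G)
  have n2 : (0 : ℝ) ≤ 1 / 2 ^ m := by positivity
  refine sub_le_sub ?_ (by rw [← mul_one_div 4]; linarith)
  calc _ = 1 / 2 / (2 ^ g) ^ (Fintype.card P.N * #Wz) * ‖(T.tw _ Ψ).Ec G‖ := by field_simp
    _ ≤ 1 / 2 / (∏ x : {x : PN T P W // x.1.2.1 ∈ Wz}, √(v x)) * ‖(T.tw _ Ψ).Ec G‖ := by gcongr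
    _ = _ := rfl

end Crest.Agent.N49.Sw

end
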