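import Crest.Agent.N49.Mv.Pul

/-!
# Row 49 (helper35): pending families along an arbitrary frame (after helper38's kit)
-/

set_option autoImplicit false
set_option linter.unusedSectionVars false

open Finset MvPolynomial

noncomputable section

namespace Crest.Agent.N49.Mv.P0

open Tw Sy Md Sd Pl

variable {τ L : Type} [Fintype τ] [DecidableEq τ] [Fintype L] [DecidableEq L] {T T2 : TS Unit}
  (P : Bk T.C Unit) (W : Finset (Finset τ)) (blk : τ → L) (x : L)

/-- multipliers on word functions -/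
def ms {ι : Type} (m : τ → ℕ) (ξ : ι → Finset τ → ℝ) (v : ι) (A : Finset τ) : ℝ :=
  (∏ a ∈ A, (m a : ℝ)) * ξ v A

theorem Yp_ms {ι : Type} (lev : ι → ℕ) (m : τ → ℕ) (ξ : ι → Finset τ → ℝ) (c : ι) :
    Yp lev (ms m ξ) c = scl (fun a => (m a : ℝ)) (Yp lev ξ c) := by
  simp only [Yp, map_sum, Uf.scl_monomial, prod_ind, ms]

theorem sy_ms {ι : Type} (lev : ι → ℕ) (m : τ → ℕ) (ξ : ι → Finset τ → ℝ) (Q : MvPolynomial ι ℝ)
    (B : Finset τ) : sy lev Q (ms m ξ) B = (∏ a ∈ B, (m a : ℝ)) * sy lev Q ξ B := by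
  rw [sy, sy, ← Uf.coeff_ind_scl, ← AlgHom.comp_apply, comp_aeval]
  exact congrArg (fun Y => coeff _ (aeval Y Q)) (funext (Yp_ms lev m ξ))

/-- the new pending families -/
abbrev NN : Type := {z : P.N × Finset τ // z.2 ∈ W ∧ x ∉ z.2.image blk ∧ #z.2 < (P.wd z.1).degree}

variable (T2) in
/-- the new levels -/
def l2 : T2.C ⊕ NN P W blk x → ℕ := Sum.elim T2.lev fun z => (P.wd z.1.1).degree - #z.1.2

variable (θ : Md.Tan T T2 τ) (k : P.N → MvPolynomial τ ℤ)

variable (T2) in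
/-- the pending families, without the background -/
def s0 (a : P.N) : MvPolynomial τ (MvPolynomial (T2.C ⊕ NN P W blk x) ℤ) :=
  ∑ z : NN P W blk x with z.1.1 = a, monomial (ind z.1.2) (X (.inr z))

/-- the substitution -/
def sg : T.C ⊕ P.N → MvPolynomial τ (MvPolynomial (T2.C ⊕ NN P W blk x) ℤ) :=
  Sum.elim (fun F => map C (θ.be F) + ∑ G with θ.fam G = some F, map C (θ.mon G) * C (X (.inl G)))
    fun a => map C (k a) + s0 T2 P W blk x a

/-- the forms after the substitution -/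
def th (a : P.N) : MvPolynomial τ (MvPolynomial (T2.C ⊕ NN P W blk x) ℝ) :=
  aeval (fun v => zz (sg P W blk x θ k v)) (P.Θ a)

/-- the new pending families -/
def nb : Bk T2.C Unit where
  N := NN P W blk x
  wd z := Finsupp.single () ((P.wd z.1.1).degree - #z.1.2)
  rk z := P.rk z.1.1
  Θ z := coeff (ind z.1.2) (th P W blk x θ k z.1.1)

/-- the map of word functions -/
def io (m : τ → ℕ) (ξ : T2.C ⊕ NN P W blk x → Finset τ → ℝ) (v : T.C ⊕ P.N) (B : Finset τ) : ℝ :=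
  coeff (ind B) (ev (ex blk x) (Yp (l2 T2 P W blk x) (ms m ξ)) (zz (sg P W blk x θ k v)))

/-- the value of the form at the background -/
def c0 (a : P.N) (B : Finset τ) : ℝ := coeff 0 (coeff (ind B) (th P W blk x θ k a))

theorem lev2 : (Bk.ext T2 (nb P W blk x θ k)).lev = l2 T2 P W blk x :=
  funext fun v => by
    rcases v with c | z
    · rfl
    · exact Finsupp.degree_single _ _

/-- the hypotheses -/
structure Hy (X : ℝ) : Prop where
  t2 : T2.Ok
  ok : P.Ok T.deg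
  θ : θ.Ok X
  k : ∀ a, (k a).IsHomogeneous (P.wd a).degree

variable {P θ k} {X : ℝ}

theorem l2_pos (h : T2.Ok) (v : T2.C ⊕ NN P W blk x) : 0 < l2 T2 P W blk x v := by
  rcases v with c | z
  · exact h.toTri.lev_pos c
  · exact Nat.sub_pos_of_lt z.2.2.2

theorem hs_s0 (a : P.N) : Hs (l2 T2 P W blk x) (P.wd a).degree (s0 T2 P W blk x a) := by
  refine Hs.sum _ fun z e => ?_
  have := Hs.monomial (isWeightedHomogeneous_X ℤ (l2 T2 P W blk x) (.inr z)) (ind z.1.2)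
  rwa [Cm.deg_ind'', show l2 T2 P W blk x (.inr z) = _ - #z.1.2 from rfl,
    Nat.add_sub_cancel' z.2.2.2.le, (mem_filter.1 e).2] at this

theorem Hy.sg (h : Hy P θ k X) (v : T.C ⊕ P.N) :
    Hs (l2 T2 P W blk x) (l1' P v) (zz (sg P W blk x θ k v)) := by
  rcases v with F | a
  · refine ((Hs.map (h.θ.be F)).add (Hs.sum _ fun G e => ?_)).zz
    have a := h.θ.le F G (mem_filter.1 e).2
    have := (Hs.map a.2).mul (Hs.C (τ := τ) (isWeightedHomogeneous_X ℤ (l2 T2 P W blk x) (.inl G)))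
    rwa [show l2 T2 P W blk x (.inl G) = T2.lev G from rfl, Nat.sub_add_cancel a.1] at this
  · exact ((Hs.map (h.k a)).add (hs_s0 W blk x a)).zz

theorem Hy.th (h : Hy P θ k X) (a : P.N) :
    Hs (l2 T2 P W blk x) (P.wd a).degree (th P W blk x θ k a) :=
  Hs.aeval (h.sg W blk x) (hom_Θ h.ok a)

theorem zz_s0 (a : P.N) : zz (s0 T2 P W blk x a) = ∑ z : NN P W blk x with z.1.1 = a,
    monomial (ind z.1.2) (MvPolynomial.X (.inr z)) := by
  simp only [s0, map_sum, map_monomial, map_X]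

theorem zz_inl (F : T.C) : zz (sg P W blk x θ k (.inl F)) = map C (zr (θ.be F)) +
    ∑ G with θ.fam G = some F, map C (zr (θ.mon G)) * C (MvPolynomial.X (.inl G)) := by
  simp only [sg, Sum.elim_inl, map_add, map_sum, map_mul, zz_map, map_C, map_X]

theorem zz_inr (a : P.N) : zz (sg P W blk x θ k (.inr a)) =
    map C (zr (k a)) + zz (s0 T2 P W blk x a) := by
  simp only [sg, Sum.elim_inr, map_add, zz_map]

/-- old coordinates and the pending families over `p` -/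
def Sp (p : P.N → Prop) : Set (T2.C ⊕ NN P W blk x) := {w | ∀ z, w = .inr z → p z.1.1}

theorem cs_s0 {p : P.N → Prop} {a : P.N} (h : p a) :
    Cs (Sp W blk x p) (zz (s0 T2 P W blk x a)) := by
  rw [zz_s0]
  refine Cs.sum _ fun z e => Cs.mon (X_mem_supported.2 ?_) _
  rintro _ ⟨⟩
  exact (mem_filter.1 e).2 ▸ h

theorem cs_sg {p : P.N → Prop} {v : T.C ⊕ P.N} (h : ∀ a, v = .inr a → p a) :
    Cs (Sp W blk x p) (zz (sg P W blk x θ k v)) := by
  rcases v with F | a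
  · rw [zz_inl]
    exact (Cs.map _).add (Cs.sum _ fun G _ => (Cs.map _).mul
      (Cs.mon (X_mem_supported.2 fun _ e => by cases e) 0))
  · rw [zz_inr]; exact (Cs.map _).add (cs_s0 W blk x (h a rfl))

theorem cs_th (h : P.Tri) (a : P.N) :
    Cs (Sp W blk x fun a' => P.rk a' < P.rk a) (th P W blk x θ k a) :=
  Cs.aeval (mem_supported_vars _) fun _ hv => cs_sg W blk x fun a' e => h a a' (e ▸ hv)

theorem th_congr (h : P.Tri) {k' : P.N → MvPolynomial τ ℤ} {a : P.N}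
    (e : ∀ a', P.rk a' < P.rk a → k a' = k' a') : th P W blk x θ k a = th P W blk x θ k' a := by
  classical
  refine hom_congr_vars (f₁ := (aeval _ : _ →ₐ[ℝ] _).toRingHom)
    (f₂ := (aeval _ : _ →ₐ[ℝ] _).toRingHom) (by ext1 r; simp) (fun v hv _ => ?_) rfl
  rcases v with F | a'
  · simp [sg]
  · simp [sg, e a' (h a a' hv)]

theorem Hy.nb (h : Hy P θ k X) : (nb P W blk x θ k).Ok T2.deg where
  ne z := Finsupp.single_ne_zero.2 (Nat.sub_pos_of_lt z.2.2.2).ne'
  hom z := hom_unit.2 (by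
    have := (h.th W blk x z.1.1).coeff (ind z.1.2)
    rw [Cm.deg_ind'', ← lev2 P W blk x θ k] at this
    exact (Finsupp.degree_single () ((P.wd z.1.1).degree - #z.1.2)).symm ▸ this)
  live _ c _ := h.t2.ne c
  tri z z' e := mem_supported.1 (cs_th W blk x h.ok.tri z.1.1 _) e z' rfl

variable {W blk x} {m : τ → ℕ} {B : Finset τ} {s : ℕ}

theorem Hy.sy_io (h : Hy P θ k X) (ξ : T2.C ⊕ NN P W blk x → Finset τ → ℝ)
    (Q : MvPolynomial (T.C ⊕ P.N) ℝ) (B : Finset τ) : sy (l1' P) Q (io P W blk x θ k m ξ) B =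
      coeff (ind B) (ev (ex blk x) (Yp (l2 T2 P W blk x) (ms m ξ))
        (aeval (fun v => zz (P0.sg P W blk x θ k v)) Q)) := sy_ev (h.sg W blk x) _ _ _ _

theorem ev_inl (e : τ → ℝ) (ξ : T2.C ⊕ NN P W blk x → Finset τ → ℝ) (F : T.C) :
    ev e (Yp (l2 T2 P W blk x) (ms m ξ)) (zz (sg P W blk x θ k (.inl F))) =
      θ.Y e (fun a => m a) (Yp T2.lev fun G => ξ (.inl G)) F := by
  rw [zz_inl, map_add, map_sum, ev_map, Tan.Y]
  refine congrArg _ (sum_congr rfl fun G _ => ?_)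
  rw [map_mul, ev_map, ev_C, aeval_X, Yp_ms]
  rfl

theorem io_congr {ξ ξ' : T2.C ⊕ NN P W blk x → Finset τ → ℝ}
    (h : ∀ c, ∀ A ⊆ B, #A = l2 T2 P W blk x c → ξ c A = ξ' c A) (v : T.C ⊕ P.N) :
    io P W blk x θ k m ξ v B = io P W blk x θ k m ξ' v B :=
  ev_congr (S := Set.univ) _ (fun _ => by simp) fun c _ A a b => congrArg _ (h c A a b)

theorem ms_wr {ι : Type} (ξ : ι → Finset τ → ℤ) :
    ms m (wr ξ) = wr fun v A => (∏ a ∈ A, (m a : ℤ)) * ξ v A :=
  funext fun _ => funext fun _ => by simp [ms, wr]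

theorem io_inr (ξ : T2.C ⊕ NN P W blk x → Finset τ → ℝ) (a : P.N) (hx : x ∉ B.image blk) :
    io P W blk x θ k m ξ (.inr a) B = (coeff (ind B) (k a) : ℤ) + coeff (ind B)
      (ev (ex blk x) (Yp (l2 T2 P W blk x) (ms m ξ)) (zz (s0 T2 P W blk x a))) := by
  rw [io, zz_inr, map_add, ev_map, coeff_add, Uf.coeff_ind_scl, ex_prod, if_neg hx, one_mul,
    coeff_map]
  rfl

/-- the errors of the old families -/
theorem old (h : Hy P θ k X) {Λ : ℝ} (hΛ : ∀ A ⊆ B, ∏ a ∈ A, (m a : ℝ) ≤ Λ)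
    (ξ : T2.C ⊕ NN P W blk x → Finset τ → ℝ) (F : T.C) (hx : x ∈ B.image blk) {t : ℝ} (ht : 0 ≤ t)
    (hu : ∀ G, ∀ A ⊆ B, x ∈ A.image blk → #A = T2.lev G → |ue T2 (fun G => ξ (.inl G)) G A| ≤ t) :
    |sy (l1' P) (rename .inl (T.Φ F)) (io P W blk x θ k m ξ) B| ≤
      Fintype.card T2.C * (X * (X * (Λ * t))) := by
  have Λ0 : 0 ≤ Λ := zero_le_one.trans (by simpa using hΛ ∅ (empty_subset _))
  rw [h.sy_io, ev_aeval, aeval_rename]
  simp only [Function.comp_def, ev_inl]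
  rw [uft τ T T2 θ X h.θ, coeff_add, Uf.coeff_ind_scl, ex_prod, if_pos hx, zero_mul, zero_add,
    coeff_sum]
  have X0 : 0 ≤ X := (abs_nonneg _).trans (h.θ.bd (θ.top F)).1
  refine (abs_sum_le_sum_abs _ _).trans
    ((sum_le_card_nsmul _ _ (X * (X * (Λ * t))) fun G e => ?_).trans ?_)
  swap
  · rw [nsmul_eq_mul]
    exact mul_le_mul_of_nonneg_right (by exact_mod_cast card_le_univ _)
      (show 0 ≤ X * (X * (Λ * t)) by positivity)
  rw [coeff_smul, smul_eq_mul, coeff_ind_mul, abs_mul]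
  refine mul_le_mul (h.θ.bd G).1 ((abs_sum_le_sum_abs _ _).trans (le_trans
    (sum_le_sum (g := fun A => |coeff (ind A) (zr (θ.mon G))| * (Λ * t)) fun A a => ?_)
    ?_)) (abs_nonneg _) X0
  · rw [Uf.coeff_ind_scl, Uf.coeff_ind_scl, ex_prod]
    split_ifs with z
    · simp only [zero_mul, abs_zero]; positivity
    rw [one_mul, abs_mul, abs_mul]
    refine mul_le_mul_of_nonneg_left ?_ (abs_nonneg _)
    by_cases l : #(B \ A) = T2.lev G
    · rw [abs_of_nonneg (by positivity)]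
      exact mul_le_mul (hΛ _ sdiff_subset) (hu G _ sdiff_subset (x_sdiff hx z) l) (abs_nonneg _) Λ0
    · rw [show coeff (ind (B \ A)) (aeval (Yp T2.lev fun G => ξ (.inl G)) (T2.Φ G)) = 0 from
        sy_hom T2.lev (h.t2.hom_lev G) _ l, abs_zero, mul_zero]
      positivity
  · rw [← sum_mul]
    refine mul_le_mul_of_nonneg_right (le_trans ?_ (h.θ.bd G).2) (by positivity)
    rw [← sum_image (g := ind) (f := fun μ => |coeff μ (zr (θ.mon G))|) fun _ _ _ _ => ind_inj]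
    exact sum_le_l1 _ _

theorem co_inr (a : P.N) (A : Finset τ) : coeff (ind A) (zz (sg P W blk x θ k (.inr a))) =
    C ((coeff (ind A) (k a) : ℤ) : ℝ) + ∑ z : NN P W blk x with z.1 = (a, A),
      MvPolynomial.X (.inr z) := by
  rw [zz_inr, zz_s0, coeff_add, coeff_map, coeff_map, coeff_sum, sum_filter, sum_filter]
  refine congrArg₂ _ rfl (sum_congr rfl fun z _ => ?_)
  rw [coeff_monomial, ← ite_and]
  exact if_congr ⟨fun e => Prod.ext e.1 (ind_inj e.2), fun e => by rw [e]; exact ⟨rfl, rfl⟩⟩ rfl rfl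

/-- the errors of the pending families -/
theorem pend (h : Hy P θ k X) (w : Wf s W blk) {a : P.N} {Λ : ℝ}
    (hΛ : ∀ A ⊆ B, ∏ a ∈ A, (m a : ℝ) ≤ Λ)
    (ξ : T2.C ⊕ NN P W blk x → Finset τ → ℝ) (hB : B ∈ W) (hl : #B = (P.wd a).degree) {t : ℝ}
    (ht : 0 ≤ t) (hu : ∀ z : NN P W blk x, z.1.1 = a → z.1.2 ⊆ B → |sy (l2 T2 P W blk x)
      (MvPolynomial.X (.inr z) - (nb P W blk x θ k).Θ z) ξ (B \ z.1.2)| ≤ t) :
    |sy (l1' P) (MvPolynomial.X (.inr a) - P.Θ a) (io P W blk x θ k m ξ) B -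
      (if x ∈ B.image blk then 0 else 1) *
        ((coeff (ind B) (k a) : ℤ) - c0 P W blk x θ k a B)| ≤ 2 ^ #B * (Λ * t) := by
  have Λ0 : 0 ≤ Λ := zero_le_one.trans (by simpa using hΛ ∅ (empty_subset _))
  have t0 : 0 ≤ Λ * t := by positivity
  rw [h.sy_io, ev_sy, ← sum_ite_eq_of_mem' _ _ (fun _ => (if x ∈ B.image blk then 0 else 1) *
      (((coeff (ind B) (k a) : ℤ) : ℝ) - c0 P W blk x θ k a B)) (mem_powerset_self B),
    ← sum_sub_distrib]
  refine (abs_sum_le_sum_abs _ _).trans ((sum_le_card_nsmul _ _ (Λ * t) fun A e => ?_).trans_eq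
    (by rw [card_powerset, nsmul_eq_mul, Nat.cast_pow, Nat.cast_two]))
  replace e := mem_powerset.1 e
  rw [map_sub, aeval_X, coeff_sub, co_inr, ex_prod]
  by_cases aB : A = B
  · subst aB
    rw [if_pos rfl, sdiff_self, bot_eq_empty, sy_empty (l2_pos W blk x h.t2), sum_eq_zero fun z e =>
      absurd z.2.2.2 (by rw [(mem_filter.1 e).2]; exact hl.not_lt), add_zero, coeff_sub,
      coeff_zero_C]
    simpa [c0, th] using t0
  rw [if_neg aB, sub_zero]
  split_ifs with z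
  · simpa using t0
  have l : #A < (P.wd a).degree := hl ▸ card_lt_card (lt_of_le_of_ne e aB)
  rw [co_hom (h.k a) l.ne, Int.cast_zero, map_zero, zero_add, one_mul,
    sum_eq_single_of_mem (⟨(a, A), w.dw B hB A e, z, l⟩ : NN P W blk x) (by simp) fun y c d =>
      absurd (Subtype.ext (mem_filter.1 c).2 : y = ⟨(a, A), _⟩) d, sy_ms, abs_mul,
    abs_of_nonneg (by positivity)]
  exact mul_le_mul (hΛ _ sdiff_subset) (hu ⟨(a, A), _⟩ rfl e) (abs_nonneg _) Λ0

end Crest.Agent.N49.Mv.P0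

end
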