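import Crest.Agent.N49.Sw.Df5
import Crest.Agent.N49.Sw.All2
import Crest.Agent.N49.Sw.Enl
import Crest.Agent.N49.Su.Kill
import Crest.Agent.N49.Su.Exq
import Crest.Agent.N49.Sy.Ssz

/-!
# Row 49 (helper24): the swap (`SWAP`)
-/

set_option autoImplicit false
set_option linter.unusedSectionVars false

open Matrix MvPolynomial Finset

noncomputable section

namespace Crest.Agent.N49.Sw

open Po Tw Sd Sy Md Rm Mv

namespace Swp

theorem whc_rn {α β M : Type} [AddCommMonoid M] (f : α → β) {w : α → M} {w' : β → M}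
    (h : ∀ a, w' (f a) = w a) (n : M) (P : MvPolynomial α ℝ) :
    weightedHomogeneousComponent w' n (rename f P) =
      rename f (weightedHomogeneousComponent w n P) := by
  classical
  induction P using MvPolynomial.induction_on' with
  | monomial u a =>
    rw [rename_monomial, weightedHomogeneousComponent_of_mem (n := Finsupp.weight w u)
      (isWeightedHomogeneous_monomial _ _ _ (by rw [TS.weight_map, funext h])),
      weightedHomogeneousComponent_of_mem (n := Finsupp.weight w u)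
      (isWeightedHomogeneous_monomial _ _ _ rfl)]
    split_ifs
    · rw [rename_monomial]
    · rw [map_zero]
  | add p q hp hq => simp only [map_add, hp, hq]

section rn
variable {C C' τ L : Type} [Fintype τ] [DecidableEq τ] [Fintype L] [DecidableEq L] (f : C → C')
  {B : Bk (VV C τ) τ} {blk : τ → L} {x : τ}

theorem form (E : Finset τ) (π : τ → τ) (Γ : MvPolynomial (VV C τ ⊕ B.N) ℝ) :
    up (rnB f B) (cw (rnB f B) E (rnP f B Γ)) - rlb π (up (rnB f B) (cw (rnB f B) E (rnP f B Γ))) =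
      rename (Prod.map (Sum.map f id) id) (up B (cw B E Γ) - rlb π (up B (cw B E Γ))) := by
  have e : cw (rnB f B) E (rnP f B Γ) = rnP f B (cw B E Γ) :=
    whc_rn _ (fun v => by cases v <;> rfl) _ _
  have e' : up (rnB f B) (rnP f B (cw B E Γ)) =
      rename (Prod.map (Sum.map f id) id) (up B (cw B E Γ)) :=
    (rename_rename _ _ _).trans ((congrArg (rename · _)
      (funext fun v => by cases v <;> rfl)).trans (rename_rename _ _ _).symm)
  rw [e, e', map_sub]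
  refine congrArg _ ((rename_rename _ _ _).trans (Eq.symm ((rename_rename _ _ _).trans ?_)))
  exact congrArg (rename · _) (funext fun v => rfl)

theorem tyd (h : Tyd blk x B) : Tyd blk x (rnB f B) := ⟨Pm.bo f h.bo, h.tr, h.fr⟩

theorem tyf {q : (τ →₀ ℕ) → Prop} {Γ : MvPolynomial (VV C τ ⊕ B.N) ℝ} (h : Tyf blk x B q Γ) :
    Tyf blk x (rnB f B) q (rnP f B Γ) := by
  classical
  refine ⟨fun v k => ?_, fun m k => ?_⟩
  · obtain ⟨u | u, i, e⟩ := mem_vars_rename _ _ k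
    · exact Sum.inl.inj e ▸ h.live u i
    · cases e
  · obtain ⟨u, rfl, z⟩ := coeff_rename_ne_zero _ _ m (mem_support_iff.1 k)
    have e : Finsupp.weight ((rnB f B).wg Prod.snd) (u.mapDomain (Sum.map (Prod.map f id) id)) =
        Finsupp.weight (B.wg Prod.snd) u := (TS.weight_map _ _ u).trans
      (congrArg (Finsupp.weight · u) (funext fun v => by cases v <;> rfl))
    rw [e]
    exact h.ty u (mem_support_iff.2 z)

theorem dg {s : ℕ} {W : Finset (Finset τ)} (a : Al s W blk x) (h : Tyd blk x B) (b : B.N) :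
    (B.wd b).degree ≤ s := by
  rw [← Finsupp.degree_mapDomain blk, Finsupp.degree_eq_sum]
  exact ((sum_le_card_nsmul _ _ 1 fun ℓ _ => h.tr b ℓ).trans_eq (by simp)).trans a.cL

omit f in
theorem cd {s : ℕ} {W : Finset (Finset τ)} (a : Al s W blk x) {A : Finset τ} (h : A ∈ W) :
    #A ≤ s := (card_le_card_of_injOn blk (fun _ _ => mem_univ _) ((a.mem A).1 h)).trans a.cL

omit f in
theorem dn {s : ℕ} {W : Finset (Finset τ)} (a : Al s W blk x) : Dn (W.image ind) :=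
  Dw.dn fun B k A l => (a.mem A).2 (((a.mem B).1 k).mono l)

omit f in
theorem sq {s : ℕ} {W : Finset (Finset τ)} (a : Al s W blk x) : W.image ind ⊆ sqf τ s := by
  intro μ k
  obtain ⟨A, i, rfl⟩ := mem_image.1 k
  exact mem_sqf.2 ⟨(degree_ind A).trans_le (cd a i), fun t => by
    rw [ind_apply]; split_ifs <;> simp⟩

omit f in
theorem sub {s : ℕ} {W : Finset (Finset τ)} (a : Al s W blk x) {E : Finset τ} (h : E ∈ W) :
    Su.Sub id E (W.image ind) (W0 s E) := by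
  refine ⟨Function.injective_id, fun ν => ?_⟩
  rw [Finsupp.mapDomain_id, Enl.mem_W0]
  refine and_congr_left fun k => ⟨fun i => dn a _ (mem_image_of_mem _ h) _ fun t => ?_,
    fun i => sq a i⟩
  rw [ind_apply]
  split_ifs with j
  · exact (mem_sqf.1 i).2 t
  · exact (of_not_not fun n => j (k (Finsupp.mem_support_iff.2 n)) : ν t = 0).le

end rn

/-- more words do not change the bias -/
theorem bi_kl {σ C : Type} [Fintype σ] [DecidableEq σ] [DecidableEq C] {U : TS σ} {st : U.C → ℕ}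
    {M N s : ℕ} {κ b η : ℝ} (fm : U.C → C) (hU : U.Stg st M) {W W' : Finset (σ →₀ ℕ)}
    {E : Finset σ} (hs : Su.Sub id E W W') (z : (MR id W (dk fun _ => κ)).Sz N b) (dn : Dn W)
    (dg : ∀ μ ∈ W, μ.degree ≤ s) (one : ∀ a ∈ E, Finsupp.single a 1 ∈ W)
    (hn : (Fintype.card σ + 1) ^ s ≤ N) (hp : U.HP st N b η) (Q : MvPolynomial (VV C σ) ℝ)
    (hQ : ∀ v ∈ Q.vars, v.2.support ⊆ E) :
    bi U (MR id W' (dk fun _ => κ)) fm Q ≤ bi U (MR id W (dk fun _ => κ)) fm Q + η := by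
  obtain ⟨-, z', p⟩ := Su.kill' σ σ σ U st M N s b η id W (dk fun _ => κ) id W' (dk fun _ => κ) id
    E hs (fun _ => rfl) z dn dg one (fun ν _ ν' _ _ _ => by simp only [Finsupp.mapDomain_id]) hn
    hU hp
  have q := p.Ec (TS.sh_tri hU.cl z.toOk) (TS.sh_tri hU.cl z'.toOk) (B := 1)
    (g := fun y => ee (eval (ex U (MR id W' (dk fun _ => κ)) fm (zc y)) Q)) fun y => (norm_ee _).le
  rw [one_mul, norm_sub_rev] at q
  have r := sub_le_iff_le_add'.1 ((norm_sub_norm_le _ _).trans q)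
  refine r.trans (add_le_add (le_of_eq (congrArg norm (congrArg _ (funext fun y =>
    congrArg ee (Enl.ev_congr ?_))))) le_rfl)
  rintro ⟨c, ν⟩ hv
  have e : zc (Su.rq U _ (MR id W' (dk fun _ => κ)) id y) = Su.rq U _ _ id (zc y) :=
    funext fun p => Int.cast_sum _ _
  by_cases h : ν ∈ W'
  · have a := Su.Eq0.ex_rq U fm (col := id) (col' := id) (ι := id) (W := W) (K := dk fun _ => κ)
      (K' := dk fun _ => κ) (fun _ => rfl) (zc y) c h
    rw [Finsupp.mapDomain_id] at a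
    exact (congrArg (ex U _ fm · (c, ν)) e).trans a
  · exact (Enl.ex_zero U fm _ c h).trans (Enl.ex_zero U fm _ c fun k =>
      h ((hs.mem ν).2 ⟨by rwa [Finsupp.mapDomain_id], hQ _ hv⟩)).symm

theorem half {a b : ℕ} (h : a ≤ b) : (1 : ℝ) / 2 ^ b ≤ 1 / 2 ^ a := by
  gcongr
  norm_num

theorem dl {m g n k r : ℕ} (hk : k ≤ n) (hr : m + 2 + (g + 2) * n + 1 ≤ r) :
    (1 : ℝ) / 2 ^ (m + 2 + (g + 2) * n) ≤ 1 / 2 ^ m / (2 * (3 * 2 ^ g) ^ k) - 2 / 2 ^ r := by
  have a : ((3 : ℝ) * 2 ^ g) ^ k ≤ 2 ^ ((g + 2) * n) := by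
    have p : (1 : ℝ) ≤ 2 ^ g := one_le_pow₀ (by norm_num)
    rw [pow_mul]
    refine (pow_le_pow_right₀ (by linarith) hk).trans (pow_le_pow_left₀ (by positivity) ?_ _)
    rw [pow_add]
    linarith
  have b : (1 : ℝ) / 2 ^ m / (2 * 2 ^ ((g + 2) * n)) ≤ 1 / 2 ^ m / (2 * (3 * 2 ^ g) ^ k) := by
    gcongr
  have c : (1 : ℝ) / 2 ^ m / (2 * 2 ^ ((g + 2) * n)) = 2 * (1 / 2 ^ (m + 2 + (g + 2) * n)) := by
    rw [pow_add, pow_add]
    field_simp
  have d := half hr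
  have e : (1 : ℝ) / 2 ^ (m + 2 + (g + 2) * n + 1) = 1 / 2 ^ (m + 2 + (g + 2) * n) / 2 := by
    rw [pow_succ, div_div]
  have f : (2 : ℝ) / 2 ^ r = 2 * (1 / 2 ^ r) := (mul_one_div _ _).symm
  linarith

theorem last {A r R : ℕ} (h : A + 8 ≤ r) (h' : A + 8 ≤ R) {b0 b1 b2 b3 b : ℝ}
    (h0 : 1 / 2 ^ (A + 1) ≤ b0) (h1 : b0 ≤ b1 + 16 / 2 ^ r) (h2 : b1 ≤ b2 + 8 / 2 ^ r)
    (h3 : b2 ≤ b3 + 4 / 2 ^ r) (h4 : b3 ≤ b + 1 / 2 ^ r) : 1 / 2 ^ R ≤ b := by
  have a := half h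
  have a' := half h'
  have e : (1 : ℝ) / 2 ^ (A + 1) = 128 * (1 / 2 ^ (A + 8)) := by
    rw [pow_add, pow_add]
    field_simp
    norm_num
  have p : (0 : ℝ) ≤ 1 / 2 ^ r := by positivity
  rw [div_eq_mul_one_div] at h1 h2 h3
  linarith

theorem big {s c n m g : ℕ} (h : s + 6 ≤ c) :
    (2 * (m + 2 + (g + 2) * n) + 6) * 2 ^ s + 8 ≤ (n + m + g + 2) ^ c := by
  obtain ⟨X, hX⟩ : ∃ X, X = n + m + g + 2 := ⟨_, rfl⟩
  have x2 : 2 ≤ X := by omega
  have a : (g + 2) * n ≤ X * X := Nat.mul_le_mul (by omega) (by omega)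
  have a2 : 2 * X ≤ X * X := Nat.mul_le_mul_right _ x2
  have b : 2 ^ s ≤ X ^ s := Nat.pow_le_pow_left x2 _
  have c4 : 2 ^ 4 ≤ X ^ 4 := Nat.pow_le_pow_left x2 _
  have p : 1 ≤ X ^ s := Nat.one_le_pow _ _ (by omega)
  rw [← hX]
  refine le_trans ?_ (Nat.pow_le_pow_right (by omega) h)
  calc _ ≤ (2 * (m + 2 + (g + 2) * n) + 6) * X ^ s + 8 * X ^ s :=
        add_le_add (Nat.mul_le_mul_left _ b) (by omega)
    _ ≤ X * X * 2 ^ 4 * X ^ s := by
        rw [← add_mul]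
        exact Nat.mul_le_mul_right _ (by omega)
    _ ≤ X * X * X ^ 4 * X ^ s := by gcongr
    _ = _ := by ring

theorem cnt {a b N r : ℕ} {v : ℝ} (h : a * b ≤ N) (k : (N + r + 1 : ℝ) ≤ v) :
    (a * b + r + 1 : ℝ) ≤ v := by
  have : ((a * b : ℕ) : ℝ) ≤ N := by exact_mod_cast h
  push_cast at this
  linarith

end Swp

open Swp in
/-- **SWAP** -/
theorem swap (de : DEC) (tb : TWB) : SWAP := by
  intro s
  obtain ⟨c0, tb⟩ := tb s
  refine ⟨c0 + 2 * s + 6, ?_⟩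
  intro τ L _ _ _ _ T st M n N h r m g W blk x t P B Γ q E w w' κ κ' hT hP al td tf hE hx ht tx hq
    nτ nB nP hN hr hb hκ hg hw hw' H1 H2 wt π π' hπ
  have pw : ∀ {a : ℕ}, a ≤ c0 + 2 * s + 6 → (n + 2) ^ a ≤ N := fun k =>
    (Nat.pow_le_pow_right (by omega) k).trans hN
  have b0 : (0 : ℝ) < 1 / 2 ^ h := by positivity
  have k0 : 0 < κ' := lt_of_lt_of_le (by positivity) hb
  have b1 : 1 / 2 ^ h ≤ κ' := le_trans (by gcongr; exact one_le_pow₀ (by norm_num)) hb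
  have n2 : (1 : ℝ) ≤ n + 2 := by linarith [(Nat.cast_nonneg n : (0 : ℝ) ≤ n)]
  have hκ' : (n + 2 : ℝ) ^ c0 * κ' ≤ κ :=
    (mul_le_mul_of_nonneg_right (pow_le_pow_right₀ n2 (by omega)) k0.le).trans hκ
  have kk : κ' ≤ κ := (le_mul_of_one_le_left k0.le (one_le_pow₀ n2)).trans hκ'
  have w0 : 0 < w := pos_of_mul_pos_left (lt_of_lt_of_le (by positivity) hw) k0.le
  have w0' : 0 < w' := pos_of_mul_pos_left (lt_of_lt_of_le (by positivity) hw') k0.le
  have hd := dg al td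
  have Es := cd al hE
  have En : #E ≤ n := (card_le_univ E).trans nτ
  have cf : (Fintype.card τ + 1) ^ s ≤ (n + 2) ^ s := Nat.pow_le_pow_left (by omega) _
  have cs : #(sqf τ s) ≤ (n + 2) ^ s :=
    ((card_filter_le _ _).trans (Cn.card_full' τ s)).trans cf
  have c1 : #(W0 s E) ≤ (n + 2) ^ s := (card_filter_le _ _).trans cs
  have co : #(full (Option τ) s) ≤ (n + 2) ^ s := (Cn.card_full' _ s).trans
    (Nat.pow_le_pow_left (by rw [Fintype.card_option]; omega) _)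
  have m1 : ∀ {a b : ℕ}, a ≤ n → b ≤ (n + 2) ^ s → a * b ≤ N := fun i j =>
    (Nat.mul_le_mul (i.trans (Nat.le_add_right n 2)) j).trans
      ((pow_succ' _ _).ge.trans (pw (by omega)))
  have m2 : ∀ {a b : ℕ}, a ≤ Fintype.card B.N * (n + 2) ^ s → b ≤ (n + 2) ^ s → a * b ≤ N :=
    fun i j => (Nat.mul_le_mul (i.trans (Nat.mul_le_mul_right _ (nB.trans (Nat.le_add_right n 2))))
      j).trans (le_trans (le_of_eq (by ring)) (pw (a := 2 * s + 1) (by omega)))
  have hA := big (s := s) (c := c0 + 2 * s + 6) (n := n) (m := m) (g := g) (by omega)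
  have p2 : 1 ≤ 2 ^ s := Nat.one_le_two_pow
  have hT' := (xwa s M T st P w' hT hP w0').1
  have d1 := de τ L s _ r g (xw T P w') (xst T P w' s st M) W blk x t (rnB Sum.inl B)
    (rnP Sum.inl B Γ) q E w κ _ hT' al (tyd _ td) (tyf _ tf) hx ht tx hq w0
    (cnt (m1 nB co) (hw.trans (mul_le_mul_of_nonneg_left kk w0.le))) hg wt
  obtain ⟨Ψ, A, Cf, a1, a2, a3, a4, a5, a6⟩ := d1
  have hr' := hA.trans hr
  have cl := (cola τ s _ (xw T P w') (xst T P w' s st M) (rnB Sum.inl B) w hT' (Pm.bo _ td.bo) hd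
    w0).1
  have hom : (cw B E Γ).IsWeightedHomogeneous (B.wg Prod.snd) (wE E) :=
    weightedHomogeneousComponent_isWeightedHomogeneous _ _
  have hom' : (up (rnB (Sum.inl : T.C → (xw T P w').C) B) (cw (rnB Sum.inl B) E
      (rnP Sum.inl B Γ))).IsWeightedHomogeneous Prod.snd (wE E) := by
    have := Pe.hom_rn (Sum.elim (fun v => (.inl v.1, v.2)) fun a => (.inr a, B.wd a) :
      VV (xw T P w').C τ ⊕ B.N → VV ((xw T P w').C ⊕ B.N) τ) id (w' := Prod.snd)
      (w := (rnB Sum.inl B).wg Prod.snd) (fun v => by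
        rw [Finsupp.mapDomain_id]; cases v <;> rfl)
      (weightedHomogeneousComponent_isWeightedHomogeneous (wE E) (rnP Sum.inl B Γ))
    rw [Finsupp.mapDomain_id] at this
    exact this
  have t1 := tb τ _ (cE s (xw T P w') (rnB Sum.inl B) w) _ (fm s _ _ w) _ n N
    (m + 2 + (g + 2) * n) κ κ' (1 / 2 ^ h) (1 / 2 ^ r) E x t _ cl.1 cl.2 nτ Es hx ht tx hom'
    (pw (by omega)) b0 ((mul_one_div _ _).trans_le hb) hκ' (by positivity) (half (by omega))
    H1.1 H1.2 ⟨Ψ, A, Cf, a1, a2, a3, a4, a5, (dl nB (by nlinarith)).trans a6⟩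
  replace t1 := t1.trans_eq (congrArg (bi _ _ _)
    (form (Sum.inl : T.C → (xw T P w').C) E (Equiv.swap t x) Γ))
  have t2 := pmbA τ τ s M r T st P B w w' (Function.update id x t) (W0 s E) (fun _ => κ')
    (up B (cw B E Γ) - rlb (Equiv.swap t x) (up B (cw B E Γ))) hT hP td.bo hd w0 w0' Enl.dn_W0
    fun _ _ => ⟨cnt (m1 nB c1) hw, cnt (m1 nP c1) hw'⟩
  obtain ⟨⟨-, -, b3, -⟩, -, pm⟩ := perm τ s M T st B w κ' E hT td.bo hd w0 k0
  obtain ⟨⟨u1, u2, -⟩, -⟩ := perm τ s M T st B w κ' univ hT td.bo hd w0 k0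
  let π1 : GE E := ⟨1, Pe.mem_GE.2 fun _ _ => rfl⟩
  let π2 : GE E := ⟨Equiv.swap t x, Pe.mem_GE.2 fun a k =>
    Equiv.swap_apply_of_ne_of_ne (fun e => k (e ▸ ht)) fun e => k (e ▸ hx)⟩
  have fa : (#E).factorial ≤ (n + 2) ^ s := (Nat.factorial_le_pow _).trans
    ((Nat.pow_le_pow_left (by omega) _).trans (Nat.pow_le_pow_right (by omega) Es))
  have t3 := trfA τ s M r T st B w κ' E x t π1 π2 (cw B E Γ) hT td.bo hd td.fr hx ht tx rfl rfl k0
    (cnt (m2 (b3.trans (Nat.mul_le_mul_left _ fa)) c1) hw) hom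
  rw [← pm π π1 π2 π π' (cw B E Γ) (mul_one _).symm hπ] at t3
  have t4 := Enl.bi_sub (m := r) id hT (Pe.bo_sy (E := E) td.bo) u1 u2 (Enl.jn_inj B E)
    (fun _ => rfl) (Enl.Θ_jn B E td.bo.ok) (Enl.dn_W0 (s := s) (E := E)) k0
    (cnt (m2 ((dgu.1 _ τ B s hd).trans (Nat.mul_le_mul_left _ cf)) c1) hw)
    (ug B E π (cw B E Γ) - ug B E π' (cw B E Γ))
  rw [map_sub, Enl.ug_jn, Enl.ug_jn] at t4
  have z : (MR id (W.image ind) (dk fun _ => κ')).Sz N (1 / 2 ^ h) :=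
    Sh.mono_sz (dn al) (kb_dk (b := κ') fun _ _ => ⟨b1, le_rfl⟩) b0 (Sh.dk_blk _)
      (((card_le_card (sq al)).trans cs).trans (pw (by omega)))
  have t5 := bi_kl (fm s T _ w) (cola τ s M T st _ w hT u1 u2 w0).1.2 (sub al hE) z (dn al)
    (fun μ k => (mem_sqf.1 (sq al k)).1) (fun a k => dn al _ (mem_image_of_mem _ hE) _
      (Finsupp.single_le_iff.2 (by rw [ind_apply, if_pos k]))) (cf.trans (pw (by omega))) H2.2
    (ug B univ (gi E π) (cw B E Γ) - ug B univ (gi E π') (cw B E Γ)) fun v hv =>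
      (mem_union.1 (vars_sub_subset _ hv)).elim (Enl.vars_ug B E π hom v)
        (Enl.vars_ug B E π' hom v)
  exact last hr' hA t1 t2 t3 t4 t5

end Crest.Agent.N49.Sw

end
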