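import Crest.Agent.N49.Sw.Df5
import Crest.Agent.N49.Sw.All
import Crest.Agent.N49.Su.Alg

/-!
# Row 49 (helper19): the two boxes, cubes and phases
-/

set_option autoImplicit false
set_option linter.unusedSectionVars false

open Matrix MvPolynomial Finset

noncomputable section

namespace Crest.Agent.N49.Sw.Wb

open Po Tw Sd Tw.Sh

section sm
variable {τ τ0 τ1 : Type} [Fintype τ0] [Fintype τ1]

theorem smat_res (φ : τ → τ1 → ℤ) {ι : τ0 → τ1} (hι : Function.Injective ι) (ν : τ0 →₀ ℕ)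
    (μ : τ →₀ ℕ) : smat φ (ν.mapDomain ι) μ = smat (fun a b => φ a (ι b)) ν μ := by
  classical
  have : (killCompl hι).comp (lsub (R := ℤ) φ) = lsub fun a b => φ a (ι b) := algHom_ext fun a => by
    simp only [AlgHom.comp_apply, lsub, aeval_X, map_sum, map_zsmul]
    refine (Fintype.sum_of_injective ι hι _ _ (fun c n => ?_) fun b => ?_).symm
    · rw [killCompl, aeval_X, dif_neg n, smul_zero]
    · rw [← rename_X (R := ℤ) ι b, killCompl_rename_app]
  rw [smat, smat, ← this, AlgHom.comp_apply, coeff_killCompl]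

theorem smat_ext {φ φ' : τ → τ0 → ℤ} (h : ∀ a b, φ a b = φ' a b) (ν : τ0 →₀ ℕ) (μ : τ →₀ ℕ) :
    smat φ ν μ = smat φ' ν μ := by
  rw [show φ = φ' from _root_.funext fun a => _root_.funext (h a)]

theorem smat_cols {φ φ' : τ → τ0 → ℤ} {ν : τ0 →₀ ℕ} (h : ∀ a, ∀ b ∈ ν.support, φ a b = φ' a b)
    (μ : τ →₀ ℕ) : smat φ ν μ = smat φ' ν μ := by
  have k : ∀ (α : Type) [Fintype α] (ι : α → τ0) (ν0 : α →₀ ℕ), Function.Injective ι →
      (∀ a b, φ a (ι b) = φ' a (ι b)) → smat φ (ν0.mapDomain ι) μ = smat φ' (ν0.mapDomain ι) μ :=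
    fun α _ ι ν0 i h => by rw [smat_res _ i, smat_res _ i]; exact smat_ext h _ _
  have := k ν.support Subtype.val (ν.comapDomain _ Subtype.val_injective.injOn)
    Subtype.val_injective fun a b => h a b.1 b.2
  rwa [Finsupp.mapDomain_comapDomain _ Subtype.val_injective ν
    fun b hb => ⟨⟨b, mem_coe.1 hb⟩, rfl⟩] at this

end sm

section cb
variable {σ τ : Type} [DecidableEq τ] [Fintype τ] {s l n : ℕ} {a : ℝ} {col : τ → σ}
  {W : Finset (τ →₀ ℕ)} {K : Kn τ} {cl : Fin l → σ} {lam : Fin l → τ → ℤ}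

theorem cb_full (v : ℕ → ℝ) (sz : (MR col W K).Sz n a) (dn : Dn W) (dg : ∀ μ ∈ W, μ.degree ≤ s)
    (one : ∀ t, Finsupp.single t 1 ∈ W) (z : 0 ∈ W) (s1 : 1 ≤ s)
    (hc : ∀ i t, lam i t ≠ 0 → col t = cl i) (ht : ∀ i t, |lam i t| ≤ n) :
    Cb s n a col W K cl (full (Fin l) s) lam v :=
  ⟨sz, dn, z, dg, one, dn_full, mem_full.2 (by simp), fun i => mem_full.2 (by simpa using s1), s1,
    hc, ht, fun ν k μ z => ⟨dn _ k _ (by
      rw [← Cu.jn_w μ, smat, Cu.lsub_fw, coeff_monomial_mul'] at z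
      exact of_not_not fun n => z (if_neg n)), mem_full.2 (by
      rw [degree_col]; exact (Cu.deg_wr μ).trans (smat_degree z ▸ dg _ k))⟩⟩

theorem bl_md [DecidableEq σ] {U : TS σ} {S : Sh σ τ} {c : τ} {g : (U.Cw S → ℤ) → ℂ}
    (h : Bl U S c g) : Inv U S (Pi.single c 1) g := fun y y' ⟨Q, m⟩ => h y y' fun p k => by
  have x : (∑ b, (Pi.single c 1 : τ → ℤ) b • X b : MvPolynomial τ ℤ) = X c := by
    simp [Pi.single_apply]
  rw [← sub_eq_zero, m, x, coeff_X_mul', if_neg (by simpa using k)]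

end cb

section ph
variable {σ Λ τ C : Type} [DecidableEq σ] [DecidableEq Λ] [Fintype Λ] [DecidableEq τ] [Fintype τ]
  [DecidableEq C] {l : ℕ}

/-- the symbol of the cube -/
def ps (Λ : Type) (e : Fin l → τ) : Λ ⊕ Fin l × Bool → τ → ℤ :=
  Sum.elim 0 fun i => if i.2 then -Pi.single (e i.1) 1 else Pi.single (e i.1) 1

theorem alt_ps {e : Fin l → τ} (he : Function.Injective e) {E : Finset τ}
    (hE : ∀ a, a ∈ E ↔ a ∈ Set.range e) (φ : Λ → τ → ℤ) (W : Finset (Λ ⊕ Fin l × Bool →₀ ℕ))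
    (z : VV C (Λ ⊕ Fin l × Bool) → ℝ) {Q : MvPolynomial (VV C τ) ℝ}
    (hQ : Q.IsWeightedHomogeneous Prod.snd (wE E)) :
    ∑ ω : Fin l → Bool, (-1) ^ #{i | ω i = true} * eval (sbv (Sum.elim φ fun i : Fin l × Bool =>
      if i.2 = ω i.1 then Pi.single (e i.1) 1 else 0) W z) Q = eval (sbv (ps Λ e) W z) Q := by
  refine (alt Λ τ C l e φ (fun i => Pi.single (e i) 1) W z _ Q he
    (fun i b k => of_not_not fun n => k (Pi.single_eq_of_ne n _))
    (fun b => by rw [Dg.wE_apply]; split_ifs <;> simp) hQ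
    fun i => (Dg.wE_apply _ _).trans (if_pos ((hE _).2 ⟨i, rfl⟩))).trans ?_
  refine eval₂Hom_congr' rfl (fun v hv _ => sum_congr rfl fun μ _ =>
    congrArg (fun r : ℤ => (r : ℝ) * _) (smat_cols (fun a b hb => ?_) μ)) rfl
  obtain a | a := a
  · refine if_pos ((hE b).1 (of_not_not fun n => ?_))
    have := wt_le hQ hv b
    rw [Dg.wE_apply, if_neg n] at this
    exact Finsupp.mem_support_iff.1 hb (Nat.le_zero.1 this)
  · rfl

theorem sbv_ps (π : τ ≃ τ) (e : Fin l → τ) (W : Finset (Λ ⊕ Fin l × Bool →₀ ℕ))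
    (z : VV C (Λ ⊕ Fin l × Bool) → ℝ) (Q : MvPolynomial (VV C τ) ℝ) :
    eval (sbv (ps Λ e) W z) (rlb π Q) = eval (sbv (ps Λ (π.symm ∘ e)) W z) Q := by
  rw [rlb, eval_rename]
  refine congrArg (eval · Q) (_root_.funext fun v => sum_congr rfl fun μ _ =>
    congrArg (fun r : ℤ => (r : ℝ) * _) ((smat_res _ π.injective _ _).trans
      (smat_ext (fun a b => ?_) _ _)))
  obtain a | ⟨i, β⟩ := a
  · rfl
  · cases β <;> simp [ps, Pi.single_apply, Equiv.eq_symm_apply]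

theorem hom_rlb {E : Finset τ} {x t : τ} (hx : x ∈ E) (ht : t ∈ E) {Q : MvPolynomial (VV C τ) ℝ}
    (hQ : Q.IsWeightedHomogeneous Prod.snd (wE E)) :
    (rlb (Equiv.swap t x) Q).IsWeightedHomogeneous Prod.snd (wE E) := by
  have e : Finsupp.mapDomain.addMonoidHom (Equiv.swap t x) (wE E) = wE E := Finsupp.ext fun a => by
    change (wE E).mapDomain (Equiv.swap t x) a = _
    rw [Finsupp.mapDomain_equiv_apply, Dg.wE_apply, Dg.wE_apply, Equiv.symm_swap]
    refine if_congr ?_ rfl rfl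
    rw [Equiv.swap_apply_def]
    split_ifs with a b
    exacts [iff_of_true hx (a ▸ ht), iff_of_true ht (b ▸ hx), Iff.rfl]
  rw [← e, rlb, rename_eq_aeval]
  exact Ca.hom_ae _ hQ fun v => Ca.hom_X rfl

end ph

end Crest.Agent.N49.Sw.Wb

end
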