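import Crest.Agent.N49.Sw.Twb5b
import Crest.Agent.N49.Sw.Df5

/-!
# Row 49 (helper5): the two boxes (`TWB`)
-/

set_option autoImplicit false

namespace Crest.Agent.N49.Sw

/-- **the two boxes** -/
theorem twb5 : TWB := fun s => (T5.core (box (cub msec) sbc) s).imp
  fun _ h τ C _ _ _ U st fm M n N m κ κ' b η E x t Q o sg cτ hs hx ht _ hQ hN b0 hb hκ e0 e1 hM hP
    ⟨Ψ, A, Cf, ad, nA, nC, iA, iC, hδ⟩ =>
  h τ C U st fm M n N m κ κ' b η E x t Q o sg cτ hs hx ht hQ hN b0 hb hκ e0 e1 hM hP Ψ A Cf ad nA nC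
    iA (fun a k => T5.inv_bl (iC a k)) hδ

end Crest.Agent.N49.Sw
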