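import Crest.Agent.N49.Sw.Df2
import Crest.Agent.N49.Sw.Cub
import Crest.Agent.N49.Sw.Msec
import Crest.Agent.N49.Sw.Altg
import Crest.Agent.N49.Sw.Box
import Crest.Agent.N49.Tw.Api

/-!
# Row 49 (helper5): the last map of the two boxes
-/

set_option autoImplicit false
set_option linter.unusedSectionVars false

open Matrix MvPolynomial Finset

noncomputable section

namespace Crest.Agent.N49.Sw.T5

open Po Tw Sd Cu

theorem ev_cg {V : Type} {P : MvPolynomial V ℝ} {x x' : V → ℝ} (h : ∀ v ∈ P.vars, x v = x' v) :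
    eval x P = eval x' P := eval₂Hom_congr' rfl (fun v hv _ => h v hv) rfl

theorem le_md {σ τ : Type} (f : τ → σ) (μ : τ →₀ ℕ) (t : τ) : μ t ≤ μ.mapDomain f (f t) := by
  simpa using Finsupp.mapDomain_mono (f := f) (Finsupp.single_le_iff.2 (le_refl (μ t))) (f t)

theorem two_le {τ : Type} {μ : τ →₀ ℕ} {t t' : τ} (n : t ≠ t') (k : μ t ≠ 0) (k' : μ t' ≠ 0) :
    Finsupp.single t 1 + Finsupp.single t' 1 ≤ μ := fun u => by
  classical
  simp only [Finsupp.add_apply, Finsupp.single_apply]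
  split_ifs with a b <;> subst_vars <;> first | omega | exact absurd rfl n

theorem smat_inj {A Λ τ : Type} [Fintype Λ] [Fintype τ] [DecidableEq Λ] {i : τ → Λ}
    (hi : Function.Injective i) (ψ : A → Λ → ℤ) (ν : τ →₀ ℕ) (μ : A →₀ ℕ) :
    smat ψ (ν.mapDomain i) μ = smat (fun a b => ψ a (i b)) ν μ := by
  rw [smat, smat, ← coeff_killCompl hi]
  refine congrArg (coeff ν) (DFunLike.congr_fun (algHom_ext fun a => ?_ :
    (killCompl hi).comp (lsub ψ) = lsub fun a b => ψ a (i b)) _)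
  simp only [AlgHom.comp_apply, lsub, aeval_X, map_sum, map_zsmul]
  refine (Fintype.sum_of_injective i hi _ _ (fun c n => ?_) fun b => ?_).symm
  · rw [killCompl, aeval_X, dif_neg n, smul_zero]
  · rw [← rename_X (R := ℤ) i b, killCompl_rename_app]

theorem smat_sg {A τ : Type} [Fintype τ] [DecidableEq τ] {φ : A → τ → ℤ} {ν : τ →₀ ℕ} {f : τ → A}
    {ε : τ → ℤ} (h : ∀ b ∈ ν.support, φ (f b) = Pi.single b (ε b)) :
    smat φ ν (ν.mapDomain f) = ν.prod fun b k => ε b ^ k := by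
  rw [smat, lsub_mon, Finsupp.prod_mapDomain_index (fun _ => pow_zero _) fun _ _ _ => pow_add _ _ _,
    Finsupp.prod_congr (g2 := fun b k => MvPolynomial.C (ε b ^ k) * X b ^ k) fun b m => by
      rw [h b m, map_pow, ← mul_pow, ← smul_eq_C_mul]; simp [Pi.single_apply],
    Finsupp.prod_mul, ← map_finsuppProd, ← monomial_eq, coeff_monomial, if_pos rfl]

section cb
variable {σ τ : Type} [DecidableEq τ] [Fintype τ] {s l n : ℕ} {a : ℝ} {col : τ → σ}
  {W : Finset (τ →₀ ℕ)} {K : Kn τ} {cl : Fin l → σ} {lam : Fin l → τ → ℤ} {v : ℕ → ℝ}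

theorem wl_le {ω : Fin l → Bool} {ν : τ →₀ ℕ} {μ : τ ⊕ Fin l × Bool →₀ ℕ}
    (z : smat (fw lam ω) ν μ ≠ 0) : wl μ ≤ ν := by
  rw [← jn_w μ, smat, lsub_fw, coeff_monomial_mul'] at z
  exact of_not_not fun n => z (if_neg n)

theorem cb_full (sz : (MR col W K).Sz n a) (dn : Dn W) (dg : ∀ μ ∈ W, μ.degree ≤ s)
    (one : ∀ t, Finsupp.single t 1 ∈ W) (z : 0 ∈ W) (s1 : 1 ≤ s)
    (hc : ∀ i t, lam i t ≠ 0 → col t = cl i) (ht : ∀ i t, |lam i t| ≤ n) :
    Cb s n a col W K cl (full (Fin l) s) lam v :=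
  ⟨sz, dn, z, dg, one, dn_full, mem_full.2 (by simp), fun i => mem_full.2 (by simpa using s1), s1,
    hc, ht, fun _ k μ e => ⟨dn _ k _ (wl_le e), mem_full.2 (by
      rw [Finsupp.degree_mapDomain]
      exact (deg_wr μ).trans ((Sh.smat_degree e).ge.trans (dg _ k)))⟩⟩

end cb

theorem tp_zero {σ τ τ' : Type} [DecidableEq σ] {U : TS σ} {S : Sh σ τ} {S' : Sh σ τ'}
    {st : U.C → ℕ} {Ψ : U.Twd S} (o : U.Tri) (h : U.Adm S st Ψ) (e : S'.ε = 0) :
    U.tp S S' 0 Ψ = U.tw0 S' := by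
  funext F
  ext1 m
  rw [TS.tp, coeff_map, TS.coeff_tw0, e, Sh.pu_eq]
  rcases lt_trichotomy (Finsupp.weight U.lev m) (U.lev F) with c | c | c
  · have z : (S'.el 0 : MvPolynomial S'.W ℝ) = 0 := by simp [Sh.el]
    rw [z, zero_pow (by omega), smul_zero]
    have := Sh.hA_hom (S' := S') (φ := 0) (w' := fun _ => (0 : ℕ)) (fun _ _ k => absurd rfl k)
      (h.gr F m)
    ext1 μ
    refine of_not_not fun n => ?_
    have := this n
    rw [Finsupp.weight_apply (f := μ)] at this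
    simp only [smul_zero, Finsupp.sum_fun_zero] at this
    omega
  · rw [h.top F m c, c, Nat.sub_self, pow_zero, algHom_C, smul_eq_C_mul, mul_one]; rfl
  · rw [notMem_support_iff.1 fun k => (h.le F m k).1.not_gt c,
      notMem_support_iff.1 fun k => (o.tri F m k).not_gt c, map_zero, zero_smul]

variable {A τ : Type} [Fintype τ] [DecidableEq τ] {l : ℕ} {E : Finset τ} {e : Fin l → τ}

variable (A e) in
/-- the old letters die, the clones are the differences -/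
def Dm : A ⊕ Fin l × Bool → τ → ℤ :=
  Sum.elim 0 fun i => if i.2 then -Pi.single (e i.1) 1 else Pi.single (e i.1) 1

theorem Dm_r (k : Fin l) (β : Bool) :
    Dm A e (.inr (k, β)) = Pi.single (e k) (if β then -1 else 1) := by
  cases β <;> simp [Dm, Pi.single_neg]

theorem Dm_ne {a : A ⊕ Fin l × Bool} {b : τ} (z : Dm A e a b ≠ 0) :
    ∃ k β, a = .inr (k, β) ∧ b = e k := by
  obtain a | ⟨k, β⟩ := a
  · exact absurd rfl z
  · exact ⟨k, β, rfl, of_not_not fun n => z (by rw [Dm_r, Pi.single_eq_of_ne n])⟩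

theorem wE_ap (t : τ) : wE E t = if t ∈ E then 1 else 0 := by
  simp [wE, Finsupp.finsetSum_apply, Finsupp.single_apply]

theorem mem_W0 {s : ℕ} {ν : τ →₀ ℕ} :
    ν ∈ W0 s E ↔ (ν.degree ≤ s ∧ ∀ a, ν a ≤ 1) ∧ ν.support ⊆ E := by
  rw [W0, mem_filter, mem_sqf]

theorem le_W0 {s : ℕ} (hs : #E ≤ s) {ν : τ →₀ ℕ} (k : ν ≤ wE E) : ν ∈ W0 s E :=
  mem_W0.2 ⟨⟨(degree_mono k).trans (by simpa [wE] using hs), fun a => (k a).trans (by
    rw [wE_ap]; split_ifs <;> simp)⟩, fun a m => of_not_not fun n => Finsupp.mem_support_iff.1 m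
      (Nat.le_zero.1 ((k a).trans_eq (by rw [wE_ap, if_neg n])))⟩

theorem dn_W0 {s : ℕ} : Dn (W0 s E) := fun _ k _ e => mem_W0.2
  ⟨mem_sqf.1 (dn_sqf _ (mem_sqf.2 (mem_W0.1 k).1) _ e),
    (Finsupp.support_mono e).trans (mem_W0.1 k).2⟩

variable (he : Function.Injective e) (hr : ∀ b, b ∈ E ↔ ∃ k, e k = b)
include he hr

theorem prod_E (F : τ → ℂ) : ∏ k, F (e k) = ∏ a ∈ E, F a :=
  prod_bij (fun k _ => e k) (fun k _ => (hr _).2 ⟨k, rfl⟩) (fun _ _ _ _ h => he h)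
    (fun b m => let ⟨k, h⟩ := (hr b).1 m; ⟨k, mem_univ _, h⟩) fun _ _ => rfl

theorem alt_D {C : Type} [DecidableEq A] (φ : A → τ → ℤ) (W : Finset (A ⊕ Fin l × Bool →₀ ℕ))
    (z : VV C (A ⊕ Fin l × Bool) → ℝ) {Q : MvPolynomial (VV C τ) ℝ}
    (hQ : Q.IsWeightedHomogeneous Prod.snd (wE E)) :
    ∑ ω : Fin l → Bool, (-1) ^ #{i | ω i = true} * eval (sbv (Sum.elim φ fun i : Fin l × Bool =>
      if i.2 = ω i.1 then Pi.single (e i.1) 1 else 0) W z) Q = eval (sbv (Dm A e) W z) Q := by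
  refine (alt A τ C l e φ (fun k => Pi.single (e k) 1) W z _ Q he
    (fun k b n => of_not_not fun c => n (Pi.single_eq_of_ne c _))
    (fun b => by rw [wE_ap]; split_ifs <;> simp) hQ
    fun k => by rw [wE_ap, if_pos ((hr _).2 ⟨k, rfl⟩)]).trans ?_
  refine ((Alt.rn_evalW (s := 0) (t := 1) (χ := fun b => if b ∈ E then 0 else 1) (φ2 := Dm A e)
    (fun a b => ⟨fun c => ⟨?_, rfl⟩, fun _ => by simp⟩) W z (n := 0) fun μ k => ?_).1 rfl).1
  · rcases a with a | a
    · exact if_pos ((hr b).1 (of_not_not fun n => by simp [n] at c))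
    · rfl
  · have : Finsupp.weight (fun v : VV C τ => Finsupp.weight (fun b => if b ∈ E then 0 else 1) v.2) μ =
        Finsupp.weight (fun b => if b ∈ E then 0 else 1) (Finsupp.weight Prod.snd μ) := by
      simp [Finsupp.weight_apply (f := μ), Finsupp.sum]
    rw [this, hQ k, wE, map_sum]
    exact sum_eq_zero fun b m => by simp [Finsupp.weight_single, m]

variable {σ : Type} [Fintype A] [DecidableEq A] {s n : ℕ} {a κ : ℝ} {col : A → σ} {col' : τ → σ}
  {W : Finset (A →₀ ℕ)} {K : Kn A} {lam : Fin l → A → ℤ} {v : ℕ → ℝ}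

omit he hr in
theorem Dm_wl {ν : τ →₀ ℕ} {μ : A ⊕ Fin l × Bool →₀ ℕ} (z : smat (Dm A e) ν μ ≠ 0) (c : A) :
    μ (.inl c) = 0 := of_not_not fun n => smat_ne z n rfl

omit he hr in
theorem Dm_col (x : τ) {ν : τ →₀ ℕ} {μ : A ⊕ Fin l × Bool →₀ ℕ} (z : smat (Dm A e) ν μ ≠ 0) :
    ν = μ.mapDomain (Sum.elim (fun _ => x) fun i => e i.1) :=
  Finsupp.mapDomain_id.symm.trans (Sh.smat_col (fun _ _ k => by
    obtain ⟨_, _, rfl, rfl⟩ := Dm_ne k; rfl) z)

omit he hr in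
theorem Dm_bj (x : τ) {ν : τ →₀ ℕ} (k : ∀ b, ν b ≤ 1) {μ : A ⊕ Fin l × Bool →₀ ℕ}
    (z : smat (Dm A e) ν μ ≠ 0) (i : Fin l) : μ (.inr (i, false)) = 0 ∨ μ (.inr (i, true)) = 0 := by
  by_contra c
  push Not at c
  have := (Finsupp.mapDomain_mono (f := Sum.elim (fun _ => x) fun i => e i.1)
    (two_le (by simp) c.1 c.2) (e i)).trans ((Dm_col x z ▸ k) _)
  simp [Finsupp.mapDomain_add] at this

variable (h : Cb s n a col W K (fun k => col' (e k)) (full (Fin l) s) lam v) (x : τ) (a0 : A)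
include h x

omit he hr in
theorem Dm_mem {ν : τ →₀ ℕ} (k : ν ∈ W0 s E) {μ : A ⊕ Fin l × Bool →₀ ℕ}
    (z : smat (Dm A e) ν μ ≠ 0) : μ ∈ WX s W (full (Fin l) s) l := by
  have d : μ.degree ≤ s := Sh.smat_degree z ▸ (mem_W0.1 k).1.1
  refine mem_wx.2 ⟨d, (show wl μ = 0 from Finsupp.ext (Dm_wl z)) ▸ h.z, mem_bj.2
    ⟨(deg_wr μ).trans d, Dm_bj x (mem_W0.1 k).1.2 z, fun i c => absurd i.2 (not_lt.2 c)⟩,
    mem_full.2 (by rw [Finsupp.degree_mapDomain]; exact (deg_wr μ).trans d)⟩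

open Classical in
omit he hr h x in
variable (e) in
/-- the sections -/
def sc (S : Finset τ) (b : τ) : A ⊕ Fin l × Bool :=
  if c : ∃ k, e k = b then .inr (c.choose, decide (b ∈ S)) else .inl a0

omit hr h x in
theorem sc_e (S : Finset τ) (k : Fin l) : sc e a0 S (e k) = .inr (k, decide (e k ∈ S)) := by
  have c : ∃ k', e k' = e k := ⟨k, rfl⟩
  rw [sc, dif_pos c, he c.choose_spec]

omit h x in
theorem Dm_sc (S : Finset τ) {b : τ} (m : b ∈ E) :
    Dm A e (sc e a0 S b) = Pi.single b (if b ∈ S then -1 else 1) := by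
  obtain ⟨k, rfl⟩ := (hr b).1 m
  simp only [sc_e he, Dm_r, decide_eq_true_eq]

include a0 in
theorem cnt {ν : τ →₀ ℕ} (k : ν ∈ W0 s E) (n0 : ν ≠ 0) :
    ∑ μ ∈ WX s W (full (Fin l) s) l with wr μ ≠ 0,
      ((smat (Dm A e) ν μ : ℝ) * smat (Dm A e) ν μ) = 2 ^ ν.degree := by
  obtain ⟨⟨-, k1⟩, k2⟩ := mem_W0.1 k
  have sq : ∀ S, smat (Dm A e) ν (ν.mapDomain (sc e a0 S)) * smat (Dm A e) ν
      (ν.mapDomain (sc e a0 S)) = 1 := fun S => by
    rw [smat_sg fun b m => Dm_sc he hr a0 S (k2 m), ← Finsupp.prod_mul]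
    exact prod_eq_one fun b _ => by beta_reduce; rw [← mul_pow]; split_ifs <;> simp
  have ne : ∀ S, smat (Dm A e) ν (ν.mapDomain (sc e a0 S)) ≠ 0 := fun S z => by
    simpa [z] using sq S
  have d : ν.degree = #ν.support := by
    rw [Finsupp.degree_apply, card_eq_sum_ones]
    exact sum_congr rfl fun b m => le_antisymm (k1 b)
      (Nat.pos_of_ne_zero (Finsupp.mem_support_iff.1 m))
  rw [← sum_filter_of_ne (p := fun μ => smat (Dm A e) ν μ ≠ 0)
    fun _ _ z => Int.cast_ne_zero.1 (left_ne_zero_of_mul z), d]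
  refine Eq.symm (Eq.trans (by simp) (sum_nbij' (s := ν.support.powerset) (f := fun _ => (1 : ℝ))
    (fun S => ν.mapDomain (sc e a0 S)) (fun μ => ν.support.filter fun b => μ (sc e a0 {b} b) ≠ 0)
    (fun S _ => ?_) (fun _ _ => mem_powerset.2 (filter_subset _ _)) (fun S m => ?_) (fun μ m => ?_)
    fun S _ => by exact_mod_cast (sq S).symm))
  · refine mem_filter.2 ⟨mem_filter.2 ⟨Dm_mem h x k (ne S), fun z => n0 ?_⟩, ne S⟩
    rw [Dm_col x (ne S), ← jn_zero z, show wl _ = 0 from Finsupp.ext (Dm_wl (ne S)),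
      Finsupp.sumElim_zero_zero, Finsupp.mapDomain_zero]
  · ext b
    rw [mem_filter]
    refine ⟨fun ⟨m1, m2⟩ => ?_, fun c => ⟨mem_powerset.1 m c, fun z => ?_⟩⟩
    · obtain ⟨b', m', c⟩ := mem_image.1 (Finsupp.mapDomain_support (Finsupp.mem_support_iff.2 m2))
      obtain ⟨i, rfl⟩ := (hr b).1 (k2 m1)
      obtain ⟨i', rfl⟩ := (hr b').1 (k2 m')
      simp only [sc_e he, Sum.inr.injEq, Prod.mk.injEq, mem_singleton, decide_true,
        decide_eq_true_eq] at c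
      exact c.1 ▸ c.2
    · obtain ⟨i, rfl⟩ := (hr b).1 (k2 (mem_powerset.1 m c))
      have := le_md (sc e a0 S) ν (e i)
      simp only [sc_e he, mem_singleton, decide_true, c] at this z
      exact Finsupp.mem_support_iff.1 (mem_powerset.1 m c) (by omega)
  · have z := (mem_filter.1 m).2
    conv_lhs => arg 2; rw [Dm_col x z]
    rw [← Finsupp.mapDomain_comp]
    refine (Finsupp.mapDomain_congr ?_).trans Finsupp.mapDomain_id
    rintro (c | ⟨i, β⟩) m'
    · exact absurd (Dm_wl z c) (Finsupp.mem_support_iff.1 m')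
    · have m1 := Finsupp.mem_support_iff.1 m'
      have m2 : e i ∈ ν.support := Finsupp.mem_support_iff.2 fun c => m1 (Nat.le_zero.1
        ((le_md (Sum.elim (fun _ => x) fun i => e i.1) μ _).trans_eq (Dm_col x z ▸ c)))
      have := Dm_bj x k1 z i
      cases β <;> simp_all [sc_e he]

include a0 in
/-- **the last map is a split surjection** -/
theorem sec {b : ℝ} {N : ℕ}
    (sz : (CX s col W K (fun k => col' (e k)) (full (Fin l) s) lam v l).Sz N b)
    (hv : ∀ j ≤ s, 2 ^ j * v j = κ) :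
    ∃ ι, (CX s col W K (fun k => col' (e k)) (full (Fin l) s) lam v l).Sec
      (MR col' (W0 s E) (dk fun _ => κ)) ((1 * (Fintype.card τ + 1)) ^ s)
      (Sh.smm _ _ 0 _ _ (Dm A e)) ι := by
  refine msec σ _ τ _ _ _ col' _ _ (Dm A e) (sc e a0 ∅) 1 s (dn_wx h) dn_W0 sz.toOk
    (fun μ k => (mem_wx.1 k).1) le_rfl (fun c b => ?_) (fun _ _ z => ?_)
    (fun ν k μ z => Dm_mem h x k z) (fun ν k b m => ?_) (fun _ _ z => ?_) (fun ν n k m => ?_)
    fun ν k ν' k' z z' => ?_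
  · obtain c | ⟨k, β⟩ := c
    · simp [Dm]
    · rw [Dm_r, Pi.single_apply]; split_ifs <;> simp
  · obtain ⟨_, _, rfl, rfl⟩ := Dm_ne z; rfl
  · simpa using Dm_sc he hr a0 ∅ ((mem_W0.1 k).2 m)
  · obtain ⟨i, _, rfl, rfl⟩ := Dm_ne z
    exact mem_W0.2 ⟨⟨by simpa using h.s1, fun c => by
      rw [Finsupp.single_apply]; split_ifs <;> simp⟩,
      Finsupp.support_single_subset.trans (singleton_subset_iff.2 ((hr _).2 ⟨i, rfl⟩))⟩
  · have sE : ν.support ⊆ E := fun b c => (mem_W0.1 (k b c)).2 (by simp)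
    obtain ⟨b, c⟩ : ∃ b, 1 < ν b := by
      by_contra c
      push Not at c
      exact n (mem_W0.2 ⟨⟨Finsupp.degree_mapDomain _ ν ▸ (mem_wx.1 m).1, c⟩, sE⟩)
    obtain ⟨i, rfl⟩ := (hr b).1 (sE (Finsupp.mem_support_iff.2 (by omega)))
    refine ⟨e i, .inr (i, true), -1, by simp, Dm_r _ _, by omega, single_mem h _, fun w => ?_⟩
    have := le_md (sc e a0 ∅) (ν - Finsupp.single (e i) 1) (e i)
    have w := (mem_bj.1 (mem_wx.1 w).2.2.1).2.1 i
    simp only [sc_e he, notMem_empty, decide_false, Finsupp.coe_tsub, Pi.sub_apply,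
      Finsupp.single_eq_same] at this
    simp only [wr, Finsupp.comapDomain_apply, Finsupp.add_apply, Finsupp.single_eq_same] at w
    omega
  · have o : ∀ ν : τ →₀ ℕ, ∀ w ∈ W.erase 0, smat (Dm A e) ν (w.sumElim 0) = 0 := fun ν w m =>
      of_not_not fun c => ne_of_mem_erase m (Finsupp.ext (Dm_wl c))
    rw [kpush, bil h, sum_eq_zero fun w m => sum_eq_zero fun _ _ => by
        rw [o ν w m, Int.cast_zero, zero_mul, zero_mul],
      sum_eq_zero fun t _ => by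
        rw [sum_eq_zero fun w m => by rw [o ν w m, Int.cast_zero, mul_zero], zero_mul, mul_zero],
      sub_zero, zero_add, dk]
    split_ifs with c
    · subst c
      rw [← hv _ (mem_W0.1 k).1.1, ← cnt he hr h x a0 k z, sum_mul]
      refine sum_congr rfl fun μ _ => ?_
      by_cases c : smat (Dm A e) ν μ = 0
      · simp [c]
      · rw [Sh.smat_degree c, mul_comm]
    · refine (sum_eq_zero fun μ _ => of_not_not fun n => c ?_).symm
      have := right_ne_zero_of_mul n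
      exact (Dm_col x (Int.cast_ne_zero.1 (left_ne_zero_of_mul this))).trans
        (Dm_col x (Int.cast_ne_zero.1 (right_ne_zero_of_mul this))).symm

omit he hr h x in
theorem smm_il (S1 : Sh σ τ) (col2 : A ⊕ Fin l × Bool → σ) (W2 : Finset (A ⊕ Fin l × Bool →₀ ℕ))
    (K2 : Kn (A ⊕ Fin l × Bool)) :
    Sh.smm col2 W2 0 K2 S1 (Dm A e) * Sh.smm col W 0 K (MR col2 W2 K2) il = 0 := by
  ext ν w
  refine sum_eq_zero fun μ _ => of_not_not fun n => ?_
  have a : smat (Dm A e) _ μ.1 ≠ 0 := left_ne_zero_of_mul n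
  have b : smat il μ.1 w.1 ≠ 0 := right_ne_zero_of_mul n
  rw [show (il : A → A ⊕ Fin l × Bool → ℤ) = fun a => Pi.single (.inl a) 1 from rfl,
    Bx.smat_sg] at b
  obtain ⟨c, m⟩ := Finsupp.ne_iff.1 (Sh.MW.ne w)
  exact m (Nat.le_zero.1 ((le_md Sum.inl w.1 c).trans_eq
    ((of_not_not fun k => b (if_neg k) : _ = μ.1) ▸ Dm_wl a c)))

end Crest.Agent.N49.Sw.T5

end
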