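import Crest.Agent.N49.Sw.Twb5a
import Crest.Agent.N49.Sw.Sbc
import Crest.Agent.N49.En.L0

/-!
# Row 49 (helper5): the two boxes
-/

set_option autoImplicit false
set_option linter.unusedSectionVars false

open Matrix MvPolynomial Finset

noncomputable section

namespace Crest.Agent.N49.Sw.T5

open Po Tw Sd Cu

theorem cj_ee {l : ℕ} (t : (Fin l → Bool) → ℝ) :
    ∏ ω, cj ω (ee (t ω)) = ee (∑ ω, (-1) ^ #{i | ω i = true} * t ω) := by
  have a : ∀ (s : Finset (Fin l → Bool)) (u : (Fin l → Bool) → ℝ),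
      ∏ ω ∈ s, ee (u ω) = ee (∑ ω ∈ s, u ω) := fun s u => by
    induction s using Finset.induction_on with
    | empty => simp [ee_zero]
    | insert a s h ih => rw [prod_insert h, sum_insert h, ee_add, ih]
  rw [← a]
  refine prod_congr rfl fun ω _ => ?_
  unfold cj
  split_ifs with k
  · rw [k.neg_one_pow, one_mul]
  · rw [(Nat.not_even_iff_odd.1 k).neg_one_pow, ee, ee, ← Complex.exp_conj]
    simp [Complex.conj_ofReal, map_ofNat]

theorem alt2 {l : ℕ} {F : (Fin 1 → Bool) → (Fin l → Bool) → ℝ} (F' : (Fin 1 → Bool) → (Fin l → Bool) → ℝ)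
    {G : (Fin 1 → Bool) → ℝ} (h : ∀ a b, F a b = F' a b)
    (k : ∀ a, ∑ b : Fin l → Bool, (-1) ^ #{i | b i = true} * F' a b = G a) :
    ∑ b : Fin l → Bool, (-1) ^ #{i | b i = true} *
      ∑ a : Fin 1 → Bool, (-1) ^ #{i | a i = true} * F a b = G (fun _ => false) - G fun _ => true := by
  simp only [mul_sum, h, ← k]
  rw [sum_comm, ← (Equiv.funUnique (Fin 1) Bool).symm.sum_comp, Fintype.sum_bool, ← sum_sub_distrib,
    ← sum_add_distrib]
  refine sum_congr rfl fun b _ => ?_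
  have e : ∀ c : Bool, (Equiv.funUnique (Fin 1) Bool).symm c = fun _ => c := fun _ => rfl
  simp only [e]
  simp [sub_eq_neg_add]

theorem Ec0 {σ τ : Type} [DecidableEq σ] (U : TS σ) (S : Sh σ τ) (g : (U.Cw S → ℤ) → ℂ) :
    (U.tw S (U.tw0 S)).Ec g = (U.sh S).Ec g :=
  congrArg (fun Φ => ((U.sh S).setΦ Φ).Ec g) (funext fun p =>
    congrArg (S.cf _ p.1.2) (TS.eval₂_tw0 _ _) : (U.tw S (U.tw0 S)).Φ = (U.sh S).Φ)

theorem cj_prod {l : ℕ} {ι : Type} (ω : Fin l → Bool) (s : Finset ι) (F : ι → ℂ) :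
    cj ω (∏ i ∈ s, F i) = ∏ i ∈ s, cj ω (F i) := by
  unfold cj; split_ifs <;> simp

theorem sum_sg {A : Type} [Fintype A] [DecidableEq A] (u : A) (F : A → ℤ) :
    ∑ b, (Pi.single u 1 : A → ℤ) b * F b = F u := by simp [Pi.single_apply]

theorem inv_bl {σ A : Type} [DecidableEq σ] [DecidableEq A] [Fintype A] {U : TS σ} {S : Sh σ A}
    {a : A} {g : (U.Cw S → ℤ) → ℂ} (h : ∀ y y', (∀ p, S.ty p.1.2 a = 0 → y p = y' p) → g y = g y') :
    Inv U S (Pi.single a 1) g := fun y y' ⟨Q, k⟩ => h y y' fun p z => sub_eq_zero.1 (by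
  rw [k, show (∑ b, (Pi.single a 1 : A → ℤ) b • X b : MvPolynomial A ℤ) = X a by
    simp [Pi.single_apply], coeff_X_mul', if_neg (by simpa using z)])

variable {τ : Type} [Fintype τ] [DecidableEq τ] {l : ℕ} (x t : τ) (e : Fin l → τ)

/-- the direction of the first box -/
def l1 : Fin 1 → Option τ → ℤ := fun _ => Pi.single (some x) 1 - Pi.single (some t) 1
/-- the directions of the second box -/
def l2 (k : Fin l) : Option τ ⊕ Fin 1 × Bool → ℤ :=
  if e k = x then Pi.single (.inr (0, false)) 1 + Pi.single (.inl (some t)) 1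
  else if e k = t then Pi.single (.inr (0, true)) 1 + Pi.single (.inl (some t)) 1
  else Pi.single (.inl (some (e k))) 1
/-- the relabelling at a vertex of the first box -/
def pp (ω : Fin 1 → Bool) : Equiv.Perm τ := if ω 0 then Equiv.swap t x else 1
/-- the colours -/
def cx : Option τ → τ := fun o => o.elim t (Function.update id x t)

variable {x t e}

theorem comp (ω : Fin 1 → Bool) (k : Fin l) :
    (fun c => ∑ b, l2 x t e k b * fw (l1 x t) ω b c) = Pi.single (some (pp x t ω (e k))) 1 := by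
  funext c
  unfold l2 pp
  by_cases a : e k = x
  · simp only [if_pos a, Pi.add_apply, add_mul, sum_add_distrib, sum_sg]
    cases h : ω 0 <;> simp [fw, l1, h, a]
  · by_cases b : e k = t
    · simp only [if_neg a, if_pos b, Pi.add_apply, add_mul, sum_add_distrib, sum_sg]
      cases h : ω 0 <;> simp [fw, l1, h, b]
    · simp only [if_neg a, if_neg b, sum_sg]
      cases h : ω 0 <;> simp [fw, Equiv.swap_apply_of_ne_of_ne b a]

theorem l1_col (i : Fin 1) (u : Option τ) (z : l1 x t i u ≠ 0) : cx x t u = t := by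
  by_cases a : u = some x
  · simp [a, cx]
  · by_cases b : u = some t
    · simp [b, cx, Function.update_apply]
    · simp [l1, a, b] at z

theorem l1_le (i : Fin 1) (u : Option τ) : |l1 x t i u| ≤ 1 := by
  simp only [l1, Pi.sub_apply, Pi.single_apply]; split_ifs <;> simp

theorem l2_col (k : Fin l) (u : Option τ ⊕ Fin 1 × Bool) (z : l2 x t e k u ≠ 0) :
    Sum.elim (cx x t) (fun _ => t) u = Function.update id x t (e k) := by
  have c : ∀ v : Fin 1 × Bool, (Pi.single (.inr v) 1 + Pi.single (.inl (some t)) 1 :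
      Option τ ⊕ Fin 1 × Bool → ℤ) u ≠ 0 → Sum.elim (cx x t) (fun _ => t) u = t := fun v z => by
    rcases u with u | u
    · obtain rfl : u = some t := of_not_not fun n => z (by simp [n])
      simp [cx, Function.update_apply]
    · rfl
  unfold l2 at z
  split_ifs at z with a b
  · rw [c _ z, a, Function.update_self]
  · rw [c _ z, Function.update_of_ne a, id, b]
  · rw [of_not_not fun n => z (Pi.single_eq_of_ne n _)]; rfl

theorem l2_le (k : Fin l) (u : Option τ ⊕ Fin 1 × Bool) : |l2 x t e k u| ≤ 2 := by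
  unfold l2
  split_ifs <;> simp only [Pi.add_apply, Pi.single_apply] <;> split_ifs <;> simp

theorem c1 (ω : Fin 1 → Bool) (a : Option τ ⊕ Fin 1 × Bool) (a' : Option τ)
    (z : fw (l1 x t) ω a a' ≠ 0) :
    Sum.elim (cx x t) (fun _ : Fin 1 × Bool => t) a = cx x t a' := by
  rcases a with a | a
  · exact congrArg (cx x t) (of_not_not fun c => z (Pi.single_eq_of_ne' c _))
  · refine (l1_col (x := x) (t := t) a.1 _ fun c => z ?_).symm
    simp only [fw, Sum.elim_inr]; split_ifs; exacts [c, rfl]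

theorem c2 (ω : Fin l → Bool) (a : (Option τ ⊕ Fin 1 × Bool) ⊕ Fin l × Bool)
    (a' : Option τ ⊕ Fin 1 × Bool) (z : fw (l2 x t e) ω a a' ≠ 0) :
    Sum.elim (Sum.elim (cx x t) fun _ => t)
      (fun i : Fin l × Bool => Function.update id x t (e i.1)) a =
        Sum.elim (cx x t) (fun _ : Fin 1 × Bool => t) a' := by
  rcases a with a | a
  · exact congrArg _ (of_not_not fun c => z (Pi.single_eq_of_ne' c _))
  · refine (l2_col a.1 _ fun c => z ?_).symm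
    simp only [fw, Sum.elim_inr]; split_ifs; exacts [c, rfl]

variable {E : Finset τ} (hx : x ∈ E) (ht : t ∈ E)
include hx ht

theorem pp_mem (ω : Fin 1 → Bool) (b : τ) : pp x t ω b ∈ E ↔ b ∈ E := by
  unfold pp
  split_ifs
  · rw [Equiv.swap_apply_def]; split_ifs with a c <;> simp [*]
  · rfl

theorem pp_rg (hr : ∀ b, b ∈ E ↔ ∃ k, e k = b) (ω : Fin 1 → Bool) (b : τ) :
    b ∈ E ↔ ∃ k, (pp x t ω ∘ e) k = b := by
  obtain ⟨b, rfl⟩ := (pp x t ω).surjective b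
  simp only [pp_mem hx ht, hr, Function.comp, Equiv.apply_eq_iff_eq]

variable {C : Type} [DecidableEq C] {U : TS τ} (fm : U.C → C) {s : ℕ} {Q : MvPolynomial (VV C τ) ℝ}
  (he : Function.Injective e) (hr : ∀ b, b ∈ E ↔ ∃ k, e k = b) (hs' : #E ≤ s)
  (hQ : Q.IsWeightedHomogeneous Prod.snd (wE E)) {K0 : Kn (Option τ)} {K' : Kn τ}
  {W1 : Finset (Option τ ⊕ Fin 1 × Bool →₀ ℕ)} {K1 : Kn (Option τ ⊕ Fin 1 × Bool)}
  {W2 : Finset ((Option τ ⊕ Fin 1 × Bool) ⊕ Fin l × Bool →₀ ℕ)}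
  {K2 : Kn ((Option τ ⊕ Fin 1 × Bool) ⊕ Fin l × Bool)}
  (w1 : ∀ ω, ∀ ν ∈ full (Option τ) s, ∀ μ, smat (fw (l1 x t) ω) ν μ ≠ 0 → μ ∈ W1)
include hs' hQ

omit hx ht in
include w1 in
theorem v1 (y : U.Cw (MR (Sum.elim (Sum.elim (cx x t) fun _ => t)
      fun i : Fin l × Bool => Function.update id x t (e i.1)) W2 K2) → ℤ) (ω1 : Fin 1 → Bool)
    (ω2 : Fin l → Bool) : eval (fun v => ex U _ fm (zc (hs U (MR (cx x t) (full (Option τ) s) K0)
      (fw (l1 x t) ω1) (hs U (MR (Sum.elim (cx x t) fun _ => t) W1 K1) (fw (l2 x t e) ω2) y)))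
        (v.1, v.2.mapDomain some)) Q = eval (sbv (Sum.elim (fun a b => fw (l1 x t) ω1 a (some b))
          fun i : Fin l × Bool => if i.2 = ω2 i.1 then Pi.single ((pp x t ω1 ∘ e) i.1) 1 else 0)
            W2 (ex U _ fm (zc y))) Q := ev_cg fun v m => by
  rw [Sb.hs_hs (w1 ω1) (c1 ω1)]
  refine (Sb.ex_hs fm (fun a a' k => ?_) y v.1 (mem_full.2 ?_)).trans
    (sum_congr rfl fun μ _ => ?_)
  · obtain ⟨b, -, k⟩ := exists_ne_zero_of_sum_ne_zero k
    exact (c2 _ _ _ (left_ne_zero_of_mul k)).trans (c1 _ _ _ (right_ne_zero_of_mul k))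
  · rw [Finsupp.degree_mapDomain]; exact (mem_W0.1 (le_W0 hs' (wt_le hQ m))).1.1
  · refine congrArg₂ (· * ·) (congrArg Int.cast ((smat_inj (Option.some_injective τ) _ _ _).trans
      (congrArg (smat · _ _) (funext₂ fun a b => ?_)))) rfl
    rcases a with a | i
    · exact sum_sg _ _
    · simp only [fw, Sum.elim_inr]
      split_ifs
      · refine (congrFun (comp ω1 i.1) (some b)).trans ?_
        simp [Pi.single_apply]
      · simp

theorem v2 (y : U.Cw (MR (Sum.elim (Sum.elim (cx x t) fun _ => t)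
      fun i : Fin l × Bool => Function.update id x t (e i.1)) W2 K2) → ℤ) (ω1 : Fin 1 → Bool) :
    eval (sbv (Dm _ (pp x t ω1 ∘ e)) W2 (ex U _ fm (zc y))) Q =
      eval (ex U _ fm (zc (hs U (MR (Function.update id x t) (W0 s E) K') (Dm _ e) y)))
        (rlb (pp x t ω1).symm Q) := by
  rw [rlb, eval_rename]
  refine ev_cg fun v m => Eq.symm ?_
  refine (Sb.ex_hs fm (fun _ _ k => by obtain ⟨_, _, rfl, rfl⟩ := Dm_ne k; rfl) y v.1
    (le_W0 hs' fun b => ?_)).trans (sum_congr rfl fun μ _ => ?_)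
  · rw [Finsupp.mapDomain_equiv_apply]
    refine (wt_le hQ m _).trans_eq ?_
    simp only [wE_ap, Equiv.symm_symm, pp_mem hx ht]
  · refine congrArg₂ (· * ·) (congrArg Int.cast ((smat_inj (pp x t ω1).symm.injective _ _ _).trans
      (congrArg (smat · _ _) (funext₂ fun a b => ?_)))) rfl
    obtain a | ⟨k, β⟩ := a
    · rfl
    · simp only [Dm_r, Pi.single_apply, Function.comp, Equiv.symm_apply_eq]

include he hr w1 in
/-- **the phase after the two boxes** -/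
theorem phase (y : U.Cw (MR (Sum.elim (Sum.elim (cx x t) fun _ => t)
      fun i : Fin l × Bool => Function.update id x t (e i.1)) W2 K2) → ℤ) :
    ∏ ω2 : Fin l → Bool, cj ω2 (∏ ω1 : Fin 1 → Bool, cj ω1 (ee (eval (fun v => ex U _ fm
      (zc (hs U (MR (cx x t) (full (Option τ) s) K0) (fw (l1 x t) ω1)
        (hs U (MR (Sum.elim (cx x t) fun _ => t) W1 K1) (fw (l2 x t e) ω2) y)))
          (v.1, v.2.mapDomain some)) Q))) =
    ee (eval (ex U _ fm (zc (hs U (MR (Function.update id x t) (W0 s E) K') (Dm _ e) y)))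
      (Q - rlb (Equiv.swap t x) Q)) := by
  refine (prod_congr rfl fun ω2 _ => congrArg _ (cj_ee _)).trans ((cj_ee _).trans (congrArg ee ?_))
  refine (alt2 _ (fun ω1 ω2 => v1 fm hs' hQ w1 y ω1 ω2) fun ω1 => (alt_D ((pp x t ω1).injective.comp he)
    (pp_rg hx ht hr ω1) _ _ _ hQ).trans (v2 hx ht fm hs' hQ (K' := K') y ω1)).trans ?_
  rw [map_sub]
  have : rlb (pp x t fun _ => false).symm Q = Q := by
    change rename (fun v : VV C τ => (v.1, v.2.mapDomain id)) Q = Q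
    simp only [Finsupp.mapDomain_id]
    exact rename_id_apply Q
  rw [this]
  rfl

omit hx ht hs' hQ in
theorem pw_add {P a b : ℕ} (h : 2 ≤ P) (k : a ≤ P ^ b) : a + 2 ≤ P ^ (b + 2) := by
  have := Nat.one_le_pow b P (by omega)
  rw [pow_add]
  nlinarith [Nat.pow_le_pow_left h 2]

omit hx ht hs' hQ in
theorem core (hB : BOX) (s : ℕ) : ∃ c : ℕ, ∀ (τ C : Type) [Fintype τ] [DecidableEq τ]
    [DecidableEq C] (U : TS τ) (st : U.C → ℕ) (fm : U.C → C) (M n N m : ℕ) (κ κ' b η : ℝ)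
    (E : Finset τ) (x t : τ) (Q : MvPolynomial (VV C τ) ℝ), U.Ok → U.Stg st M →
    Fintype.card τ ≤ n → #E ≤ s → x ∈ E → t ∈ E → Q.IsWeightedHomogeneous Prod.snd (wE E) →
    (n + 2) ^ c ≤ N → 0 < b → 2 ^ s * b ≤ κ' → (n + 2) ^ c * κ' ≤ κ → 0 ≤ η →
    η ≤ 1 / 2 ^ ((2 * m + 6) * 2 ^ s + 3) → U.HM st N b η → U.HP st N b η →
    ∀ (Ψ : U.Twd (MR (cx x t) (full (Option τ) s) (dk fun _ => κ)))
      (A : (U.Cw (MR (cx x t) (full (Option τ) s) (dk fun _ => κ)) → ℤ) → ℂ)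
      (Cf : τ → (U.Cw (MR (cx x t) (full (Option τ) s) (dk fun _ => κ)) → ℤ) → ℂ),
    U.Adm _ st Ψ → (∀ y, ‖A y‖ ≤ 1) → (∀ a y, ‖Cf a y‖ ≤ 1) → Inv U _ (l1 x t 0) A →
    (∀ a ∈ E, Inv U _ (Pi.single (some a) 1) (Cf a)) →
    1 / 2 ^ m ≤ ‖(U.tw _ Ψ).Ec fun y => A y * (∏ a ∈ E, Cf a y) *
      ee (eval (fun v => ex U _ fm (zc y) (v.1, v.2.mapDomain some)) Q)‖ →
    1 / 2 ^ ((2 * m + 6) * 2 ^ s + 1) ≤ bi U (MR (Function.update id x t) (W0 s E)
      (dk fun _ => κ')) fm (Q - rlb (Equiv.swap t x) Q) := by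
  choose cb hB using hB s
  obtain ⟨c0, k0⟩ : ∃ c0, ∀ l ≤ s, cb l ≤ c0 ∧ 2 * l * s + 4 * s + 3 ≤ c0 :=
    ⟨(range (s + 1)).sup cb + (2 * s * s + 4 * s + 3), fun l k => ⟨le_add_right
      (le_sup (f := cb) (mem_range.2 (by omega))), le_add_left (by gcongr)⟩⟩
  refine ⟨(s + 2) * c0 + ((s + 2) * c0 + 2) * c0, ?_⟩
  intro τ C _ _ _ U st fm M n N m κ κ' b η E x t Q o sg cτ hs' hx ht hQ hN b0 hb hκ e0 e1 hM hP Ψ A
    Cf ad nA nC iA iC hδ
  have s1 : 1 ≤ s := (card_pos.2 ⟨x, hx⟩).trans_le hs'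
  let e : Fin #E → τ := fun k => E.equivFin.symm k
  have he : Function.Injective e := Subtype.val_injective.comp E.equivFin.symm.injective
  have hr : ∀ b, b ∈ E ↔ ∃ k, e k = b := fun b =>
    ⟨fun k => ⟨E.equivFin ⟨b, k⟩, by simp [e]⟩, fun ⟨k, h⟩ => h ▸ (E.equivFin.symm k).2⟩
  obtain ⟨n0, hn0⟩ : ∃ n0, n0 = (n + 2) ^ s := ⟨_, rfl⟩
  obtain ⟨n1, hn1⟩ : ∃ n1, n1 = (n0 + 2) ^ c0 := ⟨_, rfl⟩
  have c3 : 3 ≤ c0 := by have := (k0 0 (by omega)).2; omega
  have p0 : n0 + 2 ≤ (n + 2) ^ (s + 2) := pw_add (by omega) hn0.le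
  have p1 : n1 ≤ (n + 2) ^ ((s + 2) * c0) := by
    rw [hn1, pow_mul]; exact Nat.pow_le_pow_left p0 _
  have p2 : (n1 + 2) ^ c0 ≤ (n + 2) ^ (((s + 2) * c0 + 2) * c0) := by
    rw [pow_mul]; exact Nat.pow_le_pow_left (pw_add (by omega) p1) _
  have p3 : n1 * (n1 + 2) ^ c0 ≤ (n + 2) ^ ((s + 2) * c0 + ((s + 2) * c0 + 2) * c0) := by
    rw [pow_add]; exact Nat.mul_le_mul p1 p2
  have q0 : 1 ≤ n0 := hn0 ▸ Nat.one_le_pow _ _ (by omega)
  have q1 : n0 + 2 ≤ n1 := hn1 ▸ Nat.le_self_pow (by omega) _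
  have q2 : n1 + 2 ≤ (n1 + 2) ^ c0 := Nat.le_self_pow (by omega) _
  have N2 : (n1 + 2) ^ c0 ≤ N := le_trans (Nat.le_mul_of_pos_left _ (by omega)) (p3.trans hN)
  have pw : ∀ (k : ℕ) {c : ℕ} {u : ℝ}, 0 ≤ u → c ≤ c0 → ((k : ℝ) + 2) ^ c * u ≤ (k + 2) ^ c0 * u :=
    fun k c u u0 h => mul_le_mul_of_nonneg_right
      (pow_le_pow_right₀ (by linarith [(Nat.cast_nonneg k : (0 : ℝ) ≤ k)]) h) u0
  have bk : b ≤ κ' := le_trans (le_mul_of_one_le_left b0.le (one_le_pow₀ one_le_two)) hb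
  have k0' : 0 < κ' := b0.trans_le bk
  obtain ⟨a1, ha1⟩ : ∃ a1 : ℝ, a1 = (n1 + 2) ^ c0 * κ' := ⟨_, rfl⟩
  have a1k : κ' ≤ a1 := ha1 ▸ le_mul_of_one_le_left k0'.le
    (one_le_pow₀ (by linarith [(Nat.cast_nonneg n1 : (0 : ℝ) ≤ n1)]))
  have a10 : 0 < a1 := k0'.trans_le a1k
  have a1κ : ((n0 : ℝ) + 2) ^ c0 * a1 ≤ κ := by
    refine le_trans ?_ hκ
    rw [ha1, ← mul_assoc]
    refine mul_le_mul_of_nonneg_right ?_ k0'.le
    rw [hn1] at p3 ⊢
    exact_mod_cast p3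
  have κ0 : 0 < κ := lt_of_lt_of_le (by positivity) a1κ
  have z0 : (MR (cx x t) (full (Option τ) s) (dk fun _ => κ)).Sz n0 κ :=
    Sh.mono_sz dn_full (kb_dk fun _ _ => ⟨le_rfl, le_rfl⟩) κ0 (Sh.dk_blk _)
      ((En.L0k.card_full' s).trans (hn0 ▸ Nat.pow_le_pow_left (by simpa using cτ) _))
  have h1 : Cb s n0 κ (cx x t) (full (Option τ) s) (dk fun _ => κ) (fun _ => t) (full (Fin 1) s)
      (l1 x t) fun _ => a1 := cb_full z0 dn_full (fun _ => mem_full.1)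
    (fun _ => mem_full.2 (by simpa using s1)) (mem_full.2 (by simp)) s1 l1_col
    fun i u => (l1_le i u).trans (by exact_mod_cast q0)
  have r : ∀ {i j : ℕ}, i ≤ j → (1 : ℝ) / 2 ^ j ≤ 1 / 2 ^ i := fun h =>
    one_div_le_one_div_of_le (by positivity) (pow_le_pow_right₀ one_le_two h)
  have r2 : ∀ {i : ℕ}, i + 2 ≤ (2 * m + 6) * 2 ^ s + 3 →
      (1 : ℝ) / 2 ^ (i + 1) + 2 * η ≤ 1 / 2 ^ i := fun {i} h => by
    have := e1.trans (r h)
    rw [pow_succ] at this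
    rw [pow_succ] at this ⊢
    have p : (0 : ℝ) < 2 ^ i := by positivity
    rw [show (1 : ℝ) / (2 ^ i * 2 * 2) = 1 / 2 ^ i / 4 by ring] at this
    rw [show (1 : ℝ) / (2 ^ i * 2) = 1 / 2 ^ i / 2 by ring]
    linarith
  have e8 : η ≤ 1 / 8 := e1.trans ((r (i := 3) (by omega)).trans_eq (by norm_num))
  have ms : 2 * m + 6 ≤ (2 * m + 6) * 2 ^ s := Nat.le_mul_of_pos_right _ (by positivity)
  obtain ⟨ad1, B1⟩ := hB 1 _ _ U st M n0 N κ b η (1 / 2 ^ (m + 1)) _ _ _ _ _ _ _ Ψ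
    (fun y => (∏ a ∈ E, Cf a y) *
      ee (eval (fun v => ex U _ fm (zc y) (v.1, v.2.mapDomain some)) Q)) (fun _ => A) h1 b0
    (fun _ => ⟨bk.trans a1k, (pw _ a10.le (k0 1 s1).1).trans a1κ⟩)
    ((Nat.pow_le_pow_right (by omega) (k0 1 s1).1).trans (by omega)) sg ad e0 e8 hM hP
    (fun y => by rw [norm_mul, norm_ee, mul_one]; exact Bx.norm_pr _ fun a => nC a y)
    (fun _ => nA) (fun _ => iA) (by positivity) ((r2 (by omega)).trans (hδ.trans_eq (by
      congr 2; funext y; rw [Fin.prod_univ_one]; ring)))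
  have w1 := fun ω ν k μ z => smat_mem h1 (j := 1) (ω := ω) (fun i c => absurd i.2 (not_lt.2 c))
    (ν := ν) k (μ := μ) z
  have h2 : Cb s n1 a1 (Sum.elim (cx x t) fun _ : Fin 1 × Bool => t) (WX s _ _ 1) (KX s _ _ _ _ _)
      (fun k => Function.update id x t (e k)) (full (Fin #E) s) (l2 x t e)
      fun j => κ' / 2 ^ min j s := cb_full
    ((sz h1 a10 fun _ => ⟨le_rfl, (pw _ a10.le (k0 1 s1).2).trans a1κ⟩).mono
      (hn1 ▸ Nat.pow_le_pow_right (by omega) (k0 1 s1).2) le_rfl) (dn_wx h1)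
    (fun _ k => (mem_wx.1 k).1) (single_mem h1) (dn_wx h1 _ (single_mem h1 (.inl none)) _ zero_le)
    s1 l2_col fun i u => (l2_le i u).trans (by exact_mod_cast (by omega : 2 ≤ n1))
  have hv : ∀ c ≤ c0, ∀ j, b ≤ κ' / 2 ^ min j s ∧ ((n1 : ℝ) + 2) ^ c * (κ' / 2 ^ min j s) ≤ a1 :=
    fun c k j => ⟨(le_div_iff₀' (by positivity)).2 (le_trans (mul_le_mul_of_nonneg_right
      (pow_le_pow_right₀ one_le_two (min_le_right _ _)) b0.le) hb),
      (pw _ (by positivity) k).trans (ha1 ▸ mul_le_mul_of_nonneg_left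
        (div_le_self k0'.le (one_le_pow₀ one_le_two)) (by positivity))⟩
  obtain ⟨ad2, B2⟩ := hB #E _ _ U st M n1 N a1 b η (1 / 2 ^ (2 * m + 4 + 1)) _ _ _ _ _ _ _ _
    (fun y => ∏ ω1, cj ω1 (ee (eval (fun v => ex U _ fm (zc (hs U (MR (cx x t)
      (full (Option τ) s) (dk fun _ => κ)) (fw (l1 x t) ω1) y)) (v.1, v.2.mapDomain some)) Q)))
    (fun k y => ∏ ω1, cj ω1 (Cf (pp x t ω1 (e k)) (hs U _ (fw (l1 x t) ω1) y))) h2 b0
    (hv _ (k0 _ hs').1) ((Nat.pow_le_pow_right (by omega) (k0 _ hs').1).trans N2) sg ad1 e0 e8 hM hP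
    (fun y => Bx.norm_pr _ fun ω => by rw [Bx.norm_cj, norm_ee])
    (fun k y => Bx.norm_pr _ fun ω => by rw [Bx.norm_cj]; exact nC _ _)
    (fun k y y' h => prod_congr rfl fun ω _ => congrArg _ (iC _ ((pp_mem hx ht _ _).2
      ((hr _).2 ⟨k, rfl⟩)) _ _ (comp (e := e) ω k ▸ Sb.md_hs (c1 ω) (w1 ω) h)))
    (by positivity) ((r2 (by omega)).trans (le_trans (le_of_eq (by ring)) (B1.trans_eq (by
      congr 2; funext y
      rw [prod_comm, ← prod_mul_distrib]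
      refine prod_congr rfl fun ω _ => ?_
      rw [Bx.cj_mul, mul_comm, ← cj_prod, ← prod_E ((pp x t ω).injective.comp he)
        (pp_rg hx ht hr ω)]
      rfl))))
  have z2 := (sz h2 (j := #E) b0 (hv _ (k0 _ hs').2)).mono
    ((Nat.pow_le_pow_right (by omega) (k0 _ hs').2).trans N2) le_rfl
  obtain ⟨ι, S⟩ := sec (κ := κ') he hr h2 x (.inl none) z2 fun j k => by
    rw [min_eq_left k, mul_div_cancel₀ _ (by positivity)]
  obtain ⟨J, _, _, ψ, N', R, cj', sp⟩ := lsec _ _ _ _ _ N _ ι ⟨S.ok, S.hm, S.K, S.sec, fun w u => (S.ht w u).trans (Int.ofNat_le.2 (by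
    rw [one_mul]
    exact (Nat.pow_le_pow_left (by omega) _).trans (hn0.ge.trans (by omega)))), S.gen⟩ (by omega)
  have p := hP _ _ J _ _ _ _ ψ N' R cj' ad2 z2 sp
  rw [ts, TS.tp_tp, smm_il, tp_zero o.toTri ad1 (funext fun w => sum_eq_zero fun _ _ => ite_self _)] at p
  have q := p.Ec (TS.tw_tri sg.cl ad2 z2.toOk) (TS.tw_tri sg.cl (sg.adm S.ok) S.ok) (B := 1)
    (g := fun y => ee (eval (ex U _ fm (zc y)) (Q - rlb (Equiv.swap t x) Q))) fun y => (norm_ee _).le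
  rw [one_mul] at q
  have q2 := (norm_sub_norm_le _ _).trans q
  have q3 := B2.trans_eq (congrArg (fun F => ‖TS.Ec _ F‖)
    (funext (phase hx ht fm he hr hs' hQ (K' := dk fun _ => κ') w1)))
  have q4 : (1 : ℝ) / 2 ^ ((2 * m + 6) * 2 ^ s) ≤ (1 / 2 ^ (2 * m + 4 + 1) / 2) ^ 2 ^ #E := by
    rw [div_div, ← pow_succ, div_pow, one_pow, ← pow_mul]
    exact r (Nat.mul_le_mul_left _ (Nat.pow_le_pow_right (by omega) hs'))
  have q5 := r2 (i := (2 * m + 6) * 2 ^ s) (by omega)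
  have q6 := ((q4.trans q3).trans (sub_le_iff_le_add'.1 q2)).trans_eq
    (congrArg (fun z : ℂ => ‖z‖ + η) (Ec0 U _ _))
  have q7 : _ ≤ bi U (MR (Function.update id x t) (W0 s E) (dk fun _ => κ')) fm
    (Q - rlb (Equiv.swap t x) Q) + η := q6
  linarith

end Crest.Agent.N49.Sw.T5

end
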