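import Crest.Agent.N49.Sw.All
import Crest.Agent.N49.Sw.Enl
import Crest.Agent.N49.Tw.Cls1

/-!
# Row 49 (helper32): after the boxes the old letters die
-/

set_option autoImplicit false
set_option linter.unusedSectionVars false

open Matrix MvPolynomial Finset

noncomputable section

namespace Crest.Agent.N49.Sw

open Po Tw Sd Tw.TS Tw.Sh

/-- the old letters go to zero, the clones of `i` to `± e i` -/
def psi (τ : Type) {τ0 : Type} [DecidableEq τ0] {l : ℕ} (e : Fin l → τ0) :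
    τ ⊕ Fin l × Bool → τ0 → ℤ :=
  Sum.elim 0 fun i => if i.2 then -Pi.single (e i.1) 1 else Pi.single (e i.1) 1

namespace Tp

variable {σ τ τ0 : Type} [DecidableEq τ] [Fintype τ] [DecidableEq τ0] [Fintype τ0] {l s n : ℕ}
  {e : Fin l → τ0} {E : Finset τ0}

theorem smat_sc {α : Type} (f : α → τ0) (c : α → ℤ) (ν : τ0 →₀ ℕ) (μ : α →₀ ℕ) :
    smat (fun a => Pi.single (f a) (c a)) ν μ =
      if μ.mapDomain f = ν then μ.prod fun a k => c a ^ k else 0 := by
  have : lsub (fun a => Pi.single (f a) (c a)) (monomial μ (1 : ℤ)) =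
      monomial (μ.mapDomain f) (μ.prod fun a k => c a ^ k) := by
    have h : ∀ a, (∑ b, (Pi.single (f a) (c a) : τ0 → ℤ) b • X b : MvPolynomial τ0 ℤ) =
        C (c a) * X (f a) := fun a => by
      rw [sum_eq_single (f a) (fun b _ k => by rw [Pi.single_eq_of_ne k, zero_smul]) (by simp),
        Pi.single_eq_same, smul_eq_C_mul]
    rw [lsub, aeval_monomial, map_one, one_mul]
    simp only [h, mul_pow, Finsupp.prod_mul]
    rw [monomial_eq, Finsupp.prod_mapDomain_index (fun _ => pow_zero _) fun _ _ _ => pow_add _ _ _,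
      map_finsuppProd]
    simp only [map_pow]
  rw [smat, this, coeff_monomial]

/-- the sign of a word -/
def sn (β : Fin l × Bool →₀ ℕ) : ℤ := β.prod fun a k => (if a.2 then -1 else 1) ^ k

theorem sn_sq (β : Fin l × Bool →₀ ℕ) : sn β * sn β = 1 := by
  rw [sn, ← Finsupp.prod_mul]
  exact prod_eq_one fun a _ => (mul_pow _ _ _).symm.trans (by split_ifs <;> simp)

theorem smat_psi (ν : τ0 →₀ ℕ) (μ : τ ⊕ Fin l × Bool →₀ ℕ) : smat (psi τ e) ν μ =
    if wl μ = 0 ∧ (wr μ).mapDomain (e ∘ Prod.fst) = ν then sn (wr μ) else 0 := by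
  by_cases h : wl μ = 0
  · have : μ = (wr μ).mapDomain .inr := Finsupp.ext (by
      rintro (x | x)
      · exact (DFunLike.congr_fun h x).trans (Finsupp.mapDomain_of_notMem_range _ _ (by simp)).symm
      · exact (Finsupp.mapDomain_apply Sum.inr_injective (wr μ) x).symm)
    have k : psi τ e ∘ .inr = fun a : Fin l × Bool =>
        Pi.single ((e ∘ Prod.fst) a) (if a.2 then -1 else 1) := funext fun a => by
      obtain ⟨i, b⟩ := a
      cases b
      · rfl
      · exact (Pi.single_neg _ _).symm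
    refine (congrArg _ this).trans ((Bx.smat_ren _ _ _ _).trans ?_)
    rw [k, smat_sc]
    exact if_congr (and_iff_right h).symm rfl rfl
  · rw [if_neg fun k => h k.1]
    by_contra z
    exact h (Finsupp.ext fun a => Bx.smat_zero z (a := .inl a) rfl)

theorem psi_ne {ν : τ0 →₀ ℕ} {μ : τ ⊕ Fin l × Bool →₀ ℕ} (h : smat (psi τ e) ν μ ≠ 0) :
    wl μ = 0 ∧ (wr μ).mapDomain (e ∘ Prod.fst) = ν :=
  of_not_not fun k => h ((smat_psi _ _).trans (if_neg k))

theorem e_apply (he : Function.Injective e) (β : Fin l × Bool →₀ ℕ) (i : Fin l) :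
    β.mapDomain (e ∘ Prod.fst) (e i) = β (i, false) + β (i, true) := by
  rw [Finsupp.mapDomain_comp, Finsupp.mapDomain_apply he, L1.fst_apply]

theorem deg_w {L : Type} {μ : τ ⊕ L →₀ ℕ} (h : wl μ = 0) : μ.degree = (wr μ).degree := by
  rw [← Cu.jn_w μ, Cu.deg_jn, h, Cu.wr_jn, map_zero, zero_add]

variable {W : Finset (τ →₀ ℕ)}

theorem psi_mem (he : Function.Injective e) (z : 0 ∈ W) {ν : τ0 →₀ ℕ} (k : ν ∈ W0 s E)
    {μ : τ ⊕ Fin l × Bool →₀ ℕ} (h : wl μ = 0) (h' : (wr μ).mapDomain (e ∘ Prod.fst) = ν) :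
    μ ∈ WX s W (full (Fin l) s) l := by
  obtain ⟨a, b⟩ := mem_sqf.1 (Enl.mem_W0.1 k).1
  have d : (wr μ).degree ≤ s := by rw [← degree_col (e ∘ Prod.fst), h']; exact a
  refine Bx.mem_WX.2 ⟨deg_w h ▸ d, h ▸ z, L1.mem_Bj.2 ⟨d, fun i => ?_⟩,
    mem_full.2 (by rw [degree_col]; exact d)⟩
  have := b (e i)
  rw [← h', e_apply he] at this
  omega

theorem card_psi (he : Function.Injective e) (hE : ∀ a ∈ E, a ∈ Set.range e) (z : 0 ∈ W)
    {ν : τ0 →₀ ℕ} (k : ν ∈ W0 s E) (n0 : ν ≠ 0) :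
    #{μ ∈ (WX s W (full (Fin l) s) l).erase 0 | wl μ = 0 ∧ (wr μ).mapDomain (e ∘ Prod.fst) = ν} =
      2 ^ ν.degree := by
  obtain ⟨d, rfl⟩ : ∃ d : Fin l →₀ ℕ, d.mapDomain e = ν :=
    ⟨ν.comapDomain e he.injOn, Finsupp.mapDomain_comapDomain e he ν
      fun a ha => hE a ((Enl.mem_W0.1 k).2 ha)⟩
  have b : ∀ i, d i ≤ 1 := fun i => by
    have := (mem_sqf.1 (Enl.mem_W0.1 k).1).2 (e i)
    rwa [Finsupp.mapDomain_apply he] at this
  have e1 : d.degree = #d.support := by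
    rw [Finsupp.degree_apply, card_eq_sum_ones]
    exact sum_congr rfl fun i hi => by
      have := b i
      have := Finsupp.mem_support_iff.1 hi
      omega
  have f : ∀ β : Fin l × Bool →₀ ℕ, β.mapDomain (e ∘ Prod.fst) = d.mapDomain e ↔
      β.mapDomain Prod.fst = d := fun β => by
    rw [Finsupp.mapDomain_comp, (Finsupp.mapDomain_injective he).eq_iff]
  rw [degree_col, e1, ← card_powerset]
  refine card_nbij' (fun x => univ.filter fun i => wr x (i, true) ≠ 0)
    (fun T => (0 : τ →₀ ℕ).sumElim (L1.lf d T)) ?_ ?_ ?_ ?_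
  · intro x hx
    simp only [coe_powerset, Set.mem_preimage, Set.mem_powerset_iff, coe_subset]
    intro i hi
    rw [Finsupp.mem_support_iff, ← (f _).1 (mem_filter.1 hx).2.2, L1.fst_apply]
    have := (mem_filter.1 hi).2
    omega
  · intro T _
    have a := Cu.wl_jn (0 : τ →₀ ℕ) (L1.lf d T)
    have c : (wr ((0 : τ →₀ ℕ).sumElim (L1.lf d T))).mapDomain (e ∘ Prod.fst) = d.mapDomain e := by
      rw [Cu.wr_jn]; exact (f _).2 (L1.fst_lf _ _)
    refine mem_filter.2 ⟨mem_erase.2 ⟨fun y => n0 ?_, psi_mem he z k a c⟩, a, c⟩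
    rw [← c, Cu.wr_zero y, Finsupp.mapDomain_zero]
  · intro x hx
    obtain ⟨-, h1, h2⟩ := mem_filter.1 hx
    rw [f] at h2
    refine Eq.trans ?_ (Cu.jn_w x)
    rw [h1]
    refine congrArg _ (Finsupp.ext fun p => ?_)
    obtain ⟨i, c⟩ := p
    have a := b i
    rw [L1.lf_apply, ← h2, L1.fst_apply]
    rw [← h2, L1.fst_apply] at a
    by_cases y : wr x (i, true) = 0 <;> cases c <;> simp [y] <;> omega
  · intro T hT
    simp only [coe_powerset, Set.mem_preimage, Set.mem_powerset_iff, coe_subset] at hT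
    ext i
    simp only [mem_filter, mem_univ, true_and, Cu.wr_jn, L1.lf_apply]
    by_cases c : i ∈ T
    · simpa [c] using hT c
    · simp [c]

variable {K : Kn τ} {lam : Fin l → τ → ℤ} {v : ℕ → ℝ} {κ : ℝ}

theorem push_psi (he : Function.Injective e) (hE : ∀ a ∈ E, a ∈ Set.range e) (z : 0 ∈ W)
    (hv : ∀ j, v j = κ / 2 ^ min j s) {ν ν' : τ0 →₀ ℕ} (k : ν ∈ W0 s E) (n0 : ν ≠ 0) :
    dk (fun _ => κ) ν ν' = kpush (psi τ e) ((WX s W (full (Fin l) s) l).erase 0)
      (KX s W K (full (Fin l) s) lam v) ν ν' := by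
  have dg := (mem_sqf.1 (Enl.mem_W0.1 k).1).1
  have a : ∀ μ ∈ (WX s W (full (Fin l) s) l).erase 0, ∑ μ' ∈ (WX s W (full (Fin l) s) l).erase 0,
      smat (psi τ e) ν μ * KX s W K (full (Fin l) s) lam v μ μ' * smat (psi τ e) ν' μ' =
      if wl μ = 0 ∧ (wr μ).mapDomain (e ∘ Prod.fst) = ν then
        (if ν = ν' then κ / 2 ^ ν.degree else 0) else 0 := fun μ hμ => by
    by_cases c : wl μ = 0 ∧ (wr μ).mapDomain (e ∘ Prod.fst) = ν
    · have r : wr μ ≠ 0 := fun y => n0 (by rw [← c.2, y, Finsupp.mapDomain_zero])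
      have d : μ.degree = ν.degree := by rw [deg_w c.1, ← c.2, degree_col]
      rw [if_pos c, sum_eq_single_of_mem μ hμ fun μ' _ y => by
        rw [KX, if_neg fun x => r x.1, if_neg y.symm, mul_zero, zero_mul], KX,
        if_neg fun x => r x.1, if_pos rfl, smat_psi, smat_psi, if_pos c, d, hv, min_eq_left dg]
      by_cases y : ν = ν'
      · rw [if_pos y, if_pos (y ▸ c), mul_right_comm, ← Int.cast_mul, sn_sq, Int.cast_one, one_mul]
      · rw [if_neg y, if_neg fun x => y (c.2.symm.trans x.2), Int.cast_zero, mul_zero]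
    · rw [if_neg c, smat_psi, if_neg c]
      simp
  rw [kpush, sum_congr rfl a, ← sum_filter, sum_const, card_psi he hE z k n0, dk]
  split_ifs
  · rw [nsmul_eq_mul]; push_cast; field_simp
  · simp

variable {a b : ℝ} {col : τ → σ} {cl : Fin l → σ} {col0 : τ0 → σ}

theorem psi_col (hc : ∀ i, col0 (e i) = cl i) (x : τ ⊕ Fin l × Bool) (t : τ0)
    (h : psi τ e x t ≠ 0) : (∃ i, e i = t) ∧ Sum.elim col (fun i => cl i.1) x = col0 t := by
  obtain x | ⟨i, c⟩ := x
  · exact absurd rfl h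
  · have : t = e i := by_contra fun y => h (by cases c <;> simp [psi, Pi.single_eq_of_ne y])
    exact ⟨⟨i, this.symm⟩, by rw [this, hc]; rfl⟩

theorem sec_psi (h : Cb s n a col W K cl (full (Fin l) s) lam v) (l0 : 0 < l)
    (o : (CX s col W K cl (full (Fin l) s) lam v l).Ok) (he : Function.Injective e)
    (hE : ∀ a, a ∈ E ↔ a ∈ Set.range e) (hc : ∀ i, col0 (e i) = cl i)
    (hv : ∀ j, v j = κ / 2 ^ min j s) : ∃ ι, (CX s col W K cl (full (Fin l) s) lam v l).Sec
      (MR col0 (W0 s E) (dk fun _ => κ)) 1 (Sh.smm _ _ 0 _ _ (psi τ e)) ι := by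
  have : Nonempty (Fin l) := ⟨⟨0, l0⟩⟩
  have sg : ∀ b, b ∈ E → Finsupp.single b 1 ∈ W0 s E := fun b k => Enl.mem_W0.2
    ⟨mem_sqf.2 ⟨by simpa using h.s1, fun a => by rw [Finsupp.single_apply]; split_ifs <;> omega⟩,
      Finsupp.support_single_subset.trans (singleton_subset_iff.2 k)⟩
  have iv := Function.leftInverse_invFun he
  refine (msec σ _ τ0 _ (WX s W (full (Fin l) s) l) (KX s W K (full (Fin l) s) lam v) col0
    (W0 s E) (dk fun _ => κ) (psi τ e) (fun b => .inr (Function.invFun e b, false)) 1 s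
    (Cu.dn_wx h) Enl.dn_W0 o (fun μ k => (Bx.mem_WX.1 k).1) le_rfl (fun a b => ?_)
    (fun a b k => (psi_col hc a b k).2) (fun ν hν μ k => psi_mem he h.z hν (psi_ne k).1 (psi_ne k).2)
    (fun ν hν b k => ?_) (fun a b k => sg b ((hE b).2 (psi_col (col := col) hc a b k).1))
    (fun ν y k k' => ?_) fun ν hν ν' _ y _ => push_psi he (fun a k => (hE a).1 k) h.z hv hν y).imp
    fun ι c => ⟨c.ok, c.hm, c.K, c.sec, fun w x => ?_, c.gen⟩
  · obtain a | ⟨i, c⟩ := a
    · simp [psi]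
    · cases c <;> simp only [psi, Sum.elim_inr, Bool.false_eq_true, if_true, if_false, Pi.neg_apply,
        abs_neg, Pi.single_apply] <;> split_ifs <;> simp
  · obtain ⟨i, rfl⟩ := (hE b).1 ((Enl.mem_W0.1 hν).2 k)
    change Pi.single (e (Function.invFun e (e i))) 1 = _
    rw [iv]
  · have su : ν.support ⊆ E := fun b hb => (Enl.mem_W0.1 (k b hb)).2 (by simp)
    have d : ν.degree ≤ s := degree_col _ ν ▸ (Bx.mem_WX.1 k').1
    obtain ⟨b, hb⟩ : ∃ b, 1 < ν b := by
      by_contra! z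
      exact y (Enl.mem_W0.2 ⟨mem_sqf.2 ⟨d, z⟩, su⟩)
    obtain ⟨i, rfl⟩ := (hE b).1 (su (Finsupp.mem_support_iff.2 (by omega)))
    refine ⟨e i, .inr (i, true), -1, by simp, (Pi.single_neg _ _).symm, by omega,
      Cu.single_mem h _, fun z => ?_⟩
    have z1 := (L1.mem_Bj.1 (Bx.mem_WX.1 z).2.2.1).2 i
    have z2 := Cw.le_col (col := fun b => (.inr (Function.invFun e b, false) : τ ⊕ Fin l × Bool))
      (ν - Finsupp.single (e i) 1) (e i)
    rw [iv, Finsupp.tsub_apply, Finsupp.single_eq_same] at z2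
    simp only [wr, Finsupp.comapDomain_apply, Finsupp.add_apply, Finsupp.single_eq_same] at z1
    omega
  · change |smat (psi τ e) w.1 x.1| ≤ _
    rw [smat_psi]
    split_ifs
    · exact (abs_le_one_iff_mul_self_le_one.2 (sn_sq _).le)
    · simp

theorem tw0_c0 {σ τ τ' : Type} [DecidableEq σ] {T : TS σ} {S : Sh σ τ} {S' : Sh σ τ'}
    {st : T.C → ℕ} {Ψ : T.Twd S} (h : T.Tri) (ha : T.Adm S st Ψ) (hε : ∀ w, S'.ε w = 0) (F : T.C) :
    T.c0 S S' (Ψ F) = T.tw0 S' F := by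
  have z : S'.el (R := ℝ) S'.ε = 0 := sum_eq_zero fun w _ => by rw [hε, zero_smul]
  ext1 m
  rw [TS.coeff_tw0, z, TS.c0, coeff_map, RingHom.comp_apply]
  rcases lt_trichotomy (Finsupp.weight T.lev m) (T.lev F) with c | c | c
  · rw [zero_pow (by omega), smul_zero, constantCoeff_eq,
      (ha.gr F m).coeff_eq_zero 0 (by rw [map_zero]; omega), map_zero]
  · rw [ha.top F m c, c, Nat.sub_self, pow_zero, constantCoeff_C, smul_eq_C_mul, mul_one]
  · rw [notMem_support_iff.1 fun k => (h.tri F m k).not_gt c,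
      notMem_support_iff.1 fun k => (ha.le F m k).1.not_gt c, zero_smul, map_zero, map_zero]

variable [DecidableEq σ] {U : TS σ} {st : U.C → ℕ} {Ψ : U.Twd (MR col W K)}

theorem tp_psi (h : Cb s n a col W K cl (full (Fin l) s) lam v) (t : U.Tri) (ha : U.Adm _ st Ψ)
    (W' : Finset (τ0 →₀ ℕ)) (K' : Kn τ0) :
    U.tp (CX s col W K cl (full (Fin l) s) lam v l) (MR col0 W' K') (smm _ _ 0 _ _ (psi τ e))
      (ts U (CX s col W K cl (full (Fin l) s) lam v l) il Ψ) = U.tw0 _ := by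
  funext F
  refine (congrArg (MvPolynomial.map _) (Bx.ts_il h l F)).trans
    ((MvPolynomial.map_map _ _ _).trans ?_)
  refine Eq.trans (congrArg (fun f => MvPolynomial.map f (Ψ F)) ?_)
    (tw0_c0 t ha (fun w => sum_eq_zero fun _ _ => ite_self 0) F)
  refine ringHom_ext (fun r => ?_) fun w : MW W => ?_
  · refine (congrArg _ (rename_C _ _)).trans ((algHom_C (hA ℝ (MR col0 W' K') _) r).trans ?_)
    exact (congrArg MvPolynomial.C (constantCoeff_C _ r)).symm
  · refine ((congrArg _ (rename_X _ _)).trans (aeval_X _ _)).trans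
      (Eq.trans ?_ ((congrArg MvPolynomial.C (constantCoeff_X ℝ w)).trans (map_zero _)).symm)
    change ∑ b : MW W', smat (psi τ e) b.1 (w.1.mapDomain .inl) • (X b : MvPolynomial _ ℝ) = _
    refine sum_eq_zero fun b _ => ?_
    rw [smat_psi, if_neg fun y => w.ne (Finsupp.ext fun x => ?_), zero_smul]
    exact (Finsupp.mapDomain_apply Sum.inl_injective _ _).symm.trans (DFunLike.congr_fun y.1 x)

end Tp

open Tp in
/-- **the old letters die** -/
theorem twp {σ τ τ0 C : Type} [DecidableEq σ] [DecidableEq τ] [Fintype τ] [DecidableEq τ0]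
    [Fintype τ0] [DecidableEq C] {l s n M N : ℕ} {a b η κ : ℝ} {col : τ → σ}
    {W : Finset (τ →₀ ℕ)} {K : Kn τ} {cl : Fin l → σ} {lam : Fin l → τ → ℤ} {v : ℕ → ℝ}
    {U : TS σ} {st : U.C → ℕ} (fm : U.C → C) {Ψ : U.Twd (MR col W K)} {col0 : τ0 → σ}
    {e : Fin l → τ0} {E : Finset τ0} (h : Cb s n a col W K cl (full (Fin l) s) lam v) (l0 : 0 < l)
    (z : (CX s col W K cl (full (Fin l) s) lam v l).Sz N b) (n1 : 1 ≤ N)
    (he : Function.Injective e) (hE : ∀ a, a ∈ E ↔ a ∈ Set.range e) (hs : #E ≤ s)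
    (hc : ∀ i, col0 (e i) = cl i) (hv : ∀ j, v j = κ / 2 ^ min j s) (hU : U.Stg st M)
    (ha : U.Adm _ st Ψ) (hp : U.HP st N b η) (P : MvPolynomial (VV C τ0) ℝ)
    (hP : P.IsWeightedHomogeneous Prod.snd (wE E)) :
    ‖(U.tw (CX s col W K cl (full (Fin l) s) lam v l) (ts U _ il Ψ)).Ec fun y =>
      ee (eval (sbv (psi τ e) (WX s W (full (Fin l) s) l)
        (ex U (CX s col W K cl (full (Fin l) s) lam v l) fm (zc y))) P)‖ ≤
      bi U (MR col0 (W0 s E) (dk fun _ => κ)) fm P + 2 * η := by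
  obtain ⟨ι, c⟩ := sec_psi h l0 z.toOk he hE hc hv
  have ad : U.Adm (CX s col W K cl (full (Fin l) s) lam v l) st (ts U _ il Ψ) :=
    ha.tp fun _ _ k => smat_degree k
  obtain ⟨J, _, _, ψ, N', R, cj, sp⟩ := lsec _ _ _ _ _ N _ ι (Cc.sec_mono c n1) n1
  have p := hp _ _ J _ _ _ _ ψ N' R cj ad z sp
  rw [tp_psi h hU.cl.1 ha] at p
  have q := p.Ec (tw_tri hU.cl ad z.toOk) (tw_tri hU.cl (hU.adm c.ok) c.ok) (B := 1)
    (g := fun y => ee (eval (ex U (MR col0 (W0 s E) (dk fun _ => κ)) fm (zc y)) P))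
    fun y => (norm_ee _).le
  rw [one_mul] at q
  have r := sub_le_iff_le_add'.1 ((norm_sub_norm_le _ _).trans q)
  refine (congrArg norm (congrArg _ (_root_.funext fun y => congrArg ee
    (Enl.ev_congr ?_)))).trans_le (r.trans (add_le_add
      (congrArg norm (Enl.Ec_tw0 _ _ _)).ge (by linarith [p.nonneg])))
  rintro ⟨x, ν⟩ hx
  refine (Sb.ex_hs fm (fun a a' k => (psi_col hc a a' k).2) y x ?_).symm
  refine Enl.dn_W0 (wE E) (Enl.mem_W0.2 ⟨mem_sqf.2 ⟨?_, fun t => ?_⟩, fun t ht => ?_⟩) _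
    (wt_le hP hx)
  · simpa [wE, map_sum] using hs
  · rw [Dg.wE_apply]; split_ifs <;> omega
  · exact by_contra fun k => Finsupp.mem_support_iff.1 ht ((Dg.wE_apply _ _).trans (if_neg k))

end Crest.Agent.N49.Sw

end
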